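import Crest.Agent.R68.A1

/-!
# Row 68, PART A (helper810): algebra of the gain, the collision frequency and Duhamel integrals
-/

set_option autoImplicit false
open MeasureTheory Set Filter
open scoped ENNReal Topology
open Crest.AnalysisR.VecCalc3 Crest.AnalysisR.PDE.Boltzmann

noncomputable section

namespace Crest.Agent.R68.A

variable {f g h f' g' : R3 → ℝ≥0∞}

theorem Qp_mono (hf : ∀ z, f z ≤ f' z) (hg : ∀ z, g z ≤ g' z) (v : R3) :
    Qp f g v ≤ Qp f' g' v := by
  unfold Qp
  refine lintegral_mono fun vs => lintegral_mono fun w => ?_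
  exact mul_le_mul' (mul_le_mul' le_rfl (hf _)) (hg _)

theorem Lc_mono (hf : ∀ z, f z ≤ f' z) (v : R3) : Lc f v ≤ Lc f' v := by
  unfold Lc
  refine lintegral_mono fun vs => lintegral_mono fun w => ?_
  exact mul_le_mul' le_rfl (hf _)

theorem measurable_Qp_integrand (hf : Measurable f) (hg : Measurable g) (v : R3) :
    Measurable (fun p : R3 × R3 => ENNReal.ofReal |inner ℝ (v - p.1) p.2| *
      f (postVel v p.1 p.2) * g (postVelStar v p.1 p.2)) := by
  refine Measurable.mul (Measurable.mul (by fun_prop) ?_) ?_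
  · exact hf.comp (measurable_postVel (by fun_prop) (by fun_prop) (by fun_prop))
  · exact hg.comp (measurable_postVelStar (by fun_prop) (by fun_prop) (by fun_prop))

theorem Qp_add_left (hf : Measurable f) (hh : Measurable h) (v : R3) :
    Qp (fun z => f z + g z) h v = Qp f h v + Qp g h v := by
  unfold Qp
  rw [← lintegral_add_left (Measurable.lintegral_prod_right' (measurable_Qp_integrand hf hh v))]
  refine lintegral_congr fun vs => ?_
  rw [← lintegral_add_left]
  · refine lintegral_congr fun w => ?_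
    ring
  · exact (measurable_Qp_integrand hf hh v).comp (f := fun w => (vs, w)) (by fun_prop)

theorem Qp_add_right (hf : Measurable f) (hg : Measurable g) (v : R3) :
    Qp f (fun z => g z + h z) v = Qp f g v + Qp f h v := by
  unfold Qp
  rw [← lintegral_add_left (Measurable.lintegral_prod_right' (measurable_Qp_integrand hf hg v))]
  refine lintegral_congr fun vs => ?_
  rw [← lintegral_add_left]
  · refine lintegral_congr fun w => ?_
    ring
  · exact (measurable_Qp_integrand hf hg v).comp (f := fun w => (vs, w)) (by fun_prop)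

theorem Qp_const_mul_left {c : ℝ≥0∞} (hc : c ≠ ⊤) (f g : R3 → ℝ≥0∞) (v : R3) :
    Qp (fun z => c * f z) g v = c * Qp f g v := by
  unfold Qp
  rw [← lintegral_const_mul' _ _ hc]
  refine lintegral_congr fun vs => ?_
  rw [← lintegral_const_mul' _ _ hc]
  refine lintegral_congr fun w => ?_
  ring

theorem Qp_const_mul_right {c : ℝ≥0∞} (hc : c ≠ ⊤) (f g : R3 → ℝ≥0∞) (v : R3) :
    Qp f (fun z => c * g z) v = c * Qp f g v := by
  unfold Qp
  rw [← lintegral_const_mul' _ _ hc]
  refine lintegral_congr fun vs => ?_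
  rw [← lintegral_const_mul' _ _ hc]
  refine lintegral_congr fun w => ?_
  ring

theorem Lc_add (hf : Measurable f) (v : R3) :
    Lc (fun z => f z + g z) v = Lc f v + Lc g v := by
  unfold Lc
  have hm : Measurable (fun p : R3 × R3 => ENNReal.ofReal |inner ℝ (v - p.1) p.2| * f p.1) := by
    fun_prop
  rw [← lintegral_add_left (Measurable.lintegral_prod_right' hm)]
  refine lintegral_congr fun vs => ?_
  rw [← lintegral_add_left]
  · refine lintegral_congr fun w => ?_
    ring
  · exact hm.comp (f := fun w => (vs, w)) (by fun_prop)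

theorem Lc_const_mul {c : ℝ≥0∞} (hc : c ≠ ⊤) (f : R3 → ℝ≥0∞) (v : R3) :
    Lc (fun z => c * f z) v = c * Lc f v := by
  unfold Lc
  rw [← lintegral_const_mul' _ _ hc]
  refine lintegral_congr fun vs => ?_
  rw [← lintegral_const_mul' _ _ hc]
  refine lintegral_congr fun w => ?_
  ring

/-- slices of jointly measurable densities -/
theorem Meas3.slice {F : ℝ → P2 → R3 → ℝ≥0∞} (hF : Meas3 F) (t : ℝ) (x : P2) :
    Measurable (F t x) :=
  hF.comp (f := fun _ : R3 => t) (g := fun _ => x) (h := fun v => v) (by fun_prop) (by fun_prop)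
    (by fun_prop)

theorem Meas3.add {F G : ℝ → P2 → R3 → ℝ≥0∞} (hF : Meas3 F) (hG : Meas3 G) :
    Meas3 (fun t x v => F t x v + G t x v) := Measurable.add hF hG

theorem Meas3.const_mul {F : ℝ → P2 → R3 → ℝ≥0∞} (hF : Meas3 F) (c : ℝ≥0∞) :
    Meas3 (fun t x v => c * F t x v) := Measurable.const_mul hF c


/-- the collision frequency along a flight is measurable in time -/
theorem measurable_Lc_flight {F : ℝ → P2 → R3 → ℝ≥0∞} (hF : Meas3 F) (t : ℝ)
    (x : P2) (v : R3) :
    Measurable (fun s : ℝ => Lc (F s (x - (t - s) • bar v)) v) := by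
  refine measurable_Lc (g := fun s : ℝ => F s (x - (t - s) • bar v)) ?_ measurable_const
  exact hF.comp (by fun_prop) (by fun_prop) (by fun_prop)

theorem measurable_flight {F : ℝ → P2 → R3 → ℝ≥0∞} (hF : Meas3 F) (t : ℝ) (x : P2) (v : R3) :
    Measurable (fun s : ℝ => F s (x - (t - s) • bar v) v) :=
  hF.comp (by fun_prop) (by fun_prop) (by fun_prop)

/-- Tonelli in a triangle -/
theorem lintegral_triangle {p q : ℝ → ℝ≥0∞} (hp : Measurable p) (hq : Measurable q) (a t : ℝ) :
    (∫⁻ s in Ioo a t, (∫⁻ τ in Ioo s t, p τ) * q s) =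
      ∫⁻ τ in Ioo a t, p τ * ∫⁻ s in Ioo a τ, q s := by
  have h1 : ∀ s ∈ Ioo a t, (∫⁻ τ in Ioo s t, p τ) * q s =
      ∫⁻ τ in Ioo a t, ({z : ℝ × ℝ | z.1 < z.2}.indicator (fun z => p z.2 * q z.1)) (s, τ) := by
    intro s hs
    rw [← lintegral_mul_const _ hp, ← lintegral_indicator measurableSet_Ioo,
      ← lintegral_indicator measurableSet_Ioo]
    refine lintegral_congr fun τ => ?_
    by_cases hτ : τ ∈ Ioo s t
    · have h2 : τ ∈ Ioo a t := ⟨hs.1.trans hτ.1, hτ.2⟩
      rw [indicator_of_mem hτ, indicator_of_mem h2, indicator_of_mem]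
      exact hτ.1
    · rw [indicator_of_notMem hτ]
      by_cases h2 : τ ∈ Ioo a t
      · rw [indicator_of_mem h2, indicator_of_notMem]
        intro h3
        exact hτ ⟨h3, h2.2⟩
      · rw [indicator_of_notMem h2]
  have h1' : ∀ τ ∈ Ioo a t, p τ * (∫⁻ s in Ioo a τ, q s) =
      ∫⁻ s in Ioo a t, ({z : ℝ × ℝ | z.1 < z.2}.indicator (fun z => p z.2 * q z.1)) (s, τ) := by
    intro τ hτ
    rw [← lintegral_const_mul _ hq, ← lintegral_indicator measurableSet_Ioo,
      ← lintegral_indicator measurableSet_Ioo]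
    refine lintegral_congr fun s => ?_
    by_cases hs : s ∈ Ioo a τ
    · have h2 : s ∈ Ioo a t := ⟨hs.1, hs.2.trans hτ.2⟩
      rw [indicator_of_mem hs, indicator_of_mem h2, indicator_of_mem]
      exact hs.2
    · rw [indicator_of_notMem hs]
      by_cases h2 : s ∈ Ioo a t
      · rw [indicator_of_mem h2, indicator_of_notMem]
        intro h3
        exact hs ⟨h2.1, h3⟩
      · rw [indicator_of_notMem h2]
  rw [setLIntegral_congr_fun measurableSet_Ioo h1, setLIntegral_congr_fun measurableSet_Ioo h1']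
  rw [lintegral_lintegral_swap]
  refine Measurable.aemeasurable ?_
  refine Measurable.indicator (by fun_prop) ?_
  exact measurableSet_lt measurable_fst measurable_snd

/-! ### Duhamel integrals -/

theorem Duh_mono_on {q q' : ℝ → P2 → R3 → ℝ≥0∞} {t : ℝ} {x : P2} {v : R3}
    (h : ∀ s ∈ Ioo 0 t, q s (x - (t - s) • bar v) v ≤ q' s (x - (t - s) • bar v) v) :
    Duh q t x v ≤ Duh q' t x v := by
  unfold Duh
  exact setLIntegral_mono_ae' measurableSet_Ioo (Eventually.of_forall h)

theorem Duh_add {q q' : ℝ → P2 → R3 → ℝ≥0∞} (hq : Meas3 q) (t : ℝ) (x : P2) (v : R3) :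
    Duh (fun s y z => q s y z + q' s y z) t x v = Duh q t x v + Duh q' t x v := by
  unfold Duh
  exact lintegral_add_left (measurable_flight hq t x v) _

theorem Duh_const_mul {c : ℝ≥0∞} (hc : c ≠ ⊤) (q : ℝ → P2 → R3 → ℝ≥0∞) (t : ℝ) (x : P2)
    (v : R3) : Duh (fun s y z => c * q s y z) t x v = c * Duh q t x v := by
  unfold Duh
  exact lintegral_const_mul' _ _ hc

theorem meas3_Qp {F G : ℝ → P2 → R3 → ℝ≥0∞} (hF : Meas3 F) (hG : Meas3 G) :
    Meas3 (fun s y z => Qp (F s y) (G s y) z) := by
  refine measurable_Qp (α := ℝ × P2 × R3) (f := fun p => F p.1 p.2.1) (g := fun p => G p.1 p.2.1)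
    ?_ ?_ (by fun_prop)
  · exact hF.comp (by fun_prop) (by fun_prop) (by fun_prop)
  · exact hG.comp (by fun_prop) (by fun_prop) (by fun_prop)

theorem meas3_Lc {F : ℝ → P2 → R3 → ℝ≥0∞} (hF : Meas3 F) :
    Meas3 (fun s y z => Lc (F s y) z) := by
  refine measurable_Lc (α := ℝ × P2 × R3) (g := fun p => F p.1 p.2.1) ?_ (by fun_prop)
  exact hF.comp (by fun_prop) (by fun_prop) (by fun_prop)

/-- positions along a flight -/
theorem flight_pos (t s τ : ℝ) (x : P2) (v : R3) :
    x - (t - τ) • bar v - (τ - s) • bar v = x - (t - s) • bar v := by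
  rw [sub_sub, ← add_smul]
  congr 2
  ring

theorem flight_pos0 (t τ : ℝ) (x : P2) (v : R3) :
    x - (t - τ) • bar v - τ • bar v = x - t • bar v := by
  rw [sub_sub, ← add_smul]
  congr 2
  ring




end Crest.Agent.R68.A
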