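import Crest.Agent.R68.A2

-- ▼ part R68/A3
section

/-!
# Row 68, PART A (helper810): envelope inequalities, invariance and contraction of the
exponential map
-/

set_option autoImplicit false
open MeasureTheory Set Filter
open scoped ENNReal Topology
open Crest.AnalysisR.VecCalc3 Crest.AnalysisR.PDE.Boltzmann

noncomputable section

namespace Crest.Agent.R68.A

/-- the five envelope inequalities on `[0,T]` -/
structure Env (T : ℝ) (f0 h0 : P2 → R3 → ℝ≥0∞) (φ N : ℝ → P2 → R3 → ℝ≥0∞) : Prop where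
  mf0 : Measurable (fun p : P2 × R3 => f0 p.1 p.2)
  mh0 : Measurable (fun p : P2 × R3 => h0 p.1 p.2)
  mφ : Meas3 φ
  mN : Meas3 N
  free : ∀ t ∈ Icc 0 T, ∀ x v, φ t x v = f0 (x - t • bar v) v
  bg : ∀ t ∈ Icc 0 T, ∀ x v, 4 * h0 (x - t • bar v) v ≤ N t x v
  cc : ∀ t ∈ Icc 0 T, ∀ x v, 16 * Duh (fun s y z => Qp (φ s y) (φ s y) z) t x v ≤ N t x v
  cN : ∀ t ∈ Icc 0 T, ∀ x v, 32 * Duh (fun s y z => Qp (φ s y) (N s y) z + Qp (N s y) (φ s y) z +
      Qp (N s y) (N s y) z) t x v ≤ N t x v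
  nuφ : ∀ t ∈ Icc 0 T, ∀ x v, φ t x v ≠ 0 →
      64 * Acc (fun s y z => φ s y z + N s y z) 0 t x v ≤ 1
  nuN : ∀ t ∈ Icc 0 T, ∀ x v, 64 * Duh (fun s y z => Lc (N s y) z * N s y z) t x v ≤ N t x v


section

variable {T : ℝ} {f0 h0 : P2 → R3 → ℝ≥0∞} {φ N : ℝ → P2 → R3 → ℝ≥0∞}

theorem Env.mE (hE : Env T f0 h0 φ N) : Meas3 (fun s y z => φ s y z + N s y z) :=
  hE.mφ.add hE.mN













end

end Crest.Agent.R68.A
end
end

-- ▼ part R68/A5
section

/-!
# Row 68, PART A (helper810): continuity of the exponential map under dominated convergence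
-/

set_option autoImplicit false
open MeasureTheory Set Filter
open scoped ENNReal Topology
open Crest.AnalysisR.VecCalc3 Crest.AnalysisR.PDE.Boltzmann

noncomputable section

namespace Crest.Agent.R68.A


theorem measurable_Lc_integrand {f : R3 → ℝ≥0∞} (hf : Measurable f) (v : R3) :
    Measurable (fun p : R3 × R3 => ENNReal.ofReal |inner ℝ (v - p.1) p.2| * f p.1) := by
  fun_prop

theorem Lc_eq_prod {f : R3 → ℝ≥0∞} (hf : Measurable f) (v : R3) :
    Lc f v = ∫⁻ p : R3 × R3, ENNReal.ofReal |inner ℝ (v - p.1) p.2| * f p.1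
      ∂(volume.prod sphereMeasure) := by
  rw [lintegral_prod _ (measurable_Lc_integrand hf v).aemeasurable]
  rfl

/-- product limit below an envelope -/
theorem tendsto_mul_env {a : ℝ≥0∞} (ha : a ≠ ⊤) {p q : ℕ → ℝ≥0∞} {p' q' e e' : ℝ≥0∞}
    (hpe : ∀ n, p n ≤ e) (hqe : ∀ n, q n ≤ e') (hpe' : p' ≤ e) (hqe' : q' ≤ e')
    (hp : e ≠ ⊤ → Tendsto p atTop (𝓝 p')) (hq : e' ≠ ⊤ → Tendsto q atTop (𝓝 q'))
    (hfin : a * e * e' ≠ ⊤) : Tendsto (fun n => a * p n * q n) atTop (𝓝 (a * p' * q')) := by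
  by_cases ha0 : a = 0
  · simp [ha0]
  by_cases he0 : e = 0
  · have h1 : ∀ n, p n = 0 := fun n => le_antisymm (he0 ▸ hpe n) zero_le
    have h2 : p' = 0 := le_antisymm (he0 ▸ hpe') zero_le
    simp [h1, h2]
  by_cases he0' : e' = 0
  · have h1 : ∀ n, q n = 0 := fun n => le_antisymm (he0' ▸ hqe n) zero_le
    have h2 : q' = 0 := le_antisymm (he0' ▸ hqe') zero_le
    simp [h1, h2]
  have he : e ≠ ⊤ := by
    rintro rfl
    apply hfin
    rw [ENNReal.mul_top ha0, ENNReal.top_mul he0']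
  have he' : e' ≠ ⊤ := by
    rintro rfl
    apply hfin
    rw [ENNReal.mul_top (mul_ne_zero ha0 he0)]
  have hp1 : p' ≠ ⊤ := (lt_of_le_of_lt hpe' (lt_top_iff_ne_top.2 he)).ne
  have hq1 : q' ≠ ⊤ := (lt_of_le_of_lt hqe' (lt_top_iff_ne_top.2 he')).ne
  refine ENNReal.Tendsto.mul (ENNReal.Tendsto.const_mul (hp he) (Or.inr ha)) ?_ (hq he') ?_
  · exact Or.inr hq1
  · exact Or.inr (ENNReal.mul_ne_top ha hp1)


theorem tendsto_Lc {f : ℕ → R3 → ℝ≥0∞} {g e : R3 → ℝ≥0∞} (mf : ∀ n, Measurable (f n))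
    (mg : Measurable g) (me : Measurable e) (hfe : ∀ n z, f n z ≤ e z) (hge : ∀ z, g z ≤ e z)
    (hlim : ∀ z, e z ≠ ⊤ → Tendsto (fun n => f n z) atTop (𝓝 (g z))) {v : R3}
    (hfin : Lc e v ≠ ⊤) :
    Tendsto (fun n => Lc (f n) v) atTop (𝓝 (Lc g v)) := by
  rw [Lc_eq_prod me] at hfin
  rw [Lc_eq_prod mg]
  simp_rw [fun n => Lc_eq_prod (mf n) v]
  refine tendsto_lintegral_of_dominated_convergence _
    (fun n => measurable_Lc_integrand (mf n) v) (fun n => Eventually.of_forall fun p => ?_)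
    hfin ?_
  · exact mul_le_mul' le_rfl (hfe n _)
  · filter_upwards [ae_lt_top (measurable_Lc_integrand me v) hfin] with p hp
    have := tendsto_mul_env (a := ENNReal.ofReal |inner ℝ (v - p.1) p.2|) ENNReal.ofReal_ne_top
      (p := fun n => f n p.1) (q := fun _ => 1) (p' := g p.1) (q' := 1) (e := e p.1) (e' := 1)
      (fun n => hfe n _) (fun _ => le_rfl) (hge _) le_rfl (hlim _) (fun _ => tendsto_const_nhds)
      (by simpa using hp.ne)
    simpa using this

section

variable {F : ℕ → ℝ → P2 → R3 → ℝ≥0∞} {G E : ℝ → P2 → R3 → ℝ≥0∞} {T : ℝ}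

/-- a sequence of densities converging below an envelope on `[0,T]` -/
structure Conv (T : ℝ) (F : ℕ → ℝ → P2 → R3 → ℝ≥0∞) (G E : ℝ → P2 → R3 → ℝ≥0∞) : Prop where
  mF : ∀ n, Meas3 (F n)
  mG : Meas3 G
  mE : Meas3 E
  le : ∀ n, ∀ t ∈ Icc 0 T, ∀ x v, F n t x v ≤ E t x v
  le' : ∀ t ∈ Icc 0 T, ∀ x v, G t x v ≤ E t x v
  lim : ∀ t ∈ Icc 0 T, ∀ x v, E t x v ≠ ⊤ → Tendsto (fun n => F n t x v) atTop (𝓝 (G t x v))

theorem Conv.acc (h : Conv T F G E) {s t : ℝ} (hs : 0 ≤ s) (ht : t ∈ Icc 0 T) (x : P2) (v : R3)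
    (hfin : Acc E s t x v ≠ ⊤) :
    Tendsto (fun n => Acc (F n) s t x v) atTop (𝓝 (Acc G s t x v)) := by
  unfold Acc at hfin ⊢
  refine tendsto_lintegral_of_dominated_convergence
    (fun τ => Lc (E τ (x - (t - τ) • bar v)) v)
    (fun n => measurable_Lc_flight (h.mF n) t x v) (fun n => ?_) hfin ?_
  · refine (ae_restrict_mem measurableSet_Ioo).mono fun τ hτ => ?_
    exact Lc_mono (h.le n τ ⟨hs.trans hτ.1.le, hτ.2.le.trans ht.2⟩ _) v
  · filter_upwards [ae_restrict_mem measurableSet_Ioo,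
      ae_lt_top (measurable_Lc_flight h.mE t x v) hfin] with τ hτ hτ2
    have hτ' : τ ∈ Icc 0 T := ⟨hs.trans hτ.1.le, hτ.2.le.trans ht.2⟩
    exact tendsto_Lc (fun n => (h.mF n).slice _ _) (h.mG.slice _ _) (h.mE.slice _ _)
      (fun n z => h.le n τ hτ' _ z) (h.le' τ hτ' _) (h.lim τ hτ' _) hτ2.ne


end

end Crest.Agent.R68.A
end
end

-- ▼ part R68/A6

/-!
# Row 68, PART A (helper810): existence of the fixed point (abstract Theorem A)
-/

set_option autoImplicit false
open MeasureTheory Set Filter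
open scoped ENNReal Topology
open Crest.AnalysisR.VecCalc3 Crest.AnalysisR.PDE.Boltzmann

noncomputable section

namespace Crest.Agent.R68.A

/-- a sequence in `[0,∞]` whose increments are summable converges to its `liminf` -/
theorem tendsto_liminf_of_close {u d : ℕ → ℝ≥0∞} (h1 : ∀ n, u (n + 1) ≤ u n + d n)
    (h2 : ∀ n, u n ≤ u (n + 1) + d n) (hd : ∑' n, d n ≠ ⊤) :
    Tendsto u atTop (𝓝 (liminf u atTop)) ∧
      ∀ n, liminf u atTop ≤ u n + ∑' k, d (k + n) ∧ u n ≤ liminf u atTop + ∑' k, d (k + n) := by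
  have key1 : ∀ n m, u (n + m) ≤ u n + ∑' k, d (k + n) := by
    intro n m
    have : u (n + m) ≤ u n + ∑ k ∈ Finset.range m, d (k + n) := by
      induction m with
      | zero => simp
      | succ m ih =>
        rw [Finset.sum_range_succ, ← add_assoc, ← add_assoc]
        refine (h1 (n + m)).trans ?_
        rw [add_comm m n]
        gcongr
    refine this.trans ?_
    gcongr
    exact ENNReal.sum_le_tsum _
  have key2 : ∀ n m, u n ≤ u (n + m) + ∑' k, d (k + n) := by
    intro n m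
    have : u n ≤ u (n + m) + ∑ k ∈ Finset.range m, d (k + n) := by
      induction m with
      | zero => simp
      | succ m ih =>
        rw [Finset.sum_range_succ]
        refine ih.trans ?_
        have h3 := h2 (n + m)
        calc u (n + m) + ∑ k ∈ Finset.range m, d (k + n)
            ≤ (u (n + m + 1) + d (n + m)) + ∑ k ∈ Finset.range m, d (k + n) := by gcongr
          _ = u (n + (m + 1)) + (∑ k ∈ Finset.range m, d (k + n) + d (m + n)) := by
            rw [add_comm m n, ← add_assoc n m 1]; ring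
    refine this.trans ?_
    gcongr
    exact ENNReal.sum_le_tsum _
  have hr : Tendsto (fun n => ∑' k, d (k + n)) atTop (𝓝 0) :=
    ENNReal.tendsto_sum_nat_add d hd
  have hL1 : ∀ n, limsup u atTop ≤ u n + ∑' k, d (k + n) := by
    intro n
    refine limsup_le_of_le (by isBoundedDefault) ?_
    filter_upwards [eventually_ge_atTop n] with m hm
    obtain ⟨k, rfl⟩ := Nat.exists_eq_add_of_le hm
    exact key1 n k
  have hL2 : ∀ n, u n ≤ liminf u atTop + ∑' k, d (k + n) := by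
    intro n
    by_cases htop : ∑' k, d (k + n) = ⊤
    · rw [htop]; simp
    rw [← tsub_le_iff_right]
    refine le_liminf_of_le (by isBoundedDefault) ?_
    filter_upwards [eventually_ge_atTop n] with m hm
    obtain ⟨k, rfl⟩ := Nat.exists_eq_add_of_le hm
    rw [tsub_le_iff_right]
    exact key2 n k
  have hls : limsup u atTop ≤ liminf u atTop := by
    have h3 : ∀ n, limsup u atTop ≤ liminf u atTop + 2 * ∑' k, d (k + n) := by
      intro n
      refine (hL1 n).trans ?_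
      calc u n + ∑' k, d (k + n) ≤ (liminf u atTop + ∑' k, d (k + n)) + ∑' k, d (k + n) := by
            gcongr; exact hL2 n
        _ = _ := by ring
    have h4 : Tendsto (fun n => liminf u atTop + 2 * ∑' k, d (k + n)) atTop
        (𝓝 (liminf u atTop + 2 * 0)) :=
      tendsto_const_nhds.add (ENNReal.Tendsto.const_mul hr (Or.inr (by norm_num)))
    have := ge_of_tendsto' h4 h3
    simpa using this
  refine ⟨tendsto_of_le_liminf_of_limsup_le le_rfl hls, fun n => ⟨?_, hL2 n⟩⟩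
  exact le_trans (liminf_le_limsup) (hL1 n)

section

variable {T : ℝ} {f0 h0 : P2 → R3 → ℝ≥0∞} {φ N : ℝ → P2 → R3 → ℝ≥0∞}










end

end Crest.Agent.R68.A
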