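import Crest.Agent.R68.CSize1
import Crest.Agent.R68.CGauss

-- ▼ part R68/CSize2
section

/-!
# Row 68, PART C (helper779): size of the warm majorant on `[0,T1]` (C5)
-/

set_option autoImplicit false
open MeasureTheory Set
open scoped ENNReal
open Crest.AnalysisR.VecCalc3 Crest.AnalysisR.PDE.Boltzmann

noncomputable section

namespace Crest.Agent.R68.C

open Crest.Agent.R68.Fuel

variable {P : Par}

/-! ### Gaussians -/

theorem rpow_four_pi : (4 * Real.pi) ^ (3 / 2 : ℝ) ≤ 64 := by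
  have h : 4 * Real.pi ≤ 16 := by linarith [Real.pi_le_four]
  calc (4 * Real.pi) ^ (3 / 2 : ℝ) ≤ (16 : ℝ) ^ (3 / 2 : ℝ) :=
        Real.rpow_le_rpow (by positivity) h (by norm_num)
    _ = 64 := by
        rw [show (16 : ℝ) = 4 ^ (2 : ℝ) by norm_num, ← Real.rpow_mul (by norm_num)]
        norm_num

theorem lintegral_gauss4 {η : ℝ} (hη : 0 < η) (u : R3) :
    ∫⁻ v : R3, ENNReal.ofReal (Real.exp (-‖v - u‖ ^ 2 / (4 * η ^ 2))) ≤
      ENNReal.ofReal (64 * η ^ 3) := by
  have h1 := lintegral_gauss (b := 1 / (4 * η ^ 2)) (by positivity)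
  have h2 : ∫⁻ v : R3, ENNReal.ofReal (Real.exp (-‖v - u‖ ^ 2 / (4 * η ^ 2))) =
      ∫⁻ v : R3, ENNReal.ofReal (Real.exp (-(1 / (4 * η ^ 2)) * ‖v‖ ^ 2)) := by
    rw [← lintegral_sub_right_eq_self (fun v : R3 =>
      ENNReal.ofReal (Real.exp (-(1 / (4 * η ^ 2)) * ‖v‖ ^ 2))) u]
    refine lintegral_congr fun v => ?_
    congr 2
    ring
  rw [h2, h1]
  refine ENNReal.ofReal_le_ofReal ?_
  rw [show Real.pi / (1 / (4 * η ^ 2)) = (4 * Real.pi) * η ^ 2 by field_simp,
    Real.mul_rpow (by positivity) (by positivity)]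
  have h3 : (η ^ 2) ^ (3 / 2 : ℝ) = η ^ 3 := by
    rw [← Real.rpow_natCast η 2, ← Real.rpow_mul hη.le, ← Real.rpow_natCast η 3]
    norm_num
  rw [h3]
  exact mul_le_mul_of_nonneg_right rpow_four_pi (by positivity)

/-- `∫_{|z|<η} |z|⁻¹ dz = 2πη²` -/
theorem lintegral_ball_inv {η : ℝ} (hη : 0 < η) :
    ∫⁻ z : R3, (Metric.ball (0 : R3) η).indicator (fun z => ENNReal.ofReal ‖z‖⁻¹) z ≤
      ENNReal.ofReal (7 * η ^ 2) := by
  have hm : Measurable ((Metric.ball (0 : R3) η).indicator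
      (fun z : R3 => ENNReal.ofReal ‖z‖⁻¹)) :=
    Measurable.indicator (by fun_prop) Metric.isOpen_ball.measurableSet
  rw [lintegral_polar hm]
  have h1 : ∀ r ∈ Ioi (0 : ℝ), ENNReal.ofReal (r ^ 2) * ∫⁻ w, (Metric.ball (0 : R3) η).indicator
      (fun z : R3 => ENNReal.ofReal ‖z‖⁻¹) (r • w) ∂sphereMeasure
      = (Ioo (0 : ℝ) η).indicator (fun r => ENNReal.ofReal (4 * Real.pi) *
          ENNReal.ofReal r) r := by
    intro r hr
    have hr' : (0 : ℝ) < r := hr
    by_cases h3 : r < η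
    · rw [indicator_of_mem (show r ∈ Ioo (0 : ℝ) η from ⟨hr, h3⟩)]
      have h4 : ∫⁻ w, (Metric.ball (0 : R3) η).indicator
          (fun z : R3 => ENNReal.ofReal ‖z‖⁻¹) (r • w) ∂sphereMeasure
          = ∫⁻ w, ENNReal.ofReal r⁻¹ ∂sphereMeasure := by
        refine lintegral_congr_ae ?_
        filter_upwards [ae_sphereMeasure] with w hw
        have h5 : ‖r • w‖ = r := by rw [norm_smul, hw, mul_one, Real.norm_of_nonneg hr'.le]
        rw [indicator_of_mem (by rw [mem_ball_zero_iff, h5]; exact h3), h5]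
      rw [h4, lintegral_const, sphereMeasure_univ, mul_comm (ENNReal.ofReal r⁻¹), ← mul_assoc,
        mul_comm (ENNReal.ofReal (r ^ 2)), mul_assoc, ← ENNReal.ofReal_mul (by positivity)]
      congr 2
      field_simp
    · rw [indicator_of_notMem (show r ∉ Ioo (0 : ℝ) η from fun h => h3 h.2)]
      have h4 : ∫⁻ w, (Metric.ball (0 : R3) η).indicator
          (fun z : R3 => ENNReal.ofReal ‖z‖⁻¹) (r • w) ∂sphereMeasure
          = ∫⁻ w, 0 ∂sphereMeasure := by
        refine lintegral_congr_ae ?_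
        filter_upwards [ae_sphereMeasure] with w hw
        have h5 : ‖r • w‖ = r := by rw [norm_smul, hw, mul_one, Real.norm_of_nonneg hr'.le]
        rw [indicator_of_notMem (by rw [mem_ball_zero_iff, h5]; exact h3)]
      rw [h4]; simp
  rw [setLIntegral_congr_fun measurableSet_Ioi h1, lintegral_indicator measurableSet_Ioo,
    Measure.restrict_restrict measurableSet_Ioo, inter_eq_left.2 Ioo_subset_Ioi_self,
    lintegral_const_mul _ (by fun_prop)]
  have h6 : ∫⁻ r in Ioo (0 : ℝ) η, ENNReal.ofReal r = ENNReal.ofReal (η ^ 2 / 2) := by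
    have h7 : ∫ r in (0 : ℝ)..η, r = η ^ 2 / 2 := by
      rw [integral_id]; ring
    rw [← h7, intervalIntegral.integral_of_le hη.le, ofReal_integral_eq_lintegral_ofReal]
    · exact setLIntegral_congr Ioo_ae_eq_Ioc
    · exact (continuous_id.integrableOn_Icc).mono_set Ioc_subset_Icc_self
    · refine (ae_restrict_mem measurableSet_Ioc).mono fun x hx => hx.1.le
  rw [h6, ← ENNReal.ofReal_mul (by positivity)]
  refine ENNReal.ofReal_le_ofReal ?_
  have := Real.pi_lt_d2
  nlinarith [sq_nonneg η]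

/-- Newton potential of a Gaussian, sup bound -/
theorem newt_gauss4 {η : ℝ} (hη : 0 < η) (u v : R3) :
    newt (fun v' => ENNReal.ofReal (Real.exp (-‖v' - u‖ ^ 2 / (4 * η ^ 2)))) v ≤
      ENNReal.ofReal (71 * η ^ 2) := by
  unfold newt
  have h1 : ∀ v' : R3, ENNReal.ofReal (Real.exp (-‖v' - u‖ ^ 2 / (4 * η ^ 2))) *
      ENNReal.ofReal ‖v - v'‖⁻¹ ≤
      ENNReal.ofReal η⁻¹ * ENNReal.ofReal (Real.exp (-‖v' - u‖ ^ 2 / (4 * η ^ 2))) +
        (Metric.ball (0 : R3) η).indicator (fun z => ENNReal.ofReal ‖z‖⁻¹) (v - v') := by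
    intro v'
    by_cases h : v - v' ∈ Metric.ball (0 : R3) η
    · rw [indicator_of_mem h]
      refine le_add_left ?_
      have h2 : ENNReal.ofReal (Real.exp (-‖v' - u‖ ^ 2 / (4 * η ^ 2))) ≤ 1 := by
        rw [ENNReal.ofReal_le_one, Real.exp_le_one_iff]
        have : 0 ≤ ‖v' - u‖ ^ 2 / (4 * η ^ 2) := by positivity
        rw [neg_div]; linarith
      calc _ ≤ 1 * ENNReal.ofReal ‖v - v'‖⁻¹ := mul_le_mul_left h2 _
        _ = _ := one_mul _
    · rw [indicator_of_notMem h, add_zero, mul_comm]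
      refine mul_le_mul_left (ENNReal.ofReal_le_ofReal ?_) _
      rw [mem_ball_zero_iff, not_lt] at h
      exact inv_anti₀ hη h
  refine (lintegral_mono h1).trans ?_
  rw [lintegral_add_left (by fun_prop), lintegral_const_mul _ (by fun_prop),
    lintegral_sub_left_eq_self (fun z => (Metric.ball (0 : R3) η).indicator
      (fun z => ENNReal.ofReal ‖z‖⁻¹) z) v]
  calc _ ≤ ENNReal.ofReal η⁻¹ * ENNReal.ofReal (64 * η ^ 3) + ENNReal.ofReal (7 * η ^ 2) := by
        gcongr
        · exact lintegral_gauss4 hη u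
        · exact lintegral_ball_inv hη
    _ = ENNReal.ofReal (71 * η ^ 2) := by
        rw [← ENNReal.ofReal_mul (by positivity), ← ENNReal.ofReal_add (by positivity) (by positivity)]
        congr 1
        field_simp
        ring

theorem measurable_gaussj (P : Par) (j : ℕ) (t : ℝ) (x : P2) :
    Measurable fun v => gaussj P j t x v := by
  unfold gaussj
  fun_prop

theorem measurableSet_Ztj (P : Par) (j : ℕ) (t : ℝ) (x : P2) : MeasurableSet {v | Ztj P j t x v} := by
  by_cases h : LZ P j t x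
  · have : {v | Ztj P j t x v} = {v | ‖v - uvec P (wj j) t x‖ < 2 * rhoj P.p j} := by
      ext v
      exact ⟨fun hv => hv.2.2.2, fun hv => ⟨h.1, h.2.1, h.2.2, hv⟩⟩
    rw [this]
    exact measurableSet_lt (by fun_prop) measurable_const
  · have : {v | Ztj P j t x v} = ∅ := by
      ext v
      exact ⟨fun hv => h (LZ_of_Ztj hv), fun hv => hv.elim⟩
    rw [this]
    exact MeasurableSet.empty

theorem measurable_warmj (P : Par) (j : ℕ) (t : ℝ) (x : P2) :
    Measurable fun v => warmj P j t x v := by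
  unfold warmj
  exact Measurable.ite (measurableSet_Ztj P j t x) ((measurable_gaussj P j t x).const_mul _)
    measurable_const

/-- mass of the Gaussian majorant -/
theorem lintegral_gaussj (hK : 0 ≤ P.K) (j : ℕ) (t : ℝ) (x : P2) :
    ∫⁻ v, gaussj P j t x v ≤ ENNReal.ofReal (64 * P.K / bj j) := by
  have hη := etaj_pos P.p j
  have hb := bj_pos j
  unfold gaussj
  have h1 : ∀ v : R3, ENNReal.ofReal (P.K / (bj j * etaj P.p j ^ 3) *
      Real.exp (-‖v - uvec P (wj j) t x‖ ^ 2 / (4 * etaj P.p j ^ 2))) =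
      ENNReal.ofReal (P.K / (bj j * etaj P.p j ^ 3)) *
        ENNReal.ofReal (Real.exp (-‖v - uvec P (wj j) t x‖ ^ 2 / (4 * etaj P.p j ^ 2))) := fun v =>
    ENNReal.ofReal_mul (by positivity)
  simp_rw [h1]
  rw [lintegral_const_mul' _ _ ENNReal.ofReal_ne_top]
  refine (mul_le_mul_right (lintegral_gauss4 hη _) _).trans ?_
  rw [← ENNReal.ofReal_mul (by positivity)]
  refine ENNReal.ofReal_le_ofReal (le_of_eq ?_)
  field_simp

/-- Newton potential of the Gaussian majorant -/
theorem newt_gaussj (hK : 0 ≤ P.K) (j : ℕ) (t : ℝ) (x : P2) (v : R3) :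
    newt (fun v => gaussj P j t x v) v ≤ ENNReal.ofReal (71 * P.K / (bj j * etaj P.p j)) := by
  have hη := etaj_pos P.p j
  have hb := bj_pos j
  unfold gaussj
  have h1 : ∀ v : R3, ENNReal.ofReal (P.K / (bj j * etaj P.p j ^ 3) *
      Real.exp (-‖v - uvec P (wj j) t x‖ ^ 2 / (4 * etaj P.p j ^ 2))) =
      ENNReal.ofReal (P.K / (bj j * etaj P.p j ^ 3)) *
        ENNReal.ofReal (Real.exp (-‖v - uvec P (wj j) t x‖ ^ 2 / (4 * etaj P.p j ^ 2))) := fun v =>
    ENNReal.ofReal_mul (by positivity)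
  simp_rw [h1]
  rw [newt_const_mul _ (by fun_prop)]
  refine (mul_le_mul_right (newt_gauss4 hη _ v) _).trans ?_
  rw [← ENNReal.ofReal_mul (by positivity)]
  refine ENNReal.ofReal_le_ofReal (le_of_eq ?_)
  field_simp

end Crest.Agent.R68.C
end
end

-- ▼ part R68/CSize3

/-!
# Row 68, PART C (helper779): the warm majorant on `[0,T1]`: one sheet, support, mass, Newton
-/

set_option autoImplicit false
open MeasureTheory Set
open scoped ENNReal
open Crest.AnalysisR.VecCalc3 Crest.AnalysisR.PDE.Boltzmann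

noncomputable section

namespace Crest.Agent.R68.C

open Crest.Agent.R68.Fuel

variable {P : Par}

theorem mem_laneE_of {j : ℕ} {A : ℝ} (h0 : 0 < A ^ 2) (h1 : A ^ 2 * (2 * j + 1 / 200) < 1)
    (h2 : 1 < A ^ 2 * (2 * j + 399 / 200)) : A ∈ laneE j := by
  refine ⟨fun h => by simp [h] at h0, ?_, ?_⟩
  · rw [lt_div_iff₀ h0]; linarith
  · rw [div_lt_iff₀ h0]; linarith

/-- a label close to lane `j` is in the enlarged lane -/
theorem mem_laneE_of_close (h : ColdPar C0 P) {j : ℕ} (hj : P.j0 ≤ j) {a A : ℝ} (ha : a ∈ lane j)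
    (hA : |A - a| ≤ bj j ^ 2 / 10 ^ 6) : A ∈ laneE j := by
  have hj1 : 1 ≤ j := by
    have h1 := CP.j0_ge h
    have h2 : (P.j0 : ℝ) ≤ j := by exact_mod_cast hj
    have : (1 : ℝ) ≤ j := by linarith
    exact_mod_cast this
  have ha1 := lane_abs_le_one hj1 ha
  have hb := bj_pos j
  have hb1 := bj_le_one j
  have hsq := lane_sq hj1 ha
  have hu := lane_upper ha
  have hl := lane_lower ha
  have hJ : bj j * (2 * j + 1) = 1 := by unfold bj; field_simp
  set e := bj j ^ 2 / 10 ^ 6 with he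
  have he0 : 0 < e := by positivity
  have he1 : e ≤ 1 := by rw [he, div_le_one (by norm_num)]; nlinarith
  have hA1 : |A| ≤ 2 := by
    have := abs_sub_abs_le_abs_sub A a
    linarith
  have hd : |A ^ 2 - a ^ 2| ≤ 3 * e := by
    have : A ^ 2 - a ^ 2 = (A - a) * (A + a) := by ring
    rw [this, abs_mul]
    have k3 : |A + a| ≤ 3 := (abs_add_le _ _).trans (by linarith)
    calc |A - a| * |A + a| ≤ e * 3 := mul_le_mul hA k3 (abs_nonneg _) he0.le
      _ = 3 * e := by ring
  have hd' := abs_le.1 hd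
  have hj' : (0 : ℝ) ≤ j := Nat.cast_nonneg j
  have heJ : e * (2 * j + 1) = bj j / 10 ^ 6 := by
    have : e * (2 * j + 1) = bj j * (bj j * (2 * j + 1)) / 10 ^ 6 := by rw [he]; ring
    rw [this, hJ, mul_one]
  refine mem_laneE_of ?_ ?_ ?_
  · have : 3 * e ≤ bj j / 4 := by rw [he]; nlinarith
    linarith [hd'.1, hsq.1]
  · have k1 : A ^ 2 * (2 * j + 1 / 200) ≤ (a ^ 2 + 3 * e) * (2 * j + 1 / 200) :=
      mul_le_mul_of_nonneg_right (by linarith [hd'.2]) (by positivity)
    have k2 : (a ^ 2 + 3 * e) * (2 * j + 1 / 200) =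
        a ^ 2 * (2 * j + 1 / 100) - a ^ 2 / 200 + 3 * (e * (2 * j + 1)) - 3 * e * (199 / 200) := by
      ring
    rw [k2, heJ] at k1
    linarith [hsq.1]
  · have k1 : (a ^ 2 - 3 * e) * (2 * j + 399 / 200) ≤ A ^ 2 * (2 * j + 399 / 200) :=
      mul_le_mul_of_nonneg_right (by linarith [hd'.1]) (by positivity)
    have k2 : (a ^ 2 - 3 * e) * (2 * j + 399 / 200) =
        a ^ 2 * (2 * j + 199 / 100) + a ^ 2 / 200 - 3 * (e * (2 * j + 1)) - 3 * e * (199 / 200) := by
      ring
    rw [k2, heJ] at k1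
    have k3 : e ≤ bj j / 10 ^ 6 := by rw [he]; nlinarith
    linarith [hsq.1]

theorem slack_small2 (h : ColdPar C0 P) {j : ℕ} (hj : P.j0 ≤ j) {n : ℕ} (hn : n ≤ 100) :
    rhoj P.p j * tauj P.p j / bj j ^ n ≤ bj j ^ 2 / 10 ^ 6 := by
  refine (slack_small h j hn).trans ?_
  have h1 := bj_small0 h hj
  have hb := bj_pos j
  have h2 : bj j ^ 50 ≤ bj j ^ 3 := bj_pow_anti j (by norm_num)
  have h3 : bj j ^ 3 = bj j ^ 2 * bj j := by ring
  rw [le_div_iff₀ (by norm_num)]
  have h4 : 0 < bj j ^ 2 := by positivity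
  nlinarith

theorem lab_mem_laneE (h : ColdPar C0 P) {j : ℕ} {t : ℝ} {x : P2} (hz : LZ P j t x) :
    lab P t x ∈ laneE j := by
  obtain ⟨hj, ⟨a, ha, hA⟩, -⟩ := hz
  refine mem_laneE_of_close h hj ha (hA.trans ?_)
  have := slack_small2 h hj (n := 1) (by norm_num)
  rwa [pow_one] at this

theorem LZ_lane_unique (h : ColdPar C0 P) {i j : ℕ} {t : ℝ} {x : P2} (hi : LZ P i t x)
    (hj : LZ P j t x) : i = j :=
  laneE_unique (lab_mem_laneE h hi) (lab_mem_laneE h hj)

/-- size of the position in the tight zone -/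
theorem LZ_norm (h : ColdPar C0 P) {j : ℕ} {t : ℝ} (ht : 0 ≤ t) {x : P2} (hz : LZ P j t x) :
    ‖x‖ ≤ (P.Y + 3) * (t + P.dl) := by
  have hE := lab_mem_laneE h hz
  obtain ⟨hj, -, hx2⟩ := hz
  have hj1 : 1 ≤ P.j0 := by
    have h1 := CP.j0_ge h
    have : (1 : ℝ) ≤ P.j0 := by linarith
    exact_mod_cast this
  have h1 := laneE_lt_dl hj1 hj hE
  have hdl := CP.dl_pos h
  have hdl1 := CP.dl_small h
  have hY := h.Y
  have hc := h.c1
  have hc0 : 0 ≤ P.c := hdl.le.trans h.c
  have hs : rhoj P.p j * tauj P.p j / bj j ^ 2 ≤ 1 :=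
    (slack_small h j (by norm_num)).trans (pow_le_one₀ (bj_pos j).le (bj_le_one j))
  have hr : rr (lab P t x) ≤ P.dl := by
    unfold rr
    rw [← sq_abs]
    nlinarith [abs_nonneg (lab P t x)]
  have hr0 : 0 ≤ rr (lab P t x) := sq_nonneg _
  have e1 : x.1 = lab P t x * (P.dl + P.c * t) / P.dl := by
    unfold lab
    have : 0 < P.dl + P.c * t := by positivity
    field_simp
  rw [Prod.norm_def, max_le_iff, Real.norm_eq_abs, Real.norm_eq_abs]
  constructor
  · rw [e1, abs_div, abs_mul, abs_of_pos hdl, abs_of_nonneg (show 0 ≤ P.dl + P.c * t by positivity),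
      div_le_iff₀ hdl]
    have k1 : |lab P t x| * (P.dl + P.c * t) ≤ P.dl * (P.dl + P.c * t) :=
      mul_le_mul_of_nonneg_right h1.le (by positivity)
    have k2 : P.dl + P.c * t ≤ (P.Y + 3) * (t + P.dl) := by nlinarith [mul_nonneg (by linarith : (0:ℝ) ≤ 1 - P.c) ht]
    nlinarith
  · refine hx2.trans ?_
    have k1 : (P.Y + rhoj P.p j * tauj P.p j / bj j ^ 2) * (t + rr (lab P t x)) ≤
        (P.Y + 1) * (t + P.dl) :=
      mul_le_mul (by linarith) (by linarith) (by positivity) (by linarith)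
    have k2 : 0 ≤ t + P.dl := by positivity
    nlinarith

theorem LZ_norm_lt (h : ColdPar C0 P) {j : ℕ} {t : ℝ} (ht : 0 ≤ t) (htT : t ≤ P.dl ^ (3 / 8 : ℝ))
    {x : P2} (hz : LZ P j t x) : ‖x‖ < 7 / 20 := by
  refine (LZ_norm h ht hz).trans_lt ?_
  have h1 := CP.T1_le h
  have hK := h.K
  have hY := h.Y
  have hL : 0 < P.K + P.Y := by linarith
  have h2 : P.dl ≤ 1 / (40 * (P.K + P.Y)) := by
    refine (CP.dl_le h).trans ?_
    have : (1 / (40 * (P.K + P.Y))) ^ 4 ≤ (1 / (40 * (P.K + P.Y))) ^ 1 :=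
      pow_le_pow_of_le_one (by positivity) (by
        rw [div_le_one (by positivity)]; linarith) (by norm_num)
    rwa [pow_one] at this
  have h3 : (P.Y + 3) * (t + P.dl) ≤ (P.Y + 3) * (2 * (1 / (40 * (P.K + P.Y)))) :=
    mul_le_mul_of_nonneg_left (by linarith [htT.trans h1]) (by linarith)
  have h4 : (P.Y + 3) * (2 * (1 / (40 * (P.K + P.Y)))) ≤ 1 / 5 := by
    rw [mul_one_div, mul_div_assoc', div_le_div_iff₀ (by positivity) (by norm_num)]
    nlinarith
  linarith

/-- at most one sheet on `[0,T1]` -/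
theorem LZ_unique (h : ColdPar C0 P) {i j : ℕ} {t : ℝ} (ht : 0 ≤ t) (htT : t ≤ P.dl ^ (3 / 8 : ℝ))
    {x : P2} {k l : ℤ × ℤ} (hi : LZ P i t (x + latt k)) (hj : LZ P j t (x + latt l)) :
    k = l ∧ i = j := by
  have h1 := latt_unique (LZ_norm_lt h ht htT hi) (LZ_norm_lt h ht htT hj)
  subst h1
  exact ⟨rfl, LZ_lane_unique h hi hj⟩

theorem warmj_eq_zero {j : ℕ} {t : ℝ} {x : P2} (hz : ¬ LZ P j t x) (v : R3) :
    warmj P j t x v = 0 := by
  unfold warmj
  rw [if_neg fun h => hz (LZ_of_Ztj h)]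

/-- on `[0,T1]` the warm majorant is a single sheet -/
theorem warm_cases (h : ColdPar C0 P) {t : ℝ} (ht : 0 ≤ t) (htT : t ≤ P.dl ^ (3 / 8 : ℝ)) (x : P2) :
    (∀ v, warm P t x v = 0) ∨ ∃ (k : ℤ × ℤ) (j : ℕ), LZ P j t (x + latt k) ∧
      ∀ v, warm P t x v = warmj P j t (x + latt k) v := by
  by_cases hex : ∃ (k : ℤ × ℤ) (j : ℕ), LZ P j t (x + latt k)
  · obtain ⟨k, j, hz⟩ := hex
    refine Or.inr ⟨k, j, hz, fun v => ?_⟩
    unfold warm
    rw [tsum_eq_single k, tsum_eq_single j]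
    · intro i hi
      exact warmj_eq_zero (fun h' => hi (LZ_unique h ht htT h' hz).2) v
    · intro l hl
      rw [ENNReal.tsum_eq_zero]
      intro i
      exact warmj_eq_zero (fun h' => hl (LZ_unique h ht htT h' hz).1) v
  · left
    intro v
    unfold warm
    rw [ENNReal.tsum_eq_zero]
    intro k
    rw [ENNReal.tsum_eq_zero]
    intro j
    exact warmj_eq_zero (fun h' => hex ⟨k, j, h'⟩) v

/-- velocity of the stream on the tight zone -/
theorem norm_uvec_le (h : ColdPar C0 P) {j : ℕ} {t : ℝ} (ht : 0 ≤ t) {x : P2} (hz : LZ P j t x) :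
    ‖uvec P (wj j) t x‖ ≤ P.Y + 2 + 1 / 10 ^ 6 := by
  have hE := lab_mem_laneE h hz
  obtain ⟨hj, -, hx2⟩ := hz
  have hj1 : 1 ≤ P.j0 := by
    have h1 := CP.j0_ge h
    have : (1 : ℝ) ≤ P.j0 := by linarith
    exact_mod_cast this
  have h1 := laneE_lt_dl hj1 hj hE
  have hdl := CP.dl_pos h
  have hc := h.c1
  have hc0 : 0 ≤ P.c := hdl.le.trans h.c
  have hs : rhoj P.p j * tauj P.p j / bj j ^ 2 ≤ 1 / 10 ^ 6 := by
    refine (slack_small2 h hj (by norm_num)).trans ?_
    have := pow_le_one₀ (n := 2) (bj_pos j).le (bj_le_one j)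
    gcongr
  have hr0 : 0 ≤ rr (lab P t x) := sq_nonneg _
  refine (Pole.norm_le_sum3 _).trans ?_
  have e0 : |uvec P (wj j) t x 0| ≤ 1 := by
    have : uvec P (wj j) t x 0 = P.c * (lab P t x / P.dl) := by
      show P.c * x.1 / (P.dl + P.c * t) = _
      unfold lab
      have : 0 < P.dl + P.c * t := by positivity
      field_simp
    rw [this, abs_mul, abs_of_nonneg hc0, abs_div, abs_of_pos hdl]
    have k1 : |lab P t x| / P.dl ≤ 1 := by rw [div_le_one hdl]; exact h1.le
    have k2 : 0 ≤ |lab P t x| / P.dl := by positivity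
    nlinarith
  have e1 : |uvec P (wj j) t x 1| ≤ P.Y + 1 / 10 ^ 6 := by
    show |x.2 / (t + rr (lab P t x))| ≤ _
    have hY := h.Y
    rcases (add_nonneg ht hr0).eq_or_lt with h0 | h0
    · rw [← h0]; simp; positivity
    · rw [abs_div, abs_of_pos h0, div_le_iff₀ h0]
      exact hx2.trans (mul_le_mul_of_nonneg_right (by linarith) h0.le)
  have e2 : |uvec P (wj j) t x 2| ≤ 1 := by
    show |wj j| ≤ 1
    unfold wj; rw [abs_pow]; simp
  linarith

theorem rhoj_small (h : ColdPar C0 P) {j : ℕ} (hj : P.j0 ≤ j) : rhoj P.p j ≤ 1 / 10 ^ 6 := by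
  have h1 : rhoj P.p j ≤ bj j ^ 1 := bj_pow_anti j (by have := h.p; omega)
  have h2 := bj_small0 h hj
  rw [pow_one] at h1
  rw [le_div_iff₀ (by norm_num)]
  have := bj_pos j
  linarith

/-- support of the warm majorant -/
theorem norm_lt_of_warmj (h : ColdPar C0 P) {j : ℕ} {t : ℝ} (ht : 0 ≤ t) {x : P2} {v : R3}
    (hw : warmj P j t x v ≠ 0) : ‖v‖ < P.Y + 3 := by
  have hz : Ztj P j t x v := by
    by_contra h1
    exact hw (by unfold warmj; rw [if_neg h1])
  have h1 := norm_uvec_le h ht (LZ_of_Ztj hz)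
  have h2 := rhoj_small h hz.1
  have h3 := hz.2.2.2
  have h4 := norm_sub_norm_le v (uvec P (wj j) t x)
  linarith

/-! ### size of one sheet -/

theorem kapj_le (h : ColdPar C0 P) (j : ℕ) : kapj P.p j ≤ bj j ^ 100 := by
  rw [kapj_eq h.p]
  exact bj_pow_anti j (by have := h.p; omega)

theorem lintegral_warmj (h : ColdPar C0 P) {j : ℕ} (hj : P.j0 ≤ j) (t : ℝ) (x : P2) :
    ∫⁻ v, warmj P j t x v ≤ ENNReal.ofReal (bj j ^ (3 * P.p / 128 + 1)) := by
  have hb := bj_pos j
  have hK := h.K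
  have h1 : ∫⁻ v, warmj P j t x v ≤ ∫⁻ v, ENNReal.ofReal (kapj P.p j) * gaussj P j t x v := by
    refine lintegral_mono fun v => ?_
    unfold warmj
    split_ifs
    · exact le_rfl
    · exact zero_le
  refine h1.trans ?_
  rw [lintegral_const_mul' _ _ ENNReal.ofReal_ne_top]
  refine (mul_le_mul_right (lintegral_gaussj (by linarith) j t x) _).trans ?_
  rw [← ENNReal.ofReal_mul (kapj_pos _ _).le]
  refine ENNReal.ofReal_le_ofReal ?_
  have h3 := K_mul_bj h hj
  have hp := h.p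
  have h2 : kapj P.p j ≤ bj j ^ (3 * P.p / 128 + 1 + 2) := by
    rw [kapj_eq hp]
    exact bj_pow_anti j (by omega)
  calc kapj P.p j * (64 * P.K / bj j) ≤ bj j ^ (3 * P.p / 128 + 1 + 2) * (64 * P.K / bj j) := by
        gcongr
    _ = 64 * (P.K * bj j) * bj j ^ (3 * P.p / 128 + 1) := by
        rw [pow_add (bj j) (3 * P.p / 128 + 1) 2]; field_simp
    _ ≤ 1 * bj j ^ (3 * P.p / 128 + 1) := by
        refine mul_le_mul_of_nonneg_right ?_ (by positivity)
        nlinarith
    _ = _ := one_mul _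

/-- **(N2), one sheet**: Newton potential against `D^{-3/2}` -/
theorem newt_warmj (h : ColdPar C0 P) {j : ℕ} {t : ℝ} (ht : 0 ≤ t) {x : P2} {k : ℤ × ℤ}
    (hz : LZ P j t (x + latt k)) (v : R3) :
    newt (fun v' => warmj P j t (x + latt k) v') v ≤
      ENNReal.ofReal (bj j ^ (3 * P.p / 128 + 1)) * Dm P t x v := by
  have hj := hz.1
  have hb := bj_pos j
  have hb1 := bj_le_one j
  have hK := h.K
  have hp := h.p
  have hD := Dw_le_of_LZ h ht hz v
  set X := x + latt k with hX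
  set u := uvec P (wj j) t X with hu
  set S := rhoj P.p j * tauj P.p j with hS
  have hρ := rhoj_pos P.p j
  have hτ := tauj_pos P.p j
  have hS0 : 0 < S := mul_pos hρ hτ
  have hsm := bj_small0 h hj
  have hKb := K_mul_bj h hj
  -- `8 ≤ τ / b⁵`
  have hτb : 8 ≤ tauj P.p j / bj j ^ 5 := by
    have h1 : 1 ≤ tauj P.p j := by
      rw [tauj_eq]
      exact one_le_inv_iff₀.2 ⟨by positivity, pow_le_one₀ hb.le hb1⟩
    rw [le_div_iff₀ (by positivity)]
    have h2 : bj j ^ 5 ≤ bj j ^ 1 := bj_pow_anti j (by norm_num)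
    rw [pow_one] at h2
    linarith
  have hS5 : S / bj j ^ 5 = rhoj P.p j * (tauj P.p j / bj j ^ 5) := by rw [hS]; ring
  have hgm : Measurable fun v' : R3 => warmj P j t X v' := measurable_warmj P j t X
  by_cases hfar : 4 * rhoj P.p j ≤ ‖v - u‖
  · -- far from the sheet
    have hvu : 0 < ‖v - u‖ := lt_of_lt_of_le (by positivity) hfar
    have h1 : newt (fun v' => warmj P j t X v') v ≤
        ∫⁻ v', warmj P j t X v' * ENNReal.ofReal (2 / ‖v - u‖) := by
      refine lintegral_mono fun v' => ?_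
      by_cases hw : warmj P j t X v' = 0
      · simp only [hw, zero_mul]; exact le_rfl
      · have hz' : Ztj P j t X v' := by
          by_contra h1
          exact hw (by unfold warmj; rw [if_neg h1])
        refine mul_le_mul_right (ENNReal.ofReal_le_ofReal ?_) _
        have h2 : ‖v - u‖ / 2 ≤ ‖v - v'‖ := by
          have h3 := hz'.2.2.2
          have h4 : ‖v - u‖ ≤ ‖v - v'‖ + ‖v' - u‖ := by
            have : v - u = (v - v') + (v' - u) := by abel
            rw [this]; exact norm_add_le _ _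
          linarith
        have h3 := inv_anti₀ (by positivity) h2
        rwa [inv_div] at h3
    refine h1.trans ?_
    rw [lintegral_mul_const' _ _ ENNReal.ofReal_ne_top]
    rcases (Dw_nonneg' (P := P) ht x v).eq_or_lt with hD0 | hD0
    · have : Dm P t x v = ⊤ := by
        unfold Dm
        rw [← hD0]; simp
      rw [this, ENNReal.mul_top (by rw [Ne, ENNReal.ofReal_eq_zero, not_le]; positivity)]
      exact le_top
    · have h2 : 2 / ‖v - u‖ ≤ 2 * (tauj P.p j / bj j ^ 5) * (Dw P t x v)⁻¹ := by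
        rw [div_eq_mul_inv, mul_assoc]
        refine mul_le_mul_of_nonneg_left ?_ (by norm_num)
        rw [inv_le_iff_one_le_mul₀ hvu]
        have h3 : Dw P t x v ≤ (tauj P.p j / bj j ^ 5) * ‖v - u‖ := by
          rw [hS5] at hD
          have h4 : rhoj P.p j * (tauj P.p j / bj j ^ 5) ≤
              (‖v - u‖ / 4) * (tauj P.p j / bj j ^ 5) :=
            mul_le_mul_of_nonneg_right (by linarith) (by positivity)
          nlinarith
        have h5 : 1 = Dw P t x v * (Dw P t x v)⁻¹ := (mul_inv_cancel₀ hD0.ne').symm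
        calc 1 = Dw P t x v * (Dw P t x v)⁻¹ := h5
          _ ≤ (tauj P.p j / bj j ^ 5) * ‖v - u‖ * (Dw P t x v)⁻¹ := by gcongr
          _ = _ := by ring
      have h3 : ∫⁻ v', warmj P j t X v' ≤ ENNReal.ofReal (kapj P.p j * (64 * P.K / bj j)) := by
        have h1 : ∫⁻ v, warmj P j t X v ≤ ∫⁻ v, ENNReal.ofReal (kapj P.p j) * gaussj P j t X v := by
          refine lintegral_mono fun v => ?_
          unfold warmj
          split_ifs
          · exact le_rfl
          · exact zero_le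
        refine h1.trans ?_
        rw [lintegral_const_mul' _ _ ENNReal.ofReal_ne_top]
        refine (mul_le_mul_right (lintegral_gaussj (by linarith) j t X) _).trans ?_
        rw [← ENNReal.ofReal_mul (kapj_pos _ _).le]
      calc (∫⁻ v', warmj P j t X v') * ENNReal.ofReal (2 / ‖v - u‖)
          ≤ ENNReal.ofReal (kapj P.p j * (64 * P.K / bj j)) *
            ENNReal.ofReal (2 * (tauj P.p j / bj j ^ 5) * (Dw P t x v)⁻¹) :=
            mul_le_mul' h3 (ENNReal.ofReal_le_ofReal h2)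
        _ = ENNReal.ofReal (kapj P.p j * (64 * P.K / bj j) * (2 * (tauj P.p j / bj j ^ 5))) *
            ENNReal.ofReal (Dw P t x v)⁻¹ := by
            have hk := kapj_pos P.p j
            rw [← ENNReal.ofReal_mul (by positivity), ← ENNReal.ofReal_mul (by positivity)]
            congr 1; ring
        _ ≤ ENNReal.ofReal (bj j ^ (3 * P.p / 128 + 1)) * Dm P t x v := by
            refine mul_le_mul' (ENNReal.ofReal_le_ofReal ?_) (inv_le_Dm hD0)
            have h6 : kapj P.p j * tauj P.p j ≤ bj j ^ (3 * P.p / 128 + 1 + 7) := by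
              rw [kapj_eq hp, tauj_eq, ← div_eq_mul_inv, div_le_iff₀ (by positivity), ← pow_add]
              exact bj_pow_anti j (by omega)
            calc kapj P.p j * (64 * P.K / bj j) * (2 * (tauj P.p j / bj j ^ 5))
                = (kapj P.p j * tauj P.p j) * (128 * P.K / bj j ^ 6) := by field_simp; ring
              _ ≤ bj j ^ (3 * P.p / 128 + 1 + 7) * (128 * P.K / bj j ^ 6) := by gcongr
              _ = 128 * (P.K * bj j) * bj j ^ (3 * P.p / 128 + 1) := by
                  rw [pow_add (bj j) (3 * P.p / 128 + 1) 7]; field_simp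
              _ ≤ 1 * bj j ^ (3 * P.p / 128 + 1) := by
                  refine mul_le_mul_of_nonneg_right ?_ (by positivity)
                  nlinarith
              _ = bj j ^ (3 * P.p / 128 + 1) := by ring
  · -- close to the sheet
    push Not at hfar
    have hθ : Dw P t x v ≤ 2 * (S / bj j ^ 5) := by
      rw [hS5] at hD ⊢
      have : rhoj P.p j * 8 ≤ rhoj P.p j * (tauj P.p j / bj j ^ 5) :=
        mul_le_mul_of_nonneg_left hτb hρ.le
      linarith
    set θ := 2 * (S / bj j ^ 5) with hθdef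
    have hθ0 : 0 < θ := by positivity
    have h2 := le_Dm (P := P) (t := t) (x := x) (v := v) hθ0 hθ
    refine le_trans ?_ (mul_le_mul_right h2 _)
    have h1 : newt (fun v' => warmj P j t X v') v ≤
        ENNReal.ofReal (kapj P.p j * (71 * P.K / (bj j * etaj P.p j))) := by
      have h3 : newt (fun v' => warmj P j t X v') v ≤
          newt (fun v' => ENNReal.ofReal (kapj P.p j) * gaussj P j t X v') v := by
        refine newt_mono (fun v' => ?_) v
        unfold warmj
        split_ifs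
        · exact le_rfl
        · exact zero_le
      refine h3.trans ?_
      rw [newt_const_mul _ (measurable_gaussj P j t X)]
      refine (mul_le_mul_right (newt_gaussj (by linarith) j t X v) _).trans ?_
      rw [← ENNReal.ofReal_mul (kapj_pos _ _).le]
    refine h1.trans ?_
    set n := 3 * P.p / 128 + 1 with hn
    rw [← ENNReal.ofReal_mul (pow_nonneg hb.le n)]
    refine ENNReal.ofReal_le_ofReal ?_
    have hη := etaj_pos P.p j
    have hk := kapj_pos P.p j
    -- `M ≤ bⁿ θ^{-3/2}` from `(M/bⁿ)² θ³ ≤ 1`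
    set M := kapj P.p j * (71 * P.K / (bj j * etaj P.p j)) with hM
    have hM0 : 0 < M := by positivity
    have key : (M / bj j ^ n) ^ 2 * θ ^ 3 ≤ 1 := by
      have e1 : S = bj j ^ (P.p / 2 - P.p / 16) := rhoj_mul_tauj j
      have e2 : kapj P.p j = bj j ^ (P.p / 2 - P.p / 16 - (6 + P.p / 32)) := kapj_eq hp j
      have e3 : (M / bj j ^ n) ^ 2 * θ ^ 3 = 40328 * P.K ^ 2 *
          (bj j ^ (2 * (P.p / 2 - P.p / 16 - (6 + P.p / 32)) + 3 * (P.p / 2 - P.p / 16))) /
            bj j ^ (17 + 2 * P.p + 2 * n) := by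
        rw [hM, hθdef, e1, e2, etaj_eq]
        rw [show (17 + 2 * P.p + 2 * n) = 2 + 15 + P.p * 2 + n * 2 by ring,
          pow_add (bj j) (2 + 15 + P.p * 2), pow_mul (bj j) n 2,
          pow_add (bj j) (2 + 15), pow_mul (bj j) P.p 2,
          pow_add (bj j) (2 * (P.p / 2 - P.p / 16 - (6 + P.p / 32))),
          mul_comm 2 (P.p / 2 - P.p / 16 - (6 + P.p / 32)), mul_comm 3 (P.p / 2 - P.p / 16),
          pow_mul (bj j) (P.p / 2 - P.p / 16 - (6 + P.p / 32)) 2,
          pow_mul (bj j) (P.p / 2 - P.p / 16) 3]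
        have hbn : bj j ≠ 0 := hb.ne'
        field_simp
        ring
      rw [e3, div_le_one (by positivity)]
      have e4 : bj j ^ (2 * (P.p / 2 - P.p / 16 - (6 + P.p / 32)) + 3 * (P.p / 2 - P.p / 16)) ≤
          bj j ^ (2 + (17 + 2 * P.p + 2 * n)) := bj_pow_anti j (by omega)
      calc 40328 * P.K ^ 2 * bj j ^ (2 * (P.p / 2 - P.p / 16 - (6 + P.p / 32)) +
            3 * (P.p / 2 - P.p / 16)) ≤
            40328 * P.K ^ 2 * bj j ^ (2 + (17 + 2 * P.p + 2 * n)) := by gcongr
        _ = 40328 * (P.K * bj j) ^ 2 * bj j ^ (17 + 2 * P.p + 2 * n) := by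
            rw [pow_add (bj j) 2]; ring
        _ ≤ 1 * bj j ^ (17 + 2 * P.p + 2 * n) := by
            refine mul_le_mul_of_nonneg_right ?_ (by positivity)
            have h5 : P.K * bj j ≤ 1 / 10 ^ 13 := by
              rw [le_div_iff₀ (by norm_num)]; linarith
            have h6 : (P.K * bj j) ^ 2 ≤ (1 / 10 ^ 13) ^ 2 := by gcongr
            calc 40328 * (P.K * bj j) ^ 2 ≤ 40328 * (1 / 10 ^ 13) ^ 2 := by gcongr
              _ ≤ 1 := by norm_num
        _ = _ := one_mul _
    have h7 : (M / bj j ^ n) * θ ^ (3 / 2 : ℝ) ≤ 1 := by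
      have h8 : ((M / bj j ^ n) * θ ^ (3 / 2 : ℝ)) ^ 2 ≤ 1 := by
        rw [mul_pow]
        have : (θ ^ (3 / 2 : ℝ)) ^ 2 = θ ^ 3 := by
          rw [← Real.rpow_natCast (θ ^ (3 / 2 : ℝ)) 2, ← Real.rpow_mul hθ0.le,
            ← Real.rpow_natCast θ 3]
          norm_num
        rw [this]; exact key
      exact (pow_le_one_iff_of_nonneg (by positivity) (by norm_num)).1 h8
    rw [Real.rpow_neg hθ0.le, ← div_eq_mul_inv, le_div_iff₀ (by positivity)]
    have h9 : M * θ ^ (3 / 2 : ℝ) = bj j ^ n * ((M / bj j ^ n) * θ ^ (3 / 2 : ℝ)) := by field_simp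
    rw [h9]
    calc bj j ^ n * (M / bj j ^ n * θ ^ (3 / 2 : ℝ)) ≤ bj j ^ n * 1 := by gcongr
      _ = bj j ^ n := mul_one _

end Crest.Agent.R68.C
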