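import Crest.Agent.R68.ColdPic
import Crest.Agent.R68.ColdMeas
import Crest.Agent.R68.ColdW3

/-!
# Row 68, PART C (helper475): Lipschitz dependence of the cold component of one sheet on the full
loss rate (C4, per sheet, all times)
-/

set_option autoImplicit false
open MeasureTheory Set Filter
open scoped ENNReal
open Crest.AnalysisR.VecCalc3 Crest.AnalysisR.PDE.Boltzmann

noncomputable section

namespace Crest.Agent.R68.ColdL

open Crest.Agent.R68.A (Meas3 en)
open Crest.Agent.R68.Cold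

variable {P : Par} {j : ℕ}

/-! ### elementary facts on the support -/

theorem Sup_mono {s t : ℝ} {x : P2} {v : R3} (hst : s ≤ t)
    (S : Sup P j s (x - (t - s) • bar v) v) : Sup P j t x v := by
  obtain ⟨σ, h0, h1, h2, h3, h4⟩ := S
  rw [A.flight_pos] at h3 h4
  exact ⟨σ, h0, h1.trans hst, h2, h3, h4⟩

/-- the support is invariant along flights between the birth and `t` -/
theorem Sup_mid {s r t : ℝ} {x : P2} {v : R3} (hsr : s ≤ r)
    (S : Sup P j s (x - (t - s) • bar v) v) : Sup P j r (x - (t - r) • bar v) v := by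
  apply Sup_mono (s := s) hsr
  rw [A.flight_pos]
  exact S

theorem sup_of_gate {s : ℝ} {x : P2} {v : R3} (hs : 0 ≤ s) (hτ : s ≤ tauj P.p j)
    (hZ : Zj P j 1 s x v) (hpos : Pos P j s x) : Sup P j s x v := by
  refine ⟨s, hs, le_rfl, hτ, ?_, ?_⟩
  · rw [sub_self, zero_smul, sub_zero]; exact src_of_Zj hs hZ
  · rw [sub_self, zero_smul, sub_zero]; exact hpos

theorem sup_of_phij (h : ColdPar C0 P) {t : ℝ} (ht : 0 ≤ t) {x : P2} {v : R3}
    (h0 : phij P j t x v ≠ 0) : Sup P j t x v := by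
  obtain ⟨hj, h1, h2, h3⟩ := phij_ne h0
  refine ⟨0, le_rfl, ht, (tauj_pos _ _).le, ?_, ?_⟩
  · rw [sub_zero]; exact src_of_phij h h0
  · rw [sub_zero]
    have hl := lab_zero h (x - t • bar v)
    refine ⟨⟨_, h1, ?_⟩, ?_⟩
    · rw [hl, sub_self, abs_zero, mul_zero]
    · rw [hl, zero_add, Real.sqrt_zero, mul_zero, add_zero]
      have hr : 0 < rr (x - t • bar v).1 := Fuel.rr_pos h1.1
      unfold rr at hr h2
      rw [abs_div, abs_of_pos hr, div_le_iff₀ hr]
      exact h2.le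

theorem phij_flight (P : Par) (j : ℕ) {s t : ℝ} {x : P2} {v : R3} :
    phij P j s (x - (t - s) • bar v) v = phij P j t x v := by
  unfold phij
  rw [A.flight_pos0]

/-! ### damping factors -/

theorem damp_lip {Λ Λ' g : ℝ → P2 → R3 → ℝ≥0∞} (hΛ : Meas3 Λ) {s t : ℝ} {x : P2} {v : R3}
    (hs : 0 ≤ s) {D : ℝ≥0∞}
    (h1 : ∀ r ∈ Ioo s t, Λ' r (x - (t - r) • bar v) v ≤
      Λ r (x - (t - r) • bar v) v + g r (x - (t - r) • bar v) v)
    (h2 : ∫⁻ r in Ioo 0 t, g r (x - (t - r) • bar v) v ≤ D) :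
    damp Λ s t x v ≤ damp Λ' s t x v + D := by
  have h3 : (∫⁻ r in Ioo s t, Λ' r (x - (t - r) • bar v) v) ≤
      (∫⁻ r in Ioo s t, Λ r (x - (t - r) • bar v) v) + D := by
    calc _ ≤ ∫⁻ r in Ioo s t, (Λ r (x - (t - r) • bar v) v + g r (x - (t - r) • bar v) v) :=
          setLIntegral_mono' measurableSet_Ioo h1
      _ = (∫⁻ r in Ioo s t, Λ r (x - (t - r) • bar v) v) +
          ∫⁻ r in Ioo s t, g r (x - (t - r) • bar v) v :=
          lintegral_add_left (A.measurable_flight hΛ t x v) _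
      _ ≤ _ := by
          refine add_le_add le_rfl (le_trans (lintegral_mono_set ?_) h2)
          exact Ioo_subset_Ioo_left hs
  unfold damp
  refine (A.en_le_of_le_add h3).trans (add_le_add le_rfl ?_)
  exact mul_le_of_le_one_right' (A.en_le_one _)

/-! ### the majorant of one sheet -/

/-- relative size of the cold particles born in collisions up to time `t` -/
def kapt (P : Par) (j : ℕ) (t : ℝ) : ℝ := bj j ^ (4 + P.p / 32) / 100 * kapj P.p j * min t 1

open scoped Classical in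
/-- sharp majorant of the differences of one sheet -/
def Wj (P : Par) (j : ℕ) (t : ℝ) (x : P2) (v : R3) : ℝ≥0∞ :=
  phij P j t x v + if Sup P j t x v then ENNReal.ofReal (3 * kapt P j t) * Mj P j t x v else 0

/-- twice the Gaussian -/
def M2 (P : Par) (j : ℕ) (t : ℝ) (x : P2) (v : R3) : ℝ≥0∞ := 2 * Mj P j t x v

/-- the facts on the Picard iterates of one sheet (helper906, ColdPic) -/
structure Pic (P : Par) (j : ℕ) : Prop where
  gain : ∀ t x v, 0 ≤ t → Duh (gainj P j (M2 P j)) t x v ≤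
    ENNReal.ofReal (kapt P j t) * Mj P j t x v
  le : ∀ Λ : ℝ → P2 → R3 → ℝ≥0∞, Meas3 Λ → ∀ n t x v, 0 ≤ t → itj P j Λ n t x v ≤ M2 P j t x v
  sup : ∀ Λ : ℝ → P2 → R3 → ℝ≥0∞, Meas3 Λ → ∀ n t x v, 0 ≤ t → itj P j Λ n t x v ≠ 0 →
    Sup P j t x v

theorem pic (h : ColdPar C0 P) : Pic P j where
  gain t x v ht := by
    refine (gain_Mj_le h ht x v).trans (mul_le_mul' (ENNReal.ofReal_le_ofReal ?_) le_rfl)
    rw [epsj_eq]
    unfold kapt
    have h1 := bj_pos j
    have h2 := ColdW.kapj_pos P.p j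
    have h3 : 0 ≤ min t 1 := le_min ht zero_le_one
    have h4 : 0 ≤ kapj P.p j * bj j ^ (4 + P.p / 32) * min t 1 := by positivity
    nlinarith
  le Λ _ n t x v ht := (itj_le_two h Λ n ht x v).2
  sup Λ _ n t x v ht h0 := itj_sup h Λ n ht h0

theorem kapj_le_one (h : ColdPar C0 P) : kapj P.p j ≤ 1 :=
  (ColdW.kapj_le h.p j).trans (pow_le_one₀ (bj_pos j).le (bj_le_one j))

theorem kapj_pos (p j : ℕ) : 0 < kapj p j := ColdW.kapj_pos p j

theorem kapt_le {t : ℝ} (ht : 0 ≤ t) : 3 * kapt P j t ≤ min t 1 * kapj P.p j := by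
  have h1 : bj j ^ (4 + P.p / 32) ≤ 1 := pow_le_one₀ (bj_pos j).le (bj_le_one j)
  have h2 := (kapj_pos P.p j).le
  have h3 : 0 ≤ min t 1 := le_min ht zero_le_one
  have h4 : 0 ≤ bj j ^ (4 + P.p / 32) := pow_nonneg (bj_pos j).le _
  unfold kapt
  have h5 : 0 ≤ kapj P.p j * min t 1 := mul_nonneg h2 h3
  nlinarith

theorem kapt_le_one (h : ColdPar C0 P) {t : ℝ} (ht : 0 ≤ t) : 3 * kapt P j t ≤ 1 := by
  refine (kapt_le ht).trans ?_
  exact mul_le_one₀ (min_le_right _ _) (kapj_pos _ _).le (kapj_le_one h)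

theorem Wj_le_M2 (h : ColdPar C0 P) {t : ℝ} (ht : 0 ≤ t) (x : P2) (v : R3) :
    Wj P j t x v ≤ M2 P j t x v := by
  unfold Wj M2
  rw [two_mul]
  refine add_le_add (phij_le_Mj h ht x v) ?_
  split_ifs
  · refine mul_le_of_le_one_left' ?_
    rw [← ENNReal.ofReal_one]
    exact ENNReal.ofReal_le_ofReal (kapt_le_one h ht)
  · exact bot_le

theorem Wj_le (h : ColdPar C0 P) {t : ℝ} (ht : 0 ≤ t) (x : P2) (v : R3) :
    Wj P j t x v ≤ phij P j t x v + ENNReal.ofReal (min t 1) * warmj P j t x v := by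
  unfold Wj
  refine add_le_add le_rfl ?_
  split_ifs with hS
  · have hz := hS.tight h
    unfold warmj
    rw [if_pos hz, ← mul_assoc, ← ENNReal.ofReal_mul (le_min ht zero_le_one)]
    exact mul_le_mul' (ENNReal.ofReal_le_ofReal (kapt_le ht)) (Mj_le_gaussj h t x v)
  · exact bot_le

theorem Mj_ne_zero (h : ColdPar C0 P) (t : ℝ) (x : P2) (v : R3) : Mj P j t x v ≠ 0 := by
  rw [Mj_eq]
  have h1 := h.K
  have h2 := bj_pos j
  have h3 := Cold.etaj_pos P.p j
  exact (ENNReal.ofReal_pos.2 (by positivity)).ne'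

theorem Wj_ne_zero (h : ColdPar C0 P) {t : ℝ} (ht : 0 < t) {x : P2} {v : R3}
    (hS : Sup P j t x v) : Wj P j t x v ≠ 0 := by
  unfold Wj
  rw [if_pos hS]
  intro h0
  rw [add_eq_zero] at h0
  have h1 : 0 < 3 * kapt P j t := by
    unfold kapt
    have h2 := bj_pos j
    have h3 := kapj_pos P.p j
    have h4 : 0 < min t 1 := lt_min ht one_pos
    positivity
  have h2 := h0.2
  rw [mul_eq_zero] at h2
  rcases h2 with h2 | h2
  · rw [ENNReal.ofReal_eq_zero] at h2; linarith
  · exact Mj_ne_zero h t x v h2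



/-! ### the iterates -/

open scoped Classical in
/-- the two gain terms at a birth time -/
theorem gain_diff {c c' : R3 → ℝ≥0∞} {m : R3 → ℝ≥0∞} {v : R3} {D : ℝ≥0∞} (hD : D ≠ ⊤)
    (hc : Measurable c) (hc' : Measurable c') (h1 : ∀ w, c w ≤ m w)
    (h2 : ∀ w, c' w ≤ m w) (h3 : ∀ w, c w ≤ c' w + D * m w) :
    Qp c c v ≤ Qp c' c' v + 2 * D * Qp m m v := by
  have s1 : Qp c c v ≤ Qp c' c v + D * Qp m m v := by
    calc Qp c c v ≤ Qp (fun w => c' w + D * m w) c v := A.Qp_mono h3 (fun _ => le_rfl) _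
      _ = Qp c' c v + D * Qp m c v := by
          rw [A.Qp_add_left hc' hc, A.Qp_const_mul_left hD]
      _ ≤ _ := by
          gcongr
          exact A.Qp_mono (fun _ => le_rfl) h1 _
  have s2 : Qp c' c v ≤ Qp c' c' v + D * Qp m m v := by
    calc Qp c' c v ≤ Qp c' (fun w => c' w + D * m w) v := A.Qp_mono (fun _ => le_rfl) h3 _
      _ = Qp c' c' v + D * Qp c' m v := by
          rw [A.Qp_add_right hc' hc', A.Qp_const_mul_right hD]
      _ ≤ _ := by
          gcongr
          exact A.Qp_mono h2 (fun _ => le_rfl) _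
  calc Qp c c v ≤ Qp c' c' v + D * Qp m m v + D * Qp m m v := s1.trans (add_le_add_left s2 _)
    _ = _ := by ring

/-- **(C4) for the Picard iterates of one sheet** (one direction) -/
theorem itj_le_add (h : ColdPar C0 P) {Λ Λ' g : ℝ → P2 → R3 → ℝ≥0∞}
    (hΛ : Meas3 Λ) (hΛ' : Meas3 Λ') {Δ : ℝ → P2 → ℝ≥0∞} {T : ℝ}
    (h1 : ∀ s y v, 0 < s → s < T → Sup P j s y v → Λ' s y v ≤ Λ s y v + g s y v)
    (h2 : ∀ t x v, 0 < t → t ≤ T → Sup P j t x v →
      ∫⁻ s in Ioo 0 t, g s (x - (t - s) • bar v) v ≤ Δ t x)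
    (h3 : ∀ s t x v, 0 < s → s ≤ t → t ≤ T → Sup P j s (x - (t - s) • bar v) v →
      Δ s (x - (t - s) • bar v) ≤ Δ t x) (n : ℕ) :
    ∀ t x v, 0 ≤ t → t ≤ T →
      itj P j Λ n t x v ≤ itj P j Λ' n t x v + Δ t x * Wj P j t x v := by
  classical
  have F : Pic P j := pic h
  induction n with
  | zero => intro t x v _ _; exact bot_le
  | succ n ih =>
    intro t x v ht htT
    rcases ht.eq_or_lt with h0 | h0
    · subst h0
      refine le_trans (le_of_eq ?_) le_self_add
      show phij P j 0 x v * damp Λ 0 0 x v + DuhD Λ (gainj P j (itj P j Λ n)) 0 x v =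
        phij P j 0 x v * damp Λ' 0 0 x v + DuhD Λ' (gainj P j (itj P j Λ' n)) 0 x v
      unfold damp DuhD
      simp
    by_cases hz : itj P j Λ (n + 1) t x v = 0
    · rw [hz]; exact bot_le
    have hS : Sup P j t x v := F.sup Λ hΛ (n + 1) t x v ht hz
    by_cases hΔ : Δ t x = ⊤
    · rw [hΔ, ENNReal.top_mul (Wj_ne_zero h h0 hS), add_top]
      exact le_top
    -- the fuel part
    have hph : phij P j t x v * damp Λ 0 t x v ≤
        phij P j t x v * damp Λ' 0 t x v + Δ t x * phij P j t x v := by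
      by_cases hp0 : phij P j t x v = 0
      · rw [hp0]; simp
      have hd : damp Λ 0 t x v ≤ damp Λ' 0 t x v + Δ t x := by
        refine damp_lip (g := g) hΛ le_rfl (fun r hr => ?_) (h2 t x v h0 htT hS)
        refine h1 r _ v hr.1 (hr.2.trans_le htT) ?_
        apply sup_of_phij h hr.1.le
        rw [phij_flight]; exact hp0
      calc phij P j t x v * damp Λ 0 t x v ≤ phij P j t x v * (damp Λ' 0 t x v + Δ t x) := by gcongr
        _ = _ := by ring
    -- the births
    have hb : ∀ s ∈ Ioo 0 t, damp Λ s t x v * gainj P j (itj P j Λ n) s (x - (t - s) • bar v) v ≤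
        damp Λ' s t x v * gainj P j (itj P j Λ' n) s (x - (t - s) • bar v) v +
          3 * Δ t x * gainj P j (M2 P j) s (x - (t - s) • bar v) v := by
      intro s hs
      set y := x - (t - s) • bar v with hy
      unfold gainj
      by_cases hG : s ≤ tauj P.p j ∧ Zj P j 1 s y v
      swap
      · rw [if_neg hG, mul_zero]; exact bot_le
      rw [if_pos hG, if_pos hG, if_pos hG]
      by_cases hQ : Qp (itj P j Λ n s y) (itj P j Λ n s y) v = 0
      · rw [hQ, mul_zero]; exact bot_le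
      obtain ⟨w, hw⟩ := exists_ne_of_Qp_ne hQ
      have hSy : Sup P j s y v :=
        sup_of_gate hs.1.le hG.1 hG.2 ((F.sup Λ hΛ n s y w hs.1.le hw).pos h)
      have hDs : Δ s y ≤ Δ t x := h3 s t x v hs.1 hs.2.le htT hSy
      have hDs' : Δ s y ≠ ⊤ := ne_top_of_le_ne_top hΔ hDs
      have hd : damp Λ s t x v ≤ damp Λ' s t x v + Δ t x := by
        refine damp_lip (g := g) hΛ hs.1.le (fun r hr => ?_) (h2 t x v h0 htT hS)
        exact h1 r _ v (hs.1.trans hr.1) (hr.2.trans_le htT) (Sup_mid hr.1.le hSy)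
      have hq := gain_diff (v := v) (D := Δ s y) hDs'
        ((ColdM.meas3_itj P j hΛ n).slice s y) ((ColdM.meas3_itj P j hΛ' n).slice s y)
        (fun w => F.le Λ hΛ n s y w hs.1.le)
        (fun w => F.le Λ' hΛ' n s y w hs.1.le) (fun w =>
          (ih s y w hs.1.le (hs.2.le.trans htT)).trans
            (add_le_add le_rfl (mul_le_mul_right (Wj_le_M2 h hs.1.le y w) _)))
      set Q := Qp (itj P j Λ n s y) (itj P j Λ n s y) v
      set Q' := Qp (itj P j Λ' n s y) (itj P j Λ' n s y) v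
      set QM := Qp (M2 P j s y) (M2 P j s y) v
      have hQM : Q ≤ QM := A.Qp_mono (fun w => F.le Λ hΛ n s y w hs.1.le)
        (fun w => F.le Λ hΛ n s y w hs.1.le) v
      have hd1 := damp_le_one Λ' s t x v
      calc damp Λ s t x v * Q ≤ (damp Λ' s t x v + Δ t x) * Q := by gcongr
        _ = damp Λ' s t x v * Q + Δ t x * Q := by ring
        _ ≤ damp Λ' s t x v * (Q' + 2 * Δ s y * QM) + Δ t x * QM := by gcongr
        _ = damp Λ' s t x v * Q' + damp Λ' s t x v * (2 * Δ s y * QM) + Δ t x * QM := by ring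
        _ ≤ damp Λ' s t x v * Q' + 1 * (2 * Δ t x * QM) + Δ t x * QM := by gcongr
        _ = _ := by ring
    have hbirth : DuhD Λ (gainj P j (itj P j Λ n)) t x v ≤
        DuhD Λ' (gainj P j (itj P j Λ' n)) t x v +
          3 * Δ t x * (ENNReal.ofReal (kapt P j t) * Mj P j t x v) := by
      unfold DuhD
      have hm : Measurable fun s : ℝ => damp Λ' s t x v *
          gainj P j (itj P j Λ' n) s (x - (t - s) • bar v) v := by
        refine Measurable.mul ?_ ?_
        · exact ColdM.meas3_damp hΛ' measurable_id measurable_const measurable_const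
            measurable_const
        · exact A.measurable_flight (ColdM.meas3_gainj P j (ColdM.meas3_itj P j hΛ' n)) t x v
      calc _ ≤ ∫⁻ s in Ioo 0 t, (damp Λ' s t x v *
            gainj P j (itj P j Λ' n) s (x - (t - s) • bar v) v +
            3 * Δ t x * gainj P j (M2 P j) s (x - (t - s) • bar v) v) :=
            setLIntegral_mono' measurableSet_Ioo hb
        _ = (∫⁻ s in Ioo 0 t, damp Λ' s t x v *
            gainj P j (itj P j Λ' n) s (x - (t - s) • bar v) v) +
            3 * Δ t x * Duh (gainj P j (M2 P j)) t x v := by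
            rw [lintegral_add_left hm,
              lintegral_const_mul' _ _ (ENNReal.mul_ne_top (by norm_num) hΔ)]
            rfl
        _ ≤ _ := by gcongr; exact F.gain t x v ht
    show phij P j t x v * damp Λ 0 t x v + DuhD Λ (gainj P j (itj P j Λ n)) t x v ≤
      phij P j t x v * damp Λ' 0 t x v + DuhD Λ' (gainj P j (itj P j Λ' n)) t x v +
        Δ t x * Wj P j t x v
    have hW : Δ t x * Wj P j t x v = Δ t x * phij P j t x v +
        3 * Δ t x * (ENNReal.ofReal (kapt P j t) * Mj P j t x v) := by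
      unfold Wj
      rw [if_pos hS, ENNReal.ofReal_mul (p := 3) (by norm_num),
        show ENNReal.ofReal 3 = (3 : ℝ≥0∞) by simp]
      ring
    calc _ ≤ (phij P j t x v * damp Λ' 0 t x v + Δ t x * phij P j t x v) +
          (DuhD Λ' (gainj P j (itj P j Λ' n)) t x v +
            3 * Δ t x * (ENNReal.ofReal (kapt P j t) * Mj P j t x v)) := add_le_add hph hbirth
      _ = _ := by rw [hW]; ring

/-- **(C4) for one sheet** (one direction) -/
theorem coldj_le_add (h : ColdPar C0 P) {Λ Λ' g : ℝ → P2 → R3 → ℝ≥0∞}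
    (hΛ : Meas3 Λ) (hΛ' : Meas3 Λ') {Δ : ℝ → P2 → ℝ≥0∞} {T : ℝ}
    (h1 : ∀ s y v, 0 < s → s < T → Sup P j s y v → Λ' s y v ≤ Λ s y v + g s y v)
    (h2 : ∀ t x v, 0 < t → t ≤ T → Sup P j t x v →
      ∫⁻ s in Ioo 0 t, g s (x - (t - s) • bar v) v ≤ Δ t x)
    (h3 : ∀ s t x v, 0 < s → s ≤ t → t ≤ T → Sup P j s (x - (t - s) • bar v) v →
      Δ s (x - (t - s) • bar v) ≤ Δ t x) {t : ℝ} (ht : 0 ≤ t) (htT : t ≤ T) (x : P2) (v : R3) :
    coldj P j Λ t x v ≤ coldj P j Λ' t x v + Δ t x * Wj P j t x v := by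
  unfold coldj
  refine iSup_le fun n => ?_
  refine (itj_le_add h hΛ hΛ' h1 h2 h3 n t x v ht htT).trans ?_
  exact add_le_add (le_iSup (fun n => itj P j Λ' n t x v) n) le_rfl

/-- **(J2)** time dependent comparison of the rates on the support of the sheet (factor `1`) -/
theorem coldj_le_add_time (h : ColdPar C0 P) {Λ Λ' : ℝ → P2 → R3 → ℝ≥0∞}
    (hΛ : Meas3 Λ) (hΛ' : Meas3 Λ') {m : ℝ → ℝ≥0∞} {T : ℝ}
    (h1 : ∀ s y v, 0 < s → s < T → Sup P j s y v → Λ' s y v ≤ Λ s y v + m s) {t : ℝ}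
    (ht : 0 ≤ t) (htT : t ≤ T) (x : P2) (v : R3) :
    coldj P j Λ t x v ≤ coldj P j Λ' t x v + (∫⁻ s in Ioo 0 t, m s) *
      (phij P j t x v + ENNReal.ofReal (min t 1) * warmj P j t x v) := by
  refine (coldj_le_add h (g := fun s _ _ => m s) (Δ := fun t _ => ∫⁻ s in Ioo 0 t, m s) hΛ hΛ'
    h1 (fun _ _ _ _ _ _ => le_rfl) (fun s t x v hs hst _ _ => ?_) ht htT x v).trans ?_
  · exact lintegral_mono_set (Ioo_subset_Ioo_right hst)
  · exact add_le_add le_rfl (mul_le_mul_right (Wj_le h ht x v) _)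

/-- **(J2)** in the form used for the coupled system: both directions, tight zone, factor `2` -/
theorem coldj_lip_time (h : ColdPar C0 P) {Λ Λ' : ℝ → P2 → R3 → ℝ≥0∞}
    (hΛ : Meas3 Λ) (hΛ' : Meas3 Λ') {m : ℝ → ℝ≥0∞} {T : ℝ}
    (h1 : ∀ s y v, 0 < s → s < T → Ztj P j s y v →
      Λ s y v ≤ Λ' s y v + m s ∧ Λ' s y v ≤ Λ s y v + m s) {t : ℝ}
    (ht : 0 ≤ t) (htT : t ≤ T) (x : P2) (v : R3) :
    coldj P j Λ t x v ≤ coldj P j Λ' t x v + 2 * (∫⁻ s in Ioo 0 t, m s) *
      (phij P j t x v + ENNReal.ofReal (min t 1) * warmj P j t x v) := by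
  refine (coldj_le_add_time h hΛ hΛ' (m := m) (fun s y v hs hsT hS =>
    (h1 s y v hs hsT (hS.tight h)).2) ht htT x v).trans ?_
  refine add_le_add le_rfl (mul_le_mul_left ?_ _)
  exact le_mul_of_one_le_left' (by norm_num)

end Crest.Agent.R68.ColdL
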