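import Crest.Agent.R68.A1

/-!
# Row 68, PART C (cold component): definitions (helper906)

`A.en a = e^{-a}` (810). `coldR P lam` is the cold component for an external loss rate `lam`; one (lane, image) at a time,
damped by the full rate `Λ = Lc (coldR P lam) + lam`.  For a hot component `H` the rate is
`lam = fun t x v => Lc (H t x) v`.
-/

set_option autoImplicit false
open MeasureTheory Set Filter
open scoped ENNReal
open Crest.AnalysisR.VecCalc3 Crest.AnalysisR.PDE.Boltzmann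

noncomputable section

namespace Crest.Agent.R68

/-- damping factor of the rate `Λ` from time `s` to time `t` along the flight ending in
`(t,x,v)` -/
def damp (Λ : ℝ → P2 → R3 → ℝ≥0∞) (s t : ℝ) (x : P2) (v : R3) : ℝ≥0∞ :=
  A.en (∫⁻ r in Ioo s t, Λ r (x - (t - r) • bar v) v)

/-- damped Duhamel integral -/
def DuhD (Λ q : ℝ → P2 → R3 → ℝ≥0∞) (t : ℝ) (x : P2) (v : R3) : ℝ≥0∞ :=
  ∫⁻ s in Ioo 0 t, damp Λ s t x v * q s (x - (t - s) • bar v) v

/-- free flow of the fuel of lane `j` (one image) -/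
def phij (P : Par) (j : ℕ) (t : ℝ) (x : P2) (v : R3) : ℝ≥0∞ :=
  ENNReal.ofReal (if P.j0 ≤ j then phi0j P j (x - t • bar v) v else 0)

/-- basic scale of lane `j`: `r = a² ≈ b_j`, `η_j = b_j ^ p` -/
def bj (j : ℕ) : ℝ := 1 / (2 * (j : ℝ) + 1)

/-- velocity cut of lane `j` (`≈ √η_j`) -/
def rhoj (p j : ℕ) : ℝ := bj j ^ (p / 2)

/-- last time of cold births in lane `j` (`≈ η_j ^ (-1/16)`) -/
def tauj (p j : ℕ) : ℝ := (2 * (j : ℝ) + 1) ^ (p / 16)

/-- relative size of the cold particles born in collisions (`≈ η_j ^ (13/32)`) -/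
def kapj (p j : ℕ) : ℝ := rhoj p j * tauj p j / bj j ^ (6 + p / 32)

/-- tight zone of lane `j` (one image): it contains the support of the cold particles -/
def Ztj (P : Par) (j : ℕ) (t : ℝ) (x : P2) (v : R3) : Prop :=
  P.j0 ≤ j ∧ (∃ a ∈ lane j, |lab P t x - a| ≤ rhoj P.p j * tauj P.p j / bj j) ∧
    |x.2| ≤ (P.Y + rhoj P.p j * tauj P.p j / bj j ^ 2) * (t + rr (lab P t x)) ∧
    ‖v - uvec P (wj j) t x‖ < 2 * rhoj P.p j

/-- zone of lane `j` (one image): label in the enlarged lane, `|y| < 2Y`, peculiar velocity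
`< θ ρ_j` -/
def Zj (P : Par) (j : ℕ) (θ : ℝ) (t : ℝ) (x : P2) (v : R3) : Prop :=
  P.j0 ≤ j ∧ lab P t x ∈ laneE j ∧ |x.2| < 2 * P.Y * (t + rr (lab P t x)) ∧
    ‖v - uvec P (wj j) t x‖ < θ * rhoj P.p j

open scoped Classical in
/-- births of lane `j` counted in the cold component -/
def gainj (P : Par) (j : ℕ) (c : ℝ → P2 → R3 → ℝ≥0∞) (t : ℝ) (x : P2) (v : R3) : ℝ≥0∞ :=
  if t ≤ tauj P.p j ∧ Zj P j 1 t x v then Qp (c t x) (c t x) v else 0

/-- Picard iterates of lane `j` for the full loss rate `Λ` (increasing in `n`) -/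
def itj (P : Par) (j : ℕ) (Λ : ℝ → P2 → R3 → ℝ≥0∞) : ℕ → ℝ → P2 → R3 → ℝ≥0∞
  | 0 => fun _ _ _ => 0
  | n + 1 => fun t x v =>
      phij P j t x v * damp Λ 0 t x v + DuhD Λ (gainj P j (itj P j Λ n)) t x v

/-- cold component of lane `j` (one image) for the full loss rate `Λ` -/
def coldj (P : Par) (j : ℕ) (Λ : ℝ → P2 → R3 → ℝ≥0∞) (t : ℝ) (x : P2) (v : R3) : ℝ≥0∞ :=
  ⨆ n, itj P j Λ n t x v

/-- total (periodic) cold component for the full loss rate `Λ` -/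
def coldL (P : Par) (Λ : ℝ → P2 → R3 → ℝ≥0∞) (t : ℝ) (x : P2) (v : R3) : ℝ≥0∞ :=
  ∑' k : ℤ × ℤ, ∑' j : ℕ, coldj P j Λ t (x + latt k) v

/-- iterates of `c ↦ coldL P (Lc c + lam)` -/
def itc (P : Par) (lam : ℝ → P2 → R3 → ℝ≥0∞) : ℕ → ℝ → P2 → R3 → ℝ≥0∞
  | 0 => fun _ _ _ => 0
  | n + 1 => coldL P (fun t x v => Lc (itc P lam n t x) v + lam t x v)

/-- THE COLD COMPONENT for the external loss rate `lam` -/
def coldR (P : Par) (lam : ℝ → P2 → R3 → ℝ≥0∞) (t : ℝ) (x : P2) (v : R3) : ℝ≥0∞ :=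
  limsup (fun n => itc P lam n t x v) atTop

/-- full loss rate -/
def rateC (P : Par) (lam : ℝ → P2 → R3 → ℝ≥0∞) (t : ℝ) (x : P2) (v : R3) : ℝ≥0∞ :=
  Lc (coldR P lam t x) v + lam t x v

/-- image `k` of lane `j` of the cold component -/
def coldjk (P : Par) (lam : ℝ → P2 → R3 → ℝ≥0∞) (i : (ℤ × ℤ) × ℕ) (t : ℝ) (x : P2) (v : R3) :
    ℝ≥0∞ :=
  coldj P i.2 (rateC P lam) t (x + latt i.1) v

open scoped Classical in
/-- collisions counted in the cold component -/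
def coldGain (P : Par) (lam : ℝ → P2 → R3 → ℝ≥0∞) (t : ℝ) (x : P2) (v : R3) : ℝ≥0∞ :=
  ∑' i : (ℤ × ℤ) × ℕ, if t ≤ tauj P.p i.2 ∧ Zj P i.2 1 t (x + latt i.1) v then
    Qp (coldjk P lam i t x) (coldjk P lam i t x) v else 0

open scoped Classical in
/-- cold-cold collisions whose products are hot -/
def coldSpill (P : Par) (lam : ℝ → P2 → R3 → ℝ≥0∞) (t : ℝ) (x : P2) (v : R3) : ℝ≥0∞ :=
  ∑' i : (ℤ × ℤ) × ℕ, ∑' i' : (ℤ × ℤ) × ℕ,
    if i = i' ∧ t ≤ tauj P.p i.2 ∧ Zj P i.2 1 t (x + latt i.1) v then 0 else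
      Qp (coldjk P lam i t x) (coldjk P lam i' t x) v

/-- Gaussian majorant of lane `j` (one image) -/
def gaussj (P : Par) (j : ℕ) (t : ℝ) (x : P2) (v : R3) : ℝ≥0∞ :=
  ENNReal.ofReal (P.K / (bj j * etaj P.p j ^ 3) *
      Real.exp (-‖v - uvec P (wj j) t x‖ ^ 2 / (4 * etaj P.p j ^ 2)))

open scoped Classical in
/-- majorant of the cold particles born in collisions, lane `j`, one image -/
def warmj (P : Par) (j : ℕ) (t : ℝ) (x : P2) (v : R3) : ℝ≥0∞ :=
  if Ztj P j t x v then ENNReal.ofReal (kapj P.p j) * gaussj P j t x v else 0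

/-- collisionless fuel as an extended number -/
def phiE (P : Par) (t : ℝ) (x : P2) (v : R3) : ℝ≥0∞ := ENNReal.ofReal (phi P t x v)

/-- majorant of all cold particles born in collisions -/
def warm (P : Par) (t : ℝ) (x : P2) (v : R3) : ℝ≥0∞ :=
  ∑' k : ℤ × ℤ, ∑' j : ℕ, warmj P j t (x + latt k) v

/-- majorant of the cold component -/
def coldS (P : Par) (t : ℝ) (x : P2) (v : R3) : ℝ≥0∞ := phiE P t x v + warm P t x v

/-- parameters admissible for part C -/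
structure ColdPar (C : ℝ) (P : Par) : Prop where
  K : 1 ≤ P.K
  Y : 1 ≤ P.Y
  p : 512 ≤ P.p
  c : P.dl ≤ P.c
  c1 : P.c ≤ 1
  j0 : C * (P.K + P.Y) ^ 8 ≤ P.j0

end Crest.Agent.R68
end
private theorem rz_ff1166fc56 : type_of% @_root_.Crest.Agent.R68.itc.eq_def := @_root_.Crest.Agent.R68.itc.eq_def -- L77
private theorem rz_c09421b085 : type_of% @_root_.Crest.Agent.R68.itc.eq_1 := @_root_.Crest.Agent.R68.itc.eq_1 -- L77
private theorem rz_cf41ae3fa6 : type_of% @_root_.Crest.Agent.R68.itj.eq_def := @_root_.Crest.Agent.R68.itj.eq_def -- L63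
private theorem rz_152efff74c : type_of% @_root_.Crest.Agent.R68.itj.eq_1 := @_root_.Crest.Agent.R68.itj.eq_1 -- L63
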