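import Mathlib
import Crest.Agent.R68.Defs

-- ▼ part R68/FLat
section

set_option autoImplicit false

namespace Crest.Agent.R68.FLat

open Real

/-- the normalising constant `√(1+φ²)`. -/
noncomputable def s : ℝ := √(1 + goldenRatio ^ 2)

lemma s_pos : 0 < s := Real.sqrt_pos.2 (by positivity)

lemma s_sq : s ^ 2 = 1 + goldenRatio ^ 2 := Real.sq_sqrt (by positivity)

/-- first (transversal) coordinate of the lattice point `k`. -/
noncomputable def γ1 (k : ℤ × ℤ) : ℝ := (goldenRatio * k.1 - k.2) / s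

/-- second (longitudinal) coordinate of the lattice point `k`. -/
noncomputable def γ2 (k : ℤ × ℤ) : ℝ := (k.1 + goldenRatio * k.2) / s

@[simp] lemma γ1_zero : γ1 0 = 0 := by simp [γ1]
@[simp] lemma γ2_zero : γ2 0 = 0 := by simp [γ2]

lemma γ1_add (k l : ℤ × ℤ) : γ1 (k + l) = γ1 k + γ1 l := by
  simp only [γ1, Prod.fst_add, Prod.snd_add, Int.cast_add]; ring

lemma γ2_add (k l : ℤ × ℤ) : γ2 (k + l) = γ2 k + γ2 l := by
  simp only [γ2, Prod.fst_add, Prod.snd_add, Int.cast_add]; ring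

lemma γ1_neg (k : ℤ × ℤ) : γ1 (-k) = -γ1 k := by
  simp only [γ1, Prod.fst_neg, Prod.snd_neg, Int.cast_neg]; ring

lemma γ2_neg (k : ℤ × ℤ) : γ2 (-k) = -γ2 k := by
  simp only [γ2, Prod.fst_neg, Prod.snd_neg, Int.cast_neg]; ring



/-- the frame change is an isometry. -/
lemma γ_sq (k : ℤ × ℤ) : γ1 k ^ 2 + γ2 k ^ 2 = (k.1 : ℝ) ^ 2 + (k.2 : ℝ) ^ 2 := by
  have hs := s_sq
  have hs0 : s ^ 2 ≠ 0 := by rw [hs]; positivity
  unfold γ1 γ2
  rw [div_pow, div_pow, ← add_div, div_eq_iff hs0, hs]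
  ring

/-- integers: `m² + m n - n² ≠ 0` unless both vanish. -/
lemma form_ne_zero {m n : ℤ} (h : (m, n) ≠ (0, 0)) : m ^ 2 + m * n - n ^ 2 ≠ 0 := by
  intro h0
  have hR : ((m : ℝ)) ^ 2 + m * n - (n : ℝ) ^ 2 = 0 := by exact_mod_cast h0
  have hf : (goldenRatio * m - n) * (goldenConj * m - n) = 0 := by
    have h1 := goldenRatio_mul_goldenConj
    have h2 := goldenRatio_add_goldenConj
    have : (goldenRatio * m - n) * (goldenConj * m - n)
        = (goldenRatio * goldenConj) * m ^ 2 - (goldenRatio + goldenConj) * m * n + (n : ℝ) ^ 2 := by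
      ring
    rw [this, h1, h2]; linarith
  have key : ∀ (x : ℝ), Irrational x → x * m - n = 0 → (m, n) = (0, 0) := by
    intro x hx hxe
    by_cases hm : m = 0
    · subst hm
      simp only [Int.cast_zero, mul_zero, zero_sub, neg_eq_zero, Int.cast_eq_zero] at hxe
      rw [hxe]
    · exfalso
      have hmR : (m : ℝ) ≠ 0 := by exact_mod_cast hm
      apply hx
      refine ⟨(n : ℚ) / m, ?_⟩
      push_cast
      rw [div_eq_iff hmR]; linarith
  rcases mul_eq_zero.1 hf with h1 | h1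
  · exact h (key _ goldenRatio_irrational h1)
  · exact h (key _ goldenConj_irrational h1)

lemma one_le_form {m n : ℤ} (h : (m, n) ≠ (0, 0)) :
    1 ≤ |(goldenRatio * m - n) * (goldenConj * m - n)| := by
  have h1 := goldenRatio_mul_goldenConj
  have h2 := goldenRatio_add_goldenConj
  have e : (goldenRatio * m - n) * (goldenConj * m - n)
      = -(((m ^ 2 + m * n - n ^ 2 : ℤ)) : ℝ) := by
    have : (goldenRatio * m - n) * (goldenConj * m - n)
        = (goldenRatio * goldenConj) * m ^ 2 - (goldenRatio + goldenConj) * m * n + (n : ℝ) ^ 2 := by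
      ring
    rw [this, h1, h2]; push_cast; ring
  rw [e, abs_neg]
  have := Int.one_le_abs (form_ne_zero h)
  exact_mod_cast this

/-- bad approximability: `1 ≤ √5 |γ1 k| |k|`. -/
lemma one_le_γ1_mul {k : ℤ × ℤ} (hk : k ≠ 0) :
    1 ≤ √5 * |γ1 k| * √((k.1 : ℝ) ^ 2 + (k.2 : ℝ) ^ 2) := by
  obtain ⟨m, n⟩ := k
  have h : (m, n) ≠ (0, 0) := hk
  have h1 := one_le_form h
  rw [abs_mul] at h1
  have hs := s_pos
  have e1 : |goldenRatio * m - n| = s * |γ1 (m, n)| := by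
    simp only [γ1]
    rw [abs_div, abs_of_pos hs]; field_simp
  have e2 : |goldenConj * m - n| ≤ √(1 + goldenConj ^ 2) * √((m : ℝ) ^ 2 + (n : ℝ) ^ 2) := by
    rw [← Real.sqrt_mul (by positivity)]
    apply Real.abs_le_sqrt
    nlinarith [sq_nonneg (goldenConj * n + m)]
  have e3 : s * √(1 + goldenConj ^ 2) = √5 := by
    unfold s
    rw [← Real.sqrt_mul (by positivity)]
    congr 1
    have h3 := goldenRatio_sq
    have h4 := goldenConj_sq
    have h5 := goldenRatio_mul_goldenConj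
    have h6 := goldenRatio_add_goldenConj
    have : (1 + goldenRatio ^ 2) * (1 + goldenConj ^ 2)
        = 1 + goldenRatio ^ 2 + goldenConj ^ 2 + (goldenRatio * goldenConj) ^ 2 := by ring
    rw [this, h3, h4, h5]; linarith
  calc (1 : ℝ) ≤ |goldenRatio * m - n| * |goldenConj * m - n| := h1
    _ ≤ (s * |γ1 (m, n)|) * (√(1 + goldenConj ^ 2) * √((m : ℝ) ^ 2 + (n : ℝ) ^ 2)) := by
        rw [e1]; exact mul_le_mul_of_nonneg_left e2 (by positivity)
    _ = (s * √(1 + goldenConj ^ 2)) * |γ1 (m, n)| * √((m : ℝ) ^ 2 + (n : ℝ) ^ 2) := by ring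
    _ = √5 * |γ1 (m, n)| * √((m : ℝ) ^ 2 + (n : ℝ) ^ 2) := by rw [e3]


/-- nonzero lattice points have norm at least one. -/
lemma one_le_norm_sq {k : ℤ × ℤ} (hk : k ≠ 0) : 1 ≤ γ1 k ^ 2 + γ2 k ^ 2 := by
  rw [γ_sq]
  obtain ⟨m, n⟩ := k
  have h : ¬ (m = 0 ∧ n = 0) := fun h => hk (by simp [h.1, h.2])
  have h1 : 1 ≤ m ^ 2 + n ^ 2 := by
    by_cases hm : m = 0
    · have hn : n ≠ 0 := fun hn => h ⟨hm, hn⟩
      have : 0 < n ^ 2 := by positivity
      nlinarith [sq_nonneg m]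
    · have : 0 < m ^ 2 := by positivity
      nlinarith [sq_nonneg n]
  exact_mod_cast h1


end Crest.Agent.R68.FLat
end

-- ▼ part R68/FDist
section

set_option autoImplicit false

namespace Crest.Agent.R68.FLat

open Real MeasureTheory

/-- standard first coordinate of the point with golden coordinates `(x1,x2)`. -/
noncomputable def sp (x1 x2 : ℝ) : ℝ := (goldenRatio * x1 + x2) / s

/-- standard second coordinate of the point with golden coordinates `(x1,x2)`. -/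
noncomputable def sq (x1 x2 : ℝ) : ℝ := (-x1 + goldenRatio * x2) / s

lemma sp_sq (x1 x2 : ℝ) : sp x1 x2 ^ 2 + sq x1 x2 ^ 2 = x1 ^ 2 + x2 ^ 2 := by
  have hs : s ≠ 0 := s_pos.ne'
  have h := s_sq
  unfold sp sq
  generalize goldenRatio = p at h ⊢
  field_simp
  linear_combination (-(x1 ^ 2) - x2 ^ 2) * h

lemma sp_γ (k : ℤ × ℤ) : sp (γ1 k) (γ2 k) = k.1 := by
  have hs : s ≠ 0 := s_pos.ne'
  have h := s_sq
  unfold sp γ1 γ2
  generalize goldenRatio = p at h ⊢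
  field_simp
  linear_combination (-(k.1 : ℝ)) * h

lemma sq_γ (k : ℤ × ℤ) : sq (γ1 k) (γ2 k) = k.2 := by
  have hs : s ≠ 0 := s_pos.ne'
  have h := s_sq
  unfold sq γ1 γ2
  generalize goldenRatio = p at h ⊢
  field_simp
  linear_combination (-(k.2 : ℝ)) * h

lemma sp_add (x1 x2 y1 y2 : ℝ) : sp (x1 + y1) (x2 + y2) = sp x1 x2 + sp y1 y2 := by
  unfold sp; ring

lemma sq_add (x1 x2 y1 y2 : ℝ) : sq (x1 + y1) (x2 + y2) = sq x1 x2 + sq y1 y2 := by
  unfold sq; ring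

lemma sum_sq_add_γ (x1 x2 : ℝ) (k : ℤ × ℤ) :
    (x1 + γ1 k) ^ 2 + (x2 + γ2 k) ^ 2 = (sp x1 x2 + k.1) ^ 2 + (sq x1 x2 + k.2) ^ 2 := by
  rw [← sp_sq, sp_add, sq_add, sp_γ, sq_γ]

/-- Distance of the point with golden coordinates `(x1,x2)` to the lattice. -/
noncomputable def dG (x1 x2 : ℝ) : ℝ :=
  √((sp x1 x2 - round (sp x1 x2)) ^ 2 + (sq x1 x2 - round (sq x1 x2)) ^ 2)



lemma exists_dG_eq (x1 x2 : ℝ) :
    ∃ k : ℤ × ℤ, dG x1 x2 = √((x1 + γ1 k) ^ 2 + (x2 + γ2 k) ^ 2) := by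
  refine ⟨(-round (sp x1 x2), -round (sq x1 x2)), ?_⟩
  rw [sum_sq_add_γ, dG]
  push_cast
  simp only [sub_eq_add_neg]




lemma dG_le_one (x1 x2 : ℝ) : dG x1 x2 ≤ 1 := by
  unfold dG
  rw [Real.sqrt_le_one]
  have h : ∀ p : ℝ, (p - round p) ^ 2 ≤ 1 / 4 := by
    intro p
    have := abs_sub_round p
    have h2 : |p - round p| ^ 2 ≤ (1 / 2) ^ 2 := by gcongr
    rw [sq_abs] at h2; norm_num at h2 ⊢; exact h2
  linarith [h (sp x1 x2), h (sq x1 x2)]






/-- local finiteness of the lattice. -/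
lemma finite_near (x1 x2 L : ℝ) :
    {k : ℤ × ℤ | (x1 + γ1 k) ^ 2 + (x2 + γ2 k) ^ 2 ≤ L ^ 2}.Finite := by
  have hsub : {k : ℤ × ℤ | (x1 + γ1 k) ^ 2 + (x2 + γ2 k) ^ 2 ≤ L ^ 2} ⊆
      (Set.Icc ⌈-|L| - sp x1 x2⌉ ⌊|L| - sp x1 x2⌋) ×ˢ (Set.Icc ⌈-|L| - sq x1 x2⌉ ⌊|L| - sq x1 x2⌋) := by
    intro k hk
    simp only [Set.mem_ofPred_eq] at hk
    rw [sum_sq_add_γ, ← sq_abs L] at hk
    have h1 : |sp x1 x2 + k.1| ≤ |L| := by
      apply abs_le_of_sq_le_sq _ (abs_nonneg L)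
      nlinarith [sq_nonneg (sq x1 x2 + k.2)]
    have h2 : |sq x1 x2 + k.2| ≤ |L| := by
      apply abs_le_of_sq_le_sq _ (abs_nonneg L)
      nlinarith [sq_nonneg (sp x1 x2 + k.1)]
    rw [abs_le] at h1 h2
    simp only [Set.mem_prod, Set.mem_Icc, Int.ceil_le, Int.le_floor]
    refine ⟨⟨by linarith, by linarith⟩, ⟨by linarith, by linarith⟩⟩
  exact ((Set.finite_Icc _ _).prod (Set.finite_Icc _ _)).subset hsub

/-- number of lattice translates of a point in a disc of radius `L`. -/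
lemma ncard_near (x1 x2 : ℝ) {L : ℝ} (hL : 0 ≤ L) :
    ({k : ℤ × ℤ | (x1 + γ1 k) ^ 2 + (x2 + γ2 k) ^ 2 ≤ L ^ 2}.ncard : ℝ) ≤ (2 * L + 1) ^ 2 := by
  set A := Finset.Icc ⌈-L - sp x1 x2⌉ ⌊L - sp x1 x2⌋ with hA
  set B := Finset.Icc ⌈-L - sq x1 x2⌉ ⌊L - sq x1 x2⌋ with hB
  have hcard : ∀ p : ℝ, ((Finset.Icc ⌈-L - p⌉ ⌊L - p⌋).card : ℝ) ≤ 2 * L + 1 := by
    intro p
    rw [Int.card_Icc]
    rcases le_or_gt 0 (⌊L - p⌋ + 1 - ⌈-L - p⌉) with h | h
    · have : (((⌊L - p⌋ + 1 - ⌈-L - p⌉).toNat : ℤ) : ℝ) = ((⌊L - p⌋ + 1 - ⌈-L - p⌉ : ℤ) : ℝ) := by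
        rw [Int.toNat_of_nonneg h]
      have h2 : (((⌊L - p⌋ + 1 - ⌈-L - p⌉).toNat : ℕ) : ℝ) = ((⌊L - p⌋ + 1 - ⌈-L - p⌉ : ℤ) : ℝ) := by
        rw [← this]; norm_cast
      rw [h2]; push_cast
      linarith [Int.floor_le (L - p), Int.le_ceil (-L - p)]
    · rw [Int.toNat_of_nonpos h.le]; simp; linarith
  have hsub : {k : ℤ × ℤ | (x1 + γ1 k) ^ 2 + (x2 + γ2 k) ^ 2 ≤ L ^ 2} ⊆ ((A ×ˢ B : Finset (ℤ × ℤ)) : Set (ℤ × ℤ)) := by
    intro k hk
    simp only [Set.mem_ofPred_eq] at hk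
    rw [sum_sq_add_γ] at hk
    have h1 : |sp x1 x2 + k.1| ≤ L := by
      apply abs_le_of_sq_le_sq _ hL
      nlinarith [sq_nonneg (sq x1 x2 + k.2)]
    have h2 : |sq x1 x2 + k.2| ≤ L := by
      apply abs_le_of_sq_le_sq _ hL
      nlinarith [sq_nonneg (sp x1 x2 + k.1)]
    rw [abs_le] at h1 h2
    simp only [Finset.coe_product, Set.mem_prod, Finset.mem_coe, hA, hB, Finset.mem_Icc,
      Int.ceil_le, Int.le_floor]
    refine ⟨⟨by linarith, by linarith⟩, ⟨by linarith, by linarith⟩⟩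
  have h1 := Set.ncard_le_ncard hsub (Finset.finite_toSet _)
  rw [Set.ncard_coe_finset, Finset.card_product] at h1
  calc ({k : ℤ × ℤ | (x1 + γ1 k) ^ 2 + (x2 + γ2 k) ^ 2 ≤ L ^ 2}.ncard : ℝ)
      ≤ ((A.card * B.card : ℕ) : ℝ) := by exact_mod_cast h1
    _ = (A.card : ℝ) * B.card := by push_cast; ring
    _ ≤ (2 * L + 1) * (2 * L + 1) :=
        mul_le_mul (hcard _) (hcard _) (by positivity) (by linarith)
    _ = (2 * L + 1) ^ 2 := by ring



end Crest.Agent.R68.FLat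
end

-- ▼ part R68/FLattice

set_option autoImplicit false

namespace Crest.Agent.R68

open Real MeasureTheory FLat



lemma latt_fst (k : ℤ × ℤ) : (latt k).1 = -γ1 k := by
  show ((k.2 : ℝ) - k.1 * goldenRatio) / FLat.s = -((goldenRatio * k.1 - k.2) / FLat.s)
  ring

lemma latt_snd (k : ℤ × ℤ) : (latt k).2 = γ2 k := by
  show ((k.1 : ℝ) + k.2 * goldenRatio) / FLat.s = (k.1 + goldenRatio * k.2) / FLat.s
  ring

@[simp] lemma latt_zero : latt 0 = 0 := by
  ext <;> simp [latt_fst, latt_snd]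

lemma latt_add (k l : ℤ × ℤ) : latt (k + l) = latt k + latt l := by
  ext
  · simp only [latt_fst, Prod.fst_add, γ1_add]; ring
  · simp only [latt_snd, Prod.snd_add, γ2_add]

lemma latt_neg (k : ℤ × ℤ) : latt (-k) = -latt k := by
  ext
  · simp only [latt_fst, Prod.fst_neg, γ1_neg]
  · simp only [latt_snd, Prod.snd_neg, γ2_neg]

lemma latt_sub (k l : ℤ × ℤ) : latt (k - l) = latt k - latt l := by
  rw [sub_eq_add_neg, latt_add, latt_neg, sub_eq_add_neg]

/-- Euclidean length of lattice vectors. -/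
lemma latt_sq (k : ℤ × ℤ) : (latt k).1 ^ 2 + (latt k).2 ^ 2 = (k.1 : ℝ) ^ 2 + (k.2 : ℝ) ^ 2 := by
  rw [latt_fst, latt_snd, neg_sq, γ_sq]

lemma one_le_latt_sq {k : ℤ × ℤ} (hk : k ≠ 0) : 1 ≤ (latt k).1 ^ 2 + (latt k).2 ^ 2 := by
  rw [latt_fst, latt_snd, neg_sq]; exact one_le_norm_sq hk

/-- sup norm versus Euclidean norm on `P2`. -/
lemma sq_add_sq_le_norm (x : P2) : x.1 ^ 2 + x.2 ^ 2 ≤ 2 * ‖x‖ ^ 2 := by
  have h1 : |x.1| ≤ ‖x‖ := by simpa using norm_fst_le x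
  have h2 : |x.2| ≤ ‖x‖ := by simpa using norm_snd_le x
  have h3 := sq_le_sq' (by linarith [neg_abs_le x.1]) ((le_abs_self x.1).trans h1)
  have h4 := sq_le_sq' (by linarith [neg_abs_le x.2]) ((le_abs_self x.2).trans h2)
  linarith

lemma norm_sq_le_sq_add_sq (x : P2) : ‖x‖ ^ 2 ≤ x.1 ^ 2 + x.2 ^ 2 := by
  rw [Prod.norm_def]
  rcases le_total ‖x.1‖ ‖x.2‖ with h | h
  · rw [max_eq_right h, Real.norm_eq_abs, sq_abs]; nlinarith [_root_.sq_nonneg x.1]
  · rw [max_eq_left h, Real.norm_eq_abs, sq_abs]; nlinarith [_root_.sq_nonneg x.2]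

/-- nonzero lattice vectors have sup norm at least 7/10. -/
lemma norm_latt_ge {k : ℤ × ℤ} (hk : k ≠ 0) : 7 / 10 ≤ ‖latt k‖ := by
  have h := one_le_latt_sq hk
  have h2 := sq_add_sq_le_norm (latt k)
  by_contra hlt
  push Not at hlt
  have : ‖latt k‖ ^ 2 < (7 / 10) ^ 2 := by gcongr
  norm_num at this; linarith

/-- golden slope: `|k_1| ≥ c_G/|k|` with `c_G = 1/4` in the sup norm. -/
lemma latt_fst_lower {k : ℤ × ℤ} (hk : k ≠ 0) : 1 ≤ 4 * |(latt k).1| * ‖latt k‖ := by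
  have h := one_le_γ1_mul hk
  rw [← latt_sq] at h
  rw [latt_fst, abs_neg]
  have h2 := sq_add_sq_le_norm (latt k)
  have h3 : √((latt k).1 ^ 2 + (latt k).2 ^ 2) ≤ √2 * ‖latt k‖ := by
    rw [show √2 * ‖latt k‖ = √(2 * ‖latt k‖ ^ 2) by
      rw [Real.sqrt_mul (by norm_num), Real.sqrt_sq (norm_nonneg _)]]
    exact Real.sqrt_le_sqrt h2
  have h4 : √5 * √2 ≤ 4 := by
    rw [← Real.sqrt_mul (by norm_num)]
    rw [show (4 : ℝ) = √(16) by
      rw [show (16 : ℝ) = 4 ^ 2 by norm_num, Real.sqrt_sq (by norm_num)]]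
    exact Real.sqrt_le_sqrt (by norm_num)
  calc (1 : ℝ) ≤ √5 * |γ1 k| * √((latt k).1 ^ 2 + (latt k).2 ^ 2) := h
    _ ≤ √5 * |γ1 k| * (√2 * ‖latt k‖) := mul_le_mul_of_nonneg_left h3 (by positivity)
    _ = (√5 * √2) * |γ1 k| * ‖latt k‖ := by ring
    _ ≤ 4 * |γ1 k| * ‖latt k‖ := by gcongr




/-! ### distance to the lattice -/

lemma distG_bdd (x : P2) : BddBelow (Set.range fun k : ℤ × ℤ => ‖x + latt k‖) :=
  ⟨0, by rintro _ ⟨k, rfl⟩; exact norm_nonneg _⟩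

lemma distG_nonneg (x : P2) : 0 ≤ distG x := le_ciInf fun _ => norm_nonneg _

lemma distG_le (x : P2) (k : ℤ × ℤ) : distG x ≤ ‖x + latt k‖ := ciInf_le (distG_bdd x) k

lemma distG_le_norm (x : P2) : distG x ≤ ‖x‖ := by simpa using distG_le x 0

/-- only finitely many translates are in a given ball. -/
lemma finite_latt_near (x : P2) (L : ℝ) : {k : ℤ × ℤ | ‖x + latt k‖ ≤ L}.Finite := by
  rcases le_or_gt 0 L with hL | hL
  · refine (finite_near (-x.1) x.2 (√2 * L)).subset ?_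
    intro k hk
    simp only [Set.mem_ofPred_eq] at hk ⊢
    have h := sq_add_sq_le_norm (x + latt k)
    rw [Prod.fst_add, Prod.snd_add, latt_fst, latt_snd] at h
    have h2 : ‖x + latt k‖ ^ 2 ≤ L ^ 2 := by
      have := norm_nonneg (x + latt k); gcongr
    rw [mul_pow, Real.sq_sqrt (by norm_num)]
    nlinarith
  · convert Set.finite_empty (α := ℤ × ℤ)
    ext k
    simp only [Set.mem_ofPred_eq, Set.mem_empty_iff_false, iff_false, not_le]
    exact hL.trans_le (norm_nonneg _)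

/-- the number of translates in the ball of radius `L` is at most `(3L+1)^2`. -/
lemma ncard_latt_near (x : P2) {L : ℝ} (hL : 0 ≤ L) :
    ({k : ℤ × ℤ | ‖x + latt k‖ ≤ L}.ncard : ℝ) ≤ (3 * L + 1) ^ 2 := by
  have hsub : {k : ℤ × ℤ | ‖x + latt k‖ ≤ L} ⊆
      {k : ℤ × ℤ | (-x.1 + γ1 k) ^ 2 + (x.2 + γ2 k) ^ 2 ≤ (√2 * L) ^ 2} := by
    intro k hk
    simp only [Set.mem_ofPred_eq] at hk ⊢
    have h := sq_add_sq_le_norm (x + latt k)
    rw [Prod.fst_add, Prod.snd_add, latt_fst, latt_snd] at h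
    have h2 : ‖x + latt k‖ ^ 2 ≤ L ^ 2 := by
      have := norm_nonneg (x + latt k); gcongr
    rw [mul_pow, Real.sq_sqrt (by norm_num)]
    nlinarith
  have h1 := Set.ncard_le_ncard hsub (finite_near (-x.1) x.2 (√2 * L))
  have h2 := ncard_near (-x.1) x.2 (L := √2 * L) (by positivity)
  have h3 : √2 ≤ 3 / 2 := by
    rw [show (3 / 2 : ℝ) = √((3 / 2) ^ 2) by rw [Real.sqrt_sq (by norm_num)]]
    exact Real.sqrt_le_sqrt (by norm_num)
  calc ({k : ℤ × ℤ | ‖x + latt k‖ ≤ L}.ncard : ℝ)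
      ≤ ({k : ℤ × ℤ | (-x.1 + γ1 k) ^ 2 + (x.2 + γ2 k) ^ 2 ≤ (√2 * L) ^ 2}.ncard : ℝ) := by
        exact_mod_cast h1
    _ ≤ (2 * (√2 * L) + 1) ^ 2 := h2
    _ ≤ (3 * L + 1) ^ 2 := by
        have : 2 * (√2 * L) ≤ 3 * L := by nlinarith
        gcongr

lemma exists_distG_eq (x : P2) : ∃ k : ℤ × ℤ, distG x = ‖x + latt k‖ := by
  have hfin := finite_latt_near x ‖x‖
  have hne : (0 : ℤ × ℤ) ∈ {k : ℤ × ℤ | ‖x + latt k‖ ≤ ‖x‖} := by simp
  obtain ⟨k, hk, hmin⟩ := hfin.exists_minimalFor (fun k => ‖x + latt k‖) _ ⟨0, hne⟩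
  refine ⟨k, le_antisymm (distG_le x k) (le_ciInf fun l => ?_)⟩
  by_cases hl : ‖x + latt l‖ ≤ ‖x‖
  · rcases le_total ‖x + latt k‖ ‖x + latt l‖ with h | h
    · exact h
    · exact hmin hl h
  · push Not at hl
    exact (hk : ‖x + latt k‖ ≤ ‖x‖).trans hl.le

lemma distG_add_latt (x : P2) (k : ℤ × ℤ) : distG (x + latt k) = distG x := by
  apply le_antisymm
  · obtain ⟨l, hl⟩ := exists_distG_eq x
    rw [hl]
    refine (distG_le _ (l - k)).trans (le_of_eq ?_)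
    rw [latt_sub]; congr 1; abel
  · obtain ⟨l, hl⟩ := exists_distG_eq (x + latt k)
    rw [hl]
    refine (distG_le _ (l + k)).trans (le_of_eq ?_)
    rw [latt_add]; congr 1; abel


lemma distG_le_add (x y : P2) : distG (x + y) ≤ distG x + ‖y‖ := by
  obtain ⟨k, hk⟩ := exists_distG_eq x
  rw [hk]
  refine (distG_le _ k).trans ?_
  rw [show x + y + latt k = (x + latt k) + y by abel]
  exact norm_add_le _ _

lemma abs_distG_sub_le (x y : P2) : |distG x - distG y| ≤ ‖x - y‖ := by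
  rw [abs_le]
  constructor
  · have := distG_le_add x (y - x)
    rw [add_sub_cancel] at this
    rw [norm_sub_rev]; linarith
  · have := distG_le_add y (x - y)
    rw [add_sub_cancel] at this
    linarith

lemma lipschitz_distG : LipschitzWith 1 distG := by
  apply LipschitzWith.of_dist_le_mul
  intro x y
  rw [Real.dist_eq, NNReal.coe_one, one_mul, dist_eq_norm]
  exact abs_distG_sub_le x y

lemma continuous_distG : Continuous distG := lipschitz_distG.continuous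

lemma measurable_distG : Measurable distG := continuous_distG.measurable

/-- near the origin the distance is the norm. -/
lemma distG_eq_norm {x : P2} (h : ‖x‖ ≤ 7 / 20) : distG x = ‖x‖ := by
  apply le_antisymm (distG_le_norm x)
  obtain ⟨k, hk⟩ := exists_distG_eq x
  by_cases h0 : k = 0
  · rw [hk, h0]; simp
  · rw [hk]
    have h1 := norm_latt_ge h0
    have h2 : ‖latt k‖ ≤ ‖x + latt k‖ + ‖x‖ := by
      have := norm_sub_le (x + latt k) x
      rwa [add_sub_cancel_left] at this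
    linarith

/-- two translates of the same point in the open ball of radius 7/20 coincide. -/
lemma latt_unique {x : P2} {k l : ℤ × ℤ} (hk : ‖x + latt k‖ < 7 / 20) (hl : ‖x + latt l‖ < 7 / 20) :
    k = l := by
  by_contra hne
  have h1 := norm_latt_ge (sub_ne_zero.2 hne)
  rw [latt_sub] at h1
  have h2 := norm_sub_le (x + latt k) (x + latt l)
  rw [show x + latt k - (x + latt l) = latt k - latt l by abel] at h2
  linarith

lemma distG_le_one (x : P2) : distG x ≤ 1 := by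
  obtain ⟨k, hk⟩ := exists_dG_eq (-x.1) x.2
  have h1 := dG_le_one (-x.1) x.2
  rw [hk] at h1
  have h2 := norm_sq_le_sq_add_sq (x + latt k)
  rw [Prod.fst_add, Prod.snd_add, latt_fst, latt_snd] at h2
  rw [Real.sqrt_le_one] at h1
  have h3 : ‖x + latt k‖ ^ 2 ≤ 1 := by nlinarith
  have h4 : ‖x + latt k‖ ≤ 1 := by
    have := norm_nonneg (x + latt k)
    nlinarith
  exact (distG_le x k).trans h4

end Crest.Agent.R68
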