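import Crest.Agent.R68.FStream
import Crest.Agent.R68.FLattice

-- ▼ part R68/FOne
section

/-! Row 68, PART F (helper195).  One lane of the fuel of `Defs.lean`. -/

set_option autoImplicit false

namespace Crest.Agent.R68.Fuel

open MeasureTheory Crest.AnalysisR.VecCalc3 Set
open scoped ENNReal

noncomputable section

/-! ### Lanes -/

theorem etaj_pos (p j : ℕ) : 0 < etaj p j := by unfold etaj; positivity
theorem inv_le_one' (j : ℕ) : 1 / (2 * (j : ℝ) + 1) ≤ 1 := by
  rw [div_le_one (by positivity)]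
  have : (0 : ℝ) ≤ j := Nat.cast_nonneg j
  linarith
theorem etaj_le_one (p j : ℕ) : etaj p j ≤ 1 := pow_le_one₀ (by positivity) (inv_le_one' j)
theorem dl_pos {P : Par} (h : 1 ≤ P.j0) : 0 < P.dl := by
  unfold Par.dl
  have : (1 : ℝ) ≤ P.j0 := by exact_mod_cast h
  positivity
theorem dl_sq {P : Par} : P.dl ^ 2 = 1 / (2 * P.j0) := by
  unfold Par.dl
  rw [div_pow, one_pow, Real.sq_sqrt (by positivity)]
theorem rr_nonneg (a : ℝ) : 0 ≤ rr a := sq_nonneg a
theorem rr_pos {a : ℝ} (h : a ≠ 0) : 0 < rr a := by unfold rr; positivity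
theorem measurable_rr : Measurable rr := by unfold rr; fun_prop


theorem lane_subset_laneE (j : ℕ) : lane j ⊆ laneE j := by
  rintro a ⟨h0, h1, h2⟩
  exact ⟨h0, by linarith, by linarith⟩

theorem measurableSet_lane (j : ℕ) : MeasurableSet (lane j) := by
  have h1 : Measurable fun a : ℝ => 1 / a ^ 2 := by fun_prop
  have h2 : lane j = {a | a ≠ 0} ∩ ((fun a : ℝ => 1 / a ^ 2) ⁻¹'
      Set.Ioo (2 * (j : ℝ) + 1 / 100) (2 * j + 199 / 100)) := by
    ext a; rfl
  rw [h2]
  exact (measurableSet_singleton (0 : ℝ)).compl.inter (h1 measurableSet_Ioo)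

theorem measurableSet_laneE (j : ℕ) : MeasurableSet (laneE j) := by
  have h1 : Measurable fun a : ℝ => 1 / a ^ 2 := by fun_prop
  have h2 : laneE j = {a | a ≠ 0} ∩ ((fun a : ℝ => 1 / a ^ 2) ⁻¹'
      Set.Ioo (2 * (j : ℝ) + 1 / 200) (2 * j + 399 / 200)) := by
    ext a; rfl
  rw [h2]
  exact (measurableSet_singleton (0 : ℝ)).compl.inter (h1 measurableSet_Ioo)

theorem laneE_upper {j : ℕ} {a : ℝ} (h : a ∈ laneE j) : a ^ 2 * (2 * j + 1 / 200) < 1 := by
  have h0 : 0 < a ^ 2 := by have := h.1; positivity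
  have h1 := h.2.1
  rw [lt_div_iff₀ h0] at h1
  linarith

theorem laneE_lower {j : ℕ} {a : ℝ} (h : a ∈ laneE j) : 1 < a ^ 2 * (2 * j + 399 / 200) := by
  have h0 : 0 < a ^ 2 := by have := h.1; positivity
  have h1 := h.2.2
  rw [div_lt_iff₀ h0] at h1
  linarith

theorem lane_upper {j : ℕ} {a : ℝ} (h : a ∈ lane j) : a ^ 2 * (2 * j + 1 / 100) < 1 := by
  have h0 : 0 < a ^ 2 := by have := h.1; positivity
  have h1 := h.2.1
  rw [lt_div_iff₀ h0] at h1
  linarith

theorem lane_lower {j : ℕ} {a : ℝ} (h : a ∈ lane j) : 1 < a ^ 2 * (2 * j + 199 / 100) := by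
  have h0 : 0 < a ^ 2 := by have := h.1; positivity
  have h1 := h.2.2
  rw [div_lt_iff₀ h0] at h1
  linarith

theorem laneE_unique {i j : ℕ} {a : ℝ} (hi : a ∈ laneE i) (hj : a ∈ laneE j) : i = j := by
  have h1 := hi.2.1
  have h2 := hi.2.2
  have h3 := hj.2.1
  have h4 := hj.2.2
  have h5 : (i : ℝ) < j + 1 := by linarith
  have h6 : (j : ℝ) < i + 1 := by linarith
  have h7 : i < j + 1 := by exact_mod_cast h5
  have h8 : j < i + 1 := by exact_mod_cast h6
  omega

theorem lane_unique {i j : ℕ} {a : ℝ} (hi : a ∈ lane i) (hj : a ∈ lane j) : i = j :=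
  laneE_unique (lane_subset_laneE i hi) (lane_subset_laneE j hj)

theorem laneE_lt_dl {P : Par} (h0 : 1 ≤ P.j0) {j : ℕ} (hj : P.j0 ≤ j) {a : ℝ} (ha : a ∈ laneE j) :
    |a| < P.dl := by
  have h1 := laneE_upper ha
  have h2 : (1 : ℝ) ≤ P.j0 := by exact_mod_cast h0
  have h3 : (P.j0 : ℝ) ≤ j := by exact_mod_cast hj
  have h4 := dl_pos h0
  have h5 : a ^ 2 < P.dl ^ 2 := by
    rw [dl_sq, lt_div_iff₀ (by linarith)]
    nlinarith [sq_nonneg a]
  exact abs_lt_of_sq_lt_sq h5 h4.le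

theorem lane_lt_dl {P : Par} (h0 : 1 ≤ P.j0) {j : ℕ} (hj : P.j0 ≤ j) {a : ℝ} (ha : a ∈ lane j) :
    |a| < P.dl := laneE_lt_dl h0 hj (lane_subset_laneE j ha)

/-- the gap between different lanes -/
theorem lane_gap {i j : ℕ} {a b : ℝ} (hi : 1 ≤ i) (hij : i < j) (ha : a ∈ lane i)
    (hb : b ∈ lane j) : 1 / 100 / (2 * (i : ℝ) + 3) ^ 2 < |a - b| := by
  have h1 := lane_lower ha
  have h1' := lane_upper ha
  have h2 := lane_upper hb
  have h3 : (i : ℝ) + 1 ≤ j := by exact_mod_cast hij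
  have h5 : (1 : ℝ) ≤ i := by exact_mod_cast hi
  have h6 : 1 / (2 * (i : ℝ) + 199 / 100) < |a| ^ 2 := by
    rw [div_lt_iff₀ (by positivity), sq_abs]; linarith
  have h7 : |b| ^ 2 < 1 / (2 * (i : ℝ) + 201 / 100) := by
    rw [lt_div_iff₀ (by positivity), sq_abs]
    nlinarith [sq_nonneg b]
  have h8 : |a| - |b| ≤ |a - b| := abs_sub_abs_le_abs_sub a b
  have h9 : 1 / 50 / (2 * (i : ℝ) + 3) ^ 2 ≤
      1 / (2 * (i : ℝ) + 199 / 100) - 1 / (2 * (i : ℝ) + 201 / 100) := by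
    rw [div_sub_div _ _ (by positivity) (by positivity), div_le_div_iff₀ (by positivity) (by positivity)]
    nlinarith
  have h10 : |a| ≤ 1 := by
    have : |a| ^ 2 ≤ 1 := by rw [sq_abs]; nlinarith [sq_nonneg a]
    nlinarith [abs_nonneg a]
  have h11 : 1 / 50 / (2 * (i : ℝ) + 3) ^ 2 < (|a| - |b|) * (|a| + |b|) := by nlinarith
  have h12 : 0 < (|a| - |b|) * (|a| + |b|) := lt_trans (by positivity) h11
  have h13 : |b| < |a| := by
    by_contra h
    push Not at h
    nlinarith [abs_nonneg a, abs_nonneg b]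
  have h14 : (|a| - |b|) * (|a| + |b|) ≤ (|a| - |b|) * 2 :=
    mul_le_mul_of_nonneg_left (by linarith) (by linarith)
  have h15 : 1 / 100 / (2 * (i : ℝ) + 3) ^ 2 * 2 = 1 / 50 / (2 * (i : ℝ) + 3) ^ 2 := by ring
  linarith

theorem etaj_anti (p : ℕ) {i j : ℕ} (hij : i ≤ j) : etaj p j ≤ etaj p i := by
  unfold etaj
  have h : (i : ℝ) ≤ j := by exact_mod_cast hij
  gcongr

theorem etaj_small {p j : ℕ} (hp : 3 ≤ p) (hj : 200 ≤ j) :
    2 * etaj p j ≤ 1 / 100 / (2 * (j : ℝ) + 3) ^ 2 := by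
  have h1 : etaj p j ≤ (1 / (2 * (j : ℝ) + 1)) ^ 3 :=
    pow_le_pow_of_le_one (by positivity) (inv_le_one' j) hp
  have h2 : (200 : ℝ) ≤ j := by exact_mod_cast hj
  have h3 : 2 * (1 / (2 * (j : ℝ) + 1)) ^ 3 ≤ 1 / 100 / (2 * (j : ℝ) + 3) ^ 2 := by
    rw [div_pow, one_pow, mul_one_div, div_le_div_iff₀ (by positivity) (by positivity)]
    rw [show (1 : ℝ) / 100 * (2 * j + 1) ^ 3 = (2 * j + 1) / 100 * (2 * (j : ℝ) + 1) ^ 2 by ring]
    have h4 : (4 : ℝ) ≤ (2 * j + 1) / 100 := by linarith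
    nlinarith [sq_nonneg (2 * (j : ℝ) + 1), mul_le_mul_of_nonneg_right h4 (sq_nonneg (2 * (j : ℝ) + 1))]
  linarith

/-- the strain `κ = c / δ` -/
def _root_.Crest.Agent.R68.Par.kap (P : Par) : ℝ := P.c / P.dl

/-- standing assumptions on the parameters -/
structure _root_.Crest.Agent.R68.Par.Ok (P : Par) : Prop where
  K0 : 0 ≤ P.K
  Y0 : 0 < P.Y
  c0 : 0 < P.c
  c1 : P.c ≤ 1
  j0 : 200 ≤ P.j0
  p3 : 3 ≤ P.p
  ey0 : 0 < P.ey
  kap1 : 1 ≤ P.kap
  Ysm : P.Y * P.dl ≤ 1 / 20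

theorem Ok.j1 {P : Par} (h : P.Ok) : 1 ≤ P.j0 := le_trans (by norm_num) h.j0
theorem Ok.kap0 {P : Par} (h : P.Ok) : 0 ≤ P.kap := zero_le_one.trans h.kap1
theorem Ok.dlp {P : Par} (h : P.Ok) : 0 < P.dl := dl_pos (Ok.j1 h)
theorem Ok.dl20 {P : Par} (h : P.Ok) : P.dl ≤ 1 / 20 := by
  have h1 : (200 : ℝ) ≤ P.j0 := by exact_mod_cast h.j0
  have h2 : P.dl ^ 2 ≤ (1 / 20) ^ 2 := by
    rw [dl_sq, div_pow, div_le_div_iff₀ (by positivity) (by norm_num)]
    linarith
  exact le_of_sq_le_sq h2 (by norm_num)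

theorem one_add_kap (P : Par) (t : ℝ) : 1 + P.c * t / P.dl = 1 + P.kap * t := by
  unfold Par.kap; ring

theorem chij_nonneg (j : ℕ) (a : ℝ) : 0 ≤ chij j a := le_max_left _ _
theorem chij_le_one (j : ℕ) (a : ℝ) : chij j a ≤ 1 := max_le zero_le_one (min_le_left _ _)
theorem ky_nonneg (P : Par) (y : ℝ) : 0 ≤ ky P y := le_max_left _ _
theorem ky_le_one (P : Par) (y : ℝ) : ky P y ≤ 1 := max_le zero_le_one (min_le_left _ _)
theorem measurable_chij (j : ℕ) : Measurable (chij j) := by unfold chij; fun_prop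
theorem measurable_ky (P : Par) : Measurable (ky P) := by unfold ky; fun_prop

/-- density profile of lane `j` -/
def qj (P : Par) (j : ℕ) (a z : ℝ) : ℝ :=
  open scoped Classical in
    if a ∈ lane j ∧ |z| < P.Y * rr a then P.K * chij j a * ky P (z / rr a) else 0

theorem qj_nonneg {P : Par} (hK : 0 ≤ P.K) (j : ℕ) (a z : ℝ) : 0 ≤ qj P j a z := by
  unfold qj
  split_ifs
  · exact mul_nonneg (mul_nonneg hK (chij_nonneg _ _)) (ky_nonneg _ _)
  · exact le_rfl

theorem qj_le {P : Par} (hK : 0 ≤ P.K) (j : ℕ) (a z : ℝ) : qj P j a z ≤ P.K := by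
  unfold qj
  split_ifs
  · have h1 := chij_le_one j a
    have h2 := ky_le_one P (z / rr a)
    have h3 := chij_nonneg j a
    have h4 := ky_nonneg P (z / rr a)
    calc P.K * chij j a * ky P (z / rr a) ≤ P.K * 1 * 1 := by gcongr
      _ = P.K := by ring
  · exact hK

theorem qj_ne {P : Par} {j : ℕ} {a z : ℝ} (h : qj P j a z ≠ 0) : a ∈ lane j ∧ |z| < P.Y * rr a := by
  unfold qj at h
  by_contra h1
  rw [if_neg h1] at h
  exact h rfl

theorem qj_zero {P : Par} (j : ℕ) (a z : ℝ) (h : rr a = 0) : qj P j a z = 0 := by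
  by_contra h1
  exact (rr_pos (qj_ne h1).1.1).ne' h

theorem measurable_qj (P : Par) (j : ℕ) : Measurable fun p : ℝ × ℝ => qj P j p.1 p.2 := by
  unfold qj
  refine Measurable.ite ?_ (((measurable_const.mul ((measurable_chij j).comp measurable_fst))).mul
    ((measurable_ky P).comp (measurable_snd.div (measurable_rr.comp measurable_fst))))
    measurable_const
  have h1 : Measurable fun p : ℝ × ℝ => |p.2| := by fun_prop
  have h2 : Measurable fun p : ℝ × ℝ => P.Y * rr p.1 :=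
    (measurable_rr.comp measurable_fst).const_mul _
  exact (measurable_fst (measurableSet_lane j)).inter (measurableSet_lt h1 h2)

/-- velocities of the fuel of lane `j` at `(t, x)` (without periodic images) -/
def lset (P : Par) (j : ℕ) (t : ℝ) (x : P2) : Set R3 :=
  {v | (x.1 - t * v 0 ∈ lane j ∧ |x.2 - t * v 1| < P.Y * rr (x.1 - t * v 0)) ∧
    |v 0 - P.kap * (x.1 - t * v 0)| < etaj P.p j ∧
    |v 1 - (x.2 - t * v 1) / rr (x.1 - t * v 0)| < etaj P.p j ∧ |v 2 - wj j| < etaj P.p j}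

theorem mem_lset {P : Par} {j : ℕ} {t : ℝ} {x : P2} {v : R3} : v ∈ lset P j t x ↔
    (x.1 - t * v 0 ∈ lane j ∧ |x.2 - t * v 1| < P.Y * rr (x.1 - t * v 0)) ∧
    |v 0 - P.kap * (x.1 - t * v 0)| < etaj P.p j ∧
    |v 1 - (x.2 - t * v 1) / rr (x.1 - t * v 0)| < etaj P.p j ∧ |v 2 - wj j| < etaj P.p j := Iff.rfl

/-- free transport: only the labels matter -/
theorem mem_lset_iff_zero {P : Par} {j : ℕ} {t : ℝ} {x : P2} {v : R3} :
    v ∈ lset P j t x ↔ v ∈ lset P j 0 (x - t • bar v) := by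
  simp [mem_lset, bar]

/-- **free flow of one lane** (one period) -/
def phij (P : Par) (j : ℕ) (t : ℝ) (x : P2) (v : R3) : ℝ :=
  strm P.kap (etaj P.p j) (wj j) rr (qj P j) t x v

theorem phij_of_mem {P : Par} {j : ℕ} {t : ℝ} {x : P2} {v : R3} (h : v ∈ lset P j t x) :
    phij P j t x v = P.K * chij j (x.1 - t * v 0) *
      ky P ((x.2 - t * v 1) / rr (x.1 - t * v 0)) / (8 * rr (x.1 - t * v 0) * etaj P.p j ^ 3) := by
  unfold phij strm
  rw [if_pos h.2, qj, if_pos h.1]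

theorem phij_of_notMem {P : Par} {j : ℕ} {t : ℝ} {x : P2} {v : R3} (h : v ∉ lset P j t x) :
    phij P j t x v = 0 := by
  unfold phij strm
  split_ifs with h1
  · rw [qj, if_neg fun h2 => h ⟨h2, h1⟩, zero_div]
  · rfl

theorem phij_nonneg {P : Par} (hK : 0 ≤ P.K) (j : ℕ) (t : ℝ) (x : P2) (v : R3) :
    0 ≤ phij P j t x v :=
  strm_nonneg (etaj_pos _ _).le rr_nonneg (qj_nonneg hK j) t x v

theorem phij_transport (P : Par) (j : ℕ) (t : ℝ) (x : P2) (v : R3) :
    phij P j t x v = phij P j 0 (x - t • bar v) v := strm_transport _ _ _ _ _ t x v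

theorem measurable_phij (P : Par) (j : ℕ) :
    Measurable fun p : ℝ × P2 × R3 => phij P j p.1 p.2.1 p.2.2 :=
  measurable_strm measurable_rr (measurable_qj P j)

theorem phij_ne {P : Par} {j : ℕ} {t : ℝ} {x : P2} {v : R3} (h : phij P j t x v ≠ 0) :
    v ∈ lset P j t x := by
  by_contra h1
  exact h (phij_of_notMem h1)

/-- label of the thermal coordinate `s1` on lane `j` -/
def lA (P : Par) (j : ℕ) (t : ℝ) (x : P2) (s : ℝ) : ℝ := sa P.kap (etaj P.p j) t x s
/-- second label -/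
def lZ (P : Par) (j : ℕ) (t : ℝ) (x : P2) (s s' : ℝ) : ℝ := sz P.kap (etaj P.p j) rr t x s s'
/-- velocity of thermal coordinates `s` -/
def lU (P : Par) (j : ℕ) (t : ℝ) (x : P2) (s1 s2 s3 : ℝ) : R3 :=
  sU P.kap (etaj P.p j) (wj j) rr t x s1 s2 s3

/-- **Lemma F.1** (exact): velocity integral of one lane -/
theorem lint_phij {P : Par} (h : P.Ok) (j : ℕ) {t : ℝ} (ht : 0 ≤ t) (x : P2) {g : R3 → ℝ≥0∞}
    (hg : Measurable g) :
    ∫⁻ v, ENNReal.ofReal (phij P j t x v) * g v =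
      ∫⁻ s1 in Ioo (-1 : ℝ) 1, ∫⁻ s2 in Ioo (-1 : ℝ) 1, ∫⁻ s3 in Ioo (-1 : ℝ) 1,
        ENNReal.ofReal (qj P j (lA P j t x s1) (lZ P j t x s1 s2) /
          (8 * (t + rr (lA P j t x s1)) * (1 + P.kap * t))) * g (lU P j t x s1 s2 s3) :=
  lint_strm (Ok.kap0 h) (etaj_pos _ _) rr_nonneg measurable_rr (measurable_qj P j)
    (fun a z ha => qj_zero j a z ha) ht x hg

/-- velocity integrals of one lane bounded by the density times the supremum -/
theorem lint_phij_le {P : Par} (h : P.Ok) (j : ℕ) {t : ℝ} (ht : 0 ≤ t) (x : P2) {g : R3 → ℝ≥0∞}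
    (hg : Measurable g) {A B : ℝ≥0∞} (hA : ∀ a ∈ lane j, ENNReal.ofReal (dens P t a) ≤ A)
    (hB : ∀ v ∈ lset P j t x, g v ≤ B) :
    ∫⁻ v, ENNReal.ofReal (phij P j t x v) * g v ≤ A * B := by
  have hm : Measurable fun v : R3 => ENNReal.ofReal (phij P j t x v) := by
    have h1 : Measurable fun v : R3 => (t, x, v) := by fun_prop
    exact ENNReal.measurable_ofReal.comp ((measurable_phij P j).comp h1)
  have h1 : ∫⁻ v, ENNReal.ofReal (phij P j t x v) * g v ≤
      ∫⁻ v, ENNReal.ofReal (phij P j t x v) * B := by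
    refine lintegral_mono fun v => ?_
    by_cases hv : v ∈ lset P j t x
    · exact mul_le_mul_right (hB v hv) _
    · rw [phij_of_notMem hv]; simp
  refine h1.trans ?_
  rw [lintegral_mul_const _ hm]
  refine mul_le_mul_left ?_ B
  have h2 := lint_phij h j ht x (g := fun _ => 1) measurable_const
  simp only [mul_one] at h2
  rw [h2]
  have h3 : ∀ s1 s2 : ℝ, ENNReal.ofReal (qj P j (lA P j t x s1) (lZ P j t x s1 s2) /
      (8 * (t + rr (lA P j t x s1)) * (1 + P.kap * t))) ≤ A / 8 := by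
    intro s1 s2
    by_cases h4 : qj P j (lA P j t x s1) (lZ P j t x s1 s2) = 0
    · rw [h4]; simp
    · have h5 := (qj_ne h4).1
      refine le_trans ?_ (ENNReal.div_le_div_right (hA _ h5) 8)
      rw [show (8 : ℝ≥0∞) = ENNReal.ofReal 8 by norm_num, ← ENNReal.ofReal_div_of_pos (by norm_num)]
      refine ENNReal.ofReal_le_ofReal ?_
      have h6 := rr_pos h5.1
      have h7 := h.K0
      have h8 := Ok.kap0 h
      have h9 := qj_le h.K0 j (lA P j t x s1) (lZ P j t x s1 s2)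
      unfold dens
      rw [one_add_kap, div_div]
      rw [show 8 * (t + rr (lA P j t x s1)) * (1 + P.kap * t) =
        (t + rr (lA P j t x s1)) * (1 + P.kap * t) * 8 by ring]
      gcongr
  calc _ ≤ ∫⁻ s1 in Ioo (-1 : ℝ) 1, ∫⁻ s2 in Ioo (-1 : ℝ) 1, ∫⁻ s3 in Ioo (-1 : ℝ) 1, A / 8 :=
        lintegral_mono fun s1 => lintegral_mono fun s2 => lintegral_mono fun s3 => h3 s1 s2
    _ = A / 8 * 8 := by
      simp only [lintegral_const, Measure.restrict_apply_univ, Real.volume_Ioo]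
      rw [mul_assoc, mul_assoc]
      congr 1
      rw [← ENNReal.ofReal_mul (by norm_num), ← ENNReal.ofReal_mul (by norm_num)]
      norm_num
    _ = A := ENNReal.div_mul_cancel (by norm_num) (by norm_num)

theorem dens_nonneg {P : Par} (h : P.Ok) {t : ℝ} (ht : 0 ≤ t) (a : ℝ) : 0 ≤ dens P t a := by
  have h1 := rr_nonneg a
  have h2 := h.K0
  have h3 := Ok.kap0 h
  unfold dens
  rw [one_add_kap]
  positivity

theorem dens_le {P : Par} (h : P.Ok) {t : ℝ} (ht : 0 < t) (a : ℝ) :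
    dens P t a ≤ P.K / (t * (1 + P.kap * t)) := by
  have h1 := rr_nonneg a
  have h2 := h.K0
  have h3 := Ok.kap0 h
  unfold dens
  rw [one_add_kap]
  gcongr
  linarith

/-- **F.2** at a fixed point `(t, x)` only one lane (of one image) is visible -/
theorem one_lane {P : Par} (h : P.Ok) {i j : ℕ} {t : ℝ} {x : P2} (hi : P.j0 ≤ i) (hj : P.j0 ≤ j)
    (ht : 0 ≤ t) {v w : R3} (hv : v ∈ lset P i t x) (hw : w ∈ lset P j t x) : i = j := by
  have key : ∀ {i j : ℕ} {v w : R3}, P.j0 ≤ i → i < j → v ∈ lset P i t x → w ∈ lset P j t x →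
      False := by
    intro i j v w hi hij hv hw
    rw [mem_lset] at hv hw
    obtain ⟨⟨ha, -⟩, ha', -⟩ := hv
    obtain ⟨⟨hb, -⟩, hb', -⟩ := hw
    have h1 := lane_gap ((Ok.j1 h).trans hi) hij ha hb
    have h2 := etaj_small h.p3 (h.j0.trans hi)
    have h3 := etaj_anti P.p hij.le
    have hκ := h.kap1
    have h4 : (1 + P.kap * t) * ((x.1 - t * v 0) - (x.1 - t * w 0)) =
        t * (w 0 - P.kap * (x.1 - t * w 0)) - t * (v 0 - P.kap * (x.1 - t * v 0)) := by ring
    have h5 : (1 + P.kap * t) * |(x.1 - t * v 0) - (x.1 - t * w 0)| ≤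
        t * (etaj P.p i + etaj P.p j) := by
      rw [← abs_of_nonneg (show 0 ≤ 1 + P.kap * t by positivity), ← abs_mul, h4]
      refine (abs_sub _ _).trans ?_
      rw [abs_mul, abs_mul, abs_of_nonneg ht]
      nlinarith
    have h6 : t ≤ 1 + P.kap * t := by nlinarith
    have h7 : (1 + P.kap * t) * |(x.1 - t * v 0) - (x.1 - t * w 0)| ≤
        (1 + P.kap * t) * (2 * etaj P.p i) := by
      refine h5.trans ?_
      have := etaj_pos P.p i
      nlinarith
    have h8 := le_of_mul_le_mul_left h7 (by positivity)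
    linarith
  rcases lt_trichotomy i j with hij | hij | hij
  · exact (key hi hij hv hw).elim
  · exact hij
  · exact (key hj hij hw hv).elim

end

end Crest.Agent.R68.Fuel
end

-- ▼ part R68/FSum

/-! Row 68, PART F (helper195).  The whole fuel: lanes do not overlap, images, the free flow as a sum of
one-lane flows, measurability, density. -/

set_option autoImplicit false

namespace Crest.Agent.R68.Fuel

open MeasureTheory Crest.AnalysisR.VecCalc3
open scoped ENNReal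

noncomputable section

/-! ### Images -/

theorem Ysq_le {P : Par} (h : P.Ok) {j : ℕ} (hj : P.j0 ≤ j) {a : ℝ} (ha : a ∈ lane j) :
    P.Y * rr a ≤ 1 / 20 := by
  have h3 := lane_lt_dl (Ok.j1 h) hj ha
  have h4 := Ok.dl20 h
  have h5 : rr a ≤ P.dl := by
    unfold rr
    rw [← sq_abs]
    nlinarith [abs_nonneg a]
  exact (mul_le_mul_of_nonneg_left h5 h.Y0.le).trans h.Ysm

/-- positions of labels are close to the origin -/
theorem norm_label_lt {P : Par} (h : P.Ok) {j : ℕ} (hj : P.j0 ≤ j) {t : ℝ} {x : P2} {v : R3}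
    (hv : v ∈ lset P j t x) : ‖x - t • bar v‖ < 7 / 20 := by
  rw [mem_lset] at hv
  obtain ⟨⟨h1, h2⟩, -⟩ := hv
  have h3 := lane_lt_dl (Ok.j1 h) hj h1
  have h4 := Ok.dl20 h
  have h5 := Ysq_le h hj h1
  rw [Prod.norm_def, max_lt_iff]
  simp only [bar, Prod.fst_sub, Prod.snd_sub, Prod.smul_fst, Prod.smul_snd, smul_eq_mul,
    Real.norm_eq_abs]
  constructor <;> linarith

/-- at fixed `(t, x, v)` at most one pair (image, lane) is visible -/
theorem image_lane_unique {P : Par} (h : P.Ok) {i j : ℕ} (hi : P.j0 ≤ i) (hj : P.j0 ≤ j) {t : ℝ}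
    {x : P2} {v : R3} {k l : ℤ × ℤ} (hk : v ∈ lset P i t (x + latt k))
    (hl : v ∈ lset P j t (x + latt l)) : k = l ∧ i = j := by
  have h1 := norm_label_lt h hi hk
  have h2 := norm_label_lt h hj hl
  rw [add_sub_right_comm] at h1 h2
  have h3 := latt_unique h1 h2
  refine ⟨h3, ?_⟩
  subst h3
  rw [mem_lset] at hk hl
  exact lane_unique hk.1.1 hl.1.1

/-- one lane, switched off for `j < j0` -/
def phs (P : Par) (j : ℕ) (t : ℝ) (x : P2) (v : R3) : ℝ := if P.j0 ≤ j then phij P j t x v else 0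

theorem phs_of_le {P : Par} {j : ℕ} (hj : P.j0 ≤ j) (t : ℝ) (x : P2) (v : R3) :
    phs P j t x v = phij P j t x v := if_pos hj

theorem phs_nonneg {P : Par} (hK : 0 ≤ P.K) (j : ℕ) (t : ℝ) (x : P2) (v : R3) :
    0 ≤ phs P j t x v := by
  unfold phs
  split_ifs
  · exact phij_nonneg hK j t x v
  · exact le_rfl

theorem phs_transport (P : Par) (j : ℕ) (t : ℝ) (x : P2) (v : R3) :
    phs P j t x v = phs P j 0 (x - t • bar v) v := by
  unfold phs
  rw [phij_transport]

theorem measurable_phs (P : Par) (j : ℕ) :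
    Measurable fun p : ℝ × P2 × R3 => phs P j p.1 p.2.1 p.2.2 := by
  unfold phs
  split_ifs
  · exact measurable_phij P j
  · exact measurable_const

theorem mem_of_phs_ne {P : Par} {j : ℕ} {t : ℝ} {x : P2} {v : R3} (h : phs P j t x v ≠ 0) :
    P.j0 ≤ j ∧ v ∈ lset P j t x := by
  unfold phs at h
  split_ifs at h with h1
  · exact ⟨h1, phij_ne h⟩
  · exact (h rfl).elim

theorem phi0_eq {P : Par} (h : P.Ok) (x : P2) (v : R3) : phi0 P x v = ∑' j : ℕ, phs P j 0 x v := by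
  unfold phi0
  refine tsum_congr fun j => ?_
  unfold phs
  by_cases h1 : P.j0 ≤ j
  · rw [if_pos h1, if_pos h1]
    unfold phi0j
    have h2 : (x.1 ∈ lane j ∧ |x.2| < P.Y * rr x.1 ∧
        ∀ i : Fin 3, |v i - uvec P (wj j) 0 x i| < etaj P.p j) ↔ v ∈ lset P j 0 x := by
      have e0 : uvec P (wj j) 0 x 0 = P.kap * x.1 := by
        show P.c * x.1 / (P.dl + P.c * 0) = P.kap * x.1
        unfold Par.kap
        rw [mul_zero, add_zero]; ring
      have e1 : uvec P (wj j) 0 x 1 = x.2 / rr x.1 := by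
        show x.2 / (0 + rr (P.dl * x.1 / (P.dl + P.c * 0))) = x.2 / rr x.1
        rw [mul_zero, add_zero, zero_add]
        rw [mul_div_cancel_left₀ _ (Ok.dlp h).ne']
      have e2 : uvec P (wj j) 0 x 2 = wj j := rfl
      rw [mem_lset, Fin.forall_fin_succ, Fin.forall_fin_succ, Fin.forall_fin_succ]
      simp only [zero_mul, sub_zero, Fin.succ_zero_eq_one, Fin.succ_one_eq_two,
        IsEmpty.forall_iff, and_true, e0, e1, e2]
      tauto
    by_cases h3 : v ∈ lset P j 0 x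
    · rw [if_pos (h2.2 h3), phij_of_mem h3]
      simp
    · rw [if_neg (fun h => h3 (h2.1 h)), phij_of_notMem h3]
  · rw [if_neg h1, if_neg h1]

theorem phi_eq {P : Par} (h : P.Ok) (t : ℝ) (x : P2) (v : R3) :
    phi P t x v = ∑' k : ℤ × ℤ, ∑' j : ℕ, phs P j t (x + latt k) v := by
  unfold phi
  refine tsum_congr fun k => ?_
  rw [phi0_eq h]
  refine tsum_congr fun j => ?_
  rw [phs_transport P j t]

/-- sums with at most one nonzero term -/
theorem ofReal_tsum_one {ι : Type*} (f : ι → ℝ) (h : ∀ i j, f i ≠ 0 → f j ≠ 0 → i = j) :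
    ENNReal.ofReal (∑' i, f i) = ∑' i, ENNReal.ofReal (f i) := by
  by_cases h1 : ∃ i, f i ≠ 0
  · obtain ⟨i, hi⟩ := h1
    have h2 : ∀ j, j ≠ i → f j = 0 := fun j hj => by
      by_contra h3
      exact hj (h j i h3 hi)
    rw [tsum_eq_single i h2, tsum_eq_single i fun j hj => by rw [h2 j hj, ENNReal.ofReal_zero]]
  · push Not at h1
    simp [h1]

theorem tsum_one_ne {ι : Type*} {f : ι → ℝ} (h : ∑' i, f i ≠ 0) : ∃ i, f i ≠ 0 := by
  by_contra h1
  push Not at h1
  simp [h1] at h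

theorem ofReal_phi {P : Par} (h : P.Ok) (t : ℝ) (x : P2) (v : R3) :
    ENNReal.ofReal (phi P t x v) =
      ∑' k : ℤ × ℤ, ∑' j : ℕ, ENNReal.ofReal (phs P j t (x + latt k) v) := by
  rw [phi_eq h, ofReal_tsum_one]
  · refine tsum_congr fun k => ofReal_tsum_one _ fun i j hi hj => ?_
    have h1 := mem_of_phs_ne hi
    have h2 := mem_of_phs_ne hj
    exact (image_lane_unique h h1.1 h2.1 h1.2 h2.2).2
  · intro k l hk hl
    obtain ⟨i, hi⟩ := tsum_one_ne hk
    obtain ⟨j, hj⟩ := tsum_one_ne hl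
    have h1 := mem_of_phs_ne hi
    have h2 := mem_of_phs_ne hj
    exact (image_lane_unique h h1.1 h2.1 h1.2 h2.2).1

theorem phi_nonneg {P : Par} (h : P.Ok) (t : ℝ) (x : P2) (v : R3) : 0 ≤ phi P t x v := by
  rw [phi_eq h]
  exact tsum_nonneg fun k => tsum_nonneg fun j => phs_nonneg h.K0 j t _ v

/-- the fuel is one of its pieces -/
theorem phi_eq_phij {P : Par} (h : P.Ok) {t : ℝ} {x : P2} {v : R3} {j : ℕ} {k : ℤ × ℤ}
    (hj : P.j0 ≤ j) (hv : v ∈ lset P j t (x + latt k)) :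
    phi P t x v = phij P j t (x + latt k) v := by
  rw [phi_eq h, tsum_eq_single k, tsum_eq_single j]
  · rw [phs_of_le hj]
  · intro i hi
    by_contra h1
    have h2 := mem_of_phs_ne h1
    exact hi (image_lane_unique h h2.1 hj h2.2 hv).2
  · intro l hl
    by_contra h1
    obtain ⟨i, h2⟩ := tsum_one_ne h1
    have h3 := mem_of_phs_ne h2
    exact hl (image_lane_unique h h3.1 hj h3.2 hv).1

theorem exists_of_phi_ne {P : Par} (h : P.Ok) {t : ℝ} {x : P2} {v : R3} (h0 : phi P t x v ≠ 0) :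
    ∃ (k : ℤ × ℤ) (j : ℕ), P.j0 ≤ j ∧ v ∈ lset P j t (x + latt k) := by
  rw [phi_eq h] at h0
  obtain ⟨k, hk⟩ := tsum_one_ne h0
  obtain ⟨j, hj⟩ := tsum_one_ne hk
  exact ⟨k, j, mem_of_phs_ne hj⟩

/-- free transport -/
theorem phi_transport (P : Par) (t : ℝ) (x : P2) (v : R3) :
    phi P t x v = phi P 0 (x - t • bar v) v := by
  unfold phi
  refine tsum_congr fun k => ?_
  rw [zero_smul, sub_zero, sub_add_eq_add_sub]


/-- periodicity -/
theorem perG_phi (P : Par) (t : ℝ) (v : R3) : PerG fun x => phi P t x v := by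
  intro x l
  show phi P t (x + latt l) v = phi P t x v
  unfold phi
  rw [← (Equiv.addLeft l).tsum_eq (fun k => phi0 P (x + latt k - t • bar v) v)]
  refine tsum_congr fun k => ?_
  rw [Equiv.coe_addLeft, latt_add, add_assoc]

theorem measurable_ofReal_phi {P : Par} (h : P.Ok) :
    Measurable fun p : ℝ × P2 × R3 => ENNReal.ofReal (phi P p.1 p.2.1 p.2.2) := by
  simp_rw [ofReal_phi h]
  refine Measurable.tsum fun k => Measurable.tsum fun j => ?_
  have h1 : Measurable fun p : ℝ × P2 × R3 => (p.1, p.2.1 + latt k, p.2.2) := by fun_prop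
  exact ENNReal.measurable_ofReal.comp ((measurable_phs P j).comp h1)

theorem measurable_phi {P : Par} (h : P.Ok) :
    Measurable fun p : ℝ × P2 × R3 => phi P p.1 p.2.1 p.2.2 := by
  have h1 : (fun p : ℝ × P2 × R3 => phi P p.1 p.2.1 p.2.2) =
      fun p : ℝ × P2 × R3 => (ENNReal.ofReal (phi P p.1 p.2.1 p.2.2)).toReal := by
    funext p
    rw [ENNReal.toReal_ofReal (phi_nonneg h _ _ _)]
  rw [h1]
  exact (measurable_ofReal_phi h).ennreal_toReal

/-- velocity integrals of the fuel -/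
theorem lint_phi {P : Par} (h : P.Ok) (t : ℝ) (x : P2) {g : R3 → ℝ≥0∞} (hg : Measurable g) :
    ∫⁻ v, ENNReal.ofReal (phi P t x v) * g v =
      ∑' k : ℤ × ℤ, ∑' j : ℕ, ∫⁻ v, ENNReal.ofReal (phs P j t (x + latt k) v) * g v := by
  have hm : ∀ (k : ℤ × ℤ) (j : ℕ),
      Measurable fun v => ENNReal.ofReal (phs P j t (x + latt k) v) * g v := by
    intro k j
    have h1 : Measurable fun v : R3 => (t, x + latt k, v) := by fun_prop
    exact (ENNReal.measurable_ofReal.comp ((measurable_phs P j).comp h1)).mul hg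
  simp_rw [ofReal_phi h, ← ENNReal.tsum_mul_right]
  rw [lintegral_tsum fun k => (Measurable.tsum (hm k)).aemeasurable]
  refine tsum_congr fun k => ?_
  rw [lintegral_tsum fun j => (hm k j).aemeasurable]

/-- visible images -/
def vis (P : Par) (t : ℝ) (x : P2) : Set (ℤ × ℤ) :=
  {k | ∃ j, P.j0 ≤ j ∧ (lset P j t (x + latt k)).Nonempty}

theorem norm_of_vis {P : Par} (h : P.Ok) {t : ℝ} (ht : 0 ≤ t) {x : P2} {k : ℤ × ℤ}
    (hk : k ∈ vis P t x) :
    ‖x + latt k‖ ≤ (1 + P.Y) * P.dl + (P.c + P.Y + etaj P.p P.j0) * t := by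
  obtain ⟨j, hj, v, hv⟩ := hk
  rw [mem_lset] at hv
  obtain ⟨⟨h1, h2⟩, h1', h2', -⟩ := hv
  have h3 := lane_lt_dl (Ok.j1 h) hj h1
  have h5 := etaj_anti P.p hj
  have hd := Ok.dlp h
  have hd20 := Ok.dl20 h
  have hY := h.Y0
  have hc := h.c0
  have hκ : 0 ≤ P.kap := zero_le_one.trans h.kap1
  have hκ' : P.kap * P.dl = P.c := by unfold Par.kap; field_simp
  set X := x + latt k with hX
  set a := X.1 - t * v 0 with ha
  have hr : 0 < rr a := rr_pos h1.1
  have hra : rr a ≤ P.dl := by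
    unfold rr
    rw [← sq_abs]
    nlinarith [abs_nonneg a]
  have e1 : X.1 = (1 + P.kap * t) * a + t * (v 0 - P.kap * a) := by rw [ha]; ring
  have e2 : X.2 = (1 + (rr a)⁻¹ * t) * (X.2 - t * v 1) +
      t * (v 1 - (X.2 - t * v 1) / rr a) := by field_simp; ring
  have b1 : |X.1| ≤ P.dl + (P.c + etaj P.p P.j0) * t := by
    rw [e1]
    refine (abs_add_le _ _).trans ?_
    rw [abs_mul, abs_mul, abs_of_nonneg ht, abs_of_nonneg (show 0 ≤ 1 + P.kap * t by positivity)]
    have k1 : (1 + P.kap * t) * |a| ≤ (1 + P.kap * t) * P.dl :=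
      mul_le_mul_of_nonneg_left h3.le (by positivity)
    have k2 : t * |v 0 - P.kap * a| ≤ t * etaj P.p P.j0 :=
      mul_le_mul_of_nonneg_left (h1'.le.trans h5) ht
    nlinarith
  have b2 : |X.2| ≤ P.Y * P.dl + (P.Y + etaj P.p P.j0) * t := by
    rw [e2]
    refine (abs_add_le _ _).trans ?_
    rw [abs_mul, abs_mul, abs_of_nonneg ht, abs_of_nonneg (show 0 ≤ 1 + (rr a)⁻¹ * t by positivity)]
    have k1 : (1 + (rr a)⁻¹ * t) * |X.2 - t * v 1| ≤ (1 + (rr a)⁻¹ * t) * (P.Y * rr a) :=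
      mul_le_mul_of_nonneg_left h2.le (by positivity)
    have k2 : t * |v 1 - (X.2 - t * v 1) / rr a| ≤ t * etaj P.p P.j0 :=
      mul_le_mul_of_nonneg_left (h2'.le.trans h5) ht
    have k3 : (1 + (rr a)⁻¹ * t) * (P.Y * rr a) = P.Y * rr a + P.Y * t := by
      field_simp
    have k4 : P.Y * rr a ≤ P.Y * P.dl := mul_le_mul_of_nonneg_left hra hY.le
    nlinarith
  have hη := etaj_pos P.p P.j0
  rw [Prod.norm_def, max_le_iff, Real.norm_eq_abs, Real.norm_eq_abs]
  constructor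
  · refine b1.trans ?_
    nlinarith [mul_pos hY hd, mul_nonneg hY.le ht]
  · refine b2.trans ?_
    nlinarith [mul_nonneg hc.le ht]

theorem vis_finite {P : Par} (h : P.Ok) {t : ℝ} (ht : 0 ≤ t) (x : P2) : (vis P t x).Finite :=
  (finite_latt_near x _).subset fun _ hk => norm_of_vis h ht hk

/-- number of visible images -/
theorem vis_ncard {P : Par} (h : P.Ok) {t : ℝ} (ht : 0 ≤ t) (x : P2) :
    ((vis P t x).ncard : ℝ) ≤ (4 + 3 * (P.Y + 2) * t) ^ 2 := by
  have hη := etaj_le_one P.p P.j0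
  have hη0 := etaj_pos P.p P.j0
  have hY := h.Y0
  have hd := dl_pos (Ok.j1 h)
  have h4 := Ok.dl20 h
  have h1 : vis P t x ⊆ {k : ℤ × ℤ | ‖x + latt k‖ ≤ 1 + (P.Y + 2) * t} := by
    intro k hk
    refine (norm_of_vis h ht hk).trans ?_
    have := h.Ysm
    have := h.c1
    nlinarith
  have h2 := Set.ncard_le_ncard h1 (finite_latt_near x _)
  have h3 := ncard_latt_near x (L := 1 + (P.Y + 2) * t) (by positivity)
  calc ((vis P t x).ncard : ℝ) ≤ _ := by exact_mod_cast h2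
    _ ≤ _ := h3
    _ = _ := by ring

/-- one visible image for short times -/
theorem vis_subsingleton {P : Par} (h : P.Ok) {t : ℝ} (ht : 0 ≤ t)
    (hT : (1 + P.Y) * P.dl + (P.c + P.Y + etaj P.p P.j0) * t < 7 / 20) (x : P2) :
    (vis P t x).Subsingleton := fun _ hk _ hl =>
  latt_unique ((norm_of_vis h ht hk).trans_lt hT) ((norm_of_vis h ht hl).trans_lt hT)

/-- upper bounds for velocity integrals of the fuel, lane by lane -/
theorem lint_phi_le {P : Par} (h : P.Ok) {t : ℝ} (ht : 0 ≤ t) (x : P2) {g : R3 → ℝ≥0∞}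
    (hg : Measurable g) {B : ℝ≥0∞}
    (hB : ∀ k j, P.j0 ≤ j → (lset P j t (x + latt k)).Nonempty →
      ∫⁻ v, ENNReal.ofReal (phij P j t (x + latt k) v) * g v ≤ B) :
    ∫⁻ v, ENNReal.ofReal (phi P t x v) * g v ≤ (vis P t x).ncard * B := by
  rw [lint_phi h t x hg]
  have h1 : ∀ k, (∑' j : ℕ, ∫⁻ v, ENNReal.ofReal (phs P j t (x + latt k) v) * g v) ≤
      (vis P t x).indicator (fun _ => B) k := by
    intro k
    have hz : ∀ j, ¬ (P.j0 ≤ j ∧ (lset P j t (x + latt k)).Nonempty) →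
        ∫⁻ v, ENNReal.ofReal (phs P j t (x + latt k) v) * g v = 0 := by
      intro j hj
      have h2 : ∀ v, phs P j t (x + latt k) v = 0 := by
        intro v
        by_contra h3
        have h4 := mem_of_phs_ne h3
        exact hj ⟨h4.1, v, h4.2⟩
      simp [h2]
    by_cases hk : k ∈ vis P t x
    · obtain ⟨j, hj, hne⟩ := hk
      rw [Set.indicator_of_mem (show k ∈ vis P t x from ⟨j, hj, hne⟩), tsum_eq_single j]
      · have h2 : ∀ v, phs P j t (x + latt k) v = phij P j t (x + latt k) v := fun v =>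
          phs_of_le hj t _ v
        simp_rw [h2]
        exact hB k j hj hne
      · intro i hi
        apply hz
        rintro ⟨hi', v, hv⟩
        obtain ⟨w, hw⟩ := hne
        exact hi (one_lane h hi' hj ht hv hw)
    · rw [Set.indicator_of_notMem hk]
      rw [show (∑' j : ℕ, ∫⁻ v, ENNReal.ofReal (phs P j t (x + latt k) v) * g v) = ∑' j : ℕ, 0 from
        tsum_congr fun j => hz j fun h => hk ⟨j, h⟩, tsum_zero]
  calc _ ≤ ∑' k, (vis P t x).indicator (fun _ => B) k := ENNReal.tsum_le_tsum h1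
    _ = _ := by
      have hf := vis_finite h ht x
      rw [tsum_eq_sum (s := hf.toFinset)]
      · rw [Set.ncard_eq_toFinset_card _ hf, ← nsmul_eq_mul, ← Finset.sum_const]
        refine Finset.sum_congr rfl fun k hk => Set.indicator_of_mem (hf.mem_toFinset.1 hk) _
      · intro k hk
        exact Set.indicator_of_notMem (fun h' => hk (hf.mem_toFinset.2 h')) _

/-- density of the fuel -/
theorem density_phi_le {P : Par} (h : P.Ok) {t : ℝ} (ht : 0 < t) (x : P2) :
    ∫⁻ v, ENNReal.ofReal (phi P t x v) ≤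
      ENNReal.ofReal ((4 + 3 * (P.Y + 2) * t) ^ 2 * (P.K / (t * (1 + P.kap * t)))) := by
  have h1 := lint_phi_le h ht.le x (g := fun _ => 1) measurable_const
    (B := ENNReal.ofReal (P.K / (t * (1 + P.kap * t)))) fun k j hj _ => by
      have h2 := lint_phij_le h j ht.le (x + latt k) (g := fun _ => 1) measurable_const
        (A := ENNReal.ofReal (P.K / (t * (1 + P.kap * t)))) (B := 1)
        (fun a _ => ENNReal.ofReal_le_ofReal (dens_le h ht a)) (fun _ _ => le_rfl)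
      rwa [mul_one] at h2
  simp only [mul_one] at h1
  refine h1.trans ?_
  rw [ENNReal.ofReal_mul (by positivity)]
  refine mul_le_mul_left ?_ _
  rw [← ENNReal.ofReal_natCast]
  exact ENNReal.ofReal_le_ofReal (vis_ncard h ht.le x)

end

end Crest.Agent.R68.Fuel
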