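import Crest.Agent.R68.ColdFl
import Crest.Agent.R68.FSum
import Crest.Agent.R68.A2
import Crest.Agent.R68.CGauss
import Crest.Agent.R68.ColdMeas

-- ▼ part R68/ColdBasic
section

/-!
# Row 68, PART C: basic facts of one sheet (helper906)
-/

set_option autoImplicit false
open MeasureTheory Set Filter
open scoped ENNReal
open Crest.AnalysisR.VecCalc3 Crest.AnalysisR.PDE.Boltzmann

noncomputable section

namespace Crest.Agent.R68.Cold

/-- the constant of Part C -/
def C0 : ℝ := 10 ^ 12 * (1 + C.CG)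

theorem C0_ge : 10 ^ 12 ≤ C0 := by unfold C0; nlinarith [C.CG_pos]

theorem CG_le : 10 ^ 12 * C.CG ≤ C0 := by unfold C0; nlinarith [C.CG_pos]

/-! ### scales -/

theorem bj_pos (j : ℕ) : 0 < bj j := by unfold bj; positivity

theorem bj_le_one (j : ℕ) : bj j ≤ 1 := by
  unfold bj
  rw [div_le_one (by positivity)]
  have : (0 : ℝ) ≤ j := Nat.cast_nonneg j
  linarith

theorem etaj_eq (p j : ℕ) : etaj p j = bj j ^ p := rfl

section

variable {P : Par} (h : ColdPar C0 P) {j : ℕ} (hj : P.j0 ≤ j)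

include h in
theorem KY_ge : 2 ≤ P.K + P.Y := by linarith [h.K, h.Y]

include h in
theorem j0_big : 10 ^ 14 ≤ (P.j0 : ℝ) := by
  have h1 := h.j0
  have h2 : (2 : ℝ) ^ 8 ≤ (P.K + P.Y) ^ 8 := pow_le_pow_left₀ (by norm_num) (KY_ge h) 8
  have h3 := C0_ge
  nlinarith

include h in
theorem j0_pos : 1 ≤ P.j0 := by
  have := j0_big h
  have h2 : (1 : ℝ) ≤ P.j0 := by linarith
  exact_mod_cast h2

include h in
theorem dl_pos' : 0 < P.dl := Fuel.dl_pos (j0_pos h)

include h in
theorem c_pos' : 0 < P.c := (dl_pos' h).trans_le h.c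

include h hj in
theorem small : C0 * (P.K + P.Y) ^ 8 * bj j ≤ 1 := by
  have h1 : C0 * (P.K + P.Y) ^ 8 ≤ 2 * (j : ℝ) + 1 := by
    have h2 : (P.j0 : ℝ) ≤ j := by exact_mod_cast hj
    have h3 := h.j0
    have h4 : (0 : ℝ) ≤ j := Nat.cast_nonneg j
    linarith
  unfold bj
  rw [mul_one_div, div_le_one (by positivity)]
  exact h1

include h hj in
/-- all small quantities used below -/
theorem small' {A : ℝ} (hA0 : 0 ≤ A) (hA : A ≤ (P.K + P.Y) ^ 8) {D : ℝ} (hD : D ≤ C0) (hD0 : 0 ≤ D) :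
    D * A * bj j ≤ 1 := by
  refine le_trans ?_ (small h hj)
  have := bj_pos j
  gcongr
  · exact C0_ge.trans' (by norm_num)

include h hj in
theorem small_b : 10 ^ 12 * bj j ≤ 1 := by
  have h1 : (1 : ℝ) ≤ (P.K + P.Y) ^ 8 := one_le_pow₀ (by linarith [KY_ge h])
  have := small' h hj zero_le_one h1 C0_ge (by norm_num)
  linarith

include h in
theorem K_le_pow : P.K ≤ (P.K + P.Y) ^ 8 := by
  have h1 : P.K ≤ P.K + P.Y := by linarith [h.Y]
  exact h1.trans (le_self_pow₀ (by linarith [KY_ge h]) (by norm_num))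

include h in
theorem Y_pow_le (n : ℕ) (hn : n ≤ 8) : P.Y ^ n ≤ (P.K + P.Y) ^ 8 := by
  have h1 : P.Y ≤ P.K + P.Y := by linarith [h.K]
  calc P.Y ^ n ≤ (P.K + P.Y) ^ n := pow_le_pow_left₀ (by linarith [h.Y]) h1 n
    _ ≤ (P.K + P.Y) ^ 8 := pow_le_pow_right₀ (by linarith [KY_ge h]) hn


include h hj in
theorem small_CGK : 10 ^ 12 * C.CG * P.K * bj j ≤ 1 :=
  small' h hj (by linarith [h.K]) (K_le_pow h) CG_le (by have := C.CG_pos; positivity)

include h hj in
theorem small_Y4 : 10 ^ 12 * P.Y ^ 4 * bj j ≤ 1 :=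
  small' h hj (by have := h.Y; positivity) (Y_pow_le h 4 (by norm_num)) C0_ge (by norm_num)

include h hj in
theorem small_Ysqrt : 320 * P.Y ^ 2 * √(bj j) ≤ 1 := by
  have h1 := small_Y4 h hj
  have h2 : (320 * P.Y ^ 2 * √(bj j)) ^ 2 ≤ 1 ^ 2 := by
    have h3 : √(bj j) ^ 2 = bj j := Real.sq_sqrt (bj_pos j).le
    have h4 : (320 * P.Y ^ 2 * √(bj j)) ^ 2 = 102400 * P.Y ^ 4 * bj j := by
      rw [mul_pow, mul_pow, h3]; ring
    rw [h4]
    have h5 : 0 ≤ P.Y ^ 4 * bj j := by have := bj_pos j; have := h.Y; positivity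
    nlinarith
  exact le_of_sq_le_sq h2 zero_le_one

include h hj in
theorem j_pos : 1 ≤ j := (j0_pos h).trans hj

end

/-! ### labels -/

theorem laneE_bounds {j : ℕ} (hj : 1 ≤ j) {a : ℝ} (ha : a ∈ laneE j) :
    bj j * (1 - bj j) ≤ a ^ 2 ∧ a ^ 2 ≤ bj j * (1 + 2 * bj j) := by
  have h1 := Fuel.laneE_lower ha
  have h2 := Fuel.laneE_upper ha
  have hj1 : (1 : ℝ) ≤ j := by exact_mod_cast hj
  have hb : bj j * (2 * j + 1) = 1 := by unfold bj; field_simp
  have hb0 := bj_pos j
  have ha0 : 0 ≤ a ^ 2 := sq_nonneg a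
  constructor
  · -- a² > 1/(2j+2), b(1-b) = 2j/(2j+1)² ≤ 1/(2j+2)
    by_contra hcon
    push Not at hcon
    have h3 : 1 < bj j * (1 - bj j) * (2 * j + 399 / 200) := by
      refine h1.trans_le ?_
      exact mul_le_mul_of_nonneg_right hcon.le (by positivity)
    have h4 : bj j * (1 - bj j) * (2 * j + 399 / 200) =
        (1 - bj j) * (1 + 199 / 200 * bj j) := by
      have : bj j * (2 * j + 399 / 200) = 1 + 199 / 200 * bj j := by
        calc bj j * (2 * j + 399 / 200) = bj j * (2 * j + 1) + 199 / 200 * bj j := by ring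
          _ = _ := by rw [hb]
      calc bj j * (1 - bj j) * (2 * j + 399 / 200) = (1 - bj j) * (bj j * (2 * j + 399 / 200)) := by
            ring
        _ = _ := by rw [this]
    rw [h4] at h3
    nlinarith [sq_nonneg (bj j)]
  · by_contra hcon
    push Not at hcon
    have h3 : bj j * (1 + 2 * bj j) * (2 * j + 1 / 200) < 1 := by
      refine lt_of_le_of_lt ?_ h2
      exact mul_le_mul_of_nonneg_right hcon.le (by positivity)
    have h4 : bj j * (1 + 2 * bj j) * (2 * j + 1 / 200) =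
        (1 + 2 * bj j) * (1 - 199 / 200 * bj j) := by
      have : bj j * (2 * j + 1 / 200) = 1 - 199 / 200 * bj j := by
        calc bj j * (2 * j + 1 / 200) = bj j * (2 * j + 1) - 199 / 200 * bj j := by ring
          _ = _ := by rw [hb]
      calc bj j * (1 + 2 * bj j) * (2 * j + 1 / 200) = (1 + 2 * bj j) * (bj j * (2 * j + 1 / 200)) := by
            ring
        _ = _ := by rw [this]
    rw [h4] at h3
    have h5 : bj j ≤ 1 / 3 := by
      unfold bj
      rw [div_le_div_iff₀ (by positivity) (by norm_num)]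
      linarith
    nlinarith [mul_nonneg hb0.le (by linarith : 0 ≤ 1 / 3 - bj j)]

/-- the square of the peculiar velocity -/
theorem pec_sq {P : Par} (hd : 0 < P.dl) (σ t : ℝ) (x : P2) (v : R3) :
    ‖v - uvec P σ t x‖ ^ 2 = (v 0 - P.c / P.dl * lab P t x) ^ 2 +
      (v 1 - x.2 / (t + lab P t x ^ 2)) ^ 2 + (v 2 - σ) ^ 2 := by
  rw [EuclideanSpace.real_norm_sq_eq]
  have : P.c * x.1 / (P.dl + P.c * t) = P.c / P.dl * lab P t x := by
    unfold lab; field_simp
  simp [Fin.sum_univ_three, uvec, this, rr]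

theorem abs_pec0_le {P : Par} (hd : 0 < P.dl) (σ t : ℝ) (x : P2) (v : R3) :
    |v 0 - P.c / P.dl * lab P t x| ≤ ‖v - uvec P σ t x‖ := by
  apply abs_le_of_sq_le_sq' _ (norm_nonneg _) |> abs_le.2
  rw [pec_sq hd]
  nlinarith [sq_nonneg (v 1 - x.2 / (t + lab P t x ^ 2)), sq_nonneg (v 2 - σ)]

theorem abs_pec1_le {P : Par} (hd : 0 < P.dl) (σ t : ℝ) (x : P2) (v : R3) :
    |v 1 - x.2 / (t + lab P t x ^ 2)| ≤ ‖v - uvec P σ t x‖ := by
  apply abs_le_of_sq_le_sq' _ (norm_nonneg _) |> abs_le.2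
  rw [pec_sq hd]
  nlinarith [sq_nonneg (v 0 - P.c / P.dl * lab P t x), sq_nonneg (v 2 - σ)]


/-! ### flights -/

section

variable {P : Par} {s t : ℝ} (x : P2) (v : R3)

theorem lab_mul (hd : 0 < P.dl) (hc : 0 < P.c) {t : ℝ} (ht : 0 ≤ t) (x : P2) :
    (P.dl + P.c * t) * lab P t x = P.dl * x.1 := by
  unfold lab
  field_simp

theorem lab_flight_eq (hd : 0 < P.dl) (hc : 0 < P.c) (hs : 0 ≤ s) (hst : s ≤ t) :
    (P.dl + P.c * t) * (lab P t x - lab P s (x - (t - s) • bar v)) =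
      P.dl * (t - s) * (v 0 - P.c / P.dl * lab P s (x - (t - s) • bar v)) := by
  have h1 := lab_mul hd hc (hs.trans hst) x
  have h2 := lab_mul hd hc hs (x - (t - s) • bar v)
  have h3 : (x - (t - s) • bar v).1 = x.1 - (t - s) * v 0 := by simp [bar]
  rw [h3] at h2
  set A := lab P s (x - (t - s) • bar v)
  set B := lab P t x
  have h4 : P.dl * (P.c / P.dl * A) = P.c * A := by field_simp
  calc (P.dl + P.c * t) * (B - A) = (P.dl + P.c * t) * B - (P.dl + P.c * s) * A -
        P.c * (t - s) * A := by ring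
    _ = P.dl * x.1 - P.dl * (x.1 - (t - s) * v 0) - P.c * (t - s) * A := by rw [h1, h2]
    _ = (t - s) * (P.dl * v 0 - P.c * A) := by ring
    _ = (t - s) * (P.dl * v 0 - P.dl * (P.c / P.dl * A)) := by rw [h4]
    _ = _ := by ring

theorem lab_flight (hd : 0 < P.dl) (hc : P.dl ≤ P.c) (hs : 0 ≤ s) (hst : s ≤ t) :
    |lab P t x - lab P s (x - (t - s) • bar v)| ≤
      (t - s) / (1 + t) * |v 0 - P.c / P.dl * lab P s (x - (t - s) • bar v)| := by
  have hc0 : 0 < P.c := hd.trans_le hc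
  have ht : 0 ≤ t := hs.trans hst
  have h1 := lab_flight_eq x v hd hc0 hs hst
  set A := lab P s (x - (t - s) • bar v)
  set B := lab P t x
  set p1 := v 0 - P.c / P.dl * A
  have hD : 0 < P.dl + P.c * t := by positivity
  have h2 : |B - A| = P.dl * (t - s) * |p1| / (P.dl + P.c * t) := by
    rw [eq_div_iff hD.ne', ← abs_of_pos hD, ← abs_mul, mul_comm (B - A), h1, abs_mul, abs_mul,
      abs_of_pos hd, abs_of_nonneg (by linarith : 0 ≤ t - s)]
  rw [h2, div_mul_eq_mul_div, div_le_div_iff₀ hD (by positivity)]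
  have h3 : P.dl * (1 + t) ≤ P.dl + P.c * t := by nlinarith
  have h4 : 0 ≤ (t - s) * |p1| := mul_nonneg (by linarith) (abs_nonneg _)
  calc P.dl * (t - s) * |p1| * (1 + t) = ((t - s) * |p1|) * (P.dl * (1 + t)) := by ring
    _ ≤ ((t - s) * |p1|) * (P.dl + P.c * t) := mul_le_mul_of_nonneg_left h3 h4

theorem fan_flight_eq (hs : 0 ≤ s) (hst : s ≤ t)
    (hA : lab P s (x - (t - s) • bar v) ≠ 0) (hB : lab P t x ≠ 0) :
    x.2 / (t + lab P t x ^ 2) -
        (x - (t - s) • bar v).2 / (s + lab P s (x - (t - s) • bar v) ^ 2) =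
      ((lab P s (x - (t - s) • bar v) ^ 2 - lab P t x ^ 2) *
        ((x - (t - s) • bar v).2 / (s + lab P s (x - (t - s) • bar v) ^ 2)) +
      (t - s) * (v 1 - (x - (t - s) • bar v).2 / (s + lab P s (x - (t - s) • bar v) ^ 2))) /
      (t + lab P t x ^ 2) := by
  have ht : 0 ≤ t := hs.trans hst
  have h3 : (x - (t - s) • bar v).2 = x.2 - (t - s) * v 1 := by simp [bar]
  set A := lab P s (x - (t - s) • bar v)
  set B := lab P t x
  have hA' : 0 < s + A ^ 2 := by positivity
  have hB' : 0 < t + B ^ 2 := by positivity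
  rw [h3]
  field_simp
  ring

end

end Crest.Agent.R68.Cold
end
end

-- ▼ part R68/ColdSrc
section

/-!
# Row 68, PART C: flights starting in the zone of a sheet (helper906)
-/

set_option autoImplicit false
open MeasureTheory Set Filter
open scoped ENNReal
open Crest.AnalysisR.VecCalc3 Crest.AnalysisR.PDE.Boltzmann

noncomputable section

namespace Crest.Agent.R68.Cold

/-- source of the cold component of lane `j` -/
structure Src (P : Par) (j : ℕ) (s : ℝ) (x : P2) (v : R3) : Prop where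
  s0 : 0 ≤ s
  jj : P.j0 ≤ j
  labE : lab P s x ∈ laneE j
  yy : |x.2| ≤ 2 * P.Y * (s + rr (lab P s x))
  pec : ‖v - uvec P (wj j) s x‖ < rhoj P.p j

variable {P : Par} (h : ColdPar C0 P) {j : ℕ}

theorem rhoj_pos (p j : ℕ) : 0 < rhoj p j := by unfold rhoj; exact pow_pos (bj_pos j) _

include h in
theorem rhoj_le (m : ℕ) (hm : m ≤ 256) : rhoj P.p j ≤ bj j ^ m := by
  unfold rhoj
  apply pow_le_pow_of_le_one (bj_pos j).le (bj_le_one j)
  have := h.p
  omega

section

variable {s t : ℝ} {x : P2} {v : R3} (S : Src P j s (x - (t - s) • bar v) v) (hst : s ≤ t)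

include h S in
theorem Src.A_bounds : bj j / 2 ≤ lab P s (x - (t - s) • bar v) ^ 2 ∧
    lab P s (x - (t - s) • bar v) ^ 2 ≤ 2 * bj j := by
  have h1 := laneE_bounds (j_pos h S.jj) S.labE
  have h2 := small_b h S.jj
  have h3 := bj_pos j
  constructor
  · refine le_trans ?_ h1.1; nlinarith
  · refine h1.2.trans ?_; nlinarith

include h S hst in
theorem Src.lab_diff : |lab P t x - lab P s (x - (t - s) • bar v)| ≤
    (t - s) / (1 + t) * rhoj P.p j := by
  refine (lab_flight x v (dl_pos' h) h.c S.s0 hst).trans ?_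
  have ht : 0 ≤ t := S.s0.trans hst
  apply mul_le_mul_of_nonneg_left _ (div_nonneg (by linarith) (by positivity))
  exact (abs_pec0_le (dl_pos' h) (wj j) s _ v).trans S.pec.le

include h S hst in
theorem Src.lab_diff1 : |lab P t x - lab P s (x - (t - s) • bar v)| ≤ rhoj P.p j := by
  refine (S.lab_diff h hst).trans ?_
  have ht : 0 ≤ t := S.s0.trans hst
  have h1 : (t - s) / (1 + t) ≤ 1 := by
    rw [div_le_one (by positivity)]; linarith [S.s0]
  nlinarith [rhoj_pos P.p j]

include h S hst in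
theorem Src.lab_diff2 : |lab P t x - lab P s (x - (t - s) • bar v)| ≤
    (t - s) * rhoj P.p j := by
  refine (S.lab_diff h hst).trans ?_
  have ht : 0 ≤ t := S.s0.trans hst
  apply mul_le_mul_of_nonneg_right _ (rhoj_pos _ _).le
  apply div_le_self (by linarith) (by linarith)

include h S hst in
theorem Src.B_bounds : bj j / 4 ≤ lab P t x ^ 2 ∧ lab P t x ^ 2 ≤ 3 * bj j := by
  have h1 := S.A_bounds h
  have h2 := (S.lab_diff1 h hst).trans (rhoj_le h 2 (by norm_num))
  have h3 := small_b h S.jj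
  have h4 := bj_pos j
  set A := lab P s (x - (t - s) • bar v)
  set B := lab P t x
  have h5 : (B - A) ^ 2 ≤ (bj j ^ 2) ^ 2 := by
    rw [← sq_abs]; exact pow_le_pow_left₀ (abs_nonneg _) h2 2
  have h6 : (bj j ^ 2) ^ 2 ≤ bj j / 100 := by
    have : (bj j ^ 2) ^ 2 = bj j * bj j ^ 3 := by ring
    rw [this]
    have h7 : bj j ^ 3 ≤ bj j := pow_le_of_le_one h4.le (bj_le_one j) (by norm_num)
    nlinarith
  constructor
  · nlinarith [sq_nonneg (3 * (B - A) + B), sq_nonneg (A - 10 * (B - A))]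
  · nlinarith [sq_nonneg (A - 10 * (B - A))]

include h S hst in
/-- (F2) -/
theorem Src.beta_le : beta t * ‖v - uvec P (wj j) t x‖ ^ 2 ≤
    beta s * ‖v - uvec P (wj j) s (x - (t - s) • bar v)‖ ^ 2 := by
  have hd := dl_pos' h
  have hA := S.A_bounds h
  have hB := S.B_bounds h hst
  have h4 := bj_pos j
  rw [pec_sq hd, pec_sq hd]
  have e1 : (x - (t - s) • bar v).1 = x.1 - (t - s) * v 0 := by simp [bar]
  have e2 : (x - (t - s) • bar v).2 = x.2 - (t - s) * v 1 := by simp [bar]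
  have hAA := lab_mul hd (c_pos' h) S.s0 (x - (t - s) • bar v)
  have hBB := lab_mul hd (c_pos' h) (S.s0.trans hst) x
  rw [e1] at hAA
  have hy := S.yy
  rw [e2] at hy ⊢
  set A := lab P s (x - (t - s) • bar v)
  set B := lab P t x
  have hA0 : 0 < A ^ 2 := by linarith [hA.1]
  refine flight_real hd h.c S.s0 hst h4 (by linarith [h.Y]) hAA hBB hA.2 hB.1 hB.2 hA0 ?_
    (small_Ysqrt h S.jj)
  rw [abs_div, abs_of_pos (by linarith [S.s0] : 0 < s + A ^ 2), div_le_iff₀ (by linarith [S.s0])]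
  exact hy

include h S hst in
/-- (F3) the fan coordinate -/
theorem Src.fan_diff : |x.2 / (t + lab P t x ^ 2) -
    (x - (t - s) • bar v).2 / (s + lab P s (x - (t - s) • bar v) ^ 2)| ≤
      2 * rhoj P.p j * ((t - s) / (t + lab P t x ^ 2)) := by
  have hd := dl_pos' h
  have hA := S.A_bounds h
  have hB := S.B_bounds h hst
  have h4 := bj_pos j
  have ht : 0 ≤ t := S.s0.trans hst
  have hdiff := S.lab_diff2 h hst
  have hp2 := (abs_pec1_le hd (wj j) s (x - (t - s) • bar v) v).trans S.pec.le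
  have hyy := S.yy
  set A := lab P s (x - (t - s) • bar v) with hAdef
  set B := lab P t x with hBdef
  have hA0 : 0 < A ^ 2 := by linarith [hA.1]
  have hB0 : 0 < B ^ 2 := by linarith [hB.1]
  rw [fan_flight_eq x v S.s0 hst (by
    intro h0; rw [← hAdef, ] at h0; rw [h0] at hA0; norm_num at hA0) (by
    intro h0; rw [← hBdef] at h0; rw [h0] at hB0; norm_num at hB0)]
  rw [← hAdef, ← hBdef]
  set y := (x - (t - s) • bar v).2 / (s + A ^ 2) with hy
  have hy' : |y| ≤ 2 * P.Y := by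
    rw [hy, abs_div, abs_of_pos (by linarith [S.s0] : 0 < s + A ^ 2),
      div_le_iff₀ (by linarith [S.s0])]
    exact hyy
  have hBp : 0 < t + B ^ 2 := by linarith
  rw [abs_div, abs_of_pos hBp, show 2 * rhoj P.p j * ((t - s) / (t + B ^ 2)) =
    2 * rhoj P.p j * (t - s) / (t + B ^ 2) by ring]
  apply div_le_div_of_nonneg_right _ hBp.le
  have hAabs : |A| ≤ 2 * √(bj j) := by
    rw [← Real.sqrt_sq_eq_abs]
    calc √(A ^ 2) ≤ √(2 ^ 2 * bj j) := Real.sqrt_le_sqrt (by linarith)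
      _ = 2 * √(bj j) := by rw [Real.sqrt_mul (by norm_num), Real.sqrt_sq (by norm_num)]
  have hBabs : |B| ≤ 2 * √(bj j) := by
    rw [← Real.sqrt_sq_eq_abs]
    calc √(B ^ 2) ≤ √(2 ^ 2 * bj j) := Real.sqrt_le_sqrt (by linarith)
      _ = 2 * √(bj j) := by rw [Real.sqrt_mul (by norm_num), Real.sqrt_sq (by norm_num)]
  have hsq : |A ^ 2 - B ^ 2| ≤ (t - s) * rhoj P.p j * (4 * √(bj j)) := by
    have e : A ^ 2 - B ^ 2 = -(B - A) * (A + B) := by ring
    rw [e, abs_mul, abs_neg]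
    apply mul_le_mul hdiff _ (abs_nonneg _) (mul_nonneg (by linarith) (rhoj_pos _ _).le)
    refine (abs_add_le _ _).trans ?_
    linarith
  have hfin : |A ^ 2 - B ^ 2| * |y| ≤ (t - s) * rhoj P.p j := by
    have h0 : 0 ≤ (t - s) * rhoj P.p j := mul_nonneg (by linarith) (rhoj_pos _ _).le
    have h1 := small_Ysqrt h S.jj
    have hY := h.Y
    have h2 : 0 ≤ √(bj j) := Real.sqrt_nonneg _
    have h3 : 4 * √(bj j) * (2 * P.Y) ≤ 1 := by
      have : P.Y * √(bj j) ≤ P.Y ^ 2 * √(bj j) := by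
        apply mul_le_mul_of_nonneg_right _ h2
        nlinarith
      linarith
    calc |A ^ 2 - B ^ 2| * |y| ≤ ((t - s) * rhoj P.p j * (4 * √(bj j))) * (2 * P.Y) :=
          mul_le_mul hsq hy' (abs_nonneg _) (mul_nonneg h0 (by positivity))
      _ = (t - s) * rhoj P.p j * (4 * √(bj j) * (2 * P.Y)) := by ring
      _ ≤ (t - s) * rhoj P.p j * 1 := mul_le_mul_of_nonneg_left h3 h0
      _ = _ := by ring
  calc |(A ^ 2 - B ^ 2) * y + (t - s) * (v 1 - y)| ≤ |(A ^ 2 - B ^ 2) * y| + |(t - s) * (v 1 - y)| :=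
        abs_add_le _ _
    _ = |A ^ 2 - B ^ 2| * |y| + (t - s) * |v 1 - y| := by
        rw [abs_mul, abs_mul, abs_of_nonneg (by linarith : 0 ≤ t - s)]
    _ ≤ (t - s) * rhoj P.p j + (t - s) * rhoj P.p j :=
        add_le_add hfin (mul_le_mul_of_nonneg_left hp2 (by linarith))
    _ = 2 * rhoj P.p j * (t - s) := by ring

end

end Crest.Agent.R68.Cold
end
end

-- ▼ part R68/ColdGau
section

/-!
# Row 68, PART C: the monotone Gaussian majorant, zones (helper906)
-/

set_option autoImplicit false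
open MeasureTheory Set Filter
open scoped ENNReal
open Crest.AnalysisR.VecCalc3 Crest.AnalysisR.PDE.Boltzmann

noncomputable section

namespace Crest.Agent.R68.Cold

variable {P : Par} (h : ColdPar C0 P) {j : ℕ}

/-! ### scales again -/

theorem tauj_eq (p j : ℕ) : tauj p j = (1 / bj j) ^ (p / 16) := by
  unfold tauj bj; simp

theorem one_le_tauj (p j : ℕ) : 1 ≤ tauj p j := by
  unfold tauj
  exact one_le_pow₀ (by have : (0 : ℝ) ≤ j := Nat.cast_nonneg j; linarith)

theorem tauj_pos (p j : ℕ) : 0 < tauj p j := zero_lt_one.trans_le (one_le_tauj p j)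

include h in
/-- `ρ τ` is smaller than `b ^ m` -/
theorem rt_le (m : ℕ) (hm : m ≤ 200) : rhoj P.p j * tauj P.p j ≤ bj j ^ m := by
  have hb := bj_pos j
  rw [tauj_eq, rhoj, one_div, inv_pow, ← div_eq_mul_inv, div_le_iff₀ (pow_pos hb _), ← pow_add]
  apply pow_le_pow_of_le_one hb.le (bj_le_one j)
  have := h.p
  omega

theorem etaj_pos (p j : ℕ) : 0 < etaj p j := Fuel.etaj_pos p j


include h in
/-- `η ≤ b^m ρ` -/
theorem eta_rho (m : ℕ) (hm : m ≤ 256) : etaj P.p j ≤ bj j ^ m * rhoj P.p j := by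
  rw [etaj_eq, rhoj, ← pow_add]
  apply pow_le_pow_of_le_one (bj_pos j).le (bj_le_one j)
  have := h.p
  omega

/-! ### the Gaussian majorant -/

/-- monotone Gaussian majorant of lane `j` -/
def Mj (P : Par) (j : ℕ) (t : ℝ) (x : P2) (v : R3) : ℝ≥0∞ :=
  C.gs (P.K / (bj j * etaj P.p j ^ 3)) (etaj P.p j / √(beta t)) (uvec P (wj j) t x) v

include h in
theorem amp_nonneg : 0 ≤ P.K / (bj j * etaj P.p j ^ 3) := by
  have := h.K; have := bj_pos j; have := etaj_pos P.p j; positivity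

theorem Mj_eq (P : Par) (j : ℕ) (t : ℝ) (x : P2) (v : R3) :
    Mj P j t x v = ENNReal.ofReal (P.K / (bj j * etaj P.p j ^ 3) *
      Real.exp (-(beta t * ‖v - uvec P (wj j) t x‖ ^ 2) / (2 * etaj P.p j ^ 2))) := by
  unfold Mj C.gs
  congr 3
  have h1 : √(beta t) ^ 2 = beta t := Real.sq_sqrt (beta_pos t).le
  have h2 := etaj_pos P.p j
  have h3 := beta_pos t
  rw [div_pow, h1]
  field_simp

include h in
theorem Mj_le_gaussj (t : ℝ) (x : P2) (v : R3) : Mj P j t x v ≤ gaussj P j t x v := by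
  rw [Mj_eq]
  unfold gaussj
  apply ENNReal.ofReal_le_ofReal
  apply mul_le_mul_of_nonneg_left _ (amp_nonneg h)
  apply Real.exp_le_exp.2
  have h2 := etaj_pos P.p j
  rw [div_le_div_iff₀ (by positivity) (by positivity)]
  have h3 := half_le_beta t
  have h4 : 0 ≤ (beta t - 1 / 2) * ‖v - uvec P (wj j) t x‖ ^ 2 * etaj P.p j ^ 2 := by
    have : 0 ≤ beta t - 1 / 2 := by linarith
    positivity
  nlinarith

include h in
theorem Mj_flight {s t : ℝ} {x : P2} {v : R3} (S : Src P j s (x - (t - s) • bar v) v)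
    (hst : s ≤ t) : Mj P j s (x - (t - s) • bar v) v ≤ Mj P j t x v := by
  rw [Mj_eq, Mj_eq]
  apply ENNReal.ofReal_le_ofReal
  apply mul_le_mul_of_nonneg_left _ (amp_nonneg h)
  apply Real.exp_le_exp.2
  have h2 := etaj_pos P.p j
  apply div_le_div_of_nonneg_right _ (by positivity)
  linarith [S.beta_le h hst]


/-! ### the fuel of the lane -/

theorem phij_ne {t : ℝ} {x : P2} {v : R3} (h0 : phij P j t x v ≠ 0) :
    P.j0 ≤ j ∧ (x - t • bar v).1 ∈ lane j ∧ |(x - t • bar v).2| < P.Y * rr (x - t • bar v).1 ∧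
      ∀ i : Fin 3, |v i - uvec P (wj j) 0 (x - t • bar v) i| < etaj P.p j := by
  unfold phij at h0
  by_cases hj : P.j0 ≤ j
  · rw [if_pos hj] at h0
    unfold phi0j at h0
    by_cases h1 : (x - t • bar v).1 ∈ lane j ∧ |(x - t • bar v).2| < P.Y * rr (x - t • bar v).1 ∧
      ∀ i : Fin 3, |v i - uvec P (wj j) 0 (x - t • bar v) i| < etaj P.p j
    · exact ⟨hj, h1⟩
    · rw [if_neg h1] at h0
      simp at h0
  · rw [if_neg hj] at h0
    simp at h0

include h in
theorem lab_zero (x : P2) : lab P 0 x = x.1 := by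
  have := dl_pos' h
  unfold lab
  rw [mul_zero, add_zero, mul_div_assoc, mul_comm, div_mul_cancel₀ _ this.ne']

theorem norm_lt_of_box {x : P2} {v : R3}
    (h1 : ∀ i : Fin 3, |v i - uvec P (wj j) 0 x i| < etaj P.p j) :
    ‖v - uvec P (wj j) 0 x‖ ^ 2 ≤ 3 * etaj P.p j ^ 2 := by
  rw [EuclideanSpace.real_norm_sq_eq, Fin.sum_univ_three]
  have h2 : ∀ i : Fin 3, (v - uvec P (wj j) 0 x) i ^ 2 ≤ etaj P.p j ^ 2 := by
    intro i
    rw [← sq_abs]
    exact pow_le_pow_left₀ (abs_nonneg _) (h1 i).le 2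
  linarith [h2 0, h2 1, h2 2]

include h in
theorem src_of_phij {t : ℝ} {x : P2} {v : R3} (h0 : phij P j t x v ≠ 0) :
    Src P j 0 (x - t • bar v) v := by
  obtain ⟨hj, h1, h2, h3⟩ := phij_ne h0
  have hl := lab_zero h (x - t • bar v)
  refine ⟨le_rfl, hj, ?_, ?_, ?_⟩
  · rw [hl]; exact Fuel.lane_subset_laneE j h1
  · rw [hl]
    have : 0 ≤ P.Y * rr (x - t • bar v).1 := by
      have := h.Y
      have := Fuel.rr_nonneg (x - t • bar v).1
      positivity
    linarith
  · have h4 := norm_lt_of_box h3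
    have h5 := eta_rho h (j := j) 1 (by norm_num)
    have h6 := rhoj_pos P.p j
    have h7 := small_b h hj
    have h8 := etaj_pos P.p j
    have h9 : 2 * etaj P.p j < rhoj P.p j := by nlinarith
    have h10 : ‖v - uvec P (wj j) 0 (x - t • bar v)‖ ^ 2 < (2 * etaj P.p j) ^ 2 := by nlinarith
    have h11 := abs_lt_of_sq_lt_sq h10 (by positivity)
    exact ((le_abs_self _).trans_lt h11).trans h9

include h in
theorem phij_le_Mj0 {t : ℝ} {x : P2} {v : R3} (h0 : phij P j t x v ≠ 0) :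
    phij P j t x v ≤ Mj P j 0 (x - t • bar v) v := by
  obtain ⟨hj, h1, h2, h3⟩ := phij_ne h0
  rw [Mj_eq]
  unfold phij
  apply ENNReal.ofReal_le_ofReal
  rw [if_pos hj]
  unfold phi0j
  rw [if_pos ⟨h1, h2, h3⟩]
  have h4 := norm_lt_of_box h3
  have hη := etaj_pos P.p j
  have hb := bj_pos j
  have hK := h.K
  have hlo := (laneE_bounds (j_pos h hj) (Fuel.lane_subset_laneE j h1)).1
  have hsb := small_b h hj
  set X := x - t • bar v
  have hr : 99 / 100 * bj j ≤ rr X.1 := by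
    unfold rr
    refine le_trans ?_ hlo
    nlinarith
  have hr0 : 0 < rr X.1 := by nlinarith
  have hnum : P.K * chij j X.1 * ky P (X.2 / rr X.1) ≤ P.K := by
    have e1 := Fuel.chij_le_one j X.1
    have e2 := Fuel.ky_le_one P (X.2 / rr X.1)
    have e3 := Fuel.chij_nonneg j X.1
    have e4 := Fuel.ky_nonneg P (X.2 / rr X.1)
    calc P.K * chij j X.1 * ky P (X.2 / rr X.1) ≤ P.K * 1 * 1 := by gcongr
      _ = P.K := by ring
  have hexp : (1 : ℝ) / 5 ≤ Real.exp (-(beta 0 * ‖v - uvec P (wj j) 0 X‖ ^ 2) / (2 * etaj P.p j ^ 2)) := by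
    have e1 : -(3 / 2 : ℝ) ≤ -(beta 0 * ‖v - uvec P (wj j) 0 X‖ ^ 2) / (2 * etaj P.p j ^ 2) := by
      rw [le_div_iff₀ (by positivity)]
      have := beta_le_one 0
      have := beta_pos 0
      nlinarith [sq_nonneg ‖v - uvec P (wj j) 0 X‖]
    refine le_trans ?_ (Real.exp_le_exp.2 e1)
    rw [Real.exp_neg, one_div]
    apply inv_anti₀ (Real.exp_pos _)
    have e2 : Real.exp (3 / 2 : ℝ) ^ 2 = Real.exp 1 ^ 3 := by
      rw [← Real.exp_nat_mul, ← Real.exp_nat_mul]; norm_num
    have e3 : Real.exp 1 ^ 3 ≤ 25 := by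
      have := Real.exp_one_lt_d9.le
      calc Real.exp 1 ^ 3 ≤ (2.7182818286 : ℝ) ^ 3 := pow_le_pow_left₀ (Real.exp_pos 1).le this 3
        _ ≤ 25 := by norm_num
    rw [← e2] at e3
    nlinarith [Real.exp_pos (3 / 2 : ℝ)]
  calc P.K * chij j X.1 * ky P (X.2 / rr X.1) / (8 * rr X.1 * etaj P.p j ^ 3)
      ≤ P.K / (8 * (99 / 100 * bj j) * etaj P.p j ^ 3) := by gcongr
    _ = P.K / (bj j * etaj P.p j ^ 3) * (100 / 792) := by field_simp; norm_num
    _ ≤ P.K / (bj j * etaj P.p j ^ 3) * (1 / 5) := by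
        apply mul_le_mul_of_nonneg_left (by norm_num) (amp_nonneg h)
    _ ≤ _ := mul_le_mul_of_nonneg_left hexp (amp_nonneg h)

include h in
theorem phij_le_Mj {t : ℝ} (ht : 0 ≤ t) (x : P2) (v : R3) : phij P j t x v ≤ Mj P j t x v := by
  by_cases h0 : phij P j t x v = 0
  · rw [h0]; exact zero_le
  · have S := src_of_phij h h0
    have S' : Src P j 0 (x - (t - 0) • bar v) v := by rw [sub_zero]; exact S
    have h1 := Mj_flight h S' ht
    rw [sub_zero] at h1
    exact (phij_le_Mj0 h h0).trans h1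

end Crest.Agent.R68.Cold
end
end

-- ▼ part R68/ColdSup
section

/-!
# Row 68, PART C: support of the cold component of one sheet (C2) (helper906)
-/

set_option autoImplicit false
open MeasureTheory Set Filter
open scoped ENNReal
open Crest.AnalysisR.VecCalc3 Crest.AnalysisR.PDE.Boltzmann

noncomputable section

namespace Crest.Agent.R68.Cold

variable {P : Par} (h : ColdPar C0 P) {j : ℕ}

/-- position part of the support up to the time `tauj` -/
def Pos (P : Par) (j : ℕ) (t : ℝ) (x : P2) : Prop :=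
  (∃ a ∈ lane j, |lab P t x - a| ≤ rhoj P.p j * t) ∧
    |x.2 / (t + lab P t x ^ 2)| ≤ P.Y + 4 * rhoj P.p j / √(bj j) * √t

/-- support of the cold particles: born at some time `σ ≤ tauj` in the zone -/
def Sup (P : Par) (j : ℕ) (t : ℝ) (x : P2) (v : R3) : Prop :=
  ∃ σ, 0 ≤ σ ∧ σ ≤ t ∧ σ ≤ tauj P.p j ∧ Src P j σ (x - (t - σ) • bar v) v ∧
    Pos P j σ (x - (t - σ) • bar v)

/-- tight zone in position -/
def Tight (P : Par) (j : ℕ) (t : ℝ) (x : P2) : Prop :=
  P.j0 ≤ j ∧ (∃ a ∈ lane j, |lab P t x - a| ≤ rhoj P.p j * tauj P.p j / bj j) ∧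
    |x.2| ≤ (P.Y + rhoj P.p j * tauj P.p j / bj j ^ 2) * (t + rr (lab P t x))

theorem Ztj_iff (t : ℝ) (x : P2) (v : R3) :
    Ztj P j t x v ↔ Tight P j t x ∧ ‖v - uvec P (wj j) t x‖ < 2 * rhoj P.p j := by
  unfold Ztj Tight
  tauto

theorem one_le_inv_b (j : ℕ) : 1 ≤ 1 / bj j := by
  rw [le_div_iff₀ (bj_pos j)]; linarith [bj_le_one j]

/-- the fan coordinate grows slowly -/
theorem fan_growth {s t : ℝ} {x : P2} {v : R3} (h : ColdPar C0 P)
    (S : Src P j s (x - (t - s) • bar v) v) (hst : s ≤ t) :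
    |x.2 / (t + lab P t x ^ 2)| ≤
      |(x - (t - s) • bar v).2 / (s + lab P s (x - (t - s) • bar v) ^ 2)| +
        4 * rhoj P.p j / √(bj j) * (√t - √s) := by
  have h1 := S.fan_diff h hst
  have hB := S.B_bounds h hst
  have hb := bj_pos j
  have hsb : 0 < √(bj j) := Real.sqrt_pos.2 hb
  have hBabs : √(bj j) / 2 ≤ |lab P t x| := by
    rw [← Real.sqrt_sq_eq_abs]
    have : √(bj j) / 2 = √(bj j / 4) := by
      rw [Real.sqrt_div hb.le, show (4:ℝ) = 2 ^ 2 by norm_num, Real.sqrt_sq (by norm_num)]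
    rw [this]
    exact Real.sqrt_le_sqrt hB.1
  have hBpos : 0 < |lab P t x| := by linarith
  have h2 := lam_le S.s0 hst hBpos
  rw [sq_abs] at h2
  have hsq : √s ≤ √t := Real.sqrt_le_sqrt hst
  have h3 : (√t - √s) / |lab P t x| ≤ (√t - √s) * (2 / √(bj j)) := by
    rw [div_eq_mul_inv]
    apply mul_le_mul_of_nonneg_left _ (by linarith)
    rw [inv_le_comm₀ hBpos (by positivity), inv_div]
    exact hBabs
  have hρ := rhoj_pos P.p j
  have h4 : 2 * rhoj P.p j * ((t - s) / (t + lab P t x ^ 2)) ≤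
      4 * rhoj P.p j / √(bj j) * (√t - √s) := by
    calc 2 * rhoj P.p j * ((t - s) / (t + lab P t x ^ 2))
        ≤ 2 * rhoj P.p j * ((√t - √s) * (2 / √(bj j))) := by
          apply mul_le_mul_of_nonneg_left (h2.trans h3) (by positivity)
      _ = _ := by ring
  have h5 := abs_sub_abs_le_abs_sub (x.2 / (t + lab P t x ^ 2))
    ((x - (t - s) • bar v).2 / (s + lab P s (x - (t - s) • bar v) ^ 2))
  linarith

/-- position part of the support -/
theorem Sup.pos {t : ℝ} {x : P2} {v : R3} (h : ColdPar C0 P) (S : Sup P j t x v) : Pos P j t x := by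
  obtain ⟨σ, h0, h1, h2, h3, ⟨a, ha, h4⟩, h5⟩ := S
  refine ⟨⟨a, ha, ?_⟩, ?_⟩
  · have h6 := h3.lab_diff2 h h1
    have h7 : |lab P t x - a| ≤ |lab P t x - lab P σ (x - (t - σ) • bar v)| +
        |lab P σ (x - (t - σ) • bar v) - a| := abs_sub_le _ _ _
    linarith
  · have h6 := fan_growth h h3 h1
    have h7 : 4 * rhoj P.p j / √(bj j) * (√t - √σ) =
        4 * rhoj P.p j / √(bj j) * √t - 4 * rhoj P.p j / √(bj j) * √σ := by ring
    linarith

/-- tight zone -/
theorem Sup.tight {t : ℝ} {x : P2} {v : R3} (h : ColdPar C0 P) (S : Sup P j t x v) :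
    Ztj P j t x v := by
  rw [Ztj_iff]
  obtain ⟨σ, h0, h1, h2, h3, ⟨a, ha, h4⟩, h5⟩ := S
  have hb := bj_pos j
  have hρ := rhoj_pos P.p j
  have hτ := one_le_tauj P.p j
  have hsm := small_b h h3.jj
  have hib := one_le_inv_b j
  have ht : 0 ≤ t := h0.trans h1
  refine ⟨⟨h3.jj, ⟨a, ha, ?_⟩, ?_⟩, ?_⟩
  · have h6 := h3.lab_diff1 h h1
    have h7 : |lab P t x - a| ≤ |lab P t x - lab P σ (x - (t - σ) • bar v)| +
        |lab P σ (x - (t - σ) • bar v) - a| := abs_sub_le _ _ _
    have h8 : rhoj P.p j * σ ≤ rhoj P.p j * tauj P.p j := mul_le_mul_of_nonneg_left h2 hρ.le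
    have h9 : rhoj P.p j ≤ rhoj P.p j * tauj P.p j := by nlinarith
    have h10 : 2 * (rhoj P.p j * tauj P.p j) ≤ rhoj P.p j * tauj P.p j / bj j := by
      rw [le_div_iff₀ hb]
      have : 0 < rhoj P.p j * tauj P.p j := by positivity
      nlinarith
    linarith
  · have hB := h3.B_bounds h h1
    have hBp : 0 < t + lab P t x ^ 2 := by linarith
    have hyσ : |(x - (t - σ) • bar v).2 / (σ + lab P σ (x - (t - σ) • bar v) ^ 2)| ≤
      P.Y + 4 * rhoj P.p j / √(bj j) * √(tauj P.p j) := by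
      refine h5.trans ?_
      have : √σ ≤ √(tauj P.p j) := Real.sqrt_le_sqrt h2
      have : 4 * rhoj P.p j / √(bj j) * √σ ≤ 4 * rhoj P.p j / √(bj j) * √(tauj P.p j) := by
        gcongr
      linarith
    have hd := h3.fan_diff h h1
    have hlam : (t - σ) / (t + lab P t x ^ 2) ≤ 1 := by
      rw [div_le_one hBp]; linarith [sq_nonneg (lab P t x)]
    have h6 : |x.2 / (t + lab P t x ^ 2)| ≤ P.Y + 4 * rhoj P.p j / √(bj j) * √(tauj P.p j) +
        2 * rhoj P.p j := by
      have h7 := abs_sub_abs_le_abs_sub (x.2 / (t + lab P t x ^ 2))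
        ((x - (t - σ) • bar v).2 / (σ + lab P σ (x - (t - σ) • bar v) ^ 2))
      have h8 : 2 * rhoj P.p j * ((t - σ) / (t + lab P t x ^ 2)) ≤ 2 * rhoj P.p j * 1 :=
        mul_le_mul_of_nonneg_left hlam (by positivity)
      linarith
    have h9 : 4 * rhoj P.p j / √(bj j) * √(tauj P.p j) + 2 * rhoj P.p j ≤
        rhoj P.p j * tauj P.p j / bj j ^ 2 := by
      have e1 : √(tauj P.p j) ≤ tauj P.p j := by
        rw [Real.sqrt_le_left (by positivity)]
        nlinarith
      have e2 : bj j ≤ √(bj j) := by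
        apply Real.le_sqrt_of_sq_le
        nlinarith [bj_le_one j]
      have e3 : 4 * rhoj P.p j / √(bj j) * √(tauj P.p j) ≤ 4 * rhoj P.p j / bj j * tauj P.p j := by
        gcongr
      have e4 : 4 * rhoj P.p j / bj j * tauj P.p j + 2 * rhoj P.p j ≤
          6 * (rhoj P.p j * tauj P.p j / bj j) := by
        have : 2 * rhoj P.p j ≤ 2 * (rhoj P.p j * tauj P.p j / bj j) := by
          have : rhoj P.p j * 1 ≤ rhoj P.p j * (tauj P.p j * (1 / bj j)) := by
            apply mul_le_mul_of_nonneg_left _ hρ.le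
            nlinarith
          calc 2 * rhoj P.p j = 2 * (rhoj P.p j * 1) := by ring
            _ ≤ 2 * (rhoj P.p j * (tauj P.p j * (1 / bj j))) := by linarith
            _ = _ := by ring
        calc 4 * rhoj P.p j / bj j * tauj P.p j + 2 * rhoj P.p j ≤
            4 * rhoj P.p j / bj j * tauj P.p j + 2 * (rhoj P.p j * tauj P.p j / bj j) := by linarith
          _ = _ := by ring
      have e5 : 6 * (rhoj P.p j * tauj P.p j / bj j) ≤ rhoj P.p j * tauj P.p j / bj j ^ 2 := by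
        rw [show 6 * (rhoj P.p j * tauj P.p j / bj j) = 6 * bj j * (rhoj P.p j * tauj P.p j) / bj j ^ 2 by
          field_simp]
        apply div_le_div_of_nonneg_right _ (by positivity)
        have : 0 < rhoj P.p j * tauj P.p j := by positivity
        nlinarith
      linarith
    rw [abs_div, abs_of_pos hBp, div_le_iff₀ hBp] at h6
    refine h6.trans ?_
    unfold rr
    apply mul_le_mul_of_nonneg_right _ hBp.le
    linarith
  · have h6 := h3.beta_le h h1
    have h7 : ‖v - uvec P (wj j) σ (x - (t - σ) • bar v)‖ ^ 2 < rhoj P.p j ^ 2 := by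
      apply pow_lt_pow_left₀ h3.pec (norm_nonneg _) (by norm_num)
    have h8 := half_le_beta t
    have h9 := beta_le_one σ
    have h10 := beta_pos σ
    have h11 : ‖v - uvec P (wj j) t x‖ ^ 2 < (2 * rhoj P.p j) ^ 2 := by
      have e1 : 1 / 2 * ‖v - uvec P (wj j) t x‖ ^ 2 ≤ beta t * ‖v - uvec P (wj j) t x‖ ^ 2 :=
        mul_le_mul_of_nonneg_right h8 (sq_nonneg _)
      have e2 : beta σ * ‖v - uvec P (wj j) σ (x - (t - σ) • bar v)‖ ^ 2 ≤
          1 * ‖v - uvec P (wj j) σ (x - (t - σ) • bar v)‖ ^ 2 :=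
        mul_le_mul_of_nonneg_right h9 (sq_nonneg _)
      have e3 : 0 < rhoj P.p j ^ 2 := by positivity
      nlinarith
    have h12 := abs_lt_of_sq_lt_sq h11 (by positivity)
    rwa [abs_of_nonneg (norm_nonneg _)] at h12

/-- labels close to the lane are in the enlarged lane -/
theorem laneE_of_near (h : ColdPar C0 P) (hj : P.j0 ≤ j) {a B : ℝ} (ha : a ∈ lane j)
    (hB : |B - a| ≤ bj j ^ 4) : B ∈ laneE j := by
  have hb := bj_pos j
  have hsm := small_b h hj
  have hbd := laneE_bounds (j_pos h hj) (Fuel.lane_subset_laneE j ha)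
  have ha1 : bj j / 2 ≤ a ^ 2 := by refine le_trans ?_ hbd.1; nlinarith
  have ha2 : a ^ 2 ≤ 2 * bj j := by refine hbd.2.trans ?_; nlinarith
  have hd2 : (B - a) ^ 2 ≤ bj j ^ 8 := by
    rw [← sq_abs]
    calc |B - a| ^ 2 ≤ (bj j ^ 4) ^ 2 := pow_le_pow_left₀ (abs_nonneg _) hB 2
      _ = _ := by ring
  have hb8 : bj j ^ 8 ≤ bj j / 10000 := by
    have : bj j ^ 8 = bj j * bj j ^ 7 := by ring
    rw [this]
    have h7 : bj j ^ 7 ≤ bj j := pow_le_of_le_one hb.le (bj_le_one j) (by norm_num)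
    nlinarith
  have hB1 : bj j / 4 ≤ B ^ 2 := by
    nlinarith [sq_nonneg (3 * (B - a) + B), sq_nonneg (a - 10 * (B - a))]
  have hB2 : B ^ 2 ≤ 3 * bj j := by nlinarith [sq_nonneg (a - 10 * (B - a))]
  have hB0 : 0 < B ^ 2 := by linarith
  have ha0 : 0 < a ^ 2 := by linarith
  -- difference of the inverse squares
  have hdiff : |1 / B ^ 2 - 1 / a ^ 2| ≤ 1 / 200 := by
    have hBne : B ≠ 0 := fun h0 => by rw [h0] at hB0; norm_num at hB0
    have hane : a ≠ 0 := fun h0 => by rw [h0] at ha0; norm_num at ha0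
    have e1 : 1 / B ^ 2 - 1 / a ^ 2 = -(B - a) * (B + a) / (B ^ 2 * a ^ 2) := by
      field_simp; ring
    rw [e1, abs_div, abs_mul, abs_neg, abs_of_pos (by positivity : 0 < B ^ 2 * a ^ 2),
      div_le_iff₀ (by positivity)]
    have e2 : |B + a| ≤ 4 := by
      have : (B + a) ^ 2 ≤ 4 ^ 2 := by nlinarith [sq_nonneg (B - a), bj_le_one j]
      exact abs_le_of_sq_le_sq this (by norm_num)
    have e3 : |B - a| * |B + a| ≤ bj j ^ 4 * 4 := mul_le_mul hB e2 (abs_nonneg _) (by positivity)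
    have e4 : bj j / 4 * (bj j / 2) ≤ B ^ 2 * a ^ 2 := mul_le_mul hB1 ha1 (by positivity) hB0.le
    have e5 : bj j ^ 4 * 4 ≤ 1 / 200 * (bj j / 4 * (bj j / 2)) := by
      have : bj j ^ 4 * 4 = bj j ^ 2 * (4 * bj j * bj j) := by ring
      rw [this]
      have e6 : 4 * bj j * bj j ≤ 1 / 1600 := by nlinarith [bj_le_one j]
      nlinarith [sq_nonneg (bj j)]
    linarith
  rw [abs_le] at hdiff
  obtain ⟨h1, h2, h3⟩ := ha
  refine ⟨?_, ?_, ?_⟩
  · intro h0; rw [h0] at hB0; norm_num at hB0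
  · linarith [hdiff.1]
  · linarith [hdiff.2]

/-- the tight zone is inside the zone -/
theorem Tight.zone (h : ColdPar C0 P) {t : ℝ} (ht : 0 ≤ t) {x : P2} (hT : Tight P j t x) :
    P.j0 ≤ j ∧ lab P t x ∈ laneE j ∧ |x.2| < 2 * P.Y * (t + rr (lab P t x)) := by
  obtain ⟨hj, ⟨a, ha, h1⟩, h2⟩ := hT
  have hb := bj_pos j
  have hsm := small_b h hj
  have h3 : rhoj P.p j * tauj P.p j / bj j ≤ bj j ^ 4 := by
    rw [div_le_iff₀ hb]
    exact (rt_le h 5 (by norm_num)).trans (le_of_eq (by ring))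
  have h4 := laneE_of_near h hj ha (h1.trans h3)
  refine ⟨hj, h4, h2.trans_lt ?_⟩
  have hr := Fuel.rr_pos h4.1
  apply mul_lt_mul_of_pos_right _ (by linarith)
  have h5 : rhoj P.p j * tauj P.p j / bj j ^ 2 ≤ bj j ^ 3 := by
    rw [div_le_iff₀ (by positivity)]
    exact (rt_le h 5 (by norm_num)).trans (le_of_eq (by ring))
  have h6 : bj j ^ 3 ≤ bj j := pow_le_of_le_one hb.le (bj_le_one j) (by norm_num)
  have := h.Y
  linarith

/-- position inside the birth times: the zone -/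
theorem Pos.zone (h : ColdPar C0 P) (hj : P.j0 ≤ j) {t : ℝ} (ht : 0 ≤ t) (htτ : t ≤ tauj P.p j)
    {x : P2} (hT : Pos P j t x) :
    lab P t x ∈ laneE j ∧ |x.2| < 2 * P.Y * (t + rr (lab P t x)) := by
  obtain ⟨⟨a, ha, h1⟩, h2⟩ := hT
  have hb := bj_pos j
  have hρ := rhoj_pos P.p j
  have hτ := one_le_tauj P.p j
  have hsm := small_b h hj
  have h3 : rhoj P.p j * t ≤ bj j ^ 4 :=
    (mul_le_mul_of_nonneg_left htτ hρ.le).trans (rt_le h 4 (by norm_num))
  have h4 := laneE_of_near h hj ha (h1.trans h3)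
  have hr := Fuel.rr_pos h4.1
  refine ⟨h4, ?_⟩
  have hBp : 0 < t + lab P t x ^ 2 := by unfold rr at hr; linarith
  rw [abs_div, abs_of_pos hBp, div_le_iff₀ hBp] at h2
  refine h2.trans_lt ?_
  unfold rr
  apply mul_lt_mul_of_pos_right _ hBp
  have e1 : √t ≤ tauj P.p j := by
    rw [Real.sqrt_le_left (by positivity)]
    nlinarith
  have e2 : bj j ≤ √(bj j) := by
    apply Real.le_sqrt_of_sq_le
    nlinarith [bj_le_one j]
  have e3 : 4 * rhoj P.p j / √(bj j) * √t ≤ 4 * rhoj P.p j / bj j * tauj P.p j := by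
    gcongr
  have e4 : 4 * rhoj P.p j / bj j * tauj P.p j ≤ 4 * bj j ^ 2 := by
    have := rt_le h (j := j) 3 (by norm_num)
    calc 4 * rhoj P.p j / bj j * tauj P.p j = 4 * (rhoj P.p j * tauj P.p j) / bj j := by ring
      _ ≤ 4 * bj j ^ 3 / bj j := by gcongr
      _ = 4 * bj j ^ 2 := by field_simp
  have e5 : bj j ^ 2 ≤ bj j := pow_le_of_le_one hb.le (bj_le_one j) (by norm_num)
  have := h.Y
  linarith

end Crest.Agent.R68.Cold
end
end

-- ▼ part R68/ColdPic

/-!
# Row 68, PART C: the cold component of one sheet (C1, C2, C3) (helper906)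
-/

set_option autoImplicit false
open MeasureTheory Set Filter
open scoped ENNReal
open Crest.AnalysisR.VecCalc3 Crest.AnalysisR.PDE.Boltzmann

noncomputable section

namespace Crest.Agent.R68.Cold

open A ColdM

/-! ### continuity from below -/

theorem iSup_mul_iSup_mono {f g : ℕ → ℝ≥0∞} (hf : Monotone f) (hg : Monotone g) :
    (⨆ n, f n) * (⨆ n, g n) = ⨆ n, f n * g n := by
  apply le_antisymm
  · rw [ENNReal.iSup_mul]
    refine iSup_le fun i => ?_
    rw [ENNReal.mul_iSup]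
    refine iSup_le fun k => ?_
    refine le_iSup_of_le (max i k) ?_
    exact mul_le_mul' (hf (le_max_left _ _)) (hg (le_max_right _ _))
  · exact iSup_le fun n => mul_le_mul' (le_iSup f n) (le_iSup g n)

theorem Qp_iSup {f : ℕ → R3 → ℝ≥0∞} (hf : ∀ n, Measurable (f n)) (hm : Monotone f) (v : R3) :
    Qp (fun z => ⨆ n, f n z) (fun z => ⨆ n, f n z) v = ⨆ n, Qp (f n) (f n) v := by
  unfold Qp
  have h1 : ∀ vs w : R3, ENNReal.ofReal |inner ℝ (v - vs) w| * (⨆ n, f n (postVel v vs w)) *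
      (⨆ n, f n (postVelStar v vs w)) =
      ⨆ n, ENNReal.ofReal |inner ℝ (v - vs) w| * f n (postVel v vs w) *
        f n (postVelStar v vs w) := by
    intro vs w
    have e : ENNReal.ofReal |inner ℝ (v - vs) w| * (⨆ n, f n (postVel v vs w)) =
        ⨆ n, ENNReal.ofReal |inner ℝ (v - vs) w| * f n (postVel v vs w) := ENNReal.mul_iSup ..
    rw [e, iSup_mul_iSup_mono]
    · intro i k hik
      exact mul_le_mul' le_rfl (hm hik _)
    · intro i k hik
      exact hm hik _
  simp_rw [h1]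
  have hmeas : ∀ n, Measurable (fun p : R3 × R3 => ENNReal.ofReal |inner ℝ (v - p.1) p.2| *
      f n (postVel v p.1 p.2) * f n (postVelStar v p.1 p.2)) := fun n =>
    measurable_Qp_integrand (hf n) (hf n) v
  have h2 : ∀ vs : R3, (∫⁻ w, ⨆ n, ENNReal.ofReal |inner ℝ (v - vs) w| * f n (postVel v vs w) *
        f n (postVelStar v vs w) ∂sphereMeasure) =
      ⨆ n, ∫⁻ w, ENNReal.ofReal |inner ℝ (v - vs) w| * f n (postVel v vs w) *
        f n (postVelStar v vs w) ∂sphereMeasure := by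
    intro vs
    rw [lintegral_iSup]
    · intro n
      exact (hmeas n).comp (f := fun w => (vs, w)) (by fun_prop)
    · intro i k hik w
      exact mul_le_mul' (mul_le_mul' le_rfl (hm hik _)) (hm hik _)
  simp_rw [h2]
  rw [lintegral_iSup]
  · intro n
    exact Measurable.lintegral_prod_right' (hmeas n)
  · intro i k hik vs
    exact lintegral_mono fun w => mul_le_mul' (mul_le_mul' le_rfl (hm hik _)) (hm hik _)

variable {P : Par} {j : ℕ}

open scoped Classical in
theorem gainj_mono {c c' : ℝ → P2 → R3 → ℝ≥0∞} {t : ℝ} {x : P2} (hc : ∀ v, c t x v ≤ c' t x v)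
    (v : R3) : gainj P j c t x v ≤ gainj P j c' t x v := by
  unfold gainj
  split_ifs
  · exact A.Qp_mono hc hc v
  · exact le_rfl

theorem itj_le_succ (Λ : ℝ → P2 → R3 → ℝ≥0∞) (n : ℕ) (t : ℝ) (x : P2) (v : R3) :
    itj P j Λ n t x v ≤ itj P j Λ (n + 1) t x v := by
  induction n generalizing t x v with
  | zero => simp [itj]
  | succ n ih =>
    simp only [itj] at ih ⊢
    unfold DuhD
    gcongr with s
    exact gainj_mono (fun z => ih s _ z) v

theorem itj_mono (Λ : ℝ → P2 → R3 → ℝ≥0∞) (t : ℝ) (x : P2) (v : R3) :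
    Monotone fun n => itj P j Λ n t x v :=
  monotone_nat_of_le_succ fun n => itj_le_succ Λ n t x v

open scoped Classical in
/-- the fixed point equation, for all times -/
theorem coldj_eq {Λ : ℝ → P2 → R3 → ℝ≥0∞} (hΛ : Meas3 Λ) (t : ℝ) (x : P2) (v : R3) :
    coldj P j Λ t x v = phij P j t x v * damp Λ 0 t x v +
      DuhD Λ (gainj P j (coldj P j Λ)) t x v := by
  have h1 : coldj P j Λ t x v = ⨆ n, itj P j Λ (n + 1) t x v := by
    unfold coldj
    apply le_antisymm
    · exact iSup_mono fun n => itj_le_succ Λ n t x v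
    · exact iSup_le fun n => le_iSup (fun n => itj P j Λ n t x v) (n + 1)
  rw [h1]
  simp only [itj]
  rw [← ENNReal.add_iSup]
  congr 1
  -- the Duhamel part
  have h2 : ∀ s, gainj P j (coldj P j Λ) s (x - (t - s) • bar v) v =
      ⨆ n, gainj P j (itj P j Λ n) s (x - (t - s) • bar v) v := by
    intro s
    unfold gainj
    by_cases hg : s ≤ tauj P.p j ∧ Zj P j 1 s (x - (t - s) • bar v) v
    · simp only [if_pos hg]
      exact Qp_iSup (f := fun n => itj P j Λ n s (x - (t - s) • bar v))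
        (fun n => (meas3_itj P j hΛ n).slice s _)
        (fun a b hab z => itj_mono Λ s _ z hab) v
    · simp only [if_neg hg, iSup_const]
  unfold DuhD
  simp_rw [h2, ENNReal.mul_iSup]
  symm
  apply lintegral_iSup
  · intro n
    refine Measurable.mul ?_ ?_
    · exact meas3_damp hΛ (by fun_prop) (by fun_prop) (by fun_prop) (by fun_prop)
    · exact measurable_flight (meas3_gainj P j (meas3_itj P j hΛ n)) t x v
  · intro a b hab s
    exact mul_le_mul' le_rfl (gainj_mono (fun z => itj_mono Λ s _ z hab) v)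

theorem damp_le_one (Λ : ℝ → P2 → R3 → ℝ≥0∞) (s t : ℝ) (x : P2) (v : R3) :
    damp Λ s t x v ≤ 1 := A.en_le_one _

variable (h : ColdPar C0 P)

theorem src_of_Zj {s : ℝ} {x : P2} {v : R3} (hs : 0 ≤ s) (hZ : Zj P j 1 s x v) :
    Src P j s x v := by
  obtain ⟨h1, h2, h3, h4⟩ := hZ
  exact ⟨hs, h1, h2, h3.le, by simpa using h4⟩

include h in
/-- collisions of the Gaussian majorant inside the zone -/
theorem Qp_Mj_le {s t : ℝ} {x : P2} {v : R3} (S : Src P j s (x - (t - s) • bar v) v)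
    (hst : s ≤ t) :
    Qp (Mj P j s (x - (t - s) • bar v)) (Mj P j s (x - (t - s) • bar v)) v ≤
      ENNReal.ofReal (rhoj P.p j / (800 * bj j ^ 2)) * Mj P j t x v := by
  have hb := bj_pos j
  have hη := etaj_pos P.p j
  have hρ := rhoj_pos P.p j
  have hK := h.K
  have hβ := half_le_beta s
  have hβ0 := beta_pos s
  have hCG := C.CG_pos
  set X := x - (t - s) • bar v with hX
  have hsb : 0 < √(beta s) := Real.sqrt_pos.2 hβ0
  have hηs : 0 < etaj P.p j / √(beta s) := by positivity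
  have h1 := C.Qp_le_gs (amp_nonneg h (j := j)) hηs (uvec P (wj j) s X) (f := Mj P j s X)
    (g := Mj P j s X) (a := 1) (b := 1) (by simp) (by simp) (fun z => by rw [one_mul]; rfl)
    (fun z => by rw [one_mul]; rfl) v
  rw [one_mul, one_mul] at h1
  refine h1.trans ?_
  have h2 : etaj P.p j / √(beta s) ≤ 3 / 2 * etaj P.p j := by
    rw [div_le_iff₀ hsb]
    have h3 : 2 / 3 ≤ √(beta s) := by
      apply Real.le_sqrt_of_sq_le; norm_num; linarith
    nlinarith
  have h4 : 3 / 2 * etaj P.p j ≤ rhoj P.p j := by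
    have h5 := eta_rho h (j := j) 1 (by norm_num)
    have h7 := small_b h S.jj
    nlinarith
  have h5 : C.CG * (P.K / (bj j * etaj P.p j ^ 3)) * (etaj P.p j / √(beta s)) ^ 3 *
      (‖v - uvec P (wj j) s X‖ + etaj P.p j / √(beta s)) ≤ rhoj P.p j / (800 * bj j ^ 2) := by
    have e1 : (etaj P.p j / √(beta s)) ^ 3 ≤ 4 * etaj P.p j ^ 3 := by
      calc (etaj P.p j / √(beta s)) ^ 3 ≤ (3 / 2 * etaj P.p j) ^ 3 :=
            pow_le_pow_left₀ hηs.le h2 3
        _ = 27 / 8 * etaj P.p j ^ 3 := by ring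
        _ ≤ 4 * etaj P.p j ^ 3 := by
            have : 0 < etaj P.p j ^ 3 := by positivity
            linarith
    have e2 : ‖v - uvec P (wj j) s X‖ + etaj P.p j / √(beta s) ≤ 2 * rhoj P.p j := by
      have := S.pec.le
      linarith
    have e3 := small_CGK h S.jj
    calc C.CG * (P.K / (bj j * etaj P.p j ^ 3)) * (etaj P.p j / √(beta s)) ^ 3 *
      (‖v - uvec P (wj j) s X‖ + etaj P.p j / √(beta s))
        ≤ C.CG * (P.K / (bj j * etaj P.p j ^ 3)) * (4 * etaj P.p j ^ 3) * (2 * rhoj P.p j) := by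
          gcongr
      _ = 8 * (C.CG * P.K * bj j) * rhoj P.p j / bj j ^ 2 := by field_simp; ring
      _ ≤ 8 * (1 / 10 ^ 12) * rhoj P.p j / bj j ^ 2 := by
          gcongr
          rw [le_div_iff₀ (by positivity)]
          linarith
      _ ≤ rhoj P.p j / (800 * bj j ^ 2) := by
          rw [div_le_div_iff₀ (by positivity) (by positivity)]
          have : 0 < rhoj P.p j * bj j ^ 2 := by positivity
          nlinarith
  calc ENNReal.ofReal (C.CG * (P.K / (bj j * etaj P.p j ^ 3)) * (etaj P.p j / √(beta s)) ^ 3 *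
        (‖v - uvec P (wj j) s X‖ + etaj P.p j / √(beta s))) *
        C.gs (P.K / (bj j * etaj P.p j ^ 3)) (etaj P.p j / √(beta s)) (uvec P (wj j) s X) v
      ≤ ENNReal.ofReal (rhoj P.p j / (800 * bj j ^ 2)) * Mj P j s X v := by
        apply mul_le_mul' (ENNReal.ofReal_le_ofReal h5) le_rfl
    _ ≤ _ := mul_le_mul' le_rfl (Mj_flight h S hst)

/-- effective collision number of a sheet -/
def epsj (p j : ℕ) : ℝ := rhoj p j * tauj p j / (200 * bj j ^ 2)

theorem epsj_pos (p j : ℕ) : 0 < epsj p j := by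
  unfold epsj
  have := rhoj_pos p j; have := tauj_pos p j; have := bj_pos j
  positivity

theorem epsj_eq (p j : ℕ) : epsj p j = kapj p j * bj j ^ (4 + p / 32) / 200 := by
  unfold epsj kapj
  have hb := bj_pos j
  rw [div_mul_eq_mul_div, show 6 + p / 32 = (4 + p / 32) + 2 by ring, pow_add (bj j) (4 + p / 32) 2]
  field_simp

include h in
theorem epsj_le : epsj P.p j ≤ 1 / 200 := by
  unfold epsj
  have hb := bj_pos j
  rw [div_le_div_iff₀ (by positivity) (by norm_num)]
  have := rt_le h (j := j) 2 (by norm_num)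
  nlinarith

/-- births only up to time `tauj` -/
theorem lint_gate {τ t : ℝ} (ht : 0 ≤ t) (hτ : 1 ≤ τ) (c : ℝ≥0∞) :
    (∫⁻ s in Ioo 0 t, if s ≤ τ then c else 0) ≤ c * ENNReal.ofReal (τ * min t 1) := by
  have h1 : (∫⁻ s in Ioo 0 t, if s ≤ τ then c else 0) ≤
      ∫⁻ s in Ioo 0 t, (Icc 0 τ).indicator (fun _ => c) s := by
    apply setLIntegral_mono_ae' measurableSet_Ioo
    refine Eventually.of_forall fun s hs => ?_
    by_cases hsτ : s ≤ τ
    · rw [if_pos hsτ, indicator_of_mem (show s ∈ Icc 0 τ from ⟨hs.1.le, hsτ⟩)]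
    · rw [if_neg hsτ]; exact zero_le
  refine h1.trans ?_
  rw [lintegral_indicator measurableSet_Icc, setLIntegral_const, Measure.restrict_apply
    measurableSet_Icc]
  gcongr
  calc volume (Icc 0 τ ∩ Ioo 0 t) ≤ volume (Icc (0 : ℝ) (min τ t)) := by
        apply measure_mono
        rintro s ⟨⟨h2, h3⟩, h4, h5⟩
        exact ⟨h2, le_min h3 h5.le⟩
    _ = ENNReal.ofReal (min τ t) := by rw [Real.volume_Icc, sub_zero]
    _ ≤ ENNReal.ofReal (τ * min t 1) := by
        apply ENNReal.ofReal_le_ofReal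
        rcases le_total t 1 with h6 | h6
        · rw [min_eq_left h6]
          refine (min_le_right _ _).trans ?_
          nlinarith
        · rw [min_eq_right h6, mul_one]
          exact min_le_left _ _

open scoped Classical in
include h in
/-- (P4a) the time integral of the collisions of `2 Mj` in the zone -/
theorem gain_Mj_le {t : ℝ} (ht : 0 ≤ t) (x : P2) (v : R3) :
    (∫⁻ s in Ioo 0 t, gainj P j (fun s y z => 2 * Mj P j s y z) s (x - (t - s) • bar v) v) ≤
      ENNReal.ofReal (epsj P.p j * min t 1) * Mj P j t x v := by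
  have h1 : ∀ s ∈ Ioo 0 t, gainj P j (fun s y z => 2 * Mj P j s y z) s (x - (t - s) • bar v) v ≤
      if s ≤ tauj P.p j then ENNReal.ofReal (rhoj P.p j / (200 * bj j ^ 2)) * Mj P j t x v
        else 0 := by
    intro s hs
    unfold gainj
    by_cases hg : s ≤ tauj P.p j ∧ Zj P j 1 s (x - (t - s) • bar v) v
    · rw [if_pos hg, if_pos hg.1]
      have S := src_of_Zj hs.1.le hg.2
      rw [A.Qp_const_mul_left (by simp), A.Qp_const_mul_right (by simp)]
      have h2 := Qp_Mj_le h S hs.2.le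
      calc 2 * (2 * Qp (Mj P j s (x - (t - s) • bar v)) (Mj P j s (x - (t - s) • bar v)) v)
          ≤ 2 * (2 * (ENNReal.ofReal (rhoj P.p j / (800 * bj j ^ 2)) * Mj P j t x v)) := by
            gcongr
        _ = (4 * ENNReal.ofReal (rhoj P.p j / (800 * bj j ^ 2))) * Mj P j t x v := by ring
        _ = ENNReal.ofReal (rhoj P.p j / (200 * bj j ^ 2)) * Mj P j t x v := by
            congr 1
            have h4 : (4 : ℝ≥0∞) = ENNReal.ofReal 4 := by norm_num
            rw [h4, ← ENNReal.ofReal_mul (by norm_num)]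
            congr 1
            have := bj_pos j
            field_simp
            ring
    · rw [if_neg hg]; exact zero_le
  refine (setLIntegral_mono_ae' measurableSet_Ioo (Eventually.of_forall h1)).trans ?_
  refine (lint_gate ht (one_le_tauj _ _) _).trans ?_
  rw [mul_right_comm]
  gcongr
  rw [← ENNReal.ofReal_mul]
  · apply ENNReal.ofReal_le_ofReal
    unfold epsj
    apply le_of_eq
    ring
  · have := rhoj_pos P.p j; have := bj_pos j; positivity

include h in
/-- crude bound of the iterates -/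
theorem itj_le_two (Λ : ℝ → P2 → R3 → ℝ≥0∞) (n : ℕ) {t : ℝ} (ht : 0 ≤ t) (x : P2) (v : R3) :
    itj P j Λ n t x v ≤ phij P j t x v + ENNReal.ofReal (epsj P.p j * min t 1) * Mj P j t x v ∧
    itj P j Λ n t x v ≤ 2 * Mj P j t x v := by
  have key : ∀ (n : ℕ) {t : ℝ} (_ : 0 ≤ t) (x : P2) (v : R3),
      phij P j t x v + ENNReal.ofReal (epsj P.p j * min t 1) * Mj P j t x v ≤ 2 * Mj P j t x v := by
    intro _ t ht x v
    rw [two_mul]
    apply add_le_add (phij_le_Mj h ht x v)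
    refine le_trans (mul_le_mul' (ENNReal.ofReal_le_ofReal (q := 1) ?_) le_rfl) (by simp)
    have h1 := epsj_le h (j := j)
    have h2 := epsj_pos P.p j
    have h3 : min t 1 ≤ 1 := min_le_right _ _
    have h4 : 0 ≤ min t 1 := le_min ht zero_le_one
    nlinarith
  suffices hmain : itj P j Λ n t x v ≤
      phij P j t x v + ENNReal.ofReal (epsj P.p j * min t 1) * Mj P j t x v from
    ⟨hmain, hmain.trans (key n ht x v)⟩
  induction n generalizing t x v with
  | zero => simp [itj]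
  | succ n ih =>
    simp only [itj]
    apply add_le_add
    · exact (mul_le_mul' le_rfl (damp_le_one Λ 0 t x v)).trans (by rw [mul_one])
    · refine le_trans ?_ (gain_Mj_le h ht x v)
      unfold DuhD
      apply setLIntegral_mono_ae' measurableSet_Ioo
      refine Eventually.of_forall fun s hs => ?_
      refine (mul_le_mul' (damp_le_one Λ s t x v) le_rfl).trans ?_
      rw [one_mul]
      exact gainj_mono (fun z => (ih hs.1.le _ z).trans (key n hs.1.le _ z)) v

theorem exists_ne_of_Qp_ne {f g : R3 → ℝ≥0∞} {v : R3} (h0 : Qp f g v ≠ 0) :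
    ∃ u, f u ≠ 0 := by
  by_contra hcon
  push Not at hcon
  apply h0
  unfold Qp
  simp [hcon]

open scoped Classical in
/-- births -/
theorem Sup.birth {s t : ℝ} {x : P2} {v : R3} {c : ℝ → P2 → R3 → ℝ≥0∞}
    (hs : 0 ≤ s) (hst : s ≤ t)
    (hc : ∀ u, c s (x - (t - s) • bar v) u ≠ 0 → Pos P j s (x - (t - s) • bar v))
    (h0 : gainj P j c s (x - (t - s) • bar v) v ≠ 0) : Sup P j t x v := by
  unfold gainj at h0
  by_cases hg : s ≤ tauj P.p j ∧ Zj P j 1 s (x - (t - s) • bar v) v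
  · rw [if_pos hg] at h0
    obtain ⟨u, hu⟩ := exists_ne_of_Qp_ne h0
    exact ⟨s, hs, hst, hg.1, src_of_Zj hs hg.2, hc u hu⟩
  · rw [if_neg hg] at h0
    exact absurd rfl h0

include h in
theorem Sup.of_phij {t : ℝ} {x : P2} {v : R3} (ht : 0 ≤ t) (h0 : phij P j t x v ≠ 0) :
    Sup P j t x v := by
  have S := src_of_phij h h0
  obtain ⟨hj, h1, h2, h3⟩ := phij_ne h0
  have hl := lab_zero h (x - t • bar v)
  refine ⟨0, le_rfl, ht, (tauj_pos _ _).le, by rw [sub_zero]; exact S, ?_⟩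
  rw [sub_zero]
  refine ⟨⟨_, h1, ?_⟩, ?_⟩
  · rw [hl]; simp
  · rw [hl]
    have hr : 0 < rr (x - t • bar v).1 := Fuel.rr_pos h1.1
    rw [Real.sqrt_zero, mul_zero, add_zero, zero_add]
    unfold rr at hr h2
    rw [abs_div, abs_of_pos hr, div_le_iff₀ hr]
    exact h2.le

theorem exists_of_DuhD_ne {Λ q : ℝ → P2 → R3 → ℝ≥0∞} {t : ℝ} {x : P2} {v : R3}
    (h0 : DuhD Λ q t x v ≠ 0) : ∃ s ∈ Ioo 0 t, q s (x - (t - s) • bar v) v ≠ 0 := by
  by_contra hcon
  push Not at hcon
  apply h0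
  unfold DuhD
  rw [setLIntegral_congr_fun measurableSet_Ioo (g := fun _ => 0)]
  · simp
  · intro s hs
    simp [hcon s hs]

include h in
/-- (C2) support of the iterates -/
theorem itj_sup (Λ : ℝ → P2 → R3 → ℝ≥0∞) (n : ℕ) {t : ℝ} (ht : 0 ≤ t) {x : P2} {v : R3}
    (h0 : itj P j Λ n t x v ≠ 0) : Sup P j t x v := by
  induction n generalizing t x v with
  | zero => exact absurd rfl h0
  | succ n ih =>
    simp only [itj] at h0
    by_cases h1 : phij P j t x v = 0
    · rw [h1, zero_mul, zero_add] at h0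
      obtain ⟨s, hs, h2⟩ := exists_of_DuhD_ne h0
      exact Sup.birth hs.1.le hs.2.le (fun u hu => (ih hs.1.le hu).pos h) h2
    · exact Sup.of_phij h ht h1

include h in
/-- (C2) -/
theorem coldj_sup {Λ : ℝ → P2 → R3 → ℝ≥0∞} {t : ℝ} (ht : 0 ≤ t) {x : P2} {v : R3}
    (h0 : coldj P j Λ t x v ≠ 0) : Sup P j t x v := by
  unfold coldj at h0
  by_contra hcon
  apply h0
  simp only [ENNReal.iSup_eq_zero]
  intro n
  by_contra h1
  exact hcon (itj_sup h Λ n ht h1)


open scoped Classical in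
/-- sharp majorant of the births -/
def wj' (P : Par) (j : ℕ) (t : ℝ) (x : P2) (v : R3) : ℝ≥0∞ :=
  if Sup P j t x v then ENNReal.ofReal (epsj P.p j * min t 1) * Mj P j t x v else 0

include h in
theorem coldj_le' (Λ : ℝ → P2 → R3 → ℝ≥0∞) {t : ℝ} (ht : 0 ≤ t) (x : P2) (v : R3) :
    coldj P j Λ t x v ≤ phij P j t x v + wj' P j t x v := by
  by_cases h0 : Sup P j t x v
  · unfold wj'
    rw [if_pos h0]
    exact iSup_le fun n => (itj_le_two h Λ n ht x v).1
  · have : coldj P j Λ t x v = 0 := by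
      by_contra h1
      exact h0 (coldj_sup h ht h1)
    rw [this]
    exact zero_le

include h in
theorem wj'_le {t : ℝ} (ht : 0 ≤ t) (x : P2) (v : R3) :
    wj' P j t x v ≤ ENNReal.ofReal (min t 1) * (ENNReal.ofReal (bj j ^ (4 + P.p / 32)) *
      warmj P j t x v) := by
  unfold wj'
  by_cases h0 : Sup P j t x v
  · rw [if_pos h0]
    unfold warmj
    rw [if_pos (h0.tight h)]
    have hk : 0 ≤ kapj P.p j := by
      unfold kapj
      have := rhoj_pos P.p j; have := tauj_pos P.p j; have := bj_pos j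
      positivity
    have hm : 0 ≤ min t 1 := le_min ht zero_le_one
    have hb := bj_pos j
    calc ENNReal.ofReal (epsj P.p j * min t 1) * Mj P j t x v
        ≤ ENNReal.ofReal (min t 1 * (bj j ^ (4 + P.p / 32) * kapj P.p j)) * gaussj P j t x v := by
          apply mul_le_mul' (ENNReal.ofReal_le_ofReal ?_) (Mj_le_gaussj h t x v)
          rw [epsj_eq]
          have : 0 ≤ kapj P.p j * bj j ^ (4 + P.p / 32) * min t 1 := by positivity
          nlinarith
      _ = _ := by
          rw [ENNReal.ofReal_mul hm, ENNReal.ofReal_mul (by positivity)]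
          ring
  · rw [if_neg h0]; exact zero_le

include h in
/-- (P2) -/
theorem coldj_le (Λ : ℝ → P2 → R3 → ℝ≥0∞) {t : ℝ} (ht : 0 ≤ t) (x : P2) (v : R3) :
    coldj P j Λ t x v ≤ phij P j t x v + ENNReal.ofReal (min t 1) * warmj P j t x v := by
  refine (coldj_le' h Λ ht x v).trans (add_le_add le_rfl ((wj'_le h ht x v).trans ?_))
  gcongr
  refine (mul_le_mul' (ENNReal.ofReal_le_ofReal (q := 1) ?_) le_rfl).trans (by simp)
  exact pow_le_one₀ (bj_pos j).le (bj_le_one j)

end Crest.Agent.R68.Cold
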