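import Crest.Agent.R68.ColdMeas
import Crest.Agent.R68.ColdW3
import Crest.Agent.R68.ColdPic

-- ▼ part R68/ColdCaus
section

/-!
# Row 68, PART C: causality of the cold component (helper906)
-/

set_option autoImplicit false
open MeasureTheory Set Filter
open scoped ENNReal
open Crest.AnalysisR.VecCalc3 Crest.AnalysisR.PDE.Boltzmann

noncomputable section

namespace Crest.Agent.R68.Cold

variable {P : Par} {j : ℕ} {T : ℝ}

/-- equality of rates on `(0, T)` -/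
def EqOn0 (T : ℝ) (Λ Λ' : ℝ → P2 → R3 → ℝ≥0∞) : Prop :=
  ∀ s y v, 0 < s → s < T → Λ s y v = Λ' s y v

theorem damp_congr {Λ Λ' : ℝ → P2 → R3 → ℝ≥0∞} (h : EqOn0 T Λ Λ') {s t : ℝ} (hs : 0 ≤ s)
    (ht : t ≤ T) (x : P2) (v : R3) : damp Λ s t x v = damp Λ' s t x v := by
  unfold damp
  congr 1
  apply setLIntegral_congr_fun measurableSet_Ioo
  intro r hr
  exact h r _ v (hs.trans_lt hr.1) (hr.2.trans_le ht)

theorem DuhD_congr {Λ Λ' q q' : ℝ → P2 → R3 → ℝ≥0∞} (h : EqOn0 T Λ Λ') {t : ℝ} (ht : t ≤ T)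
    (x : P2) (v : R3) (hq : ∀ s ∈ Ioo 0 t, q s (x - (t - s) • bar v) v = q' s (x - (t - s) • bar v) v) :
    DuhD Λ q t x v = DuhD Λ' q' t x v := by
  unfold DuhD
  apply setLIntegral_congr_fun measurableSet_Ioo
  intro s hs
  simp only
  rw [damp_congr h hs.1.le ht, hq s hs]

theorem itj_congr {Λ Λ' : ℝ → P2 → R3 → ℝ≥0∞} (h : EqOn0 T Λ Λ') (n : ℕ) {t : ℝ} (ht : t ≤ T) :
    itj P j Λ n t = itj P j Λ' n t := by
  induction n generalizing t with
  | zero => rfl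
  | succ n ih =>
    funext x v
    simp only [itj]
    rw [damp_congr h le_rfl ht, DuhD_congr h ht x v]
    intro s hs
    unfold gainj
    rw [ih (hs.2.le.trans ht)]

theorem coldj_congr {Λ Λ' : ℝ → P2 → R3 → ℝ≥0∞} (h : EqOn0 T Λ Λ') {t : ℝ} (ht : t ≤ T) :
    coldj P j Λ t = coldj P j Λ' t := by
  funext x v
  unfold coldj
  congr 1
  funext n
  rw [itj_congr h n ht]

theorem coldL_congr {Λ Λ' : ℝ → P2 → R3 → ℝ≥0∞} (h : EqOn0 T Λ Λ') {t : ℝ} (ht : t ≤ T) :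
    coldL P Λ t = coldL P Λ' t := by
  funext x v
  unfold coldL
  simp_rw [coldj_congr h ht]

theorem itc_congr {lam lam' : ℝ → P2 → R3 → ℝ≥0∞} (h : EqOn0 T lam lam') (n : ℕ) {t : ℝ}
    (ht : t ≤ T) : itc P lam n t = itc P lam' n t := by
  induction n generalizing t with
  | zero => rfl
  | succ n ih =>
    simp only [itc]
    apply coldL_congr (T := T) _ ht
    intro s y v hs hsT
    simp only
    rw [ih hsT.le, h s y v hs hsT]

theorem coldR_congr {lam lam' : ℝ → P2 → R3 → ℝ≥0∞} (h : EqOn0 T lam lam') {t : ℝ}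
    (ht : t ≤ T) : coldR P lam t = coldR P lam' t := by
  funext x v
  unfold coldR
  simp_rw [itc_congr h _ ht]

theorem rateC_congr {lam lam' : ℝ → P2 → R3 → ℝ≥0∞} (h : EqOn0 T lam lam') :
    EqOn0 T (rateC P lam) (rateC P lam') := by
  intro s y v hs hsT
  unfold rateC
  rw [coldR_congr h hsT.le, h s y v hs hsT]

theorem coldjk_congr {lam lam' : ℝ → P2 → R3 → ℝ≥0∞} (h : EqOn0 T lam lam')
    (i : (ℤ × ℤ) × ℕ) {t : ℝ} (ht : t ≤ T) (x : P2) (v : R3) :
    coldjk P lam i t x v = coldjk P lam' i t x v := by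
  unfold coldjk
  rw [coldj_congr (rateC_congr h) ht]


theorem coldSpill_congr {lam lam' : ℝ → P2 → R3 → ℝ≥0∞} (h : EqOn0 T lam lam') {t : ℝ}
    (ht : t ≤ T) (x : P2) (v : R3) : coldSpill P lam t x v = coldSpill P lam' t x v := by
  unfold coldSpill
  have e : ∀ i : (ℤ × ℤ) × ℕ, coldjk P lam i t x = coldjk P lam' i t x := fun i =>
    funext fun u => coldjk_congr h i ht x u
  simp_rw [e]

end Crest.Agent.R68.Cold
end
end

-- ▼ part R68/ColdFin

/-!
# Row 68, PART C: finiteness of `coldS`, bounds of `coldL`, `coldR` (helper906)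
-/

set_option autoImplicit false
open MeasureTheory Set Filter
open scoped ENNReal
open Crest.AnalysisR.VecCalc3 Crest.AnalysisR.PDE.Boltzmann

noncomputable section

namespace Crest.Agent.R68.Cold

open A ColdM ColdW

variable {P : Par}

theorem gaussj_ne_top (j : ℕ) (t : ℝ) (x : P2) (v : R3) : gaussj P j t x v ≠ ⊤ :=
  ENNReal.ofReal_ne_top

theorem warmj_ne_top (j : ℕ) (t : ℝ) (x : P2) (v : R3) : warmj P j t x v ≠ ⊤ := by
  refine ne_top_of_le_ne_top ?_ (warmj_le P j t x v)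
  exact ENNReal.mul_ne_top ENNReal.ofReal_ne_top (gaussj_ne_top j t x v)

/-- sums over sheets of finite terms vanishing outside the tight zone are finite -/
theorem tsum_sheets_ne_top (h : Big P) {t : ℝ} (ht : 0 ≤ t) (x : P2) (F : ℤ × ℤ → ℕ → ℝ≥0∞)
    (h0 : ∀ k j, ¬ zt P j t (x + latt k) → F k j = 0) (hF : ∀ k j, F k j ≠ ⊤) :
    ∑' k, ∑' j, F k j ≠ ⊤ := by
  have h1 : ∀ k, ∑' j, F k j ≠ ⊤ := by
    intro k
    by_cases hk : ∃ j, zt P j t (x + latt k)
    · obtain ⟨j, hj⟩ := hk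
      rw [tsum_eq_single j]
      · exact hF k j
      · intro i hi
        apply h0
        intro hi'
        exact hi (Fuel.laneE_unique (zt_lane h.ok h.p hi').2 (zt_lane h.ok h.p hj).2)
    · push Not at hk
      rw [show (∑' j, F k j) = ∑' _ : ℕ, (0 : ℝ≥0∞) from tsum_congr fun j => h0 k j (hk j), tsum_zero]
      exact ENNReal.zero_ne_top
  have h2 : ∀ k ∉ W.seen P t x, ∑' j, F k j = 0 := by
    intro k hk
    rw [show (∑' j, F k j) = ∑' _ : ℕ, (0 : ℝ≥0∞) from tsum_congr fun j => h0 k j ?_, tsum_zero]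
    intro hz
    exact hk (W.mem_seen_of_zone h.pole ht (zt_zone h.ok h.p h.Y1 ht hz).2.2)
  rw [tsum_eq_sum h2]
  exact ENNReal.sum_ne_top.2 fun k _ => h1 k

theorem warm_ne_top (h : Big P) {t : ℝ} (ht : 0 ≤ t) (x : P2) (v : R3) : warm P t x v ≠ ⊤ :=
  tsum_sheets_ne_top h ht x (fun k j => warmj P j t (x + latt k) v)
    (fun _ _ hz => warmj_eq_zero hz v) fun k j => warmj_ne_top j t (x + latt k) v

theorem coldS_ne_top (h : Big P) {t : ℝ} (ht : 0 ≤ t) (x : P2) (v : R3) : coldS P t x v ≠ ⊤ := by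
  unfold coldS
  exact ENNReal.add_ne_top.2 ⟨ENNReal.ofReal_ne_top, warm_ne_top h ht x v⟩

/-- the fuel is the sum of its sheets -/
theorem phiE_eq (h : P.Ok) (t : ℝ) (x : P2) (v : R3) :
    phiE P t x v = ∑' k : ℤ × ℤ, ∑' j : ℕ, R68.phij P j t (x + latt k) v := by
  unfold phiE
  rw [Fuel.ofReal_phi h]
  refine tsum_congr fun k => tsum_congr fun j => ?_
  rw [ColdW.phij_eq h]

/-- bound of the total cold component for an arbitrary full rate -/
theorem coldL_le (hC : ColdPar C0 P) (h : P.Ok) (Λ : ℝ → P2 → R3 → ℝ≥0∞) {t : ℝ} (ht : 0 ≤ t)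
    (x : P2) (v : R3) :
    coldL P Λ t x v ≤ phiE P t x v + ENNReal.ofReal (min t 1) * warm P t x v := by
  rw [phiE_eq h]
  unfold coldL warm
  rw [← ENNReal.tsum_mul_left, ← ENNReal.tsum_add]
  refine ENNReal.tsum_le_tsum fun k => ?_
  rw [← ENNReal.tsum_mul_left, ← ENNReal.tsum_add]
  exact ENNReal.tsum_le_tsum fun j => coldj_le hC Λ ht (x + latt k) v

theorem itc_le (hC : ColdPar C0 P) (h : P.Ok) (lam : ℝ → P2 → R3 → ℝ≥0∞) (n : ℕ) {t : ℝ}
    (ht : 0 ≤ t) (x : P2) (v : R3) :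
    itc P lam n t x v ≤ phiE P t x v + ENNReal.ofReal (min t 1) * warm P t x v := by
  cases n with
  | zero => exact zero_le
  | succ n => exact coldL_le hC h _ ht x v

theorem coldR_le (hC : ColdPar C0 P) (h : P.Ok) (lam : ℝ → P2 → R3 → ℝ≥0∞) {t : ℝ}
    (ht : 0 ≤ t) (x : P2) (v : R3) :
    coldR P lam t x v ≤ phiE P t x v + ENNReal.ofReal (min t 1) * warm P t x v := by
  unfold coldR
  exact Filter.limsup_le_of_le (by isBoundedDefault)
    (Eventually.of_forall fun n => itc_le hC h lam n ht x v)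

theorem coldR_le_coldS (hC : ColdPar C0 P) (h : P.Ok) (lam : ℝ → P2 → R3 → ℝ≥0∞) {t : ℝ}
    (ht : 0 ≤ t) (x : P2) (v : R3) : coldR P lam t x v ≤ coldS P t x v := by
  refine (coldR_le hC h lam ht x v).trans ?_
  unfold coldS
  gcongr
  refine (mul_le_mul' (ENNReal.ofReal_le_ofReal (min_le_right _ _)) le_rfl).trans ?_
  simp


theorem perG_coldSpill (P : Par) (lam : ℝ → P2 → R3 → ℝ≥0∞) (t : ℝ) (v : R3) :
    PerG (fun x => coldSpill P lam t x v) := by
  classical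
  intro x l
  show coldSpill P lam t (x + latt l) v = coldSpill P lam t x v
  have h1 : ∀ i : (ℤ × ℤ) × ℕ, ∀ z, coldjk P lam i t (x + latt l) z =
      coldjk P lam (i.1 + l, i.2) t x z := by
    intro i z
    unfold coldjk
    rw [add_assoc, ← latt_add, add_comm l i.1]
  have h2 : ∀ i : (ℤ × ℤ) × ℕ, coldjk P lam i t (x + latt l) =
      coldjk P lam (i.1 + l, i.2) t x := fun i => funext (h1 i)
  have h3 : ∀ i : (ℤ × ℤ) × ℕ, x + latt l + latt i.1 = x + latt (i.1 + l) := by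
    intro i
    rw [add_assoc, ← latt_add, add_comm l i.1]
  unfold coldSpill
  let e : ((ℤ × ℤ) × ℕ) ≃ ((ℤ × ℤ) × ℕ) := (Equiv.addRight l).prodCongr (Equiv.refl ℕ)
  symm
  rw [← e.tsum_eq]
  refine tsum_congr fun i => ?_
  rw [← e.tsum_eq]
  refine tsum_congr fun i' => ?_
  have e1 : ∀ i : (ℤ × ℤ) × ℕ, e i = (i.1 + l, i.2) := fun i => rfl
  rw [h2 i, h2 i', h3 i, e1, e1]
  have e2 : (i = i') ↔ (((i.1 + l, i.2) : (ℤ × ℤ) × ℕ) = (i'.1 + l, i'.2)) := by
    constructor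
    · rintro rfl; rfl
    · intro h
      have ha := congrArg Prod.fst h
      have hb := congrArg Prod.snd h
      simp only at ha hb
      exact Prod.ext (add_right_cancel ha) hb
  refine Eq.trans ?_ (if_congr (⟨fun h => ⟨e2.2 h.1, h.2⟩, fun h => ⟨e2.1 h.1, h.2⟩⟩ :
    ((((i.1 + l, i.2) : (ℤ × ℤ) × ℕ) = (i'.1 + l, i'.2)) ∧ t ≤ tauj P.p i.2 ∧
      Zj P i.2 1 t (x + latt (i.1 + l)) v) ↔ (i = i' ∧ t ≤ tauj P.p i.2 ∧
      Zj P i.2 1 t (x + latt (i.1 + l)) v)) rfl rfl)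
  rfl

end Crest.Agent.R68.Cold
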