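import Mathlib
import Crest.Agent.R68.Defs
import Crest.Agent.R68.FLattice

/-!
Row 68 (S0091): basic properties of the weight `Dw` and its finitely many poles (helper835).
-/

set_option autoImplicit false
open MeasureTheory Set Filter Topology
open scoped ENNReal
open Crest.AnalysisR.VecCalc3 Crest.AnalysisR.PDE.Boltzmann

noncomputable section

namespace Crest.Agent.R68.DPole

/-- standing assumptions on the fuel parameters used for the weight `Dw` -/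
structure ParD (P : Par) : Prop where
  Y : 0 < P.Y
  c : 0 < P.c
  c1 : P.c ≤ 1
  dlc : P.dl ≤ P.c
  j0 : 32 ≤ P.j0

namespace ParD

variable {P : Par} (h : ParD P)
include h

lemma j0R : (32 : ℝ) ≤ P.j0 := by exact_mod_cast h.j0

lemma dl_pos : 0 < P.dl := by
  have := h.j0R
  unfold Par.dl; positivity

lemma dl_sq : P.dl ^ 2 = 1 / (2 * P.j0) := by
  have := h.j0R
  unfold Par.dl
  rw [div_pow, one_pow, Real.sq_sqrt (by positivity)]

lemma dl_le8 : P.dl ≤ 1 / 8 := by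
  have := h.j0R
  have h2 := h.dl_sq
  have h3 : P.dl ^ 2 ≤ (1 / 8) ^ 2 := by
    rw [h2, div_pow, one_pow]
    apply one_div_le_one_div_of_le (by norm_num); linarith
  exact (pow_le_pow_iff_left₀ h.dl_pos.le (by norm_num) (by norm_num)).1 h3

lemma dl_le : P.dl ≤ 1 / 2 := h.dl_le8.trans (by norm_num)

lemma abs_lane {j : ℕ} {a : ℝ} (hj : P.j0 ≤ j) (ha : a ∈ lane j) : 0 < |a| ∧ |a| < P.dl := by
  obtain ⟨h0, h1, _⟩ := ha
  have hjR : (P.j0 : ℝ) ≤ j := by exact_mod_cast hj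
  have hj0 := h.j0R
  have ha0 : 0 < |a| := abs_pos.2 h0
  refine ⟨ha0, ?_⟩
  have h2 := h.dl_sq
  have ha2 : 0 < a ^ 2 := by positivity
  have h3 : |a| ^ 2 < P.dl ^ 2 := by
    rw [h2, sq_abs, lt_div_iff₀ (by positivity)]
    rw [lt_div_iff₀ ha2] at h1
    nlinarith
  exact (pow_lt_pow_iff_left₀ (abs_nonneg _) h.dl_pos.le (by norm_num)).1 h3

end ParD

lemma exists_mem_lane (j : ℕ) : ∃ a, a ∈ lane j := by
  have h1 : (0 : ℝ) < 2 * j + 1 := by positivity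
  refine ⟨1 / √(2 * j + 1), by positivity, ?_, ?_⟩ <;>
  · rw [div_pow, one_pow, Real.sq_sqrt h1.le, one_div_one_div]
    norm_num

/-- the value attached to a label -/
def dval (P : Par) (t : ℝ) (x : P2) (v : R3) (k : ℤ × ℤ) (a y s : ℝ) : ℝ :=
  ‖v - !₂[P.c * a / P.dl, y, s]‖ + ‖x + latt k - t • bar v - (a, y * rr a)‖ / (t + rr a)

lemma mem_Dset {P : Par} {t : ℝ} {x : P2} {v : R3} {d : ℝ} : d ∈ Dset P t x v ↔
    ∃ (k : ℤ × ℤ) (j : ℕ) (a y s : ℝ), P.j0 ≤ j ∧ a ∈ lane j ∧ |y| < P.Y ∧ (s = 1 ∨ s = -1) ∧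
      d = dval P t x v k a y s := Iff.rfl

lemma rr_nonneg (a : ℝ) : 0 ≤ rr a := sq_nonneg a

lemma rr_pos_of_lane {j : ℕ} {a : ℝ} (ha : a ∈ lane j) : 0 < rr a := by
  have := ha.1
  unfold rr; positivity

lemma dval_nonneg {P : Par} {t : ℝ} (ht : 0 ≤ t) (x : P2) (v : R3) (k : ℤ × ℤ) (a y s : ℝ) :
    0 ≤ dval P t x v k a y s := by
  have := rr_nonneg a
  unfold dval; positivity

lemma Dset_nonneg {P : Par} {t : ℝ} (ht : 0 ≤ t) {x : P2} {v : R3} {d : ℝ}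
    (hd : d ∈ Dset P t x v) : 0 ≤ d := by
  obtain ⟨k, j, a, y, s, -, -, -, -, rfl⟩ := mem_Dset.1 hd
  exact dval_nonneg ht _ _ _ _ _ _

lemma Dset_bddBelow {P : Par} {t : ℝ} (ht : 0 ≤ t) (x : P2) (v : R3) :
    BddBelow (Dset P t x v) := ⟨0, fun _ hd => Dset_nonneg ht hd⟩

lemma Dset_nonempty {P : Par} (hY : 0 < P.Y) (t : ℝ) (x : P2) (v : R3) :
    (Dset P t x v).Nonempty := by
  obtain ⟨a, ha⟩ := exists_mem_lane P.j0
  exact ⟨_, mem_Dset.2 ⟨0, P.j0, a, 0, 1, le_rfl, ha, by simpa using hY, Or.inl rfl, rfl⟩⟩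

lemma Dw_nonneg {P : Par} {t : ℝ} (ht : 0 ≤ t) (x : P2) (v : R3) : 0 ≤ Dw P t x v :=
  le_min zero_le_one (Real.sInf_nonneg fun _ hd => Dset_nonneg ht hd)

lemma Dw_le_one (P : Par) (t : ℝ) (x : P2) (v : R3) : Dw P t x v ≤ 1 := min_le_left _ _

lemma Dw_le_dval {P : Par} {t : ℝ} (ht : 0 ≤ t) (x : P2) (v : R3) (k : ℤ × ℤ) {j : ℕ} {a y s : ℝ}
    (hj : P.j0 ≤ j) (ha : a ∈ lane j) (hy : |y| < P.Y) (hs : s = 1 ∨ s = -1) :
    Dw P t x v ≤ dval P t x v k a y s :=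
  (min_le_right _ _).trans (csInf_le (Dset_bddBelow ht x v)
    (mem_Dset.2 ⟨k, j, a, y, s, hj, ha, hy, hs, rfl⟩))

lemma le_Dw {P : Par} (hY : 0 < P.Y) {t : ℝ} {x : P2} {v : R3} {b : ℝ} (hb : b ≤ 1)
    (h : ∀ (k : ℤ × ℤ) (j : ℕ) (a y s : ℝ), P.j0 ≤ j → a ∈ lane j → |y| < P.Y →
      (s = 1 ∨ s = -1) → b ≤ dval P t x v k a y s) : b ≤ Dw P t x v := by
  refine le_min hb (le_csInf (Dset_nonempty hY t x v) ?_)
  rintro d hd
  obtain ⟨k, j, a, y, s, hj, ha, hy, hs, rfl⟩ := mem_Dset.1 hd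
  exact h k j a y s hj ha hy hs

/-- `Dw` is non-increasing along free flight. -/
lemma Dw_flight {P : Par} (hY : 0 < P.Y) {s t : ℝ} (hs : 0 ≤ s) (hst : s ≤ t) (x : P2) (v : R3) :
    Dw P t (x + (t - s) • bar v) v ≤ Dw P s x v := by
  refine le_Dw hY (Dw_le_one _ _ _ _) ?_
  intro k j a y σ hj ha hy hσ
  refine (Dw_le_dval (hs.trans hst) _ v k hj ha hy hσ).trans ?_
  have hr := rr_pos_of_lane ha
  unfold dval
  have : x + (t - s) • bar v + latt k - t • bar v - (a, y * rr a) =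
      x + latt k - s • bar v - (a, y * rr a) := by
    rw [sub_smul]; abel
  rw [this]
  gcongr

lemma Dw_flight' {P : Par} (hY : 0 < P.Y) {s t : ℝ} (hs : 0 ≤ s) (hst : s ≤ t) (x : P2) (v : R3) :
    Dw P t x v ≤ Dw P s (x - (t - s) • bar v) v := by
  have := Dw_flight hY hs hst (x - (t - s) • bar v) v
  rwa [sub_add_cancel] at this

/-- `D^{-3/2}` is non-decreasing along free flight. -/
lemma Dm_flight {P : Par} (hY : 0 < P.Y) {s t : ℝ} (hs : 0 ≤ s) (hst : s ≤ t) (x : P2) (v : R3) :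
    Dm P s (x - (t - s) • bar v) v ≤ Dm P t x v := by
  unfold Dm
  rw [ENNReal.rpow_neg, ENNReal.rpow_neg]
  have := Dw_flight' hY hs hst x v
  gcongr

lemma one_le_Dm (P : Par) (t : ℝ) (x : P2) (v : R3) : 1 ≤ Dm P t x v := by
  unfold Dm
  rw [ENNReal.rpow_neg, ENNReal.one_le_inv]
  refine ENNReal.rpow_le_one ?_ (by norm_num)
  rw [ENNReal.ofReal_le_one]
  exact Dw_le_one _ _ _ _

/-- periodicity in position -/
lemma Dset_add_latt (P : Par) (t : ℝ) (x : P2) (l : ℤ × ℤ) (v : R3) :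
    Dset P t (x + latt l) v = Dset P t x v := by
  have key : ∀ (x : P2) (l : ℤ × ℤ), Dset P t (x + latt l) v ⊆ Dset P t x v := by
    intro x l d hd
    obtain ⟨k, j, a, y, s, hj, ha, hy, hs, rfl⟩ := mem_Dset.1 hd
    refine mem_Dset.2 ⟨l + k, j, a, y, s, hj, ha, hy, hs, ?_⟩
    unfold dval
    rw [latt_add, add_assoc]
  refine le_antisymm (key x l) ?_
  have := key (x + latt l) (-l)
  rwa [latt_neg, add_neg_cancel_right] at this

lemma Dw_add_latt (P : Par) (t : ℝ) (x : P2) (l : ℤ × ℤ) (v : R3) :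
    Dw P t (x + latt l) v = Dw P t x v := by
  unfold Dw; rw [Dset_add_latt]


lemma perG_Dm (P : Par) (t : ℝ) (v : R3) : PerG (fun x => Dm P t x v) :=
  fun x k => by simp only [Dm, Dw_add_latt]

/-! ### measurability for positive times -/

/-- pointwise form: strict sublevel sets of `Dw` -/
lemma Dw_lt_iff {P : Par} (hY : 0 < P.Y) {t : ℝ} (ht : 0 ≤ t) (x : P2) (v : R3) {b : ℝ} :
    Dw P t x v < b ↔ 1 < b ∨ ∃ (k : ℤ × ℤ) (j : ℕ) (a y s : ℝ), P.j0 ≤ j ∧ a ∈ lane j ∧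
      |y| < P.Y ∧ (s = 1 ∨ s = -1) ∧ dval P t x v k a y s < b := by
  unfold Dw
  rw [min_lt_iff, csInf_lt_iff (Dset_bddBelow ht x v) (Dset_nonempty hY t x v)]
  constructor
  · rintro (h | ⟨d, hd, hdb⟩)
    · exact Or.inl h
    · obtain ⟨k, j, a, y, s, hj, ha, hy, hs, rfl⟩ := mem_Dset.1 hd
      exact Or.inr ⟨k, j, a, y, s, hj, ha, hy, hs, hdb⟩
  · rintro (h | ⟨k, j, a, y, s, hj, ha, hy, hs, hd⟩)
    · exact Or.inl h
    · exact Or.inr ⟨_, mem_Dset.2 ⟨k, j, a, y, s, hj, ha, hy, hs, rfl⟩, hd⟩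

lemma continuous_bar : Continuous bar := by
  unfold bar; fun_prop

lemma continuousOn_dval (P : Par) (k : ℤ × ℤ) {a y s : ℝ} (ha : a ≠ 0) :
    ContinuousOn (fun p : ℝ × P2 × R3 => dval P p.1 p.2.1 p.2.2 k a y s) (Ici 0 ×ˢ univ) := by
  have hb := continuous_bar
  unfold dval
  refine ContinuousOn.add (by fun_prop) (ContinuousOn.div (by fun_prop) (by fun_prop) ?_)
  rintro ⟨t, q⟩ ⟨ht, -⟩
  have h0 : (0 : ℝ) ≤ t := ht
  have : 0 < rr a := by unfold rr; positivity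
  exact (by positivity : (0 : ℝ) < t + rr a).ne'

/-- the weight restricted to nonnegative times is measurable -/
theorem measurable_Dw {P : Par} (hY : 0 < P.Y) :
    Measurable (fun p : ℝ × P2 × R3 => if 0 ≤ p.1 then Dw P p.1 p.2.1 p.2.2 else 1) := by
  refine measurable_of_Iio fun b => ?_
  by_cases hb : 1 < b
  · convert MeasurableSet.univ
    rw [eq_univ_iff_forall]
    rintro ⟨t, x, v⟩
    simp only [mem_preimage, mem_Iio]
    split_ifs
    · exact (Dw_le_one _ _ _ _).trans_lt hb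
    · exact hb
  have hset : (fun p : ℝ × P2 × R3 => if 0 ≤ p.1 then Dw P p.1 p.2.1 p.2.2 else 1) ⁻¹' Iio b =
      ⋃ (k : ℤ × ℤ), ⋃ (q : {q : ℝ × ℝ × ℝ // (∃ j, P.j0 ≤ j ∧ q.1 ∈ lane j) ∧ |q.2.1| < P.Y ∧
        (q.2.2 = 1 ∨ q.2.2 = -1)}),
        {p : ℝ × P2 × R3 | p ∈ Ici (0 : ℝ) ×ˢ (univ : Set (P2 × R3)) ∧
          dval P p.1 p.2.1 p.2.2 k q.1.1 q.1.2.1 q.1.2.2 < b} := by
    ext ⟨t, x, v⟩
    simp only [mem_preimage, mem_Iio, mem_iUnion, Subtype.exists, Prod.exists]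
    constructor
    · intro h
      split_ifs at h with h0
      · rcases (Dw_lt_iff hY h0 x v).1 h with h1 | ⟨k, j, a, y, s, hj, ha, hy, hs, hd⟩
        · exact absurd h1 hb
        · exact ⟨k.1, k.2, a, y, s, ⟨⟨j, hj, ha⟩, hy, hs⟩, ⟨h0, mem_univ _⟩, hd⟩
      · exact absurd h hb
    · rintro ⟨k1, k2, a, y, s, ⟨⟨j, hj, ha⟩, hy, hs⟩, ⟨h0, -⟩, hd⟩
      have h0' : (0 : ℝ) ≤ t := h0
      rw [if_pos h0']
      exact (Dw_lt_iff hY h0' x v).2 (Or.inr ⟨(k1, k2), j, a, y, s, hj, ha, hy, hs, hd⟩)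
  rw [hset]
  refine MeasurableSet.iUnion fun k => ?_
  -- open sets relative to the closed set
  have hopen : ∀ q : {q : ℝ × ℝ × ℝ // (∃ j, P.j0 ≤ j ∧ q.1 ∈ lane j) ∧ |q.2.1| < P.Y ∧
        (q.2.2 = 1 ∨ q.2.2 = -1)}, ∃ U : Set (ℝ × P2 × R3), IsOpen U ∧
        {p : ℝ × P2 × R3 | p ∈ Ici (0 : ℝ) ×ˢ (univ : Set (P2 × R3)) ∧
          dval P p.1 p.2.1 p.2.2 k q.1.1 q.1.2.1 q.1.2.2 < b} =
        (Ici (0 : ℝ) ×ˢ (univ : Set (P2 × R3))) ∩ U := by
    rintro ⟨⟨a, y, s⟩, ⟨⟨j, hj, ha⟩, hy, hs⟩⟩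
    have hc := continuousOn_dval P k (a := a) (y := y) (s := s) ha.1
    obtain ⟨U, hU, hUe⟩ := (continuousOn_iff'.1 hc) (Iio b) isOpen_Iio
    refine ⟨U, hU, ?_⟩
    ext p
    have := Set.ext_iff.1 hUe p
    simp only [mem_inter_iff, mem_preimage, mem_Iio] at this
    simp only [mem_ofPred_eq, mem_inter_iff]
    tauto
  choose U hU hUe using hopen
  simp_rw [hUe, ← inter_iUnion]
  exact (measurableSet_Ici.prod MeasurableSet.univ).inter (isOpen_iUnion hU).measurableSet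

/-- `D^{-3/2}` restricted to nonnegative times is measurable -/
theorem measurable_Dm {P : Par} (hY : 0 < P.Y) :
    Measurable (fun p : ℝ × P2 × R3 => if 0 ≤ p.1 then Dm P p.1 p.2.1 p.2.2 else 1) := by
  have h := ((measurable_Dw hY).ennreal_ofReal).pow_const (-(3 / 2) : ℝ)
  convert h using 2 with p
  split_ifs
  · rfl
  · simp

/-- `D^{-3/2}` at a fixed nonnegative time is measurable in `(x, v)` -/
theorem measurable_Dm_t {P : Par} (hY : 0 < P.Y) {t : ℝ} (ht : 0 ≤ t) :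
    Measurable (fun q : P2 × R3 => Dm P t q.1 q.2) := by
  have h := (measurable_Dm hY).comp (measurable_const.prodMk measurable_id :
    Measurable (fun q : P2 × R3 => ((t, q) : ℝ × P2 × R3)))
  simpa [Function.comp_def, ht] using h


end Crest.Agent.R68.DPole
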