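import Mathlib
import Crest.Agent.R68.DPoles

-- ▼ part R68/DPoles2
section

/-!
Row 68 (S0091): the poles of the weight `Dw` (helper835).
-/

set_option autoImplicit false
open MeasureTheory Set Filter Topology
open scoped ENNReal
open Crest.AnalysisR.VecCalc3 Crest.AnalysisR.PDE.Boltzmann

noncomputable section

namespace Crest.Agent.R68.DPole

set_option maxHeartbeats 1600000 in
lemma pole_core {c dl t Y a y X1 X2 v0 v1 e f : ℝ} (ht : 0 ≤ t) (hc : 0 < c) (hc1 : c ≤ 1)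
    (hdl0 : 0 < dl) (hdl : dl ≤ 1 / 2) (hdlc : dl ≤ c) (ha : |a| < dl) (ha0 : a ≠ 0)
    (hy : |y| ≤ Y) (he : 0 ≤ e) (hf : 0 ≤ f) (hef : e + f ≤ 1 / 4)
    (h0 : |v0 - c * a / dl| ≤ e) (h1 : |v1 - y| ≤ e)
    (hX1 : |X1 - t * v0 - a| ≤ f * (t + a ^ 2)) (hX2 : |X2 - t * v1 - y * a ^ 2| ≤ f * (t + a ^ 2)) :
    |v0 - c * X1 / (dl + c * t)| ≤ 2 * (e + f) ∧
    |v1 - X2 / (t + (dl * X1 / (dl + c * t)) ^ 2)| ≤ (5 + 6 * Y) * (e + f) ∧
    |X1| ≤ 2 * (t + dl) ∧ |X2| ≤ (Y + 1) * (t + dl) := by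
  have hY : 0 ≤ Y := (abs_nonneg y).trans hy
  have hDn : 0 < dl + c * t := by positivity
  have ha2 : 0 < a ^ 2 := by positivity
  have habs : 0 < |a| := abs_pos.2 ha0
  have ha2' : a ^ 2 = |a| * |a| := by rw [← sq, sq_abs]
  have ha2dl : a ^ 2 ≤ dl * dl := by
    rw [ha2']; exact mul_le_mul ha.le ha.le habs.le hdl0.le
  have ha2dl' : a ^ 2 ≤ dl / 2 := by nlinarith
  set d := e + f with hd
  have hd0 : 0 ≤ d := add_nonneg he hf
  -- S1
  have S1 : |X1 - a - t * (c * a / dl)| ≤ d * (t + a ^ 2) := by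
    have : X1 - a - t * (c * a / dl) = (X1 - t * v0 - a) + t * (v0 - c * a / dl) := by ring
    rw [this]
    calc |(X1 - t * v0 - a) + t * (v0 - c * a / dl)|
        ≤ |X1 - t * v0 - a| + |t * (v0 - c * a / dl)| := abs_add_le _ _
      _ ≤ f * (t + a ^ 2) + t * e := by
          rw [abs_mul, abs_of_nonneg ht]; gcongr
      _ ≤ d * (t + a ^ 2) := by rw [hd]; nlinarith
  -- S2
  have S2 : |c * X1 / (dl + c * t) - c * a / dl| ≤ d := by
    have : c * X1 / (dl + c * t) - c * a / dl =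
        c / (dl + c * t) * (X1 - a - t * (c * a / dl)) := by
      field_simp
      ring
    rw [this, abs_mul, abs_of_pos (by positivity : 0 < c / (dl + c * t))]
    calc c / (dl + c * t) * |X1 - a - t * (c * a / dl)|
        ≤ c / (dl + c * t) * (d * (t + a ^ 2)) := by gcongr
      _ = d * ((c * t + c * a ^ 2) / (dl + c * t)) := by ring
      _ ≤ d * 1 := by
          gcongr
          rw [div_le_one hDn]
          nlinarith
      _ = d := mul_one d
  -- S3
  set ak := dl * X1 / (dl + c * t) with hak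
  have hkap : dl / (dl + c * t) ≤ 1 := by rw [div_le_one hDn]; nlinarith [mul_nonneg hc.le ht]
  have hkap0 : 0 < dl / (dl + c * t) := by positivity
  have S3 : |ak - a| ≤ dl / (dl + c * t) * (d * (t + a ^ 2)) := by
    have : ak - a = dl / (dl + c * t) * (X1 - a - t * (c * a / dl)) := by
      rw [hak]; field_simp; ring
    rw [this, abs_mul, abs_of_pos hkap0]
    gcongr
  have S3a : |ak - a| ≤ d * (t + a ^ 2) :=
    S3.trans (mul_le_of_le_one_left (by positivity) hkap)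
  have S3b : |ak - a| ≤ 5 / 4 * d := by
    refine S3.trans ?_
    have h1 : dl / (dl + c * t) * t ≤ 1 := by
      rw [div_mul_eq_mul_div, div_le_one hDn]
      nlinarith [mul_le_mul_of_nonneg_right hdlc ht]
    have h2 : dl / (dl + c * t) * a ^ 2 ≤ 1 / 4 := by
      calc dl / (dl + c * t) * a ^ 2 ≤ 1 * a ^ 2 := by gcongr
        _ ≤ 1 / 4 := by nlinarith
    calc dl / (dl + c * t) * (d * (t + a ^ 2))
        = d * (dl / (dl + c * t) * t + dl / (dl + c * t) * a ^ 2) := by ring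
      _ ≤ d * (1 + 1 / 4) := by gcongr
      _ = 5 / 4 * d := by ring
  have S3c : |ak - a| ≤ 5 / 16 := by linarith
  -- S4
  have hR : t + a ^ 2 ≤ 4 * (t + ak ^ 2) := by
    rcases le_or_gt |ak - a| (|a| / 2) with h | h
    · have : |a| / 2 ≤ |ak| := by
        have := abs_sub_abs_le_abs_sub a (a - ak)
        have h2 : |a - ak| = |ak - a| := abs_sub_comm _ _
        rw [sub_sub_cancel] at this
        linarith
      have h3 : a ^ 2 ≤ 4 * ak ^ 2 := by
        rw [← sq_abs a, ← sq_abs ak]; nlinarith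
      linarith
    · have h1 : |a| < 2 * (d * (t + a ^ 2)) := by linarith
      have h2 : a ^ 2 ≤ |a| / 2 := by
        rw [ha2']
        calc |a| * |a| ≤ |a| * (1 / 2) := by gcongr; linarith
          _ = |a| / 2 := by ring
      have h3 : d * (t + a ^ 2) ≤ 1 / 4 * (t + a ^ 2) := by gcongr
      have h4 := sq_nonneg ak
      linarith
  have hpos : 0 < t + ak ^ 2 := by linarith
  -- S5
  have S5 : |a ^ 2 - ak ^ 2| ≤ 6 * d * (t + ak ^ 2) := by
    have h1 : a ^ 2 - ak ^ 2 = -(ak - a) * (2 * a + (ak - a)) := by ring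
    rw [h1, abs_mul, abs_neg]
    have h2 : |2 * a + (ak - a)| ≤ 3 / 2 := by
      calc |2 * a + (ak - a)| ≤ |2 * a| + |ak - a| := abs_add_le _ _
        _ = 2 * |a| + |ak - a| := by rw [abs_mul, abs_two]
        _ ≤ 3 / 2 := by linarith
    calc |ak - a| * |2 * a + (ak - a)| ≤ (d * (t + a ^ 2)) * (3 / 2) := by gcongr
      _ ≤ (d * (4 * (t + ak ^ 2))) * (3 / 2) := by gcongr
      _ = 6 * d * (t + ak ^ 2) := by ring
  -- S6
  have S6 : |X2 / (t + ak ^ 2) - y| ≤ (4 + 6 * Y) * d := by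
    have h1 : X2 / (t + ak ^ 2) - y = (X2 - y * (t + ak ^ 2)) / (t + ak ^ 2) := by
      field_simp
    rw [h1, abs_div, abs_of_pos hpos, div_le_iff₀ hpos]
    have h2 : X2 - y * (t + ak ^ 2) =
        (X2 - t * v1 - y * a ^ 2) + (t * (v1 - y) + y * (a ^ 2 - ak ^ 2)) := by ring
    rw [h2]
    calc |(X2 - t * v1 - y * a ^ 2) + (t * (v1 - y) + y * (a ^ 2 - ak ^ 2))|
        ≤ |X2 - t * v1 - y * a ^ 2| + (|t * (v1 - y)| + |y * (a ^ 2 - ak ^ 2)|) :=
          (abs_add_le _ _).trans (by gcongr; exact abs_add_le _ _)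
      _ ≤ f * (t + a ^ 2) + (t * e + Y * (6 * d * (t + ak ^ 2))) := by
          rw [abs_mul, abs_of_nonneg ht, abs_mul]; gcongr
      _ ≤ d * (t + a ^ 2) + Y * (6 * d * (t + ak ^ 2)) := by rw [hd]; nlinarith
      _ ≤ d * (4 * (t + ak ^ 2)) + Y * (6 * d * (t + ak ^ 2)) := by gcongr
      _ = (4 + 6 * Y) * d * (t + ak ^ 2) := by ring
  refine ⟨?_, ?_, ?_, ?_⟩
  · calc |v0 - c * X1 / (dl + c * t)|
        = |(v0 - c * a / dl) - (c * X1 / (dl + c * t) - c * a / dl)| := by congr 1; ring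
      _ ≤ |v0 - c * a / dl| + |c * X1 / (dl + c * t) - c * a / dl| := abs_sub _ _
      _ ≤ e + d := by gcongr
      _ ≤ 2 * d := by linarith
  · calc |v1 - X2 / (t + ak ^ 2)| = |(v1 - y) - (X2 / (t + ak ^ 2) - y)| := by congr 1; ring
      _ ≤ |v1 - y| + |X2 / (t + ak ^ 2) - y| := abs_sub _ _
      _ ≤ e + (4 + 6 * Y) * d := by gcongr
      _ ≤ (5 + 6 * Y) * d := by nlinarith
  · have h1 : X1 = (X1 - a - t * (c * a / dl)) + (a + t * (c * a / dl)) := by ring
    have h2 : |t * (c * a / dl)| ≤ c * t := by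
      rw [abs_mul, abs_of_nonneg ht, abs_div, abs_mul, abs_of_pos hc, abs_of_pos hdl0]
      have : |a| / dl ≤ 1 := by rw [div_le_one hdl0]; exact ha.le
      calc t * (c * |a| / dl) = c * t * (|a| / dl) := by ring
        _ ≤ c * t * 1 := by gcongr
        _ = c * t := mul_one _
    calc |X1| = |(X1 - a - t * (c * a / dl)) + (a + t * (c * a / dl))| := by rw [← h1]
      _ ≤ |X1 - a - t * (c * a / dl)| + (|a| + |t * (c * a / dl)|) :=
          (abs_add_le _ _).trans (by gcongr; exact abs_add_le _ _)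
      _ ≤ d * (t + a ^ 2) + (dl + c * t) := by gcongr
      _ ≤ 1 / 4 * (t + dl) + (dl + 1 * t) := by
          gcongr
          linarith
      _ ≤ 2 * (t + dl) := by nlinarith
  · have h1 : X2 = (X2 - t * v1 - y * a ^ 2) + (t * v1 + y * a ^ 2) := by ring
    have hv1 : |v1| ≤ Y + e := by
      calc |v1| = |(v1 - y) + y| := by rw [sub_add_cancel]
        _ ≤ |v1 - y| + |y| := abs_add_le _ _
        _ ≤ Y + e := by linarith
    calc |X2| = |(X2 - t * v1 - y * a ^ 2) + (t * v1 + y * a ^ 2)| := by rw [← h1]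
      _ ≤ |X2 - t * v1 - y * a ^ 2| + (|t * v1| + |y * a ^ 2|) :=
          (abs_add_le _ _).trans (by gcongr; exact abs_add_le _ _)
      _ ≤ f * (t + a ^ 2) + (t * (Y + e) + Y * a ^ 2) := by
          rw [abs_mul, abs_of_nonneg ht, abs_mul, abs_of_pos ha2]; gcongr
      _ ≤ (Y + 1) * (t + a ^ 2) := by nlinarith
      _ ≤ (Y + 1) * (t + dl) := by gcongr; linarith

/-- relevant images -/
def KK (P : Par) (t : ℝ) (x : P2) : Set (ℤ × ℤ) := {k | ‖x + latt k‖ ≤ (P.Y + 2) * (t + P.dl)}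

lemma KK_finite (P : Par) (t : ℝ) (x : P2) : (KK P t x).Finite := finite_latt_near _ _

/-- the finite set of relevant images -/
def KKf (P : Par) (t : ℝ) (x : P2) : Finset (ℤ × ℤ) := (KK_finite P t x).toFinset

lemma mem_KKf {P : Par} {t : ℝ} {x : P2} {k : ℤ × ℤ} :
    k ∈ KKf P t x ↔ ‖x + latt k‖ ≤ (P.Y + 2) * (t + P.dl) := by
  unfold KKf; rw [Set.Finite.mem_toFinset]; rfl

lemma card_KKf {P : Par} (hP : ParD P) {t : ℝ} (ht : 0 ≤ t) (x : P2) :
    ((KKf P t x).card : ℝ) ≤ (3 * ((P.Y + 2) * (t + P.dl)) + 1) ^ 2 := by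
  have hY := hP.Y
  have hdl := hP.dl_pos
  have := ncard_latt_near x (L := (P.Y + 2) * (t + P.dl)) (by positivity)
  unfold KKf
  rw [← Set.ncard_eq_toFinset_card _ (KK_finite P t x)]
  exact this

lemma norm_le_abs3 (w : R3) : ‖w‖ ≤ |w 0| + |w 1| + |w 2| := by
  rw [EuclideanSpace.norm_eq, Fin.sum_univ_three]
  apply Real.sqrt_le_iff.2 ⟨by positivity, ?_⟩
  simp only [Real.norm_eq_abs]
  nlinarith [mul_nonneg (abs_nonneg (w 0)) (abs_nonneg (w 1)),
    mul_nonneg (abs_nonneg (w 0)) (abs_nonneg (w 2)), mul_nonneg (abs_nonneg (w 1)) (abs_nonneg (w 2))]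

lemma abs_apply_le_norm (w : R3) (i : Fin 3) : |w i| ≤ ‖w‖ := by
  have := PiLp.norm_apply_le w i
  simpa using this

/-- every label value below `1/4` is comparable with the distance to a pole -/
theorem pole_of_dval {P : Par} (hP : ParD P) {t : ℝ} (ht : 0 ≤ t) {x : P2} {v : R3} {k : ℤ × ℤ}
    {j : ℕ} {a y s : ℝ} (hj : P.j0 ≤ j) (ha : a ∈ lane j) (hy : |y| < P.Y)
    (hd : dval P t x v k a y s ≤ 1 / 4) :
    k ∈ KKf P t x ∧
    ‖v - uvec P s t (x + latt k)‖ ≤ (8 + 6 * P.Y) * dval P t x v k a y s := by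
  have hla := hP.abs_lane hj ha
  have hdlp := hP.dl_pos
  have ha0 : a ≠ 0 := ha.1
  have hra : 0 < t + rr a := by
    have := rr_pos_of_lane ha; positivity
  set e := ‖v - !₂[P.c * a / P.dl, y, s]‖ with he
  set f := ‖x + latt k - t • bar v - (a, y * rr a)‖ / (t + rr a) with hf
  have hdv : dval P t x v k a y s = e + f := rfl
  rw [hdv] at hd ⊢
  have he0 : 0 ≤ e := norm_nonneg _
  have hf0 : 0 ≤ f := by positivity
  have h0 : |v 0 - P.c * a / P.dl| ≤ e := by
    simpa using abs_apply_le_norm (v - !₂[P.c * a / P.dl, y, s]) 0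
  have h1 : |v 1 - y| ≤ e := by
    simpa using abs_apply_le_norm (v - !₂[P.c * a / P.dl, y, s]) 1
  have h2 : |v 2 - s| ≤ e := by
    simpa using abs_apply_le_norm (v - !₂[P.c * a / P.dl, y, s]) 2
  have hfe : ‖x + latt k - t • bar v - (a, y * rr a)‖ = f * (t + rr a) := by
    rw [hf, div_mul_cancel₀ _ hra.ne']
  have hX1 : |(x + latt k).1 - t * v 0 - a| ≤ f * (t + a ^ 2) := by
    have := norm_fst_le (x + latt k - t • bar v - (a, y * rr a))
    rw [hfe] at this
    simpa [bar, rr, Real.norm_eq_abs] using this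
  have hX2 : |(x + latt k).2 - t * v 1 - y * a ^ 2| ≤ f * (t + a ^ 2) := by
    have := norm_snd_le (x + latt k - t • bar v - (a, y * rr a))
    rw [hfe] at this
    simpa [bar, rr, Real.norm_eq_abs] using this
  obtain ⟨c1, c2, c3, c4⟩ := pole_core ht hP.c hP.c1 hdlp hP.dl_le hP.dlc hla.2 ha0 hy.le he0 hf0 hd
    h0 h1 hX1 hX2
  have hY := hP.Y
  constructor
  · rw [mem_KKf, Prod.norm_def]
    apply max_le
    · rw [Real.norm_eq_abs]
      refine c3.trans ?_
      gcongr; linarith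
    · rw [Real.norm_eq_abs]
      refine c4.trans ?_
      gcongr; linarith
  · refine (norm_le_abs3 _).trans ?_
    have e0 : (v - uvec P s t (x + latt k)) 0 = v 0 - P.c * (x + latt k).1 / (P.dl + P.c * t) := by
      simp [uvec]
    have e1 : (v - uvec P s t (x + latt k)) 1 = v 1 - (x + latt k).2 /
        (t + (P.dl * (x + latt k).1 / (P.dl + P.c * t)) ^ 2) := by
      simp [uvec, rr, lab]
    have e2 : (v - uvec P s t (x + latt k)) 2 = v 2 - s := by
      simp [uvec]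
    rw [e0, e1, e2]
    nlinarith

end Crest.Agent.R68.DPole
end
end

-- ▼ part R68/DPoles3

/-!
Row 68 (S0091): `D^{-3/2}` is bounded by a finite sum over the poles; further facts on `Dw`
(helper835).
-/

set_option autoImplicit false
open MeasureTheory Set Filter Topology
open scoped ENNReal
open Crest.AnalysisR.VecCalc3 Crest.AnalysisR.PDE.Boltzmann

noncomputable section

namespace Crest.Agent.R68.DPole

/-- the sum over the poles -/
def Spole (P : Par) (t : ℝ) (x : P2) (v : R3) : ℝ≥0∞ :=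
  1 + ∑ k ∈ KKf P t x, (ENNReal.ofReal ‖v - uvec P 1 t (x + latt k)‖ ^ (-(3 / 2) : ℝ) +
    ENNReal.ofReal ‖v - uvec P (-1) t (x + latt k)‖ ^ (-(3 / 2) : ℝ))

lemma one_le_Spole (P : Par) (t : ℝ) (x : P2) (v : R3) : 1 ≤ Spole P t x v := le_self_add

lemma pole_le_Spole {P : Par} {t : ℝ} {x : P2} {v : R3} {k : ℤ × ℤ} (hk : k ∈ KKf P t x) {s : ℝ}
    (hs : s = 1 ∨ s = -1) :
    ENNReal.ofReal ‖v - uvec P s t (x + latt k)‖ ^ (-(3 / 2) : ℝ) ≤ Spole P t x v := by
  unfold Spole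
  refine le_trans ?_ le_add_self
  refine le_trans ?_ (Finset.single_le_sum (f := fun k =>
    ENNReal.ofReal ‖v - uvec P 1 t (x + latt k)‖ ^ (-(3 / 2) : ℝ) +
    ENNReal.ofReal ‖v - uvec P (-1) t (x + latt k)‖ ^ (-(3 / 2) : ℝ)) (fun _ _ => by simp) hk)
  rcases hs with rfl | rfl
  · exact le_self_add
  · exact le_add_self

/-- the pole statement for `Dw` itself (poles are attained up to the factor `2`) -/
theorem exists_pole {P : Par} (hP : ParD P) {t : ℝ} (ht : 0 ≤ t) {x : P2} {v : R3} {b : ℝ}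
    (hb : b ≤ 1 / 4) (hD : Dw P t x v < b) :
    ∃ k ∈ KKf P t x, ∃ s : ℝ, (s = 1 ∨ s = -1) ∧
      ‖v - uvec P s t (x + latt k)‖ ≤ (8 + 6 * P.Y) * b := by
  rcases (Dw_lt_iff hP.Y ht x v).1 hD with h | ⟨k, j, a, y, s, hj, ha, hy, hs, hd⟩
  · linarith
  · obtain ⟨h1, h2⟩ := pole_of_dval (s := s) hP ht hj ha hy (hd.le.trans hb)
    have hY := hP.Y
    refine ⟨k, h1, s, hs, h2.trans ?_⟩
    gcongr

/-- **`D^{-3/2}` is bounded by the sum over the poles.** -/
theorem Dm_le_Spole {P : Par} (hP : ParD P) {t : ℝ} (ht : 0 ≤ t) (x : P2) (v : R3) :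
    Dm P t x v ≤ ENNReal.ofReal ((8 + 6 * P.Y) ^ 2) * Spole P t x v := by
  have hY := hP.Y
  set C : ℝ := 8 + 6 * P.Y with hC
  have hC8 : 8 ≤ C := by linarith
  have hC0 : 0 < C := by linarith
  have hCne : ENNReal.ofReal C ≠ 0 := by simpa using hC0
  -- the main estimate for each admissible `b`
  have key : ∀ b : ℝ, 0 < b → Dw P t x v < b →
      ENNReal.ofReal b ^ (-(3 / 2) : ℝ) ≤ ENNReal.ofReal (C ^ 2) * Spole P t x v := by
    intro b hb hD
    rcases le_or_gt b (1 / 4) with h4 | h4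
    · obtain ⟨k, hk, s, hs, hn⟩ := exists_pole hP ht h4 hD
      have h1 := pole_le_Spole (v := v) hk hs
      have h2 : ENNReal.ofReal ‖v - uvec P s t (x + latt k)‖ ≤ ENNReal.ofReal C * ENNReal.ofReal b := by
        rw [← ENNReal.ofReal_mul hC0.le]
        exact ENNReal.ofReal_le_ofReal hn
      have h3 : (ENNReal.ofReal C * ENNReal.ofReal b) ^ (-(3 / 2) : ℝ) ≤
          ENNReal.ofReal ‖v - uvec P s t (x + latt k)‖ ^ (-(3 / 2) : ℝ) := by
        rw [ENNReal.rpow_neg, ENNReal.rpow_neg]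
        gcongr
      have h4 : ENNReal.ofReal b ^ (-(3 / 2) : ℝ) = ENNReal.ofReal C ^ (3 / 2 : ℝ) *
          (ENNReal.ofReal C * ENNReal.ofReal b) ^ (-(3 / 2) : ℝ) := by
        rw [ENNReal.mul_rpow_of_ne_top ENNReal.ofReal_ne_top ENNReal.ofReal_ne_top, ← mul_assoc,
          ← ENNReal.rpow_add _ _ hCne ENNReal.ofReal_ne_top]
        norm_num
      rw [h4]
      refine mul_le_mul' ?_ (h3.trans h1)
      rw [ENNReal.ofReal_rpow_of_pos hC0]
      apply ENNReal.ofReal_le_ofReal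
      calc C ^ (3 / 2 : ℝ) ≤ C ^ (2 : ℝ) :=
            Real.rpow_le_rpow_of_exponent_le (by linarith) (by norm_num)
        _ = C ^ 2 := by norm_cast
    · have h1 : ENNReal.ofReal b ^ (-(3 / 2) : ℝ) ≤ ENNReal.ofReal (C ^ 2) := by
        rw [ENNReal.ofReal_rpow_of_pos hb]
        apply ENNReal.ofReal_le_ofReal
        calc b ^ (-(3 / 2) : ℝ) ≤ (1 / 4 : ℝ) ^ (-(3 / 2) : ℝ) :=
              Real.rpow_le_rpow_of_nonpos (by norm_num) h4.le (by norm_num)
          _ = 8 := by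
              rw [show (1 / 4 : ℝ) = (2 : ℝ) ^ (-2 : ℝ) by norm_num, ← Real.rpow_mul (by norm_num)]
              norm_num
          _ ≤ C ^ 2 := by nlinarith
      calc ENNReal.ofReal b ^ (-(3 / 2) : ℝ) ≤ ENNReal.ofReal (C ^ 2) * 1 := by rwa [mul_one]
        _ ≤ _ := by gcongr; exact one_le_Spole _ _ _ _
  -- pass to the limit `b ↓ Dw`
  have hD0 := Dw_nonneg (P := P) ht x v
  have hlim : Tendsto (fun b : ℝ => ENNReal.ofReal b ^ (-(3 / 2) : ℝ))
      (𝓝[>] (Dw P t x v)) (𝓝 (Dm P t x v)) := by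
    have hc : Continuous (fun b : ℝ => ENNReal.ofReal b ^ (-(3 / 2) : ℝ)) :=
      (ENNReal.continuous_rpow_const).comp ENNReal.continuous_ofReal
    exact (hc.tendsto _).mono_left nhdsWithin_le_nhds
  refine le_of_tendsto hlim ?_
  filter_upwards [self_mem_nhdsWithin] with b hb
  exact key b (hD0.trans_lt hb) hb

/-- number of poles -/
theorem card_poles {P : Par} (hP : ParD P) {t : ℝ} (ht : 0 ≤ t) (x : P2) :
    ((KKf P t x).card : ℝ) ≤ (3 * (P.Y + 2) + 1) ^ 2 * (1 + t) ^ 2 := by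
  have hY := hP.Y
  have hdl := hP.dl_pos
  have hdl2 := hP.dl_le
  refine (card_KKf hP ht x).trans ?_
  rw [← mul_pow]
  gcongr
  nlinarith [mul_nonneg hY.le ht]

/-- for small times at most one image matters -/
theorem card_KKf_le_one {P : Par} {t : ℝ} (hs : (P.Y + 2) * (t + P.dl) < 7 / 20) (x : P2) :
    (KKf P t x).card ≤ 1 := by
  rw [Finset.card_le_one]
  intro k hk l hl
  rw [mem_KKf] at hk hl
  exact latt_unique (hk.trans_lt hs) (hl.trans_lt hs)




end Crest.Agent.R68.DPole
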