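import Crest.Agent.R68.Defs
import Crest.Agent.R68.FLattice

/-!
# Row 68: the pole lemma for the weight `Dw`

For every `t ≥ 0`, `x` the weight `Dw P t x v` is bounded below by the distance of `v` to a finite set of
poles `uvec P s t (x + latt k)`.
-/

set_option autoImplicit false
open MeasureTheory Set
open scoped ENNReal
open Crest.AnalysisR.VecCalc3 Crest.AnalysisR.PDE.Boltzmann

noncomputable section

namespace Crest.Agent.R68.Pole

open Crest.Agent.R68

/-! ### velocity coordinates -/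

lemma abs_coord_le (v : R3) (i : Fin 3) : |v i| ≤ ‖v‖ := by
  have := PiLp.norm_apply_le v i
  simpa [Real.norm_eq_abs] using this

lemma norm_le_sum3 (v : R3) : ‖v‖ ≤ |v 0| + |v 1| + |v 2| := by
  rw [EuclideanSpace.norm_eq, Fin.sum_univ_three]
  apply Real.sqrt_le_iff.2
  constructor
  · positivity
  · simp only [Real.norm_eq_abs]
    nlinarith [abs_nonneg (v 0), abs_nonneg (v 1), abs_nonneg (v 2),
      mul_nonneg (abs_nonneg (v 0)) (abs_nonneg (v 1)),
      mul_nonneg (abs_nonneg (v 0)) (abs_nonneg (v 2)),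
      mul_nonneg (abs_nonneg (v 1)) (abs_nonneg (v 2))]

/-- the standing assumptions on the parameters -/
structure Ok (P : Par) : Prop where
  j0 : 32 ≤ P.j0
  c0 : 0 < P.c
  c1 : P.c ≤ 1
  dlc : P.dl ≤ P.c
  Y0 : 0 < P.Y

variable {P : Par}

lemma Ok.dl_pos (h : Ok P) : 0 < P.dl := by
  have : (32 : ℝ) ≤ P.j0 := by exact_mod_cast h.j0
  unfold Par.dl; positivity

lemma Ok.dl_le (h : Ok P) : P.dl ≤ 1 / 8 := by
  have : (32 : ℝ) ≤ P.j0 := by exact_mod_cast h.j0
  unfold Par.dl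
  have h8 : (8 : ℝ) ≤ √(2 * P.j0) := by
    apply Real.le_sqrt_of_sq_le
    linarith
  gcongr

/-- labels in lanes `j ≥ j0` are `< δ` -/
lemma abs_lt_dl_of_mem_lane (h : Ok P) {j : ℕ} (hj : P.j0 ≤ j) {a : ℝ} (ha : a ∈ lane j) :
    0 < |a| ∧ |a| < P.dl := by
  obtain ⟨ha0, h1, h2⟩ := ha
  have ha0' : 0 < |a| := abs_pos.2 ha0
  refine ⟨ha0', ?_⟩
  have hj4 : (32 : ℝ) ≤ P.j0 := by exact_mod_cast h.j0
  have hj' : (P.j0 : ℝ) ≤ j := by exact_mod_cast hj
  have h3 : 2 * (P.j0 : ℝ) < 1 / a ^ 2 := by linarith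
  have ha2 : 0 < a ^ 2 := by positivity
  unfold Par.dl
  rw [lt_div_iff₀ (by positivity), ← Real.sqrt_sq_eq_abs, ← Real.sqrt_mul ha2.le]
  rw [lt_div_iff₀ ha2] at h3
  rw [← Real.sqrt_one]
  apply Real.sqrt_lt_sqrt (by positivity)
  linarith

lemma rr_nonneg (a : ℝ) : 0 ≤ rr a := sq_nonneg a

lemma rr_le_dl_sq (_h : Ok P) {a : ℝ} (ha : |a| ≤ P.dl) : rr a ≤ P.dl ^ 2 := by
  unfold rr
  rw [← sq_abs a]
  have := abs_nonneg a
  gcongr

lemma rr_le_dl (h : Ok P) {a : ℝ} (ha : |a| ≤ P.dl) : rr a ≤ P.dl / 8 := by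
  have h1 := rr_le_dl_sq h ha
  have h2 := h.dl_le
  have h3 := h.dl_pos
  nlinarith

/-- the denominators `t + r(a)` and `t + r(A)` are comparable when the labels are close -/
lemma add_rr_le_four {t a A : ℝ} (ht : 0 ≤ t) (ha : |a| ≤ 1 / 8) (hA : |A - a| ≤ t + rr a) :
    t + rr a ≤ 4 * (t + rr A) := by
  unfold rr at *
  by_cases hta : a ^ 2 ≤ t
  · nlinarith [sq_nonneg A]
  · push Not at hta
    have h1 : |A - a| ≤ 2 * a ^ 2 := by linarith
    have h2 : a ^ 2 ≤ |a| / 8 := by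
      rw [← sq_abs a]
      nlinarith [abs_nonneg a]
    have h3 : |A - a| ≤ |a| / 4 := by linarith
    have h4 : |a| ≤ |A| + |A - a| := by
      have := abs_sub_abs_le_abs_sub a A
      rw [abs_sub_comm a A] at this
      linarith
    have h5 : (3 / 4) * |a| ≤ |A| := by linarith
    have h6 : a ^ 2 = |a| ^ 2 := (sq_abs a).symm
    have h7 : A ^ 2 = |A| ^ 2 := (sq_abs A).symm
    rw [h6, h7]
    nlinarith [abs_nonneg a, abs_nonneg A]

/-- **P1**: closeness in phase space to the label `(a, y)` bounds the distance of `v` to the velocity field. -/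
theorem norm_sub_uvec_le (h : Ok P) {t a y s : ℝ} (ht : 0 ≤ t) (ha : |a| ≤ P.dl) (hy : |y| ≤ P.Y)
    (hpos : 0 < t + rr a) (X : P2) (v : R3)
    (hef : ‖v - !₂[P.c * a / P.dl, y, s]‖ + ‖X - t • bar v - (a, y * rr a)‖ / (t + rr a) ≤ 1) :
    ‖v - uvec P s t X‖ ≤ (10 + 12 * P.Y) *
      (‖v - !₂[P.c * a / P.dl, y, s]‖ + ‖X - t • bar v - (a, y * rr a)‖ / (t + rr a)) := by
  set q : R3 := !₂[P.c * a / P.dl, y, s] with hq
  set e := ‖v - q‖ with he
  set f := ‖X - t • bar v - (a, y * rr a)‖ / (t + rr a) with hf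
  have hdl := h.dl_pos
  have hdl8 := h.dl_le
  have hc0 := h.c0
  have hc1 := h.c1
  have hY := h.Y0
  have he0 : 0 ≤ e := norm_nonneg _
  have hf0 : 0 ≤ f := by positivity
  have hm0 : 0 ≤ e + f := by positivity
  -- coordinates of q
  have hq0 : q 0 = P.c * a / P.dl := by simp [hq]
  have hq1 : q 1 = y := by simp [hq]
  have hq2 : q 2 = s := by simp [hq]
  have he_0 : |v 0 - P.c * a / P.dl| ≤ e := by
    have := abs_coord_le (v - q) 0
    simpa [hq0] using this
  have he_1 : |v 1 - y| ≤ e := by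
    have := abs_coord_le (v - q) 1
    simpa [hq1] using this
  have hf' : ‖X - t • bar v - (a, y * rr a)‖ = f * (t + rr a) := by
    rw [hf, div_mul_cancel₀ _ hpos.ne']
  have hf_0 : |X.1 - t * v 0 - a| ≤ f * (t + rr a) := by
    rw [← hf']
    have := norm_fst_le (X - t • bar v - (a, y * rr a))
    simpa [bar, Real.norm_eq_abs] using this
  have hf_1 : |X.2 - t * v 1 - y * rr a| ≤ f * (t + rr a) := by
    rw [← hf']
    have := norm_snd_le (X - t • bar v - (a, y * rr a))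
    simpa [bar, Real.norm_eq_abs] using this
  have hrr := rr_nonneg a
  have hte : t * e ≤ (t + rr a) * e := by nlinarith
  -- distance to the position of the label
  have hX1 : |X.1 - a * (1 + P.c * t / P.dl)| ≤ (e + f) * (t + rr a) := by
    have h1 : X.1 - a * (1 + P.c * t / P.dl) = (X.1 - t * v 0 - a) + t * (v 0 - P.c * a / P.dl) := by
      field_simp; ring
    rw [h1]
    calc |(X.1 - t * v 0 - a) + t * (v 0 - P.c * a / P.dl)|
        ≤ |X.1 - t * v 0 - a| + |t * (v 0 - P.c * a / P.dl)| := abs_add_le _ _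
      _ ≤ f * (t + rr a) + t * e := by
          rw [abs_mul, abs_of_nonneg ht]
          gcongr
      _ ≤ (e + f) * (t + rr a) := by linarith
  have hX2 : |X.2 - y * (t + rr a)| ≤ (e + f) * (t + rr a) := by
    have h1 : X.2 - y * (t + rr a) = (X.2 - t * v 1 - y * rr a) + t * (v 1 - y) := by ring
    rw [h1]
    calc |(X.2 - t * v 1 - y * rr a) + t * (v 1 - y)|
        ≤ |X.2 - t * v 1 - y * rr a| + |t * (v 1 - y)| := abs_add_le _ _
      _ ≤ f * (t + rr a) + t * e := by
          rw [abs_mul, abs_of_nonneg ht]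
          gcongr
      _ ≤ (e + f) * (t + rr a) := by linarith
  -- the label of X
  set A := lab P t X with hA
  have hden : 0 < P.dl + P.c * t := by positivity
  have hAa : A - a = P.dl * (X.1 - a * (1 + P.c * t / P.dl)) / (P.dl + P.c * t) := by
    rw [hA, lab]; field_simp
  have hAa' : |A - a| ≤ P.dl * ((e + f) * (t + rr a)) / (P.dl + P.c * t) := by
    rw [hAa, abs_div, abs_of_pos hden, abs_mul, abs_of_pos hdl]
    gcongr
  have hra := rr_le_dl h ha
  have hfac : P.dl * (t + rr a) ≤ P.dl + P.c * t := by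
    have := h.dlc
    nlinarith
  have hAa1 : |A - a| ≤ e + f := by
    refine hAa'.trans ?_
    rw [div_le_iff₀ hden]
    nlinarith
  have hAa2 : |A - a| ≤ (e + f) * (t + rr a) := by
    refine hAa'.trans ?_
    rw [div_le_iff₀ hden]
    have h1 : 0 ≤ (e + f) * (t + rr a) := by positivity
    nlinarith [mul_nonneg h1 (mul_nonneg hc0.le ht)]
  have hAa3 : |A - a| ≤ t + rr a := by
    refine hAa2.trans ?_
    nlinarith
  have hfour : t + rr a ≤ 4 * (t + rr A) := add_rr_le_four ht (ha.trans hdl8) hAa3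
  have hposA : 0 < t + rr A := by linarith
  -- first coordinate
  have hu0 : |P.c * a / P.dl - P.c * X.1 / (P.dl + P.c * t)| ≤ e + f := by
    have h1 : P.c * a / P.dl - P.c * X.1 / (P.dl + P.c * t)
        = -(P.c * (X.1 - a * (1 + P.c * t / P.dl)) / (P.dl + P.c * t)) := by
      field_simp; ring
    rw [h1, abs_neg, abs_div, abs_of_pos hden, abs_mul, abs_of_pos hc0, div_le_iff₀ hden]
    have h2 : P.c * (t + rr a) ≤ P.dl + P.c * t := by nlinarith
    calc P.c * |X.1 - a * (1 + P.c * t / P.dl)| ≤ P.c * ((e + f) * (t + rr a)) := by gcongr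
      _ = (e + f) * (P.c * (t + rr a)) := by ring
      _ ≤ (e + f) * (P.dl + P.c * t) := by gcongr
  -- second coordinate
  have hAabs : |a| + |A| ≤ 2 := by
    have h1 : |A| ≤ |a| + |A - a| := by
      have := abs_sub_abs_le_abs_sub A a
      linarith
    linarith
  have hu1 : |y - X.2 / (t + rr A)| ≤ 4 * (e + f) + 8 * P.Y * (e + f) := by
    have h1 : y - X.2 / (t + rr A)
        = -((X.2 - y * (t + rr a)) / (t + rr A)) + y * ((A - a) * (A + a)) / (t + rr A) := by
      unfold rr at *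
      field_simp; ring
    rw [h1]
    refine (abs_add_le _ _).trans ?_
    gcongr
    · rw [abs_neg, abs_div, abs_of_pos hposA, div_le_iff₀ hposA]
      calc |X.2 - y * (t + rr a)| ≤ (e + f) * (t + rr a) := hX2
        _ ≤ (e + f) * (4 * (t + rr A)) := by gcongr
        _ = 4 * (e + f) * (t + rr A) := by ring
    · rw [abs_div, abs_of_pos hposA, div_le_iff₀ hposA, abs_mul, abs_mul]
      have h2 : |A + a| ≤ 2 := by
        have := abs_add_le A a
        linarith
      calc |y| * (|A - a| * |A + a|) ≤ P.Y * (((e + f) * (t + rr a)) * 2) := by gcongr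
        _ ≤ P.Y * (((e + f) * (4 * (t + rr A))) * 2) := by gcongr
        _ = 8 * P.Y * (e + f) * (t + rr A) := by ring
  have huq : ‖q - uvec P s t X‖ ≤ (5 + 8 * P.Y) * (e + f) := by
    refine (norm_le_sum3 _).trans ?_
    have h0 : (q - uvec P s t X) 0 = P.c * a / P.dl - P.c * X.1 / (P.dl + P.c * t) := by
      simp [hq, uvec]
    have h1 : (q - uvec P s t X) 1 = y - X.2 / (t + rr A) := by
      simp [hq, uvec, hA]
    have h2 : (q - uvec P s t X) 2 = 0 := by
      simp [hq, uvec]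
    rw [h0, h1, h2, abs_zero]
    linarith
  calc ‖v - uvec P s t X‖ ≤ ‖v - q‖ + ‖q - uvec P s t X‖ := by
        have := norm_add_le (v - q) (q - uvec P s t X)
        simpa using this
    _ ≤ e + (5 + 8 * P.Y) * (e + f) := by gcongr
    _ ≤ (10 + 12 * P.Y) * (e + f) := by nlinarith

/-- the position of `X` when it is close in phase space to the label `(a, y)` -/
theorem norm_le_of_close (h : Ok P) {t a y s : ℝ} (ht : 0 ≤ t) (ha : |a| ≤ P.dl) (hy : |y| ≤ P.Y)
    (hpos : 0 < t + rr a) (X : P2) (v : R3)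
    (hef : ‖v - !₂[P.c * a / P.dl, y, s]‖ + ‖X - t • bar v - (a, y * rr a)‖ / (t + rr a) ≤ 1) :
    ‖X‖ ≤ (P.Y + 2) * (t + P.dl) := by
  set q : R3 := !₂[P.c * a / P.dl, y, s] with hq
  set e := ‖v - q‖ with he
  set f := ‖X - t • bar v - (a, y * rr a)‖ / (t + rr a) with hf
  have hdl := h.dl_pos
  have hdl8 := h.dl_le
  have hc0 := h.c0
  have hc1 := h.c1
  have hY := h.Y0
  have he0 : 0 ≤ e := norm_nonneg _
  have hf0 : 0 ≤ f := by positivity
  have hq0 : q 0 = P.c * a / P.dl := by simp [hq]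
  have hq1 : q 1 = y := by simp [hq]
  have he_0 : |v 0 - P.c * a / P.dl| ≤ e := by
    have := abs_coord_le (v - q) 0
    simpa [hq0] using this
  have he_1 : |v 1 - y| ≤ e := by
    have := abs_coord_le (v - q) 1
    simpa [hq1] using this
  have hf' : ‖X - t • bar v - (a, y * rr a)‖ = f * (t + rr a) := by
    rw [hf, div_mul_cancel₀ _ hpos.ne']
  have hf_0 : |X.1 - t * v 0 - a| ≤ f * (t + rr a) := by
    rw [← hf']
    have := norm_fst_le (X - t • bar v - (a, y * rr a))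
    simpa [bar, Real.norm_eq_abs] using this
  have hf_1 : |X.2 - t * v 1 - y * rr a| ≤ f * (t + rr a) := by
    rw [← hf']
    have := norm_snd_le (X - t • bar v - (a, y * rr a))
    simpa [bar, Real.norm_eq_abs] using this
  have hrr := rr_nonneg a
  have hte : t * e ≤ (t + rr a) * e := by nlinarith
  have hX1 : |X.1 - a * (1 + P.c * t / P.dl)| ≤ t + rr a := by
    have h1 : X.1 - a * (1 + P.c * t / P.dl) = (X.1 - t * v 0 - a) + t * (v 0 - P.c * a / P.dl) := by
      field_simp; ring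
    rw [h1]
    calc |(X.1 - t * v 0 - a) + t * (v 0 - P.c * a / P.dl)|
        ≤ |X.1 - t * v 0 - a| + |t * (v 0 - P.c * a / P.dl)| := abs_add_le _ _
      _ ≤ f * (t + rr a) + t * e := by
          rw [abs_mul, abs_of_nonneg ht]
          gcongr
      _ ≤ t + rr a := by nlinarith
  have hX2 : |X.2 - y * (t + rr a)| ≤ t + rr a := by
    have h1 : X.2 - y * (t + rr a) = (X.2 - t * v 1 - y * rr a) + t * (v 1 - y) := by ring
    rw [h1]
    calc |(X.2 - t * v 1 - y * rr a) + t * (v 1 - y)|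
        ≤ |X.2 - t * v 1 - y * rr a| + |t * (v 1 - y)| := abs_add_le _ _
      _ ≤ f * (t + rr a) + t * e := by
          rw [abs_mul, abs_of_nonneg ht]
          gcongr
      _ ≤ t + rr a := by nlinarith
  have hra := rr_le_dl h ha
  rw [Prod.norm_def, max_le_iff, Real.norm_eq_abs, Real.norm_eq_abs]
  constructor
  · have h1 : |X.1| ≤ |a * (1 + P.c * t / P.dl)| + (t + rr a) := by
      have := abs_sub_abs_le_abs_sub X.1 (a * (1 + P.c * t / P.dl))
      linarith
    have h2 : |a * (1 + P.c * t / P.dl)| ≤ P.dl + P.c * t := by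
      have h3 : 0 ≤ P.c * t / P.dl := by positivity
      rw [abs_mul, abs_of_nonneg (by linarith : 0 ≤ 1 + P.c * t / P.dl)]
      calc |a| * (1 + P.c * t / P.dl) ≤ P.dl * (1 + P.c * t / P.dl) := by gcongr
        _ = P.dl + P.c * t := by field_simp
    nlinarith
  · have h1 : |X.2| ≤ |y * (t + rr a)| + (t + rr a) := by
      have := abs_sub_abs_le_abs_sub X.2 (y * (t + rr a))
      linarith
    have h2 : |y * (t + rr a)| ≤ P.Y * (t + rr a) := by
      rw [abs_mul, abs_of_pos hpos]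
      gcongr
    nlinarith

/-! ### the set of poles -/

/-- the images which can be seen at `(t,x)` -/
def near (P : Par) (t : ℝ) (x : P2) : Finset (ℤ × ℤ) :=
  (finite_latt_near x ((P.Y + 2) * (t + P.dl))).toFinset

lemma mem_near {t : ℝ} {x : P2} {k : ℤ × ℤ} :
    k ∈ near P t x ↔ ‖x + latt k‖ ≤ (P.Y + 2) * (t + P.dl) := by
  simp [near]

lemma card_near_le (h : Ok P) {t : ℝ} (ht : 0 ≤ t) (x : P2) :
    ((near P t x).card : ℝ) ≤ (3 * ((P.Y + 2) * (t + P.dl)) + 1) ^ 2 := by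
  have hdl := h.dl_pos
  have hY := h.Y0
  have h1 := ncard_latt_near x (L := (P.Y + 2) * (t + P.dl)) (by positivity)
  rwa [Set.ncard_eq_toFinset_card _ (finite_latt_near x ((P.Y + 2) * (t + P.dl)))] at h1



/-! ### elementary facts on `Dset`, `Dw` -/

lemma Dset_nonneg {t : ℝ} (ht : 0 ≤ t) (x : P2) (v : R3) {d : ℝ} (hd : d ∈ Dset P t x v) : 0 ≤ d := by
  obtain ⟨k, j, a, y, s, -, -, -, -, rfl⟩ := hd
  have := rr_nonneg a
  positivity

lemma Dset_bdd {t : ℝ} (ht : 0 ≤ t) (x : P2) (v : R3) : BddBelow (Dset P t x v) :=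
  ⟨0, fun _ hd => Dset_nonneg ht x v hd⟩

/-- a label in lane `j` -/
lemma exists_mem_lane (j : ℕ) : ∃ a : ℝ, a ∈ lane j := by
  have h0 : (0 : ℝ) < 2 * j + 1 := by positivity
  have h1 : 1 / (1 / √(2 * (j : ℝ) + 1)) ^ 2 = 2 * j + 1 := by
    rw [div_pow, Real.sq_sqrt h0.le]; simp
  refine ⟨1 / √(2 * j + 1), ?_, ?_, ?_⟩
  · positivity
  · rw [h1]; linarith
  · rw [h1]; linarith

lemma Dset_nonempty (h : Ok P) (t : ℝ) (x : P2) (v : R3) : (Dset P t x v).Nonempty := by
  obtain ⟨a, ha⟩ := exists_mem_lane P.j0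
  exact ⟨_, 0, P.j0, a, 0, 1, le_rfl, ha, by simpa using h.Y0, Or.inl rfl, rfl⟩


lemma Dw_nonneg (h : Ok P) {t : ℝ} (ht : 0 ≤ t) (x : P2) (v : R3) : 0 ≤ Dw P t x v :=
  le_min zero_le_one (le_csInf (Dset_nonempty h t x v) fun _ hd => Dset_nonneg ht x v hd)

lemma Dw_le_of_mem {t : ℝ} (ht : 0 ≤ t) {x : P2} {v : R3} {d : ℝ} (hd : d ∈ Dset P t x v) :
    Dw P t x v ≤ d :=
  (min_le_right _ _).trans (csInf_le (Dset_bdd ht x v) hd)




/-! ### the pole lemma -/

/-- **Pole lemma**: either `Dw = 1` or there is a pole within `C Dw` of `v`. -/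
theorem exists_pole (h : Ok P) {t : ℝ} (ht : 0 ≤ t) (x : P2) (v : R3) :
    Dw P t x v = 1 ∨ ∃ k ∈ near P t x, ∃ s : ℝ, (s = 1 ∨ s = -1) ∧
      ‖v - uvec P s t (x + latt k)‖ ≤ (10 + 12 * P.Y) * Dw P t x v := by
  have hY := h.Y0
  by_cases hD : 1 ≤ sInf (Dset P t x v)
  · left; exact min_eq_left hD
  right
  push Not at hD
  have hDw : Dw P t x v = sInf (Dset P t x v) := min_eq_right hD.le
  -- the finite set of candidate poles
  set S : Finset ((ℤ × ℤ) × ℝ) := near P t x ×ˢ {1, -1} with hS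
  have key : ∀ d ∈ Dset P t x v, d ≤ 1 → ∃ p ∈ S,
      ‖v - uvec P p.2 t (x + latt p.1)‖ ≤ (10 + 12 * P.Y) * d := by
    rintro d ⟨k, j, a, y, s, hj, ha, hy, hs, rfl⟩ hd1
    have ha' := abs_lt_dl_of_mem_lane h hj ha
    have hra : 0 < rr a := by
      have : a ≠ 0 := abs_pos.1 ha'.1
      unfold rr; positivity
    have hpos : 0 < t + rr a := by positivity
    refine ⟨(k, s), ?_, norm_sub_uvec_le h ht ha'.2.le hy.le hpos _ v hd1⟩
    rw [hS, Finset.mem_product, mem_near]
    exact ⟨norm_le_of_close h ht ha'.2.le hy.le hpos _ v hd1, by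
      rcases hs with rfl | rfl <;> simp⟩
  obtain ⟨d0, hd0, hd01⟩ := exists_lt_of_csInf_lt (Dset_nonempty h t x v) hD
  obtain ⟨p0, hp0, -⟩ := key d0 hd0 hd01.le
  obtain ⟨p, hp, hmin⟩ := S.exists_min_image (fun p => ‖v - uvec P p.2 t (x + latt p.1)‖) ⟨p0, hp0⟩
  rw [hS, Finset.mem_product] at hp
  refine ⟨p.1, hp.1, p.2, by simpa using hp.2, ?_⟩
  have hC : (0 : ℝ) < 10 + 12 * P.Y := by positivity
  have h1 : ‖v - uvec P p.2 t (x + latt p.1)‖ / (10 + 12 * P.Y) ≤ sInf (Dset P t x v) := by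
    refine le_csInf (Dset_nonempty h t x v) fun d hd => ?_
    rw [div_le_iff₀ hC, mul_comm]
    rcases le_total d 1 with hd1 | hd1
    · obtain ⟨p', hp', hp'2⟩ := key d hd hd1
      exact (hmin p' hp').trans hp'2
    · obtain ⟨p', hp', hp'2⟩ := key d0 hd0 hd01.le
      refine (hmin p' hp').trans (hp'2.trans ?_)
      nlinarith
  rw [hDw, mul_comm]
  rwa [div_le_iff₀ hC] at h1

end Crest.Agent.R68.Pole
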