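import Crest.Agent.R68.FSum
import Crest.Agent.R68.DPoles3
import Crest.Agent.R68.Pole
import Crest.Agent.R68.ColdDefs

-- ▼ part R68/ColdW1
section

/-!
# Row 68, part C for `t ≥ T1` (helper827): fuel sheets, closeness to the velocity field, `Dw` on the fuel
-/

set_option autoImplicit false
open MeasureTheory Set
open scoped ENNReal
open Crest.AnalysisR.VecCalc3 Crest.AnalysisR.PDE.Boltzmann

noncomputable section

namespace Crest.Agent.R68.ColdW

open Crest.Agent.R68 Crest.Agent.R68.Fuel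

variable {P : Par}


lemma norm_sq_eq (v : R3) : ‖v‖ ^ 2 = v 0 ^ 2 + v 1 ^ 2 + v 2 ^ 2 := by
  rw [EuclideanSpace.norm_eq, Fin.sum_univ_three, Real.sq_sqrt (by positivity)]
  simp only [Real.norm_eq_abs, sq_abs]

lemma lab_eq (h : P.Ok) {t : ℝ} (_ht : 0 ≤ t) (X : P2) : lab P t X = X.1 / (1 + P.kap * t) := by
  have hd := Ok.dlp h
  have hc := h.c0
  unfold lab Par.kap
  rw [div_eq_div_iff (by positivity) (by positivity)]
  field_simp

lemma uvec0 (h : P.Ok) {t : ℝ} (ht : 0 ≤ t) (s : ℝ) (X : P2) :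
    uvec P s t X 0 = P.kap * lab P t X := by
  have hd := Ok.dlp h
  have hc := h.c0
  have : uvec P s t X 0 = P.c * X.1 / (P.dl + P.c * t) := by simp [uvec]
  rw [this, lab, Par.kap]
  have : 0 < P.dl + P.c * t := by positivity
  field_simp

lemma uvec1 (s t : ℝ) (X : P2) : uvec P s t X 1 = X.2 / (t + rr (lab P t X)) := by simp [uvec]

lemma uvec2 (s t : ℝ) (X : P2) : uvec P s t X 2 = s := by simp [uvec]

/-- elementary facts for a velocity in the support of a sheet -/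
structure Close (P : Par) (j : ℕ) (t : ℝ) (X : P2) (v : R3) (a z : ℝ) : Prop where
  al : a ∈ lane j
  zl : |z| < P.Y * rr a
  X1 : X.1 = a + t * v 0
  X2 : X.2 = z + t * v 1
  e0 : |v 0 - P.kap * a| < etaj P.p j
  e1 : |v 1 - z / rr a| < etaj P.p j
  e2 : |v 2 - wj j| < etaj P.p j

lemma close_of_mem {j : ℕ} {t : ℝ} {X : P2} {v : R3} (hv : v ∈ lset P j t X) :
    Close P j t X v (X.1 - t * v 0) (X.2 - t * v 1) := by
  rw [mem_lset] at hv
  obtain ⟨⟨h1, h2⟩, h3, h4, h5⟩ := hv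
  exact ⟨h1, h2, by ring, by ring, h3, h4, h5⟩

namespace Close

variable {j : ℕ} {t : ℝ} {X : P2} {v : R3} {a z : ℝ}

lemma lab_sub (h : P.Ok) (ht : 0 ≤ t) (c : Close P j t X v a z) :
    lab P t X - a = t * (v 0 - P.kap * a) / (1 + P.kap * t) := by
  have hk := Ok.kap0 h
  rw [lab_eq h ht, c.X1]
  field_simp; ring

lemma abs_lab_sub (h : P.Ok) (ht : 0 ≤ t) (c : Close P j t X v a z) :
    |lab P t X - a| ≤ etaj P.p j * (t / (1 + P.kap * t)) := by
  have hk := Ok.kap0 h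
  have hη := etaj_pos P.p j
  rw [c.lab_sub h ht, abs_div, abs_mul, abs_of_nonneg ht, abs_of_pos (by positivity : 0 < 1 + P.kap * t)]
  have := c.e0
  rw [div_le_iff₀ (by positivity)]
  have h1 : etaj P.p j * (t / (1 + P.kap * t)) * (1 + P.kap * t) = t * etaj P.p j := by
    field_simp
  rw [h1]
  gcongr

lemma abs_lab_sub_t (h : P.Ok) (ht : 0 ≤ t) (c : Close P j t X v a z) :
    |lab P t X - a| ≤ etaj P.p j * t := by
  have hk := Ok.kap0 h
  have hη := etaj_pos P.p j
  refine (c.abs_lab_sub h ht).trans ?_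
  gcongr
  rw [div_le_iff₀ (by positivity)]
  nlinarith [mul_nonneg hk ht]

lemma abs_lab_sub_eta (h : P.Ok) (ht : 0 ≤ t) (c : Close P j t X v a z) :
    |lab P t X - a| ≤ etaj P.p j := by
  have hk := h.kap1
  have hη := etaj_pos P.p j
  refine (c.abs_lab_sub h ht).trans ?_
  have : t / (1 + P.kap * t) ≤ 1 := by
    rw [div_le_one (by positivity)]
    nlinarith
  nlinarith

lemma rr_pos' (c : Close P j t X v a z) : 0 < rr a := rr_pos c.al.1

lemma abs_X2 (h : P.Ok) (ht : 0 ≤ t) (c : Close P j t X v a z) :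
    |X.2| ≤ (P.Y + etaj P.p j) * (t + rr a) := by
  have hr := c.rr_pos'
  have hη := etaj_pos P.p j
  have hY := h.Y0
  have h1 : |z / rr a| < P.Y := by
    rw [abs_div, abs_of_pos hr, div_lt_iff₀ hr]; exact c.zl
  have h2 : |v 1| ≤ P.Y + etaj P.p j := by
    have := abs_sub_abs_le_abs_sub (v 1) (z / rr a)
    have := c.e1
    linarith
  rw [c.X2]
  refine (abs_add_le _ _).trans ?_
  rw [abs_mul, abs_of_nonneg ht]
  have := c.zl
  nlinarith

/-- distance of the velocity to the velocity field -/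
lemma norm_sub_uvec (h : P.Ok) (hj : P.j0 ≤ j) (ht : 0 ≤ t) (c : Close P j t X v a z) :
    ‖v - uvec P (wj j) t X‖ ≤ 2 * etaj P.p j := by
  have hr := c.rr_pos'
  have hη := etaj_pos P.p j
  have hη1 := etaj_le_one P.p j
  have hY := h.Y0
  have hk := Ok.kap0 h
  have hd := Ok.dlp h
  have hd20 := Ok.dl20 h
  have hYs := h.Ysm
  have hal := lane_lt_dl (Ok.j1 h) hj c.al
  set A := lab P t X with hA
  have hAa := c.abs_lab_sub_t h ht
  have hAe := c.abs_lab_sub_eta h ht
  have hηs : etaj P.p j ≤ P.dl := by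
    have h1 := etaj_small h.p3 (h.j0.trans hj)
    have h2 : (1 : ℝ) / (2 * j + 1) ≤ P.dl ^ 2 := by
      rw [dl_sq]
      have : (P.j0 : ℝ) ≤ j := by exact_mod_cast hj
      have h3 : (0 : ℝ) < P.j0 := by have := h.j0; positivity
      gcongr
      linarith
    have h4 : etaj P.p j ≤ 1 / (2 * (j : ℝ) + 1) := by
      unfold etaj
      calc (1 / (2 * (j : ℝ) + 1)) ^ P.p ≤ (1 / (2 * (j : ℝ) + 1)) ^ 1 :=
            pow_le_pow_of_le_one (by positivity) (inv_le_one' j) (by have := h.p3; omega)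
        _ = _ := pow_one _
    nlinarith
  -- coordinate 0
  have c0 : |v 0 - P.kap * A| ≤ etaj P.p j := by
    have h1 : v 0 - P.kap * A = (v 0 - P.kap * a) / (1 + P.kap * t) := by
      have := c.lab_sub h ht
      have h2 : A = a + t * (v 0 - P.kap * a) / (1 + P.kap * t) := by linarith
      rw [h2]; field_simp; ring
    rw [h1, abs_div, abs_of_pos (by positivity : 0 < 1 + P.kap * t), div_le_iff₀ (by positivity)]
    have := c.e0
    nlinarith [mul_nonneg hk ht]
  -- coordinate 1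
  have hpos : 0 < t + rr a := by positivity
  have hrA : 0 ≤ rr A := rr_nonneg A
  have c1a : |v 1 - X.2 / (t + rr a)| ≤ etaj P.p j := by
    have h1 : v 1 - X.2 / (t + rr a) = rr a * (v 1 - z / rr a) / (t + rr a) := by
      rw [c.X2]; field_simp; ring
    rw [h1, abs_div, abs_mul, abs_of_pos hpos, abs_of_pos hr, div_le_iff₀ hpos]
    have := c.e1
    nlinarith
  have c1b : |X.2 / (t + rr a) - X.2 / (t + rr A)| ≤ 3 / 10 * etaj P.p j := by
    rcases eq_or_lt_of_le ht with h0 | h0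
    · have : A = a := by
        have := c.lab_sub h ht
        rw [← h0] at this
        have h2 : lab P 0 X - a = 0 := by rw [this]; ring
        rw [hA, ← h0]; linarith
      rw [this, sub_self, abs_zero]; positivity
    have hposA : 0 < t + rr A := by positivity
    have h1 : X.2 / (t + rr a) - X.2 / (t + rr A)
        = (X.2 / (t + rr a)) * ((A - a) * (A + a)) / (t + rr A) := by
      unfold rr at *
      field_simp; ring
    have h2 : |X.2 / (t + rr a)| ≤ P.Y + 1 := by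
      rw [abs_div, abs_of_pos hpos, div_le_iff₀ hpos]
      refine (c.abs_X2 h ht).trans ?_
      gcongr
    have h3 : |A + a| ≤ 3 * P.dl := by
      have h4 : |A + a| ≤ |A - a| + 2 * |a| := by
        have h5 : A + a = (A - a) + 2 * a := by ring
        rw [h5]
        refine (abs_add_le _ _).trans ?_
        rw [abs_mul]; norm_num
      linarith
    rw [h1, abs_div, abs_of_pos hposA, abs_mul, abs_mul, div_le_iff₀ hposA]
    calc |X.2 / (t + rr a)| * (|A - a| * |A + a|)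
        ≤ (P.Y + 1) * ((etaj P.p j * t) * (3 * P.dl)) := by gcongr
      _ = (3 * (P.Y * P.dl) + 3 * P.dl) * (etaj P.p j * t) := by ring
      _ ≤ (3 / 10) * (etaj P.p j * t) := by gcongr; linarith
      _ ≤ 3 / 10 * etaj P.p j * (t + rr A) := by nlinarith
  have c1 : |v 1 - X.2 / (t + rr A)| ≤ 13 / 10 * etaj P.p j := by
    have := abs_sub_le (v 1) (X.2 / (t + rr a)) (X.2 / (t + rr A))
    linarith
  have c2 := c.e2
  have h0 : (v - uvec P (wj j) t X) 0 = v 0 - P.kap * A := by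
    rw [PiLp.sub_apply, uvec0 h ht]
  have h1 : (v - uvec P (wj j) t X) 1 = v 1 - X.2 / (t + rr A) := by
    rw [PiLp.sub_apply, uvec1]
  have h2 : (v - uvec P (wj j) t X) 2 = v 2 - wj j := by
    rw [PiLp.sub_apply, uvec2]
  have hsq : ‖v - uvec P (wj j) t X‖ ^ 2 ≤ (2 * etaj P.p j) ^ 2 := by
    rw [norm_sq_eq, h0, h1, h2]
    have k0 := sq_le_sq' (by linarith [abs_le.1 c0]) (abs_le.1 c0).2
    have k1 := sq_le_sq' (abs_le.1 c1).1 (abs_le.1 c1).2
    have k2 := sq_le_sq' (abs_le.1 c2.le).1 (abs_le.1 c2.le).2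
    nlinarith
  exact le_of_sq_le_sq hsq (by positivity)

end Close

end Crest.Agent.R68.ColdW
end
end

-- ▼ part R68/WC1
section

/-!
# Row 68, part W, block (D): geometry of the sheets for `t ≥ T1` (helper827)

`zone P t` = set of positions (in one image) which can carry cold matter at time `t`.
Two different images can be in the zone simultaneously only if one of the labels is not small
(golden direction).
-/

set_option autoImplicit false
open MeasureTheory Set
open scoped ENNReal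
open Crest.AnalysisR.VecCalc3 Crest.AnalysisR.PDE.Boltzmann

noncomputable section

namespace Crest.Agent.R68.W

open Crest.Agent.R68 Crest.Agent.R68.Pole

variable {P : Par}

/-- enlarged fuel zone at time `t` (one image) -/
def zone (P : Par) (t : ℝ) : Set P2 :=
  {X | |lab P t X| ≤ P.dl ∧ |X.2| ≤ 2 * P.Y * (t + rr (lab P t X))}

lemma norm_le_of_mem_zone (h : Ok P) {t : ℝ} (ht : 0 ≤ t) {X : P2} (hX : X ∈ zone P t) :
    ‖X‖ ≤ (2 * P.Y + 1) * (t + P.dl) := by
  obtain ⟨h1, h2⟩ := hX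
  have hdl := h.dl_pos
  have hdl8 := h.dl_le
  have hc0 := h.c0
  have hc1 := h.c1
  have hY := h.Y0
  have hden : 0 < P.dl + P.c * t := by positivity
  have hra := rr_le_dl h h1
  rw [Prod.norm_def, max_le_iff, Real.norm_eq_abs, Real.norm_eq_abs]
  constructor
  · have h3 : X.1 = lab P t X * (P.dl + P.c * t) / P.dl := by
      rw [lab]; field_simp
    have h4 : |X.1| ≤ P.dl + P.c * t := by
      rw [h3, abs_div, abs_mul, abs_of_pos hden, abs_of_pos hdl, div_le_iff₀ hdl]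
      nlinarith
    nlinarith [mul_nonneg hY.le ht, mul_pos hY hdl]
  · refine h2.trans ?_
    nlinarith [mul_pos hY hdl, rr_nonneg (lab P t X)]

/-- images for which `x` is in the zone -/
def seen (P : Par) (t : ℝ) (x : P2) : Finset (ℤ × ℤ) :=
  (finite_latt_near x ((2 * P.Y + 1) * (t + P.dl))).toFinset

lemma mem_seen {t : ℝ} {x : P2} {k : ℤ × ℤ} :
    k ∈ seen P t x ↔ ‖x + latt k‖ ≤ (2 * P.Y + 1) * (t + P.dl) := by
  simp [seen]

lemma mem_seen_of_zone (h : Ok P) {t : ℝ} (ht : 0 ≤ t) {x : P2} {k : ℤ × ℤ}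
    (hk : x + latt k ∈ zone P t) : k ∈ seen P t x :=
  mem_seen.2 (norm_le_of_mem_zone h ht hk)

lemma card_seen_le (h : Ok P) {t : ℝ} (ht : 0 ≤ t) (x : P2) :
    ((seen P t x).card : ℝ) ≤ (3 * ((2 * P.Y + 1) * (t + P.dl)) + 1) ^ 2 := by
  have hdl := h.dl_pos
  have hY := h.Y0
  have h1 := ncard_latt_near x (L := (2 * P.Y + 1) * (t + P.dl)) (by positivity)
  rwa [Set.ncard_eq_toFinset_card _ (finite_latt_near x ((2 * P.Y + 1) * (t + P.dl)))] at h1

/-- the separation of labels of two crossing sheets -/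
def sep (P : Par) (t : ℝ) : ℝ := P.dl / (16 * (2 * P.Y + 1) * (1 + t) * (P.dl + P.c * t))

lemma sep_pos (h : Ok P) {t : ℝ} (ht : 0 ≤ t) : 0 < sep P t := by
  have hdl := h.dl_pos
  have hY := h.Y0
  have hc0 := h.c0
  unfold sep; positivity

/-- **Golden separation**: of two different images in the zone, one has label `≥ sep`. -/
theorem sep_le_max (h : Ok P) {t : ℝ} (ht : 0 ≤ t) {x : P2} {k l : ℤ × ℤ} (hkl : k ≠ l)
    (hk : x + latt k ∈ zone P t) (hl : x + latt l ∈ zone P t) :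
    sep P t ≤ max |lab P t (x + latt k)| |lab P t (x + latt l)| := by
  have hdl := h.dl_pos
  have hdl8 := h.dl_le
  have hY := h.Y0
  have hc0 := h.c0
  have hc1 := h.c1
  have hden : 0 < P.dl + P.c * t := by positivity
  have hne : k - l ≠ 0 := sub_ne_zero.2 hkl
  have h1 : ‖latt (k - l)‖ ≤ 2 * ((2 * P.Y + 1) * (t + P.dl)) := by
    rw [latt_sub]
    have h2 := norm_sub_le (x + latt k) (x + latt l)
    rw [show x + latt k - (x + latt l) = latt k - latt l by abel] at h2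
    have h3 := norm_le_of_mem_zone h ht hk
    have h4 := norm_le_of_mem_zone h ht hl
    linarith
  have h1' : ‖latt (k - l)‖ ≤ 2 * (2 * P.Y + 1) * (1 + t) := by nlinarith
  have h2 := latt_fst_lower hne
  have h3 : 1 ≤ 4 * |(latt (k - l)).1| * (2 * (2 * P.Y + 1) * (1 + t)) := by
    refine h2.trans ?_
    gcongr
  have h4 : lab P t (x + latt k) - lab P t (x + latt l)
      = P.dl * (latt (k - l)).1 / (P.dl + P.c * t) := by
    rw [latt_sub]; simp only [lab, Prod.fst_add, Prod.fst_sub]; field_simp; ring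
  have h5 : P.dl / (8 * (2 * P.Y + 1) * (1 + t) * (P.dl + P.c * t)) ≤
      |lab P t (x + latt k) - lab P t (x + latt l)| := by
    rw [h4, abs_div, abs_of_pos hden, abs_mul, abs_of_pos hdl, div_le_div_iff₀ (by positivity) hden]
    have h6 : 0 ≤ P.dl * (P.dl + P.c * t) := by positivity
    nlinarith [mul_le_mul_of_nonneg_left h3 h6]
  have h6 : |lab P t (x + latt k) - lab P t (x + latt l)| ≤
      |lab P t (x + latt k)| + |lab P t (x + latt l)| := abs_sub _ _
  have h7 : P.dl / (8 * (2 * P.Y + 1) * (1 + t) * (P.dl + P.c * t)) = 2 * sep P t := by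
    unfold sep; field_simp; norm_num
  have h8 := le_max_left |lab P t (x + latt k)| |lab P t (x + latt l)|
  have h9 := le_max_right |lab P t (x + latt k)| |lab P t (x + latt l)|
  linarith



end Crest.Agent.R68.W
end
end

-- ▼ part R68/ColdW2

/-!
# Row 68, part C for all times (helper827): scales, `phij ≤ gaussj`, tight zone ⊆ enlarged lane
-/

set_option autoImplicit false
open MeasureTheory Set
open scoped ENNReal
open Crest.AnalysisR.VecCalc3 Crest.AnalysisR.PDE.Boltzmann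

noncomputable section

namespace Crest.Agent.R68.ColdW

open Crest.Agent.R68

variable {P : Par}

/-! ### scales -/

lemma bj_pos (j : ℕ) : 0 < bj j := by unfold bj; positivity

lemma bj_le_one (j : ℕ) : bj j ≤ 1 := Fuel.inv_le_one' j

lemma bj_le_dl_sq (h : P.Ok) {j : ℕ} (hj : P.j0 ≤ j) : bj j ≤ P.dl ^ 2 := by
  rw [Fuel.dl_sq]
  unfold bj
  have : (P.j0 : ℝ) ≤ j := by exact_mod_cast hj
  have h3 : (0 : ℝ) < P.j0 := by
    have : (200 : ℝ) ≤ P.j0 := by exact_mod_cast h.j0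
    linarith
  gcongr
  linarith

lemma bj_le (h : P.Ok) {j : ℕ} (hj : P.j0 ≤ j) : bj j ≤ 1 / 401 := by
  unfold bj
  have : (200 : ℝ) ≤ P.j0 := by exact_mod_cast h.j0
  have : (P.j0 : ℝ) ≤ j := by exact_mod_cast hj
  gcongr
  linarith

lemma etaj_eq (p j : ℕ) : etaj p j = bj j ^ p := rfl

lemma tauj_eq (p j : ℕ) : tauj p j = (bj j)⁻¹ ^ (p / 16) := by
  unfold tauj bj; rw [one_div, inv_inv]

lemma one_le_tauj (p j : ℕ) : 1 ≤ tauj p j := by
  rw [tauj_eq]
  exact one_le_pow₀ (one_le_inv_iff₀.2 ⟨bj_pos j, bj_le_one j⟩)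

lemma rhoj_pos (p j : ℕ) : 0 < rhoj p j := pow_pos (bj_pos j) _

lemma tauj_pos (p j : ℕ) : 0 < tauj p j := zero_lt_one.trans_le (one_le_tauj p j)

/-- `ρ_j τ_j / b^m ≤ b^100` for `m ≤ 50` -/
lemma rho_tau_le {p : ℕ} (hp : 512 ≤ p) (j : ℕ) {m : ℕ} (hm : m ≤ 50) :
    rhoj p j * tauj p j / bj j ^ m ≤ bj j ^ 100 := by
  have hb := bj_pos j
  have hb1 := bj_le_one j
  rw [tauj_eq, rhoj, div_le_iff₀ (by positivity), inv_pow, ← pow_add]
  rw [← div_eq_mul_inv, div_le_iff₀ (by positivity), ← pow_add]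
  exact pow_le_pow_of_le_one hb.le hb1 (by omega)

lemma rhoj_le {p : ℕ} (hp : 512 ≤ p) (j : ℕ) : rhoj p j ≤ bj j ^ 200 :=
  pow_le_pow_of_le_one (bj_pos j).le (bj_le_one j) (by omega)

lemma kapj_pos (p j : ℕ) : 0 < kapj p j := by
  have h1 := rhoj_pos p j
  have h2 := tauj_pos p j
  have h3 := bj_pos j
  unfold kapj; positivity

lemma kapj_le {p : ℕ} (hp : 512 ≤ p) (j : ℕ) : kapj p j ≤ bj j ^ 100 := by
  have hb := bj_pos j
  have hb1 := bj_le_one j
  rw [kapj, tauj_eq, rhoj, div_le_iff₀ (by positivity), inv_pow, ← pow_add]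
  rw [← div_eq_mul_inv, div_le_iff₀ (by positivity), ← pow_add]
  exact pow_le_pow_of_le_one hb.le hb1 (by omega)

lemma etaj_eq_rho {p : ℕ} (j : ℕ) : etaj p j ≤ rhoj p j ^ 2 := by
  rw [etaj_eq, rhoj, ← pow_mul]
  exact pow_le_pow_of_le_one (bj_pos j).le (bj_le_one j) (by omega)

lemma etaj_lt_rho (h : P.Ok) (hp : 512 ≤ P.p) {j : ℕ} (hj : P.j0 ≤ j) :
    etaj P.p j ≤ rhoj P.p j / 401 := by
  refine (etaj_eq_rho j).trans ?_
  have h1 := rhoj_le hp j
  have hb := bj_pos j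
  have h2 : bj j ^ 200 ≤ 1 / 401 := by
    calc bj j ^ 200 ≤ bj j ^ 1 := pow_le_pow_of_le_one hb.le (bj_le_one j) (by norm_num)
      _ ≤ _ := by rw [pow_one]; exact bj_le h hj
  have h3 := rhoj_pos P.p j
  nlinarith

/-! ### the sheets -/

open Fuel in
lemma phij_eq (h : P.Ok) (j : ℕ) (t : ℝ) (x : P2) (v : R3) :
    R68.phij P j t x v = ENNReal.ofReal (phs P j t x v) := by
  rw [phs_transport]
  unfold R68.phij
  congr 1
  unfold phs
  by_cases h1 : P.j0 ≤ j
  · rw [if_pos h1, if_pos h1]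
    set y := x - t • bar v with hy
    unfold phi0j
    have h2 : (y.1 ∈ lane j ∧ |y.2| < P.Y * rr y.1 ∧
        ∀ i : Fin 3, |v i - uvec P (wj j) 0 y i| < etaj P.p j) ↔ v ∈ lset P j 0 y := by
      have e0 : uvec P (wj j) 0 y 0 = P.kap * y.1 := by
        show P.c * y.1 / (P.dl + P.c * 0) = P.kap * y.1
        unfold Par.kap
        rw [mul_zero, add_zero]; ring
      have e1 : uvec P (wj j) 0 y 1 = y.2 / rr y.1 := by
        show y.2 / (0 + rr (P.dl * y.1 / (P.dl + P.c * 0))) = y.2 / rr y.1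
        rw [mul_zero, add_zero, zero_add]
        rw [mul_div_cancel_left₀ _ (Ok.dlp h).ne']
      have e2 : uvec P (wj j) 0 y 2 = wj j := rfl
      rw [mem_lset, Fin.forall_fin_succ, Fin.forall_fin_succ, Fin.forall_fin_succ]
      simp only [zero_mul, sub_zero, Fin.succ_zero_eq_one, Fin.succ_one_eq_two,
        IsEmpty.forall_iff, and_true, e0, e1, e2]
      tauto
    by_cases h3 : v ∈ lset P j 0 y
    · rw [if_pos (h2.2 h3), phij_of_mem h3]
      simp
    · rw [if_neg (fun h => h3 (h2.1 h)), phij_of_notMem h3]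
  · rw [if_neg h1, if_neg h1]

/-- the velocity support of a sheet -/
lemma mem_of_phij_ne (h : P.Ok) {j : ℕ} {t : ℝ} {x : P2} {v : R3}
    (h0 : R68.phij P j t x v ≠ 0) : P.j0 ≤ j ∧ v ∈ Fuel.lset P j t x := by
  rw [phij_eq h] at h0
  apply Fuel.mem_of_phs_ne
  intro h1
  rw [h1] at h0
  simp at h0

lemma lane_inv_rr {j : ℕ} {a : ℝ} (ha : a ∈ lane j) : 1 / rr a ≤ 1 / bj j + 1 := by
  have h1 := ha.2.2
  unfold rr bj
  rw [one_div_one_div]
  linarith

/-- **(P0)** -/
theorem phij_le_gaussj (h : P.Ok) (j : ℕ) {t : ℝ} (ht : 0 ≤ t) (x : P2) (v : R3) :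
    R68.phij P j t x v ≤ gaussj P j t x v := by
  by_cases h0 : R68.phij P j t x v = 0
  · rw [h0]; exact bot_le
  obtain ⟨hj, hv⟩ := mem_of_phij_ne h h0
  rw [phij_eq h, Fuel.phs_of_le hj, Fuel.phij_of_mem hv]
  have hc := close_of_mem hv
  have hu := hc.norm_sub_uvec h hj ht
  set a := x.1 - t * v 0
  have hr := hc.rr_pos'
  have hη := Fuel.etaj_pos P.p j
  have hb := bj_pos j
  have hK := h.K0
  unfold gaussj
  apply ENNReal.ofReal_le_ofReal
  have h1 := lane_inv_rr hc.al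
  have h2 : 1 / rr a ≤ 2 / bj j := by
    refine h1.trans ?_
    have : 1 ≤ 1 / bj j := by
      rw [le_div_iff₀ hb, one_mul]; exact bj_le_one j
    have e : 2 / bj j = 1 / bj j + 1 / bj j := by ring
    linarith
  have h3 : Real.exp (-1) ≤ Real.exp (-‖v - uvec P (wj j) t x‖ ^ 2 / (4 * etaj P.p j ^ 2)) := by
    apply Real.exp_le_exp.2
    rw [neg_div, neg_le_neg_iff, div_le_one (by positivity)]
    calc ‖v - uvec P (wj j) t x‖ ^ 2 ≤ (2 * etaj P.p j) ^ 2 := by
          have := norm_nonneg (v - uvec P (wj j) t x)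
          gcongr
      _ = _ := by ring
  have h4 : (1 : ℝ) / 4 ≤ Real.exp (-1) := by
    have := Real.exp_one_lt_d9
    rw [Real.exp_neg, one_div]
    apply inv_anti₀ (Real.exp_pos _)
    linarith
  have h5 : 0 ≤ chij j a * ky P ((x.2 - t * v 1) / rr a) :=
    mul_nonneg (Fuel.chij_nonneg _ _) (Fuel.ky_nonneg _ _)
  have h6 : chij j a * ky P ((x.2 - t * v 1) / rr a) ≤ 1 :=
    mul_le_one₀ (Fuel.chij_le_one _ _) (Fuel.ky_nonneg _ _) (Fuel.ky_le_one _ _)
  calc P.K * chij j a * ky P ((x.2 - t * v 1) / rr a) / (8 * rr a * etaj P.p j ^ 3)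
      = P.K / (8 * etaj P.p j ^ 3) * (chij j a * ky P ((x.2 - t * v 1) / rr a)) * (1 / rr a) := by
        field_simp
    _ ≤ P.K / (8 * etaj P.p j ^ 3) * 1 * (2 / bj j) := by gcongr
    _ = P.K / (bj j * etaj P.p j ^ 3) * (1 / 4) := by field_simp; ring
    _ ≤ _ := by gcongr; exact h4.trans h3

/-- **(P1)** -/
theorem Ztj_of_phij (h : P.Ok) (hp : 512 ≤ P.p) {j : ℕ} {t : ℝ} (ht : 0 ≤ t) {x : P2} {v : R3}
    (h0 : R68.phij P j t x v ≠ 0) : Ztj P j t x v := by
  obtain ⟨hj, hv⟩ := mem_of_phij_ne h h0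
  have hc := close_of_mem hv
  set a := x.1 - t * v 0 with ha
  have hη := Fuel.etaj_pos P.p j
  have hη1 := Fuel.etaj_le_one P.p j
  have hb := bj_pos j
  have hb1 := bj_le_one j
  have hρ := rhoj_pos P.p j
  have hτ := one_le_tauj P.p j
  have hηρ := etaj_lt_rho h hp hj
  have hY := h.Y0
  have hd := Fuel.Ok.dlp h
  have hd20 := Fuel.Ok.dl20 h
  have hbd := bj_le_dl_sq h hj
  have hYs := h.Ysm
  refine ⟨hj, ⟨a, hc.al, ?_⟩, ?_, ?_⟩
  · refine (hc.abs_lab_sub_eta h ht).trans ?_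
    rw [le_div_iff₀ hb]
    nlinarith [mul_le_mul hηρ hb1 hb.le (by positivity)]
  · have h1 := hc.abs_X2 h ht
    have h2 := hc.abs_lab_sub_t h ht
    have h3 := hc.abs_lab_sub_eta h ht
    have hal := Fuel.lane_lt_dl (Fuel.Ok.j1 h) hj hc.al
    set A := lab P t x
    have h4 : rr a ≤ rr A + etaj P.p j * t := by
      unfold rr
      have e : a ^ 2 - A ^ 2 = -((A - a) * (A + a)) := by ring
      have h5 : |A + a| ≤ 1 := by
        have h6 : A + a = (A - a) + 2 * a := by ring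
        rw [h6]
        refine (abs_add_le _ _).trans ?_
        rw [abs_mul, abs_two]
        have : etaj P.p j ≤ 1 / 401 := by
          have h7 : rhoj P.p j ≤ 1 := pow_le_one₀ hb.le hb1
          linarith
        linarith
      have h6 : a ^ 2 - A ^ 2 ≤ |A - a| * |A + a| := by
        rw [e, ← abs_mul]
        exact neg_le_abs _
      have h7 : |A - a| * |A + a| ≤ etaj P.p j * t * 1 := by gcongr
      linarith
    have hrA : 0 ≤ rr A := Fuel.rr_nonneg A
    have h5 : t + rr a ≤ (1 + etaj P.p j) * (t + rr A) := by nlinarith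
    have h6 : (P.Y + etaj P.p j) * (1 + etaj P.p j) ≤ P.Y + rhoj P.p j * tauj P.p j / bj j ^ 2 := by
      have h7 : etaj P.p j * (P.Y + 2) ≤ rhoj P.p j * tauj P.p j / bj j ^ 2 := by
        have h8 : (P.Y + 2) * bj j ≤ 1 := by nlinarith
        have h9 : etaj P.p j ≤ rhoj P.p j := by linarith
        rw [le_div_iff₀ (by positivity)]
        calc etaj P.p j * (P.Y + 2) * bj j ^ 2 = etaj P.p j * ((P.Y + 2) * bj j) * bj j := by ring
          _ ≤ rhoj P.p j * 1 * 1 := by gcongr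
          _ ≤ rhoj P.p j * tauj P.p j := by nlinarith
      nlinarith
    calc |x.2| ≤ (P.Y + etaj P.p j) * (t + rr a) := h1
      _ ≤ (P.Y + etaj P.p j) * ((1 + etaj P.p j) * (t + rr A)) := by gcongr
      _ = ((P.Y + etaj P.p j) * (1 + etaj P.p j)) * (t + rr A) := by ring
      _ ≤ _ := by gcongr
  · have := hc.norm_sub_uvec h hj ht
    linarith

/-- tight zone of positions -/
def zt (P : Par) (j : ℕ) (t : ℝ) (x : P2) : Prop :=
  P.j0 ≤ j ∧ (∃ a ∈ lane j, |lab P t x - a| ≤ rhoj P.p j * tauj P.p j / bj j) ∧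
    |x.2| ≤ (P.Y + rhoj P.p j * tauj P.p j / bj j ^ 2) * (t + rr (lab P t x))

lemma Ztj_iff {j : ℕ} {t : ℝ} {x : P2} {v : R3} :
    Ztj P j t x v ↔ zt P j t x ∧ ‖v - uvec P (wj j) t x‖ < 2 * rhoj P.p j := by
  unfold Ztj zt
  tauto

/-- the tight zone lies in the enlarged lane -/
theorem zt_lane (h : P.Ok) (hp : 512 ≤ P.p) {j : ℕ} {t : ℝ} {x : P2} (hz : zt P j t x) :
    P.j0 ≤ j ∧ lab P t x ∈ laneE j := by
  obtain ⟨hj, ⟨a, ha, h1⟩, -⟩ := hz
  refine ⟨hj, ?_⟩
  have hb := bj_pos j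
  have hb1 := bj_le_one j
  have hb4 := bj_le h hj
  have h2 := rho_tau_le hp j (m := 1) (by norm_num)
  rw [pow_one] at h2
  have h3 := h1.trans h2
  set A := lab P t x
  have hr : 0 < a ^ 2 := by have := ha.1; positivity
  have hlow : bj j / 2 ≤ a ^ 2 := by
    have h4 := lane_inv_rr ha
    unfold rr at h4
    have h5 : 1 / a ^ 2 ≤ 2 / bj j := by
      refine h4.trans ?_
      have : 1 ≤ 1 / bj j := by
        rw [le_div_iff₀ hb, one_mul]; exact hb1
      have e : 2 / bj j = 1 / bj j + 1 / bj j := by ring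
      linarith
    rw [div_le_div_iff₀ hr hb] at h5
    linarith
  have habs : |a| ≤ 1 := by
    have := Fuel.lane_lt_dl (Fuel.Ok.j1 h) hj ha
    have := Fuel.Ok.dl20 h
    linarith
  have hb100 : bj j ^ 100 ≤ bj j ^ 4 / 4000 := by
    have h4 : bj j ^ 100 = bj j ^ 4 * bj j ^ 96 := by rw [← pow_add]
    have h5 : bj j ^ 96 ≤ bj j ^ 2 := pow_le_pow_of_le_one hb.le hb1 (by norm_num)
    have h6 : bj j ^ 2 ≤ 1 / 4000 := by nlinarith
    rw [h4]
    have : 0 < bj j ^ 4 := by positivity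
    nlinarith
  have hdiff : |a ^ 2 - A ^ 2| ≤ 3 * (bj j ^ 4 / 4000) := by
    have e : a ^ 2 - A ^ 2 = -((A - a) * (A + a)) := by ring
    have h5 : |A + a| ≤ 3 := by
      have h6 : A + a = (A - a) + 2 * a := by ring
      rw [h6]
      refine (abs_add_le _ _).trans ?_
      rw [abs_mul, abs_two]
      have : bj j ^ 100 ≤ 1 := pow_le_one₀ hb.le hb1
      linarith
    rw [e, abs_neg, abs_mul]
    have h6 : |A - a| ≤ bj j ^ 4 / 4000 := h3.trans hb100
    calc |A - a| * |A + a| ≤ bj j ^ 4 / 4000 * 3 := by gcongr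
      _ = _ := by ring
  have hb2 : bj j ^ 4 ≤ bj j ^ 2 := pow_le_pow_of_le_one hb.le hb1 (by norm_num)
  have hb3 : bj j ^ 4 ≤ bj j := by
    calc bj j ^ 4 ≤ bj j ^ 1 := pow_le_pow_of_le_one hb.le hb1 (by norm_num)
      _ = _ := pow_one _
  have hA2 : bj j / 4 ≤ A ^ 2 := by
    have := (abs_le.1 hdiff).2
    linarith
  have hA0 : 0 < A ^ 2 := by linarith
  have hinv : |1 / A ^ 2 - 1 / a ^ 2| ≤ 1 / 200 - 1 / 1000 := by
    have e : 1 / A ^ 2 - 1 / a ^ 2 = (a ^ 2 - A ^ 2) / (A ^ 2 * a ^ 2) := by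
      rw [div_sub_div _ _ hA0.ne' hr.ne']; ring
    rw [e, abs_div, abs_of_pos (by positivity : 0 < A ^ 2 * a ^ 2), div_le_iff₀ (by positivity)]
    have h7 : bj j ^ 2 / 8 ≤ A ^ 2 * a ^ 2 := by nlinarith
    nlinarith
  obtain ⟨ha0, ha1, ha2⟩ := ha
  have h8 := abs_le.1 hinv
  refine ⟨?_, ?_, ?_⟩
  · intro h9; rw [h9] at hA0; norm_num at hA0
  · linarith
  · linarith

/-- the tight zone lies in my `zone` -/
theorem zt_zone (h : P.Ok) (hp : 512 ≤ P.p) (hY : 1 ≤ P.Y) {j : ℕ} {t : ℝ} (ht : 0 ≤ t) {x : P2}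
    (hz : zt P j t x) :
    |lab P t x| < P.dl ∧ |x.2| < 2 * P.Y * (t + rr (lab P t x)) ∧ x ∈ W.zone P t := by
  obtain ⟨hj, hl⟩ := zt_lane h hp hz
  have h1 := Fuel.laneE_lt_dl (Fuel.Ok.j1 h) hj hl
  have h2 := hz.2.2
  have h3 := rho_tau_le hp j (m := 2) (by norm_num)
  have hb := bj_pos j
  have hb4 := bj_le h hj
  have h4 : bj j ^ 100 ≤ 1 / 401 := by
    calc bj j ^ 100 ≤ bj j ^ 1 := pow_le_pow_of_le_one hb.le (bj_le_one j) (by norm_num)
      _ ≤ _ := by rw [pow_one]; exact hb4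
  have h5 : 0 < rr (lab P t x) := Fuel.rr_pos hl.1
  have h6 : |x.2| < 2 * P.Y * (t + rr (lab P t x)) := by
    refine h2.trans_lt ?_
    apply mul_lt_mul_of_pos_right _ (by positivity)
    linarith
  exact ⟨h1, h6, h1.le, h6.le⟩

end Crest.Agent.R68.ColdW
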