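import Crest.Agent.R68.CSize3
import Crest.Agent.R68.ColdW2

/-!
# Row 68, PART C (helper779): `warm_size`, `Dw_le_of_Ztj`, `Lc_coldS_le` of ColdIface (C5, P3)
-/

set_option autoImplicit false
open MeasureTheory Set
open scoped ENNReal
open Crest.AnalysisR.VecCalc3 Crest.AnalysisR.PDE.Boltzmann

noncomputable section

namespace Crest.Agent.R68.C

open Crest.Agent.R68.Fuel

variable {P : Par}

theorem CP.j1 (h : ColdPar C0 P) {j : ℕ} (hj : P.j0 ≤ j) : 1 ≤ j := by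
  have h1 := CP.j0_ge h
  have h2 : (P.j0 : ℝ) ≤ j := by exact_mod_cast hj
  have : (1 : ℝ) ≤ j := by linarith
  exact_mod_cast this

/-- the label coordinate on the tight zone: `A² ≥ b/4` -/
theorem lab_sq_ge (h : ColdPar C0 P) {j : ℕ} {t : ℝ} {x : P2} (hz : LZ P j t x) :
    bj j / 4 ≤ lab P t x ^ 2 := by
  have hj := hz.1
  have h1 := laneE_lower (lab_mem_laneE h hz)
  have h2 : (1 : ℝ) ≤ j := by exact_mod_cast CP.j1 h hj
  unfold bj
  rw [div_div, div_le_iff₀ (by positivity)]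
  nlinarith [sq_nonneg (lab P t x)]

/-- `distG x ≥ |lab|` for the visible sheet on `[0,T1]` -/
theorem lab_le_distG (h : ColdPar C0 P) {j : ℕ} {t : ℝ} (ht : 0 ≤ t)
    (htT : t ≤ P.dl ^ (3 / 8 : ℝ)) {x : P2} {k : ℤ × ℤ} (hz : LZ P j t (x + latt k)) :
    |lab P t (x + latt k)| ≤ distG x := by
  have h1 := LZ_norm_lt h ht htT hz
  have h2 : distG x = ‖x + latt k‖ := by
    rw [← distG_add_latt x k, distG_eq_norm h1.le]
  rw [h2]
  have hdl := CP.dl_pos h
  have hc0 : 0 ≤ P.c := hdl.le.trans h.c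
  refine le_trans ?_ (norm_fst_le _)
  rw [Real.norm_eq_abs]
  unfold lab
  have h3 : 0 < P.dl + P.c * t := by positivity
  rw [abs_div, abs_mul, abs_of_pos hdl, abs_of_pos h3, div_le_iff₀ h3]
  have h4 : P.dl ≤ P.dl + P.c * t := by
    have := mul_nonneg hc0 ht
    linarith
  nlinarith [abs_nonneg (x + latt k).1]

/-- powers of `b` against powers of the distance to the lattice -/
theorem bj_pow_le_distG (h : ColdPar C0 P) {j : ℕ} {t : ℝ} (ht : 0 ≤ t)
    (htT : t ≤ P.dl ^ (3 / 8 : ℝ)) {x : P2} {k : ℤ × ℤ} (hz : LZ P j t (x + latt k)) :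
    bj j ^ (3 * P.p / 128 + 1) ≤ distG x ^ ((P.p : ℝ) / 32) := by
  have hb := bj_pos j
  have hb1 := bj_le_one j
  have h1 := lab_sq_ge h hz
  have h2 := lab_le_distG h ht htT hz
  set A := lab P t (x + latt k) with hA
  have hsm := bj_small0 h hz.1
  have h3 : bj j ^ (3 / 4 : ℝ) ≤ |A| := by
    have h4 : bj j ^ (3 / 2 : ℝ) ≤ A ^ 2 := by
      refine le_trans ?_ h1
      have e : bj j ^ (3 / 2 : ℝ) = bj j * bj j ^ (1 / 2 : ℝ) := by
        rw [← Real.rpow_one_add' hb.le (by norm_num)]; norm_num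
      rw [e]
      have h5 : bj j ^ (1 / 2 : ℝ) ≤ 1 / 4 := by
        have h6 : bj j ≤ (1 / 4) ^ (2 : ℝ) := by norm_num; linarith
        calc bj j ^ (1 / 2 : ℝ) ≤ ((1 / 4 : ℝ) ^ (2 : ℝ)) ^ (1 / 2 : ℝ) :=
              Real.rpow_le_rpow hb.le h6 (by norm_num)
          _ = 1 / 4 := by rw [← Real.rpow_mul (by norm_num)]; norm_num
      nlinarith
    have h7 : (bj j ^ (3 / 4 : ℝ)) ^ 2 = bj j ^ (3 / 2 : ℝ) := by
      rw [← Real.rpow_natCast (bj j ^ (3 / 4 : ℝ)) 2, ← Real.rpow_mul hb.le]; norm_num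
    have h8 : (bj j ^ (3 / 4 : ℝ)) ^ 2 ≤ |A| ^ 2 := by rw [h7, sq_abs]; exact h4
    exact le_of_sq_le_sq h8 (abs_nonneg _)
  have hq : (0 : ℝ) ≤ (P.p : ℝ) / 32 := by positivity
  calc bj j ^ (3 * P.p / 128 + 1) = bj j ^ ((3 * P.p / 128 + 1 : ℕ) : ℝ) :=
        (Real.rpow_natCast _ _).symm
    _ ≤ bj j ^ (3 / 4 * ((P.p : ℝ) / 32)) := by
        refine Real.rpow_le_rpow_of_exponent_ge hb hb1 ?_
        have h9 : 3 * P.p < 128 * (3 * P.p / 128 + 1) := by omega
        have h10 : (3 : ℝ) * P.p < 128 * ((3 * P.p / 128 + 1 : ℕ) : ℝ) := by exact_mod_cast h9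
        linarith
    _ = (bj j ^ (3 / 4 : ℝ)) ^ ((P.p : ℝ) / 32) := Real.rpow_mul hb.le _ _
    _ ≤ |A| ^ ((P.p : ℝ) / 32) := Real.rpow_le_rpow (by positivity) h3 hq
    _ ≤ distG x ^ ((P.p : ℝ) / 32) := Real.rpow_le_rpow (abs_nonneg _) h2 hq

/-- mass of the warm majorant on `[0,T1]` -/
theorem warm_mass (h : ColdPar C0 P) {t : ℝ} (ht : 0 ≤ t) (htT : t ≤ P.dl ^ (3 / 8 : ℝ)) (x : P2) :
    ∫⁻ v, warm P t x v ≤ ENNReal.ofReal (distG x ^ ((P.p : ℝ) / 32)) := by
  rcases warm_cases h ht htT x with h0 | ⟨k, j, hz, h0⟩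
  · simp [h0]
  · simp_rw [h0]
    exact (lintegral_warmj h hz.1 t _).trans
      (ENNReal.ofReal_le_ofReal (bj_pow_le_distG h ht htT hz))

/-- Newton potential of the warm majorant on `[0,T1]` -/
theorem newt_warm (h : ColdPar C0 P) {t : ℝ} (ht : 0 ≤ t) (htT : t ≤ P.dl ^ (3 / 8 : ℝ)) (x : P2)
    (v : R3) :
    newt (fun v' => warm P t x v') v ≤
      ENNReal.ofReal (distG x ^ ((P.p : ℝ) / 32)) * Dm P t x v := by
  rcases warm_cases h ht htT x with h0 | ⟨k, j, hz, h0⟩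
  · unfold newt
    simp [h0]
  · simp_rw [h0]
    exact (newt_warmj h ht hz v).trans (mul_le_mul_left
      (ENNReal.ofReal_le_ofReal (bj_pow_le_distG h ht htT hz)) _)

theorem norm_lt_of_warm (h : ColdPar C0 P) {t : ℝ} (ht : 0 ≤ t) {x : P2} {v : R3}
    (hw : warm P t x v ≠ 0) : ‖v‖ < P.Y + 3 := by
  have h1 : ∃ (k : ℤ × ℤ) (j : ℕ), warmj P j t (x + latt k) v ≠ 0 := by
    by_contra h2
    push Not at h2
    exact hw (by unfold warm; simp [h2])
  obtain ⟨k, j, h2⟩ := h1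
  exact norm_lt_of_warmj h ht h2

theorem distG_rpow_le_one (x : P2) {q : ℝ} (hq : 0 ≤ q) : distG x ^ q ≤ 1 :=
  Real.rpow_le_one (distG_nonneg x) (distG_le_one x) hq

/-- the form with division -/
theorem newt_div_ae (f : R3 → ℝ≥0∞) (v : R3) :
    (∫⁻ v', f v' / ENNReal.ofReal ‖v - v'‖) = newt f v := by
  unfold newt
  refine lintegral_congr_ae ?_
  have h1 : ∀ᵐ v' : R3, v' ≠ v := by
    have := measure_singleton (μ := (volume : Measure R3)) v
    exact compl_mem_ae_iff.2 this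
  filter_upwards [h1] with v' hv'
  have h2 : 0 < ‖v - v'‖ := by
    rw [norm_pos_iff, sub_ne_zero]; exact fun h => hv' h.symm
  rw [div_eq_mul_inv, ENNReal.ofReal_inv_of_pos h2]



/-- cold velocities at the same point are close -/
theorem coldS_cases (h : ColdPar C0 P) (hey : 0 < P.ey) {t : ℝ} (ht : 0 ≤ t) {x : P2}
    {v : R3} (hc : coldS P t x v ≠ 0) :
    ∃ (k : ℤ × ℤ) (j : ℕ), Ztj P j t (x + latt k) v := by
  have hok := CP.ok h hey
  have h1 : phiE P t x v ≠ 0 ∨ warm P t x v ≠ 0 := by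
    by_contra h2
    push Not at h2
    exact hc (by unfold coldS; rw [h2.1, h2.2, add_zero])
  rcases h1 with h1 | h1
  · unfold phiE at h1
    have h2 : phi P t x v ≠ 0 := fun h => h1 (by rw [h, ENNReal.ofReal_zero])
    have h3 : ∃ (k : ℤ × ℤ) (j : ℕ), ENNReal.ofReal (phs P j t (x + latt k) v) ≠ 0 := by
      by_contra h4
      push Not at h4
      have h5 := ofReal_phi hok t x v
      simp only [h4, tsum_zero] at h5
      exact h1 h5
    obtain ⟨k, j, h4⟩ := h3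
    refine ⟨k, j, ColdW.Ztj_of_phij hok h.p ht ?_⟩
    rw [ColdW.phij_eq hok]
    exact h4
  · have h2 : ∃ (k : ℤ × ℤ) (j : ℕ), warmj P j t (x + latt k) v ≠ 0 := by
      by_contra h2
      push Not at h2
      exact h1 (by unfold warm; simp [h2])
    obtain ⟨k, j, h3⟩ := h2
    refine ⟨k, j, ?_⟩
    by_contra h4
    exact h3 (by unfold warmj; rw [if_neg h4])

/-- closeness of labels on the fuel -/
theorem rr_lab_sub (h : ColdPar C0 P) (hok : P.Ok) {j : ℕ} (hj : P.j0 ≤ j) {t : ℝ} (ht : 0 ≤ t)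
    {X : P2} {u : R3} (hu : u ∈ lset P j t X) :
    |rr (lab P t X) - rr (X.1 - t * u 0)| ≤ 3 * etaj P.p j := by
  have hA := lab_of_lset hok ht hu
  set A := lab P t X with hAd
  set a := X.1 - t * u 0 with ha
  have e : rr A - rr a = (A - a) * (A + a) := by unfold rr; ring
  rw [e, abs_mul]
  have k1 : |a| ≤ 1 := lane_abs_le_one (CP.j1 h hj) hu.1.1
  have k2 : |A| ≤ 2 := by
    have := abs_sub_abs_le_abs_sub A a
    have := etaj_le_one P.p j
    linarith
  have k3 : |A + a| ≤ 3 := (abs_add_le _ _).trans (by linarith)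
  calc _ ≤ etaj P.p j * 3 := mul_le_mul hA k3 (abs_nonneg _) (etaj_pos _ _).le
    _ = _ := by ring

theorem rr_lab_ge (h : ColdPar C0 P) (hok : P.Ok) {j : ℕ} (hj : P.j0 ≤ j) {t : ℝ} (ht : 0 ≤ t)
    {X : P2} {u : R3} (hu : u ∈ lset P j t X) : bj j / 4 ≤ rr (lab P t X) := by
  have hb := bj_pos j
  have k7 := (lane_sq (CP.j1 h hj) hu.1.1).1
  have h9 := (abs_le.1 (rr_lab_sub h hok hj ht hu)).1
  have k8 : rr (X.1 - t * u 0) = (X.1 - t * u 0) ^ 2 := rfl
  have hp := h.p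
  have k9 : 3 * etaj P.p j ≤ bj j / 4 := by
    rw [etaj_eq]
    have h1 : bj j ^ P.p ≤ bj j ^ (1 + 1) := bj_pow_anti j (by omega)
    have k10 := bj_small0 h hj
    rw [pow_add, pow_one] at h1
    nlinarith
  linarith

theorem etaj_le_slack (h : ColdPar C0 P) {j : ℕ} (hj : P.j0 ≤ j) :
    etaj P.p j ≤ rhoj P.p j * tauj P.p j / bj j ^ 2 / 2 := by
  have hp := h.p
  have hb := bj_pos j
  rw [rhoj_mul_tauj_div j 2 (by omega), etaj_eq]
  have k9 : bj j ^ P.p ≤ bj j ^ ((P.p / 2 - P.p / 16 - 2) + 1) := bj_pow_anti j (by omega)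
  have k10 := bj_small0 h hj
  have k11 : 0 < bj j ^ (P.p / 2 - P.p / 16 - 2) := by positivity
  rw [pow_add, pow_one] at k9
  nlinarith

theorem Y_etaj_le_slack (h : ColdPar C0 P) {j : ℕ} (hj : P.j0 ≤ j) :
    (P.Y + etaj P.p j) * 3 * etaj P.p j ≤
      rhoj P.p j * tauj P.p j / bj j ^ 2 / 2 * (bj j / 4) := by
  have hp := h.p
  have hb := bj_pos j
  have hY := h.Y
  rw [rhoj_mul_tauj_div j 2 (by omega), etaj_eq]
  have k6 : bj j ^ P.p ≤ bj j ^ ((P.p / 2 - P.p / 16 - 2) + 2) := bj_pow_anti j (by omega)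
  have k7 := Y_mul_bj h hj
  have k8 := bj_small0 h hj
  have k9 : bj j ^ P.p ≤ 1 := pow_le_one₀ hb.le (bj_le_one j)
  have k10 : 0 < bj j ^ (P.p / 2 - P.p / 16 - 2) := by positivity
  calc (P.Y + bj j ^ P.p) * 3 * bj j ^ P.p
      ≤ (P.Y + 1) * 3 * bj j ^ ((P.p / 2 - P.p / 16 - 2) + 2) := by gcongr
    _ = (3 * (P.Y * bj j) + 3 * bj j) * (bj j ^ (P.p / 2 - P.p / 16 - 2) * bj j) := by
        rw [pow_add]; ring
    _ ≤ (1 / 8) * (bj j ^ (P.p / 2 - P.p / 16 - 2) * bj j) := by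
        refine mul_le_mul_of_nonneg_right ?_ (by positivity)
        linarith
    _ = _ := by ring

/-- fuel velocities are in the tight zone -/
theorem Ztj_of_lset (h : ColdPar C0 P) (hok : P.Ok) {j : ℕ} (hj : P.j0 ≤ j) {t : ℝ} (ht : 0 ≤ t)
    {X : P2} {u : R3} (hu : u ∈ lset P j t X) : Ztj P j t X u := by
  have hc := ColdW.close_of_mem hu
  have hA := lab_of_lset hok ht hu
  have hp := h.p
  refine ⟨hj, ⟨_, hu.1.1, hA.trans ?_⟩, ?_, ?_⟩
  · have := rhoj_mul_tauj_div (p := P.p) j 1 (by omega)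
    rw [pow_one] at this
    rw [this, etaj_eq]
    exact bj_pow_anti j (by omega)
  · have h8 := hc.abs_X2 hok ht
    refine h8.trans ?_
    have h9 := (abs_le.1 (rr_lab_sub h hok hj ht hu)).1
    have hη := etaj_pos P.p j
    have hY := h.Y
    have k5 := Y_etaj_le_slack h hj
    have k6 := rr_lab_ge h hok hj ht hu
    have k7 : etaj P.p j * (t + rr (lab P t X)) ≤
        rhoj P.p j * tauj P.p j / bj j ^ 2 / 2 * (t + rr (lab P t X)) := by
      have : 0 ≤ rr (lab P t X) := sq_nonneg _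
      exact mul_le_mul_of_nonneg_right (etaj_le_slack h hj) (by positivity)
    have k8 : rhoj P.p j * tauj P.p j / bj j ^ 2 / 2 * (bj j / 4) ≤
        rhoj P.p j * tauj P.p j / bj j ^ 2 / 2 * (t + rr (lab P t X)) := by
      have := slack_pos P.p j 2
      exact mul_le_mul_of_nonneg_left (by linarith) (by positivity)
    have k9 : t + rr (X.1 - t * u 0) ≤ (t + rr (lab P t X)) + 3 * etaj P.p j := by linarith
    calc (P.Y + etaj P.p j) * (t + rr (X.1 - t * u 0))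
        ≤ (P.Y + etaj P.p j) * ((t + rr (lab P t X)) + 3 * etaj P.p j) :=
          mul_le_mul_of_nonneg_left k9 (by linarith)
      _ = P.Y * (t + rr (lab P t X)) + etaj P.p j * (t + rr (lab P t X)) +
          (P.Y + etaj P.p j) * 3 * etaj P.p j := by ring
      _ ≤ P.Y * (t + rr (lab P t X)) +
          rhoj P.p j * tauj P.p j / bj j ^ 2 / 2 * (t + rr (lab P t X)) +
          rhoj P.p j * tauj P.p j / bj j ^ 2 / 2 * (t + rr (lab P t X)) := by
          linarith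
      _ = (P.Y + rhoj P.p j * tauj P.p j / bj j ^ 2) * (t + rr (lab P t X)) := by ring
  · have h8 := hc.norm_sub_uvec hok hj ht
    have h9 : etaj P.p j ≤ rhoj P.p j / 401 := ColdW.etaj_lt_rho hok hp hj
    have := rhoj_pos P.p j
    linarith

theorem measurable_phiE_v (hok : P.Ok) (t : ℝ) (x : P2) : Measurable fun v => phiE P t x v := by
  have h1 := measurable_ofReal_phi hok
  have h2 : Measurable fun v : R3 => ((t, x, v) : ℝ × P2 × R3) :=
    measurable_const.prodMk (measurable_const.prodMk measurable_id)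
  have h3 := h1.comp h2
  exact h3

/-- density of the fuel in the tight zone of lane `j` -/
theorem rho_le_of_LZ (h : ColdPar C0 P) (hok : P.Ok) (hey : 0 < P.ey) {t : ℝ} (ht : 0 ≤ t)
    (htT : t ≤ P.dl ^ (3 / 8 : ℝ)) {x : P2} {k : ℤ × ℤ} {j : ℕ} (hLZ : LZ P j t (x + latt k)) :
    rho P t x ≤ ENNReal.ofReal (4 * P.K / bj j) := by
  have hb := bj_pos j
  have hK := h.K
  refine rho_le_of_zone (CP.vis_subsingleton h hey ht htT x) fun l hl => ?_
  obtain ⟨j', hj', u, hu⟩ := hl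
  have h6 : Ztj P j' t (x + latt l) u := Ztj_of_lset h hok hj' ht hu
  obtain ⟨e1, e2⟩ := LZ_unique h ht htT hLZ (LZ_of_Ztj h6)
  rw [← e1]
  refine (dens_le_div hok ht _).trans ?_
  have h7 := lab_sq_ge h hLZ
  have h8 : bj j / 4 ≤ t + rr (lab P t (x + latt k)) := by unfold rr; linarith
  rw [div_le_div_iff₀ (by linarith) hb]
  nlinarith

/-- mass of the cold majorant in the tight zone of lane `j` -/
theorem coldS_mass (h : ColdPar C0 P) (hok : P.Ok) (hey : 0 < P.ey) {t : ℝ} (ht : 0 ≤ t)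
    (htT : t ≤ P.dl ^ (3 / 8 : ℝ)) {x : P2} {k : ℤ × ℤ} {j : ℕ} (hLZ : LZ P j t (x + latt k)) :
    ∫⁻ v', coldS P t x v' ≤ ENNReal.ofReal (9 * P.K / bj j) := by
  have hb := bj_pos j
  have hK := h.K
  have hb1 := bj_le_one j
  have h3 : ∫⁻ v', coldS P t x v' = (∫⁻ v', phiE P t x v') + ∫⁻ v', warm P t x v' := by
    unfold coldS
    exact lintegral_add_left (measurable_phiE_v hok t x) _
  rw [h3]
  have h4 : ∫⁻ v', phiE P t x v' ≤ ENNReal.ofReal (8 * P.K / bj j) := by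
    refine (density_phi hok ht x).trans ?_
    have h5 := rho_le_of_LZ h hok hey ht htT hLZ
    calc 2 * rho P t x ≤ 2 * ENNReal.ofReal (4 * P.K / bj j) := by gcongr
      _ = _ := by
        rw [show (2 : ℝ≥0∞) = ENNReal.ofReal 2 by norm_num, ← ENNReal.ofReal_mul (by norm_num)]
        congr 1; ring
  have h5 : ∫⁻ v', warm P t x v' ≤ ENNReal.ofReal (P.K / bj j) := by
    refine (warm_mass h ht htT x).trans (ENNReal.ofReal_le_ofReal ?_)
    refine (distG_rpow_le_one x (by positivity)).trans ?_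
    rw [le_div_iff₀ hb]
    linarith
  refine (add_le_add h4 h5).trans ?_
  rw [← ENNReal.ofReal_add (by positivity) (by positivity)]
  refine ENNReal.ofReal_le_ofReal (le_of_eq ?_)
  ring


end Crest.Agent.R68.C
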