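import Crest.Agent.R68.ColdLip
import Mathlib.Analysis.SpecialFunctions.Exp
import Crest.Agent.R68.ColdPic
import Crest.Agent.R68.CSize4
import Crest.Agent.R68.ColdMeas

-- ▼ part R68/ColdLip2
section

/-!
# Row 68, PART C (helper475): comparison of two solutions of the coupled cold system (C4, all times)
-/

set_option autoImplicit false
open MeasureTheory Set Filter
open scoped ENNReal Topology
open Crest.AnalysisR.VecCalc3 Crest.AnalysisR.PDE.Boltzmann

noncomputable section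

namespace Crest.Agent.R68.ColdL

open Crest.Agent.R68.A (Meas3 en)
open Crest.Agent.R68.Cold
open Crest.Agent.R68.ColdW (Big)

variable {P : Par} {j : ℕ}

/-! ### sums over sheets -/

/-- majorant of the cold component (sharper than `coldS` for small times) -/
def Maj (P : Par) (t : ℝ) (x : P2) (v : R3) : ℝ≥0∞ :=
  phiE P t x v + ENNReal.ofReal (min t 1) * warm P t x v

/-- majorant of one sheet -/
def Sm (P : Par) (j : ℕ) (t : ℝ) (x : P2) (v : R3) : ℝ≥0∞ :=
  phij P j t x v + ENNReal.ofReal (min t 1) * warmj P j t x v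

theorem phiE_eq (hok : P.Ok) (t : ℝ) (x : P2) (v : R3) :
    phiE P t x v = ∑' k : ℤ × ℤ, ∑' j : ℕ, phij P j t (x + latt k) v := by
  unfold phiE
  rw [Fuel.ofReal_phi hok]
  refine tsum_congr fun k => tsum_congr fun j => ?_
  rw [ColdW.phij_eq hok]

theorem tsum_Sm (hok : P.Ok) (t : ℝ) (x : P2) (v : R3) :
    ∑' k : ℤ × ℤ, ∑' j : ℕ, Sm P j t (x + latt k) v = Maj P t x v := by
  unfold Maj Sm warm
  rw [phiE_eq hok, ← ENNReal.tsum_mul_left, ← ENNReal.tsum_add]
  refine tsum_congr fun k => ?_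
  rw [← ENNReal.tsum_mul_left, ← ENNReal.tsum_add]

theorem Maj_le_coldS (P : Par) (t : ℝ) (x : P2) (v : R3) : Maj P t x v ≤ coldS P t x v := by
  unfold Maj coldS
  refine add_le_add le_rfl (mul_le_of_le_one_left' ?_)
  rw [← ENNReal.ofReal_one]
  exact ENNReal.ofReal_le_ofReal (min_le_right _ _)

theorem warmj_le_warm (P : Par) (j : ℕ) (k : ℤ × ℤ) (t : ℝ) (x : P2) (v : R3) :
    warmj P j t (x + latt k) v ≤ warm P t x v := by
  unfold warm
  exact (ENNReal.le_tsum j).trans (ENNReal.le_tsum (f := fun k => ∑' j, warmj P j t (x + latt k) v) k)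

theorem latt_zero' : latt 0 = 0 := by
  unfold latt
  simp

theorem coldS_ne_zero (h : ColdPar C0 P) {t : ℝ} {x : P2} {v : R3} (hS : Sup P j t x v) :
    coldS P t x v ≠ 0 := by
  have hz := hS.tight h
  have h1 := warmj_le_warm P j 0 t x v
  rw [latt_zero', add_zero] at h1
  have h2 : warmj P j t x v ≠ 0 := by
    unfold warmj
    rw [if_pos hz]
    have h3 := h.K
    have h4 := bj_pos j
    have h5 := Cold.etaj_pos P.p j
    have h6 := kapj_pos P.p j
    unfold gaussj
    exact mul_ne_zero (ENNReal.ofReal_pos.2 h6).ne' (ENNReal.ofReal_pos.2 (by positivity)).ne'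
  intro h0
  unfold coldS at h0
  rw [add_eq_zero] at h0
  exact h2 (le_antisymm (h1.trans h0.2.le) bot_le)

theorem norm_lt_of_Sup (h : ColdPar C0 P) (hB : Big P) {t : ℝ} (ht : 0 ≤ t) {x : P2} {v : R3}
    (hS : Sup P j t x v) : ‖v‖ < P.Y + 3 := by
  have := ColdW.norm_lt_of_coldS_ne hB ht (coldS_ne_zero h hS)
  linarith

/-- comparison sheet by sheet gives comparison of the sums -/
theorem coldL_le_add (h : ColdPar C0 P) (hok : P.Ok) {Λ Λ' : ℝ → P2 → R3 → ℝ≥0∞} {t : ℝ}
    (ht : 0 ≤ t) {x : P2} {v : R3} {D : ℝ≥0∞}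
    (hD : ∀ k j, coldj P j Λ t (x + latt k) v ≤ coldj P j Λ' t (x + latt k) v +
      D * Wj P j t (x + latt k) v) :
    coldL P Λ t x v ≤ coldL P Λ' t x v + D * Maj P t x v := by
  unfold coldL
  rw [← tsum_Sm hok, ← ENNReal.tsum_mul_left, ← ENNReal.tsum_add]
  refine ENNReal.tsum_le_tsum fun k => ?_
  rw [← ENNReal.tsum_mul_left, ← ENNReal.tsum_add]
  refine ENNReal.tsum_le_tsum fun j => (hD k j).trans ?_
  exact add_le_add le_rfl (mul_le_mul_right (Wj_le h ht _ v) _)

theorem coldL_le_Maj (h : ColdPar C0 P) (hok : P.Ok) (Λ : ℝ → P2 → R3 → ℝ≥0∞) {t : ℝ}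
    (ht : 0 ≤ t) (x : P2) (v : R3) : coldL P Λ t x v ≤ Maj P t x v := by
  rw [← tsum_Sm hok]
  unfold coldL
  exact ENNReal.tsum_le_tsum fun k => ENNReal.tsum_le_tsum fun j => coldj_le h Λ ht _ v

/-- everything is finite -/
theorem warm_ne_top (hB : Big P) {t : ℝ} (ht : 0 ≤ t) (x : P2) (v : R3) : warm P t x v ≠ ⊤ := by
  have h1 : ∀ k j, ¬ ColdW.zt P j t (x + latt k) → warmj P j t (x + latt k) v = 0 :=
    fun k j hz => ColdW.warmj_eq_zero hz v
  -- a uniform bound is not available: use finiteness of the number of sheets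
  have h2 : ∀ k, ∑' j, warmj P j t (x + latt k) v ≠ ⊤ := by
    intro k
    by_cases hk : ∃ j, ColdW.zt P j t (x + latt k)
    · obtain ⟨j, hj⟩ := hk
      rw [tsum_eq_single j]
      · refine ne_top_of_le_ne_top ?_ (ColdW.warmj_le P j t _ v)
        exact ENNReal.mul_ne_top ENNReal.ofReal_ne_top ENNReal.ofReal_ne_top
      · intro i hi
        apply h1
        intro hi'
        exact hi (Fuel.laneE_unique (ColdW.zt_lane hB.ok hB.p hi').2
          (ColdW.zt_lane hB.ok hB.p hj).2)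
    · push Not at hk
      rw [show (∑' j, warmj P j t (x + latt k) v) = ∑' _ : ℕ, (0 : ℝ≥0∞) from
        tsum_congr fun j => h1 k j (hk j), tsum_zero]
      exact ENNReal.zero_ne_top
  unfold warm
  rw [tsum_eq_sum (s := W.seen P t x)]
  · exact (ENNReal.sum_lt_top.2 fun k _ => (h2 k).lt_top).ne
  · intro k hk
    rw [show (∑' j, warmj P j t (x + latt k) v) = ∑' _ : ℕ, (0 : ℝ≥0∞) from ?_, tsum_zero]
    refine tsum_congr fun j => h1 k j fun hz => hk ?_
    exact W.mem_seen_of_zone hB.pole ht (ColdW.zt_zone hB.ok hB.p hB.Y1 ht hz).2.2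

theorem coldS_ne_top (hB : Big P) {t : ℝ} (ht : 0 ≤ t) (x : P2) (v : R3) : coldS P t x v ≠ ⊤ := by
  unfold coldS
  exact ENNReal.add_ne_top.2 ⟨ENNReal.ofReal_ne_top, warm_ne_top hB ht x v⟩

theorem Maj_ne_top (hB : Big P) {t : ℝ} (ht : 0 ≤ t) (x : P2) (v : R3) : Maj P t x v ≠ ⊤ :=
  ne_top_of_le_ne_top (coldS_ne_top hB ht x v) (Maj_le_coldS P t x v)


/-! ### one dimensional integrals -/

theorem lint_cont_eq {f : ℝ → ℝ} (hf : Continuous f) {t : ℝ} (ht : 0 ≤ t)
    (h0 : ∀ s, 0 ≤ s → 0 ≤ f s) :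
    ∫⁻ s in Ioo 0 t, ENNReal.ofReal (f s) = ENNReal.ofReal (∫ s in (0 : ℝ)..t, f s) := by
  rw [intervalIntegral.integral_of_le ht, setLIntegral_congr Ioo_ae_eq_Ioc,
    ← ofReal_integral_eq_lintegral_ofReal]
  · exact (hf.integrableOn_Icc).mono_set Ioc_subset_Icc_self
  · rw [Filter.EventuallyLE, ae_restrict_iff' measurableSet_Ioc]
    exact Eventually.of_forall fun s hs => h0 s hs.1.le

theorem int_exp (B t : ℝ) : ∫ s in (0 : ℝ)..t, B * Real.exp (B * s) = Real.exp (B * t) - 1 := by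
  have h : ∀ s ∈ uIcc 0 t, HasDerivAt (fun s => Real.exp (B * s)) (B * Real.exp (B * s)) s := by
    intro s _
    have h1 : HasDerivAt (fun s : ℝ => B * s) B s := by
      simpa using (hasDerivAt_id s).const_mul B
    have h2 := h1.exp
    rwa [mul_comm] at h2
  rw [intervalIntegral.integral_eq_sub_of_hasDerivAt h]
  · simp
  · exact (by fun_prop : Continuous fun s => B * Real.exp (B * s)).intervalIntegrable _ _

theorem int_pow (B t : ℝ) (n : ℕ) : ∫ s in (0 : ℝ)..t, B * ((B * s) ^ n / n.factorial) =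
    (B * t) ^ (n + 1) / (n + 1).factorial := by
  have h : ∀ s ∈ uIcc 0 t, HasDerivAt (fun s => (B * s) ^ (n + 1) / (n + 1).factorial)
      (B * ((B * s) ^ n / n.factorial)) s := by
    intro s _
    have h1 : HasDerivAt (fun s : ℝ => B * s) B s := by
      simpa using (hasDerivAt_id s).const_mul B
    have h2 := (h1.fun_pow (n + 1)).div_const ((n + 1).factorial : ℝ)
    refine h2.congr_deriv ?_
    rw [Nat.factorial_succ]
    push_cast
    have h3 : (n.factorial : ℝ) ≠ 0 := by positivity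
    have h4 : (n : ℝ) + 1 ≠ 0 := by positivity
    field_simp
  rw [intervalIntegral.integral_eq_sub_of_hasDerivAt h]
  · simp
  · exact (by fun_prop : Continuous fun s => B * ((B * s) ^ n / n.factorial)).intervalIntegrable _ _

/-! ### the coupled system -/

/-- `c` solves the coupled cold system with external rate `lam` on `[0,T]` -/
structure Sol (P : Par) (T : ℝ) (c lam : ℝ → P2 → R3 → ℝ≥0∞) : Prop where
  m : Meas3 c
  ml : Meas3 lam
  eq : ∀ t x v, 0 ≤ t → t ≤ T → c t x v = coldL P (fun t x v => Lc (c t x) v + lam t x v) t x v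

theorem Sol.mrate {T : ℝ} {c lam : ℝ → P2 → R3 → ℝ≥0∞} (S : Sol P T c lam) :
    Meas3 (fun t x v => Lc (c t x) v + lam t x v) := (A.meas3_Lc S.m).add S.ml

theorem Sol.le {T : ℝ} {c lam : ℝ → P2 → R3 → ℝ≥0∞} (S : Sol P T c lam) (h : ColdPar C0 P)
    (hok : P.Ok) {t : ℝ} (ht : 0 ≤ t) (htT : t ≤ T) (x : P2) (v : R3) :
    c t x v ≤ Maj P t x v := by
  rw [S.eq t x v ht htT]
  exact coldL_le_Maj h hok _ ht x v

section cmp

variable {T B : ℝ} {c c' lam lam' g : ℝ → P2 → R3 → ℝ≥0∞} {Δ : ℝ → P2 → ℝ≥0∞}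

/-- one step of the comparison, sheet by sheet -/
theorem step (h : ColdPar C0 P) (hBig : Big P) (S : Sol P T c lam) (S' : Sol P T c' lam')
    (hB0 : 0 < B) (hB : ∀ t x v, 0 < t → t ≤ T → coldS P t x v ≠ 0 →
      Lc (coldS P t x) v ≤ ENNReal.ofReal B)
    (h1 : ∀ s y v, 0 < s → s < T → ‖v‖ < P.Y + 3 → lam' s y v ≤ lam s y v + g s y v)
    (h2 : ∀ t x v, 0 < t → t ≤ T → ‖v‖ < P.Y + 3 →
      ∫⁻ s in Ioo 0 t, g s (x - (t - s) • bar v) v ≤ Δ t x)
    (h3 : ∀ s t x v, 0 < s → s ≤ t → t ≤ T → ‖v‖ < P.Y + 3 →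
      Δ s (x - (t - s) • bar v) ≤ Δ t x)
    {r R : ℝ → ℝ} (hr : Continuous r) (hr0 : ∀ t, 0 ≤ t → 0 ≤ r t)
    (hR : ∀ t, 0 ≤ t → ∫ s in (0 : ℝ)..t, B * r s = R t)
    (hRm : ∀ s t, 0 ≤ s → s ≤ t → R s ≤ R t)
    (hcc : ∀ t x v, 0 < t → t < T → c' t x v ≤ c t x v +
      (ENNReal.ofReal (Real.exp (B * t)) * Δ t x + ENNReal.ofReal (r t)) * Maj P t x v)
    {t : ℝ} (ht : 0 ≤ t) (htT : t ≤ T) (x : P2) (v : R3) :
    coldj P j (fun t x v => Lc (c t x) v + lam t x v) t x v ≤
      coldj P j (fun t x v => Lc (c' t x) v + lam' t x v) t x v +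
        (ENNReal.ofReal (Real.exp (B * t)) * Δ t x + ENNReal.ofReal (R t)) * Wj P j t x v := by
  refine coldj_le_add h S.mrate S'.mrate
    (g := fun s y v => g s y v +
      (ENNReal.ofReal (Real.exp (B * s)) * Δ s y + ENNReal.ofReal (r s)) * ENNReal.ofReal B)
    (Δ := fun t x => ENNReal.ofReal (Real.exp (B * t)) * Δ t x + ENNReal.ofReal (R t))
    (T := T) ?_ ?_ ?_ ht htT x v
  · intro s y v hs hsT hSup
    have hv := norm_lt_of_Sup h hBig hs.le hSup
    have hne := coldS_ne_zero h hSup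
    set δ := ENNReal.ofReal (Real.exp (B * s)) * Δ s y + ENNReal.ofReal (r s) with hδ
    by_cases hδt : δ = ⊤
    · rw [hδt, ENNReal.top_mul (ENNReal.ofReal_pos.2 hB0).ne', add_top, add_top]
      exact le_top
    have e1 : Lc (c' s y) v ≤ Lc (c s y) v + δ * ENNReal.ofReal B := by
      calc Lc (c' s y) v ≤ Lc (fun w => c s y w + δ * coldS P s y w) v := by
            refine A.Lc_mono (fun w => (hcc s y w hs hsT).trans ?_) v
            exact add_le_add le_rfl (mul_le_mul_right (Maj_le_coldS P s y w) _)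
        _ = Lc (c s y) v + δ * Lc (coldS P s y) v := by
            rw [A.Lc_add (S.m.slice s y), A.Lc_const_mul hδt]
        _ ≤ _ := by gcongr; exact hB s y v hs hsT.le hne
    calc Lc (c' s y) v + lam' s y v ≤ (Lc (c s y) v + δ * ENNReal.ofReal B) +
          (lam s y v + g s y v) := add_le_add e1 (h1 s y v hs hsT hv)
      _ = _ := by ring
  · intro t x v ht htT hSup
    have hv := norm_lt_of_Sup h hBig ht.le hSup
    have m1 : Measurable fun s : ℝ => ENNReal.ofReal (B * Real.exp (B * s)) := by fun_prop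
    have m2 : Measurable fun s : ℝ => ENNReal.ofReal (B * r s) := by
      have := hr.measurable
      fun_prop
    have m3 : Measurable fun s : ℝ => Δ t x * ENNReal.ofReal (B * Real.exp (B * s)) +
        ENNReal.ofReal (B * r s) := (m1.const_mul _).add m2
    have e0 : ∀ s ∈ Ioo 0 t, g s (x - (t - s) • bar v) v +
        (ENNReal.ofReal (Real.exp (B * s)) * Δ s (x - (t - s) • bar v) +
          ENNReal.ofReal (r s)) * ENNReal.ofReal B ≤ g s (x - (t - s) • bar v) v +
        (Δ t x * ENNReal.ofReal (B * Real.exp (B * s)) + ENNReal.ofReal (B * r s)) := by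
      intro s hs
      refine add_le_add le_rfl ?_
      have e1 := h3 s t x v hs.1 hs.2.le htT hv
      rw [ENNReal.ofReal_mul hB0.le, ENNReal.ofReal_mul hB0.le]
      calc (ENNReal.ofReal (Real.exp (B * s)) * Δ s (x - (t - s) • bar v) +
          ENNReal.ofReal (r s)) * ENNReal.ofReal B
          ≤ (ENNReal.ofReal (Real.exp (B * s)) * Δ t x + ENNReal.ofReal (r s)) *
            ENNReal.ofReal B := by gcongr
        _ = _ := by ring
    calc _ ≤ ∫⁻ s in Ioo 0 t, (g s (x - (t - s) • bar v) v +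
          (Δ t x * ENNReal.ofReal (B * Real.exp (B * s)) + ENNReal.ofReal (B * r s))) :=
          setLIntegral_mono' measurableSet_Ioo e0
      _ = (∫⁻ s in Ioo 0 t, g s (x - (t - s) • bar v) v) +
          (Δ t x * ENNReal.ofReal (Real.exp (B * t) - 1) + ENNReal.ofReal (R t)) := by
          rw [lintegral_add_right _ m3, lintegral_add_left (m1.const_mul _),
            lintegral_const_mul _ m1, lint_cont_eq (by fun_prop) ht.le
              (fun s hs => by positivity), int_exp, lint_cont_eq (by fun_prop) ht.le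
              (fun s hs => mul_nonneg hB0.le (hr0 s hs)), hR t ht.le]
      _ ≤ Δ t x + (Δ t x * ENNReal.ofReal (Real.exp (B * t) - 1) + ENNReal.ofReal (R t)) := by
          gcongr; exact h2 t x v ht htT hv
      _ = (1 + ENNReal.ofReal (Real.exp (B * t) - 1)) * Δ t x + ENNReal.ofReal (R t) := by ring
      _ = _ := by
          have e1 : (0 : ℝ) ≤ Real.exp (B * t) - 1 := by
            have := Real.one_le_exp (mul_nonneg hB0.le ht.le)
            linarith
          rw [← ENNReal.ofReal_one, ← ENNReal.ofReal_add zero_le_one e1, add_sub_cancel]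
  · intro s t x v hs hst htT hSup
    have hv := norm_lt_of_Sup h hBig hs.le hSup
    have e1 : Real.exp (B * s) ≤ Real.exp (B * t) :=
      Real.exp_le_exp.2 (mul_le_mul_of_nonneg_left hst hB0.le)
    refine add_le_add (mul_le_mul' (ENNReal.ofReal_le_ofReal e1) (h3 s t x v hs hst htT hv)) ?_
    exact ENNReal.ofReal_le_ofReal (hRm s t hs.le hst)

theorem cmp_n (h : ColdPar C0 P) (hBig : Big P) (S : Sol P T c lam) (S' : Sol P T c' lam')
    (hB0 : 0 < B) (hB : ∀ t x v, 0 < t → t ≤ T → coldS P t x v ≠ 0 →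
      Lc (coldS P t x) v ≤ ENNReal.ofReal B)
    (h1 : ∀ s y v, 0 < s → s < T → ‖v‖ < P.Y + 3 → lam s y v ≤ lam' s y v + g s y v ∧
      lam' s y v ≤ lam s y v + g s y v)
    (h2 : ∀ t x v, 0 < t → t ≤ T → ‖v‖ < P.Y + 3 →
      ∫⁻ s in Ioo 0 t, g s (x - (t - s) • bar v) v ≤ Δ t x)
    (h3 : ∀ s t x v, 0 < s → s ≤ t → t ≤ T → ‖v‖ < P.Y + 3 →
      Δ s (x - (t - s) • bar v) ≤ Δ t x) (hper : ∀ t, PerG (Δ t)) (n : ℕ) :
    ∀ t x v, 0 ≤ t → t ≤ T →
      c t x v ≤ c' t x v + (ENNReal.ofReal (Real.exp (B * t)) * Δ t x +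
        ENNReal.ofReal ((B * t) ^ n / n.factorial)) * Maj P t x v ∧
      c' t x v ≤ c t x v + (ENNReal.ofReal (Real.exp (B * t)) * Δ t x +
        ENNReal.ofReal ((B * t) ^ n / n.factorial)) * Maj P t x v := by
  induction n with
  | zero =>
    intro t x v ht htT
    simp only [pow_zero, Nat.factorial_zero, Nat.cast_one, div_one, ENNReal.ofReal_one]
    have e : Maj P t x v ≤ (ENNReal.ofReal (Real.exp (B * t)) * Δ t x + 1) * Maj P t x v :=
      le_mul_of_one_le_left' le_add_self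
    exact ⟨(S.le h hBig.ok ht htT x v).trans (e.trans le_add_self),
      (S'.le h hBig.ok ht htT x v).trans (e.trans le_add_self)⟩
  | succ n ih =>
    have hr : Continuous fun s : ℝ => (B * s) ^ n / n.factorial := by fun_prop
    have hr0 : ∀ t : ℝ, 0 ≤ t → 0 ≤ (B * t) ^ n / n.factorial := fun t ht => by positivity
    have hR : ∀ t : ℝ, 0 ≤ t → ∫ s in (0 : ℝ)..t, B * ((B * s) ^ n / n.factorial) =
      (B * t) ^ (n + 1) / (n + 1).factorial := fun t _ => int_pow B t n
    have hRm : ∀ s t : ℝ, 0 ≤ s → s ≤ t → (B * s) ^ (n + 1) / (n + 1).factorial ≤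
        (B * t) ^ (n + 1) / (n + 1).factorial := fun s t hs hst => by gcongr
    intro t x v ht htT
    constructor
    · rw [S.eq t x v ht htT, S'.eq t x v ht htT]
      refine coldL_le_add h hBig.ok ht fun k j => ?_
      have := step (j := j) h hBig S S' hB0 hB (fun s y v a1 a2 a3 => (h1 s y v a1 a2 a3).2) h2 h3
        hr hr0 hR hRm (fun t x v a1 a2 => (ih t x v a1.le a2.le).2) ht htT (x + latt k) v
      rwa [hper t x k] at this
    · rw [S.eq t x v ht htT, S'.eq t x v ht htT]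
      refine coldL_le_add h hBig.ok ht fun k j => ?_
      have := step (j := j) h hBig S' S hB0 hB (fun s y v a1 a2 a3 => (h1 s y v a1 a2 a3).1) h2 h3
        hr hr0 hR hRm (fun t x v a1 a2 => (ih t x v a1.le a2.le).1) ht htT (x + latt k) v
      rwa [hper t x k] at this

theorem le_of_forall_fact {a b m D : ℝ≥0∞} {y : ℝ} (hm : m ≠ ⊤)
    (h : ∀ n : ℕ, a ≤ b + (D + ENNReal.ofReal (y ^ n / n.factorial)) * m) : a ≤ b + D * m := by
  have h1 : Tendsto (fun n : ℕ => ENNReal.ofReal (y ^ n / n.factorial)) atTop (𝓝 0) := by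
    have := ENNReal.tendsto_ofReal (FloorSemiring.tendsto_pow_div_factorial_atTop y)
    rwa [ENNReal.ofReal_zero] at this
  have h2 : Tendsto (fun n : ℕ => b + (D + ENNReal.ofReal (y ^ n / n.factorial)) * m) atTop
      (𝓝 (b + (D + 0) * m)) :=
    (ENNReal.Tendsto.mul_const (h1.const_add D) (Or.inr hm)).const_add b
  rw [add_zero] at h2
  exact ge_of_tendsto' h2 h

/-- **comparison of two solutions of the coupled system**, periodic `Δ` -/
theorem cmp_per (h : ColdPar C0 P) (hBig : Big P) (S : Sol P T c lam) (S' : Sol P T c' lam')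
    (hB0 : 0 < B) (hB : ∀ t x v, 0 < t → t ≤ T → coldS P t x v ≠ 0 →
      Lc (coldS P t x) v ≤ ENNReal.ofReal B)
    (h1 : ∀ s y v, 0 < s → s < T → ‖v‖ < P.Y + 3 → lam s y v ≤ lam' s y v + g s y v ∧
      lam' s y v ≤ lam s y v + g s y v)
    (h2 : ∀ t x v, 0 < t → t ≤ T → ‖v‖ < P.Y + 3 →
      ∫⁻ s in Ioo 0 t, g s (x - (t - s) • bar v) v ≤ Δ t x)
    (h3 : ∀ s t x v, 0 < s → s ≤ t → t ≤ T → ‖v‖ < P.Y + 3 →
      Δ s (x - (t - s) • bar v) ≤ Δ t x) (hper : ∀ t, PerG (Δ t)) {t : ℝ} (ht : 0 ≤ t)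
    (htT : t ≤ T) (x : P2) (v : R3) :
    c t x v ≤ c' t x v + ENNReal.ofReal (Real.exp (B * t)) * Δ t x * Maj P t x v ∧
    c' t x v ≤ c t x v + ENNReal.ofReal (Real.exp (B * t)) * Δ t x * Maj P t x v :=
  ⟨le_of_forall_fact (Maj_ne_top hBig ht x v) fun n =>
      (cmp_n h hBig S S' hB0 hB h1 h2 h3 hper n t x v ht htT).1,
    le_of_forall_fact (Maj_ne_top hBig ht x v) fun n =>
      (cmp_n h hBig S S' hB0 hB h1 h2 h3 hper n t x v ht htT).2⟩

/-- comparison sheet by sheet, periodic `Δ` -/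
theorem cmp_sheet_per (h : ColdPar C0 P) (hBig : Big P) (S : Sol P T c lam) (S' : Sol P T c' lam')
    (hB0 : 0 < B) (hB : ∀ t x v, 0 < t → t ≤ T → coldS P t x v ≠ 0 →
      Lc (coldS P t x) v ≤ ENNReal.ofReal B)
    (h1 : ∀ s y v, 0 < s → s < T → ‖v‖ < P.Y + 3 → lam s y v ≤ lam' s y v + g s y v ∧
      lam' s y v ≤ lam s y v + g s y v)
    (h2 : ∀ t x v, 0 < t → t ≤ T → ‖v‖ < P.Y + 3 →
      ∫⁻ s in Ioo 0 t, g s (x - (t - s) • bar v) v ≤ Δ t x)
    (h3 : ∀ s t x v, 0 < s → s ≤ t → t ≤ T → ‖v‖ < P.Y + 3 →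
      Δ s (x - (t - s) • bar v) ≤ Δ t x) (hper : ∀ t, PerG (Δ t)) {t : ℝ} (ht : 0 ≤ t)
    (htT : t ≤ T) (x : P2) (v : R3) :
    coldj P j (fun t x v => Lc (c t x) v + lam t x v) t x v ≤
      coldj P j (fun t x v => Lc (c' t x) v + lam' t x v) t x v +
        ENNReal.ofReal (Real.exp (B * t)) * Δ t x * Wj P j t x v := by
  have := step (j := j) (r := fun _ => 0) (R := fun _ => 0) h hBig S S' hB0 hB
    (fun s y v a1 a2 a3 => (h1 s y v a1 a2 a3).2) h2 h3 continuous_const (fun _ _ => le_rfl)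
    (fun t _ => by simp) (fun _ _ _ _ => le_rfl) (fun t x v a1 a2 => by
      rw [ENNReal.ofReal_zero, add_zero]
      exact (cmp_per h hBig S S' hB0 hB h1 h2 h3 hper a1.le a2.le x v).2) ht htT x v
  rwa [ENNReal.ofReal_zero, add_zero] at this

end cmp

/-! ### removal of the periodicity of `Δ` -/

/-- the smallest value over the images -/
def mn (Δ : ℝ → P2 → ℝ≥0∞) (t : ℝ) (x : P2) : ℝ≥0∞ := ⨅ k : ℤ × ℤ, Δ t (x + latt k)

theorem mn_le (Δ : ℝ → P2 → ℝ≥0∞) (t : ℝ) (x : P2) : mn Δ t x ≤ Δ t x := by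
  unfold mn
  refine (iInf_le _ 0).trans (le_of_eq ?_)
  rw [latt_zero', add_zero]

theorem mn_per (Δ : ℝ → P2 → ℝ≥0∞) (t : ℝ) : PerG (mn Δ t) := by
  intro x k
  unfold mn
  refine (Equiv.iInf_congr (Equiv.addLeft k) fun l => ?_)
  congr 1
  rw [Equiv.coe_addLeft, latt_add]
  abel

theorem flight_shift (x : P2) (k : ℤ × ℤ) (t s : ℝ) (v : R3) :
    x + latt k - (t - s) • bar v = x - (t - s) • bar v + latt k := by abel

/-- the absolute difference -/
def df (a b : ℝ≥0∞) : ℝ≥0∞ := (a - b) + (b - a)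

theorem df_le {a b c : ℝ≥0∞} (h1 : a ≤ b + c) (h2 : b ≤ a + c) : df a b ≤ c := by
  unfold df
  rcases le_total a b with h | h
  · rw [tsub_eq_zero_of_le h, zero_add]; exact tsub_le_iff_left.2 h2
  · rw [tsub_eq_zero_of_le h, add_zero]; exact tsub_le_iff_left.2 h1

theorem le_add_df (a b : ℝ≥0∞) : a ≤ b + df a b := by
  unfold df
  calc a ≤ b + (a - b) := le_add_tsub
    _ ≤ _ := add_le_add le_rfl le_self_add

theorem le_add_df' (a b : ℝ≥0∞) : b ≤ a + df a b := by
  unfold df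
  calc b ≤ a + (b - a) := le_add_tsub
    _ ≤ _ := add_le_add le_rfl le_add_self

section main

variable {T B : ℝ} {c c' lam lam' g : ℝ → P2 → R3 → ℝ≥0∞} {Δ : ℝ → P2 → ℝ≥0∞}

/-- hypotheses on the external rates: periodic, `|lam - lam'| ≤ g`, the flight integral of `g` is at
most `Δ`, which is non-decreasing along cold flights -/
structure Close (P : Par) (T : ℝ) (lam lam' g : ℝ → P2 → R3 → ℝ≥0∞) (Δ : ℝ → P2 → ℝ≥0∞) : Prop where
  per : ∀ t v, PerG fun x => lam t x v
  per' : ∀ t v, PerG fun x => lam' t x v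
  diff : ∀ s y v, 0 < s → s < T → ‖v‖ < P.Y + 3 → lam s y v ≤ lam' s y v + g s y v ∧
      lam' s y v ≤ lam s y v + g s y v
  int : ∀ t x v, 0 < t → t ≤ T → ‖v‖ < P.Y + 3 →
      ∫⁻ s in Ioo 0 t, g s (x - (t - s) • bar v) v ≤ Δ t x
  mono : ∀ s t x v, 0 < s → s ≤ t → t ≤ T → ‖v‖ < P.Y + 3 →
      Δ s (x - (t - s) • bar v) ≤ Δ t x

theorem Close.mn (K : Close P T lam lam' g Δ) :
    Close P T lam lam' (fun s y v => df (lam s y v) (lam' s y v)) (mn Δ) where
  per := K.per
  per' := K.per'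
  diff s y v _ _ _ := ⟨le_add_df _ _, le_add_df' _ _⟩
  int t x v ht htT hv := by
    unfold ColdL.mn
    refine le_iInf fun k => ?_
    refine le_trans ?_ (K.int t (x + latt k) v ht htT hv)
    refine setLIntegral_mono' measurableSet_Ioo fun s hs => ?_
    rw [flight_shift]
    have e1 := K.diff s (x - (t - s) • bar v + latt k) v hs.1 (hs.2.trans_le htT) hv
    have e2 := K.per s v (x - (t - s) • bar v) k
    have e3 := K.per' s v (x - (t - s) • bar v) k
    simp only at e2 e3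
    rw [← e2, ← e3]
    exact df_le e1.1 e1.2
  mono s t x v hs hst htT hv := by
    unfold ColdL.mn
    refine le_iInf fun k => (iInf_le _ k).trans ?_
    rw [← flight_shift]
    exact K.mono s t (x + latt k) v hs hst htT hv

/-- **MAIN COMPARISON THEOREM (C4)** for two solutions of the coupled cold system on `[0,T]` -/
theorem cmp_main (h : ColdPar C0 P) (hBig : Big P) (S : Sol P T c lam) (S' : Sol P T c' lam')
    (hB0 : 0 < B) (hB : ∀ t x v, 0 < t → t ≤ T → coldS P t x v ≠ 0 →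
      Lc (coldS P t x) v ≤ ENNReal.ofReal B) (K : Close P T lam lam' g Δ) {t : ℝ} (ht : 0 ≤ t)
    (htT : t ≤ T) (x : P2) (v : R3) :
    (c t x v ≤ c' t x v + ENNReal.ofReal (Real.exp (B * t)) * Δ t x * Maj P t x v ∧
      c' t x v ≤ c t x v + ENNReal.ofReal (Real.exp (B * t)) * Δ t x * Maj P t x v) ∧
    ∀ (j : ℕ) (k : ℤ × ℤ), coldj P j (fun t x v => Lc (c t x) v + lam t x v) t (x + latt k) v ≤
      coldj P j (fun t x v => Lc (c' t x) v + lam' t x v) t (x + latt k) v +
        ENNReal.ofReal (Real.exp (B * t)) * Δ t x * Wj P j t (x + latt k) v := by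
  have K' := K.mn
  have e := mn_le Δ t x
  have h1 := cmp_per h hBig S S' hB0 hB K'.diff K'.int K'.mono (mn_per Δ) ht htT x v
  refine ⟨⟨h1.1.trans ?_, h1.2.trans ?_⟩, fun j k => ?_⟩
  · gcongr
  · gcongr
  · have h2 := cmp_sheet_per (j := j) h hBig S S' hB0 hB K'.diff K'.int K'.mono (mn_per Δ) ht htT
      (x + latt k) v
    rw [mn_per Δ t x k] at h2
    refine h2.trans ?_
    gcongr


end main

end Crest.Agent.R68.ColdL
end
end

-- ▼ part R68/ColdT1

/-!
# Row 68, PART C (helper819): C3 on `[0,T1]`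

`coldL_le_T1`, `coldR_le_T1` (refined upper bound), `phi_le_coldR_of` (lower bound, from the
exponential form), `coldR_le_all` (all times).
-/

set_option autoImplicit false
open MeasureTheory Set Filter
open scoped ENNReal Topology
open Crest.AnalysisR.VecCalc3 Crest.AnalysisR.PDE.Boltzmann

noncomputable section

namespace Crest.Agent.R68.ColdT1

open Crest.Agent.R68.A (Meas3 en measurable_en)
open Crest.Agent.R68.C (C0 LZ LZ_of_Ztj lab_sq_ge lab_le_distG bj_small0 bj_pos bj_le_one bj_pow_anti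
  warmj_eq_zero coldS_cases LZ_unique coldS_mass K_mul_bj rhoj_pos Ztj_of_lset)

variable {P : Par}

/-- the fuel as a sum of sheets -/
theorem phiE_eq_tsum (h : P.Ok) (t : ℝ) (x : P2) (v : R3) :
    phiE P t x v = ∑' k : ℤ × ℤ, ∑' j : ℕ, R68.phij P j t (x + latt k) v := by
  unfold phiE
  rw [Fuel.ofReal_phi h]
  refine tsum_congr fun k => tsum_congr fun j => ?_
  rw [ColdW.phij_eq h]

theorem bj_le_distG (h : ColdPar C0 P) {j : ℕ} {t : ℝ} (ht : 0 ≤ t)
    (htT : t ≤ P.dl ^ (3 / 8 : ℝ)) {x : P2} {k : ℤ × ℤ} (hz : LZ P j t (x + latt k)) :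
    bj j ≤ distG x := by
  refine le_trans ?_ (lab_le_distG h ht htT hz)
  have h5 := lab_sq_ge h hz
  have h6 := bj_small0 h hz.1
  have hb := bj_pos j
  have h7 : bj j ^ 2 ≤ |lab P t (x + latt k)| ^ 2 := by
    rw [sq_abs]; nlinarith
  exact le_of_sq_le_sq h7 (abs_nonneg _)

/-- every cold component with a full rate, all times -/
theorem coldL_le_all (hA : ColdPar Cold.C0 P) (hok : P.Ok) (Λ : ℝ → P2 → R3 → ℝ≥0∞) {t : ℝ}
    (ht : 0 ≤ t) (x : P2) (v : R3) :
    coldL P Λ t x v ≤ phiE P t x v + ENNReal.ofReal (min t 1) * warm P t x v := by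
  unfold coldL warm
  rw [phiE_eq_tsum hok, ← ENNReal.tsum_mul_left, ← ENNReal.tsum_add]
  refine ENNReal.tsum_le_tsum fun k => ?_
  rw [← ENNReal.tsum_mul_left, ← ENNReal.tsum_add]
  exact ENNReal.tsum_le_tsum fun j => Cold.coldj_le hA Λ ht (x + latt k) v

/-- every cold component with a full rate, on `[0,T1]` -/
theorem coldL_le_T1 (hA : ColdPar Cold.C0 P) (h : ColdPar C0 P) (hok : P.Ok) (Λ : ℝ → P2 → R3 → ℝ≥0∞) {t : ℝ}
    (ht : 0 ≤ t) (htT : t ≤ P.dl ^ (3 / 8 : ℝ)) (x : P2) (v : R3) :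
    coldL P Λ t x v ≤ phiE P t x v +
      ENNReal.ofReal (t * distG x ^ (P.p / 32)) * warm P t x v := by
  unfold coldL warm
  rw [phiE_eq_tsum hok, ← ENNReal.tsum_mul_left, ← ENNReal.tsum_add]
  refine ENNReal.tsum_le_tsum fun k => ?_
  rw [← ENNReal.tsum_mul_left, ← ENNReal.tsum_add]
  refine ENNReal.tsum_le_tsum fun j => ?_
  refine (Cold.coldj_le' hA Λ ht (x + latt k) v).trans (add_le_add le_rfl ?_)
  refine (Cold.wj'_le hA ht (x + latt k) v).trans ?_
  by_cases hz : LZ P j t (x + latt k)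
  · rw [← mul_assoc, ← ENNReal.ofReal_mul (le_min ht zero_le_one)]
    refine mul_le_mul_left (ENNReal.ofReal_le_ofReal ?_) _
    have hb := bj_pos j
    have hb1 := bj_le_one j
    have h1 := bj_le_distG h ht htT hz
    have h2 : bj j ^ (4 + P.p / 32) ≤ distG x ^ (P.p / 32) :=
      (bj_pow_anti j (by omega)).trans (pow_le_pow_left₀ hb.le h1 _)
    exact mul_le_mul (min_le_left _ _) h2 (by positivity) ht
  · rw [warmj_eq_zero hz, mul_zero, mul_zero, mul_zero]

theorem coldR_le_of {lam : ℝ → P2 → R3 → ℝ≥0∞} {t : ℝ} {x : P2} {v : R3} {B : ℝ≥0∞}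
    (hB : ∀ Λ : ℝ → P2 → R3 → ℝ≥0∞, coldL P Λ t x v ≤ B) : coldR P lam t x v ≤ B := by
  unfold coldR
  refine Filter.limsup_le_of_le (h := Eventually.of_forall fun n => ?_)
  cases n with
  | zero => exact zero_le
  | succ n => exact hB _

/-- **(C1) upper bound, all times** -/
theorem coldR_le_all (hA : ColdPar Cold.C0 P) (hok : P.Ok) (lam : ℝ → P2 → R3 → ℝ≥0∞) {t : ℝ}
    (ht : 0 ≤ t) (x : P2) (v : R3) :
    coldR P lam t x v ≤ phiE P t x v + ENNReal.ofReal (min t 1) * warm P t x v :=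
  coldR_le_of fun Λ => coldL_le_all hA hok Λ ht x v

theorem coldR_le_coldS (hA : ColdPar Cold.C0 P) (hok : P.Ok) (lam : ℝ → P2 → R3 → ℝ≥0∞) {t : ℝ}
    (ht : 0 ≤ t) (x : P2) (v : R3) : coldR P lam t x v ≤ coldS P t x v := by
  refine (coldR_le_all hA hok lam ht x v).trans ?_
  unfold coldS
  refine add_le_add le_rfl ?_
  calc ENNReal.ofReal (min t 1) * warm P t x v ≤ 1 * warm P t x v := by
        gcongr
        rw [← ENNReal.ofReal_one]
        exact ENNReal.ofReal_le_ofReal (min_le_right _ _)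
    _ = _ := one_mul _

/-- **(C3) refined upper bound on `[0,T1]`** -/
theorem coldR_le_T1 (hA : ColdPar Cold.C0 P) (h : ColdPar C0 P) (hok : P.Ok) (lam : ℝ → P2 → R3 → ℝ≥0∞) {t : ℝ}
    (ht : 0 ≤ t) (htT : t ≤ P.dl ^ (3 / 8 : ℝ)) (x : P2) (v : R3) :
    coldR P lam t x v ≤ phiE P t x v +
      ENNReal.ofReal (t * distG x ^ (P.p / 32)) * warm P t x v :=
  coldR_le_of fun Λ => coldL_le_T1 hA h hok Λ ht htT x v

/-- self-interaction on the tight zone of lane `j` (779's proof, in terms of `b_j`) -/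
theorem Lc_coldS_le_bj (h : ColdPar C0 P) (hey : 0 < P.ey) {t : ℝ} (ht : 0 ≤ t)
    (htT : t ≤ P.dl ^ (3 / 8 : ℝ)) {x : P2} {v : R3} {k : ℤ × ℤ} {j : ℕ}
    (hz : Ztj P j t (x + latt k) v) :
    Lc (coldS P t x) v ≤ ENNReal.ofReal (bj j ^ (P.p / 32)) := by
  have hok := C.CP.ok h hey
  have hLZ := LZ_of_Ztj hz
  have hj := hz.1
  have hb := bj_pos j
  have hb1 := bj_le_one j
  have hK := h.K
  have hp := h.p
  have hρ := rhoj_pos P.p j
  have h1 : ∀ v' : R3, ENNReal.ofReal (2 * Real.pi * ‖v - v'‖) * coldS P t x v' ≤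
      ENNReal.ofReal (26 * rhoj P.p j) * coldS P t x v' := by
    intro v'
    by_cases h2 : coldS P t x v' = 0
    · rw [h2, mul_zero, mul_zero]
    · obtain ⟨k', j', hz'⟩ := coldS_cases h hey ht h2
      obtain ⟨e1, e2⟩ := LZ_unique h ht htT hLZ (LZ_of_Ztj hz')
      subst e1 e2
      refine mul_le_mul_left (ENNReal.ofReal_le_ofReal ?_) _
      have h3 := hz.2.2.2
      have h4 := hz'.2.2.2
      have h5 : ‖v - v'‖ ≤ ‖v - uvec P (wj j) t (x + latt k)‖ +
          ‖v' - uvec P (wj j) t (x + latt k)‖ := by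
        have : v - v' = (v - uvec P (wj j) t (x + latt k)) -
          (v' - uvec P (wj j) t (x + latt k)) := by abel
        rw [this]; exact norm_sub_le _ _
      have h6 := Real.pi_lt_d2
      have h7 := Real.pi_pos
      nlinarith
  rw [C.Lc_eq]
  refine (lintegral_mono h1).trans ?_
  rw [lintegral_const_mul' _ _ ENNReal.ofReal_ne_top]
  have h2 := coldS_mass h hok hey ht htT hLZ
  calc _ ≤ ENNReal.ofReal (26 * rhoj P.p j) * ENNReal.ofReal (9 * P.K / bj j) := by gcongr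
    _ ≤ ENNReal.ofReal (bj j ^ (P.p / 32)) := by
      rw [← ENNReal.ofReal_mul (by positivity)]
      refine ENNReal.ofReal_le_ofReal ?_
      have h4 := K_mul_bj h hj
      calc 26 * rhoj P.p j * (9 * P.K / bj j)
          = 26 * bj j ^ (P.p / 2) * (9 * P.K / bj j) := rfl
        _ ≤ 26 * bj j ^ (P.p / 32 + 2) * (9 * P.K / bj j) := by
            gcongr 26 * ?_ * _
            exact bj_pow_anti j (by omega)
        _ = 234 * (P.K * bj j) * bj j ^ (P.p / 32) := by
            rw [pow_add]; field_simp; ring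
        _ ≤ 1 * bj j ^ (P.p / 32) := by
            refine mul_le_mul_of_nonneg_right ?_ (by positivity)
            linarith
        _ = _ := one_mul _

/-- transport of the fuel set along flights -/
theorem mem_lset_flight {j : ℕ} {t : ℝ} {x : P2} {v : R3} (hv : v ∈ Fuel.lset P j t x) (s : ℝ) :
    v ∈ Fuel.lset P j s (x - (t - s) • bar v) := by
  rw [Fuel.mem_lset_iff_zero] at hv ⊢
  have : x - (t - s) • bar v - s • bar v = x - t • bar v := by
    rw [sub_smul]; abel
  rwa [this]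

/-- **(C3) lower bound on `[0,T1]`**, from the exponential form at the point `(t,x,v)` -/
theorem phi_le_coldR_of (hA : ColdPar Cold.C0 P) (h : ColdPar C0 P) (hey : 0 < P.ey) {lam : ℝ → P2 → R3 → ℝ≥0∞}
    (hlam : Meas3 lam) {t : ℝ} (ht : 0 ≤ t) (htT : t ≤ P.dl ^ (3 / 8 : ℝ)) {x : P2} {v : R3}
    (heq : coldR P lam t x v =
      phiE P t x v * damp (rateC P lam) 0 t x v + DuhD (rateC P lam) (coldGain P lam) t x v) :
    phiE P t x v ≤ coldR P lam t x v +
      (ENNReal.ofReal (t * distG x ^ (P.p / 32)) +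
        ∫⁻ s in Ioo 0 t, lam s (x - (t - s) • bar v) v) * phiE P t x v := by
  have hok := C.CP.ok h hey
  by_cases h0 : phiE P t x v = 0
  · rw [h0]; exact zero_le
  have h0' : phi P t x v ≠ 0 := by
    intro h1; apply h0; unfold phiE; rw [h1, ENNReal.ofReal_zero]
  obtain ⟨k, j, hj, hv⟩ := Fuel.exists_of_phi_ne hok h0'
  set a : ℝ≥0∞ := ∫⁻ s in Ioo 0 t, rateC P lam s (x - (t - s) • bar v) v with ha
  have hflow : Measurable (fun s : ℝ => lam s (x - (t - s) • bar v) v) := by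
    have h1 : Measurable (fun s : ℝ => ((s, x - (t - s) • bar v, v) : ℝ × P2 × R3)) := by fun_prop
    have h2 : Measurable ((fun z : ℝ × P2 × R3 => lam z.1 z.2.1 z.2.2) ∘
      fun s : ℝ => ((s, x - (t - s) • bar v, v) : ℝ × P2 × R3)) := Measurable.comp hlam h1
    exact h2
  have hLZt : LZ P j t (x + latt k) := LZ_of_Ztj (Ztj_of_lset h hok hj ht hv)
  have hbd : bj j ^ (P.p / 32) ≤ distG x ^ (P.p / 32) :=
    pow_le_pow_left₀ (bj_pos j).le (bj_le_distG h ht htT hLZt) _
  have hLc : ∀ s ∈ Ioo (0 : ℝ) t, Lc (coldR P lam s (x - (t - s) • bar v)) v ≤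
      ENNReal.ofReal (distG x ^ (P.p / 32)) := by
    intro s hs
    have hs0 := hs.1.le
    have hsT := hs.2.le.trans htT
    have h1 : v ∈ Fuel.lset P j s (x - (t - s) • bar v + latt k) := by
      have h2 := mem_lset_flight hv s
      have h3 : x + latt k - (t - s) • bar v = x - (t - s) • bar v + latt k := by abel
      rwa [h3] at h2
    have h2 := Ztj_of_lset h hok hj hs0 h1
    refine le_trans (C.Lc_mono (fun z => coldR_le_coldS hA hok lam hs0 _ z) v) ?_
    exact (Lc_coldS_le_bj h hey hs0 hsT h2).trans (ENNReal.ofReal_le_ofReal hbd)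
  have hale : a ≤ ENNReal.ofReal (t * distG x ^ (P.p / 32)) +
      ∫⁻ s in Ioo 0 t, lam s (x - (t - s) • bar v) v := by
    calc a ≤ ∫⁻ s in Ioo 0 t, (ENNReal.ofReal (distG x ^ (P.p / 32)) +
          lam s (x - (t - s) • bar v) v) := by
          refine setLIntegral_mono' measurableSet_Ioo fun s hs => ?_
          exact add_le_add (hLc s hs) le_rfl
      _ = _ := by
          rw [lintegral_add_right _ hflow, lintegral_const, Measure.restrict_apply_univ,
            Real.volume_Ioo, sub_zero, mul_comm, ← ENNReal.ofReal_mul ht]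
  have hdamp : damp (rateC P lam) 0 t x v = en a := rfl
  have h1 : phiE P t x v ≤ phiE P t x v * en a + a * phiE P t x v := by
    calc phiE P t x v = 1 * phiE P t x v := (one_mul _).symm
      _ ≤ (en a + a) * phiE P t x v := mul_le_mul_left (A.one_le_en_add a) _
      _ = _ := by ring
  refine h1.trans (add_le_add ?_ (mul_le_mul_left hale _))
  rw [heq, hdamp]
  exact le_self_add

end Crest.Agent.R68.ColdT1
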