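import Crest.Agent.R68.ColdSpill_Mg
import Crest.Agent.R68.ColdPic
import Crest.Agent.R68.ColdT1_Mg
import Crest.Agent.R68.ColdCpl2
import Crest.Agent.R68.ColdW4
import Crest.Agent.R68.KWs

-- ▼ part R68/ColdSpill2
section

/-!
# Row 68, PART C (helper150): the spill of the cold component on `[0,T1]`
-/

set_option autoImplicit false
open MeasureTheory Set
open scoped ENNReal
open Crest.AnalysisR.VecCalc3 Crest.AnalysisR.PDE.Boltzmann

noncomputable section

namespace Crest.Agent.R68.ColdSp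

open Crest.Agent.R68

variable {P : Par}

theorem coldjk_le (h' : ColdPar Cold.C0 P) (lam : ℝ → P2 → R3 → ℝ≥0∞) {t : ℝ} (ht : 0 ≤ t)
    (x : P2) (i : Ix) (v : R3) : coldjk P lam i t x v ≤ cS P t x i v := by
  unfold coldjk cS
  refine (Cold.coldj_le h' (rateC P lam) ht (x + latt i.1) v).trans (add_le_add le_rfl ?_)
  calc ENNReal.ofReal (min t 1) * warmj P i.2 t (x + latt i.1) v
      ≤ 1 * warmj P i.2 t (x + latt i.1) v := by
        gcongr
        rw [ENNReal.ofReal_le_one]
        exact min_le_right _ _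
    _ = _ := one_mul _

/-- **(C6)** -/
theorem coldSpill_le_spB (h : ColdPar C.C0 P) (h' : ColdPar Cold.C0 P) (hey : 0 < P.ey)
    (lam : ℝ → P2 → R3 → ℝ≥0∞) {t : ℝ} (ht : 0 ≤ t) (htT : t ≤ P.dl ^ (3 / 8 : ℝ)) (x : P2)
    (v : R3) : coldSpill P lam t x v ≤ spB P x v := by
  rw [coldSpill_eq]
  exact spillF_le h hey ht htT x (fun i v => coldjk_le h' lam ht x i v) v

theorem coldSpill_le (h : ColdPar C.C0 P) (h' : ColdPar Cold.C0 P) (hey : 0 < P.ey)
    (lam : ℝ → P2 → R3 → ℝ≥0∞) {t : ℝ} (ht : 0 ≤ t) (htT : t ≤ P.dl ^ (3 / 8 : ℝ)) (x : P2)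
    (v : R3) :
    coldSpill P lam t x v ≤ ENNReal.ofReal (distG x ^ (P.p / 32) * Real.exp (-‖v‖ ^ 2)) :=
  (coldSpill_le_spB h h' hey lam ht htT x v).trans (spB_le_pow P x v)


/-- **(C4), spill half**, from the Lipschitz estimate of the sheets -/
theorem coldSpill_lip (h : ColdPar C.C0 P) (h' : ColdPar Cold.C0 P) (hey : 0 < P.ey)
    (lam lam' : ℝ → P2 → R3 → ℝ≥0∞) {t : ℝ} (ht : 0 ≤ t) (htT : t ≤ P.dl ^ (3 / 8 : ℝ)) (x : P2)
    (hm : ∀ i, Measurable (fun v => coldjk P lam' i t x v)) (Δ : ℝ≥0∞)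
    (hd : ∀ i v, coldjk P lam i t x v ≤ coldjk P lam' i t x v + 2 * Δ * cS P t x i v) (v : R3) :
    coldSpill P lam t x v ≤ coldSpill P lam' t x v +
      Δ * ENNReal.ofReal (distG x ^ (P.p / 32) * Real.exp (-‖v‖ ^ 2)) := by
  rw [coldSpill_eq, coldSpill_eq]
  refine (spillF_lip h hey ht htT x hm (fun i v => coldjk_le h' lam ht x i v)
    (fun i v => coldjk_le h' lam' ht x i v) Δ hd v).trans ?_
  gcongr
  exact spB_le_pow P x v

/-- the same for measurable rates -/
theorem coldSpill_lip' (h : ColdPar C.C0 P) (h' : ColdPar Cold.C0 P) (hey : 0 < P.ey)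
    (lam lam' : ℝ → P2 → R3 → ℝ≥0∞) (hl' : A.Meas3 lam') {t : ℝ} (ht : 0 ≤ t)
    (htT : t ≤ P.dl ^ (3 / 8 : ℝ)) (x : P2) (Δ : ℝ≥0∞)
    (hd : ∀ i v, coldjk P lam i t x v ≤ coldjk P lam' i t x v + 2 * Δ * cS P t x i v) (v : R3) :
    coldSpill P lam t x v ≤ coldSpill P lam' t x v +
      Δ * ENNReal.ofReal (distG x ^ (P.p / 32) * Real.exp (-‖v‖ ^ 2)) :=
  coldSpill_lip h h' hey lam lam' ht htT x
    (fun i => (ColdM.meas3_coldjk P hl' i).comp measurable_const measurable_const
      measurable_id) Δ hd v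

/-- **the spill input of Part A** -/
theorem SpillOutAll_holds {Y : ℝ} (hY : 1 ≤ Y) : A.SpillOutAll Y := by
  intro K ey hK hey _
  filter_upwards [Filter.eventually_ge_atTop 512] with p hp
  filter_upwards [ev_ColdPar K Y ey p C.C0 hK hY hp, ev_ColdPar K Y ey p Cold.C0 hK hY hp] with
    j0 h h'
  intro lam _ _ t x v ht htT
  exact coldSpill_le h h' hey lam ht htT x v

end Crest.Agent.R68.ColdSp
end
end

-- ▼ part R68/ColdOutAll

/-!
# Row 68, PART C (helper819): assembly of `N.ColdOut` for the final parameters, `CKOut`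
-/

set_option autoImplicit false
open MeasureTheory Set Filter
open scoped ENNReal Topology
open Crest.AnalysisR.VecCalc3 Crest.AnalysisR.PDE.Boltzmann

noncomputable section

namespace Crest.Agent.R68.KC

open Crest.Agent.R68.N (Fld ColdOut)
open Crest.Agent.R68.ColdW (Big)

variable {P : Par}

theorem exp_half_le_two : Real.exp (1 / 2) ≤ 2 := by
  have h1 := Real.exp_one_lt_d9
  have h2 : Real.exp (1 / 2) * Real.exp (1 / 2) = Real.exp 1 := by
    rw [← Real.exp_add]; norm_num
  have h3 := Real.exp_pos (1 / 2)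
  nlinarith

/-- the coupled cold component is a solution in the sense of 475 -/
theorem sol_coldR (hA : ColdPar Cold.C0 P) (hB : Big P) (hK : 0 < P.K) (T : ℝ)
    {lam : Fld} (hl : A.Meas3 lam) : ColdL.Sol P T (coldR P lam) lam where
  m := ColdM.meas3_coldR P hl
  ml := hl
  eq := fun _ x v ht _ => ColdC.coldR_eq_coldL hA hB hK hl ht x v

/-- **Part C for one set of parameters** -/
theorem coldOut_of (hA : ColdPar Cold.C0 P) (h : ColdPar C.C0 P) (hey : 0 < P.ey)
    (hT1 : P.dl ^ (3 / 8 : ℝ) ≤ 1 / 2) : ColdOut P := by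
  have hB : Big P := ColdW.Big.of h hey
  have hok : P.Ok := hB.ok
  have hK : 0 < P.K := lt_of_lt_of_le one_pos h.K
  exact
  { meas := fun lam hl _ => ColdM.meas3_coldR P hl
    measS := fun lam hl _ => ColdM.meas3_coldSpill P hl
    measW := ColdM.meas3_warm P
    per := fun lam _ _ t v => ColdM.perG_coldR P lam t v
    le := fun lam hl _ t x v ht => ColdC.coldR_le hA hB hK hl ht x v
    supp := fun t x v ht hv => by
      by_contra h0
      have h1 : coldS P t x v ≠ 0 := by
        unfold coldS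
        intro h2
        rw [add_eq_zero] at h2
        exact h0 h2.2
      have := ColdW.norm_lt_of_coldS_ne hB ht h1
      linarith
    le_T1 := fun lam _ _ t x v ht htT => ColdT1.coldR_le_T1 hA h hok lam ht htT x v
    phi_le := fun lam hl hp t x v ht htT =>
      ColdT1.phi_le_coldR_of hA h hey hl ht htT (ColdC.coldR_duh hA hB hK hl hp ht x v)
    lip := fun lam lam' g hl hp hl' hp' T Δ hT hd hint hmono t x v ht htT => by
      have hLc : ∀ t x v, 0 < t → t ≤ T → coldS P t x v ≠ 0 →
          Lc (coldS P t x) v ≤ ENNReal.ofReal 1 := by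
        intro t x v ht htT hne
        obtain ⟨k, j, hz⟩ := ColdW.exists_of_coldS_ne hB ht.le hne
        refine (ColdT1.Lc_coldS_le_bj h hey ht.le (htT.trans hT) hz).trans ?_
        exact ENNReal.ofReal_le_ofReal (pow_le_one₀ (C.bj_pos j).le (C.bj_le_one j))
      have hmain := ColdL.cmp_main hA hB (sol_coldR hA hB hK T hl) (sol_coldR hA hB hK T hl')
        one_pos hLc (g := g) (Δ := Δ) ⟨hp, hp', hd, hint, hmono⟩ ht.le htT x v
      have he : ENNReal.ofReal (Real.exp (1 * t)) ≤ 2 := by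
        rw [one_mul]
        have h1 : Real.exp t ≤ 2 :=
          (Real.exp_le_exp.2 (htT.trans (hT.trans hT1))).trans exp_half_le_two
        calc ENNReal.ofReal (Real.exp t) ≤ ENNReal.ofReal 2 := ENNReal.ofReal_le_ofReal h1
          _ = 2 := by norm_num
      constructor
      · refine hmain.1.1.trans ?_
        gcongr
        exact ColdL.Maj_le_coldS P t x v
      · refine ColdSp.coldSpill_lip' h hA hey lam lam' hl' ht.le (htT.trans hT) x (Δ t x)
          (fun i w => ?_) v
        have h1 := (ColdL.cmp_main hA hB (sol_coldR hA hB hK T hl) (sol_coldR hA hB hK T hl')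
          one_pos hLc (g := g) (Δ := Δ) ⟨hp, hp', hd, hint, hmono⟩ ht.le htT x w).2 i.2 i.1
        refine h1.trans ?_
        gcongr
        · exact le_rfl
        · refine (ColdL.Wj_le hA ht.le _ w).trans ?_
          unfold ColdSp.cS
          refine add_le_add le_rfl (mul_le_of_le_one_left' ?_)
          rw [← ENNReal.ofReal_one]
          exact ENNReal.ofReal_le_ofReal (min_le_right _ _) }

/-- **Part C for the final parameters** -/
theorem ColdOutAll_holds {Y : ℝ} (hY : 1 ≤ Y) : ColdOutAll Y := by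
  intro K ey hK hey _
  filter_upwards [eventually_ge_atTop 512] with p hp
  filter_upwards [ev_ColdPar K Y ey p Cold.C0 hK hY hp, ev_ColdPar K Y ey p C.C0 hK hY hp,
    ev_T1_le (show (0 : ℝ) < 1 / 2 by norm_num)] with j0 hA h hT1
  exact coldOut_of hA h hey hT1

/-- **the cold input of Part N with its size** -/
theorem CKOut_holds : Main0.CKOut 10 :=
  CKOut_of (by norm_num) (ColdOutAll_holds (by norm_num)) warmSize_holds

end Crest.Agent.R68.KC
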