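import Mathlib
import Crest.Agent.R68.Sph2

-- ▼ part R68/Sph3
section

/-!
R68 / Sph3: the collision sphere (σ form of the hard sphere kernel), measurable frames (helper779).
-/

set_option autoImplicit false
open MeasureTheory Set Metric Submodule
open scoped ENNReal Real
open Crest.AnalysisR.VecCalc3 Crest.AnalysisR.PDE.Boltzmann

namespace Crest.Agent.R68

/-- the third basis vector -/
noncomputable def ez : R3 := vec3 0 0 1

theorem norm_ez : ‖ez‖ = 1 := by
  rw [ez, norm_vec3]; norm_num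

/-- a linear isometry (a reflection) taking `ez` to the unit vector `w`, explicit in `w` -/
noncomputable def rot (w : R3) : R3 ≃ₗᵢ[ℝ] R3 := (ℝ ∙ (ez - w))ᗮ.reflection

theorem rot_ez {w : R3} (hw : ‖w‖ = 1) : rot w ez = w :=
  reflection_sub (by rw [norm_ez, hw])

theorem rot_self {w : R3} (hw : ‖w‖ = 1) : rot w w = ez := by
  have h := rot_ez hw
  conv_lhs => rw [← h]
  conv_lhs => rw [h]
  have h2 : rot w (rot w ez) = ez := reflection_reflection _ _
  rw [h] at h2
  exact h2

theorem rot_rot (w x : R3) : rot w (rot w x) = x := reflection_reflection _ _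

theorem rot_apply (w x : R3) :
    rot w x = x - (2 * (inner ℝ (ez - w) x : ℝ) / ‖ez - w‖ ^ 2) • (ez - w) := by
  rw [rot, reflection_orthogonal_apply, reflection_singleton_apply]
  simp only [RCLike.ofReal_real_eq_id, id_eq]
  module

theorem measurable_rot : Measurable fun p : R3 × R3 => rot p.1 p.2 := by
  simp_rw [rot_apply]
  fun_prop

theorem inner_rot (w x y : R3) : inner ℝ (rot w x) (rot w y) = (inner ℝ x y : ℝ) :=
  (rot w).inner_map_map x y

theorem norm_rot (w x : R3) : ‖rot w x‖ = ‖x‖ := (rot w).norm_map x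

theorem inner_ez (x : R3) : (inner ℝ ez x : ℝ) = x 2 := by
  rw [← vec3_eta x, ez, inner_vec3]; simp

theorem cyl_two (t φ : ℝ) : cyl t φ 2 = t := by
  rw [cyl]; rfl

theorem lintegral_sphere_neg {G : R3 → ℝ≥0∞} (hG : Measurable G) :
    ∫⁻ w, G (-w) ∂sphereMeasure = ∫⁻ w, G w ∂sphereMeasure :=
  lintegral_sphere_isometry (LinearIsometryEquiv.neg ℝ) hG

/-- even functions vanishing on the equator: twice the upper half sphere -/
theorem lintegral_sphere_even {G : R3 → ℝ≥0∞} (hG : Measurable G) (hev : ∀ w, G (-w) = G w)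
    (h0 : ∀ w : R3, w 2 = 0 → G w = 0) :
    ∫⁻ w, G w ∂sphereMeasure = 2 * ∫⁻ t in Ioo (0 : ℝ) 1, ∫⁻ φ in Ioo (-π) π, G (cyl t φ) := by
  have hU : MeasurableSet {w : R3 | 0 < w 2} := measurableSet_lt measurable_const (by fun_prop)
  have hm : Measurable ({w : R3 | 0 < w 2}.indicator G) := hG.indicator hU
  have h1 : ∀ w, G w = {w : R3 | 0 < w 2}.indicator G w + {w : R3 | 0 < w 2}.indicator G (-w) := by
    intro w
    rcases lt_trichotomy (w 2) 0 with h | h | h
    · rw [indicator_of_notMem (show w ∉ {w : R3 | 0 < w 2} from not_lt.2 h.le),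
        indicator_of_mem (show -w ∈ {w : R3 | 0 < w 2} by simpa using h), hev, zero_add]
    · rw [indicator_of_notMem (show w ∉ {w : R3 | 0 < w 2} from not_lt.2 h.le),
        indicator_of_notMem (show -w ∉ {w : R3 | 0 < w 2} by simp [h]), h0 w h, zero_add]
    · rw [indicator_of_mem (show w ∈ {w : R3 | 0 < w 2} from h),
        indicator_of_notMem (show -w ∉ {w : R3 | 0 < w 2} by simpa using h.le), add_zero]
  rw [lintegral_congr h1, lintegral_add_left hm, lintegral_sphere_neg hm, ← two_mul,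
    lintegral_sphere_cyl hm]
  congr 1
  have h2 : ∀ t : ℝ, (∫⁻ φ in Ioo (-π) π, {w : R3 | 0 < w 2}.indicator G (cyl t φ))
      = (Ioi (0 : ℝ)).indicator (fun t => ∫⁻ φ in Ioo (-π) π, G (cyl t φ)) t := by
    intro t
    by_cases h : 0 < t
    · rw [indicator_of_mem (show t ∈ Ioi (0 : ℝ) from h)]
      refine lintegral_congr fun φ => ?_
      rw [indicator_of_mem]
      show 0 < cyl t φ 2
      rw [cyl_two]; exact h
    · rw [indicator_of_notMem (show t ∉ Ioi (0 : ℝ) from h)]
      rw [lintegral_eq_zero_iff' (by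
        apply Measurable.aemeasurable
        exact hm.comp (measurable_cyl.comp measurable_prodMk_left))]
      refine Filter.Eventually.of_forall fun φ => ?_
      show {w : R3 | 0 < w 2}.indicator G (cyl t φ) = 0
      rw [indicator_of_notMem]
      show ¬ 0 < cyl t φ 2
      rw [cyl_two]; exact h
  simp_rw [h2]
  rw [lintegral_indicator measurableSet_Ioi, Measure.restrict_restrict measurableSet_Ioi]
  congr 2
  ext t
  simp only [mem_inter_iff, mem_Ioi, mem_Ioo]
  constructor
  · rintro ⟨a, b, c⟩; exact ⟨a, c⟩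
  · rintro ⟨a, b⟩; exact ⟨a, by linarith, b⟩

theorem lintegral_double_angle {g : ℝ → ℝ≥0∞} :
    ∫⁻ c in Ioo (-1 : ℝ) 1, g c = ∫⁻ t in Ioo (0 : ℝ) 1, ENNReal.ofReal (4 * t) * g (2 * t ^ 2 - 1) := by
  have himg : (fun t : ℝ => 2 * t ^ 2 - 1) '' Ioo 0 1 = Ioo (-1 : ℝ) 1 := by
    ext c
    constructor
    · rintro ⟨t, ht, rfl⟩
      constructor
      · have := pow_pos ht.1 2
        linarith
      · have : t ^ 2 < 1 := by nlinarith [ht.1, ht.2]
        linarith
    · intro hc
      refine ⟨√((1 + c) / 2), ⟨Real.sqrt_pos.2 (by linarith [hc.1]), ?_⟩, ?_⟩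
      · rw [Real.sqrt_lt' one_pos]; linarith [hc.2]
      · beta_reduce
        rw [Real.sq_sqrt (by linarith [hc.1])]; ring
  rw [← himg, lintegral_image_eq_lintegral_abs_deriv_mul (f' := fun t => 4 * t) measurableSet_Ioo]
  · refine setLIntegral_congr_fun measurableSet_Ioo fun t ht => ?_
    beta_reduce
    rw [abs_of_pos (by linarith [ht.1])]
  · intro t _
    have h : HasDerivAt (fun t : ℝ => 2 * t ^ 2 - 1) (2 * (((2 : ℕ) : ℝ) * t ^ (2 - 1))) t :=
      ((hasDerivAt_pow 2 t).const_mul 2).sub_const 1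
    have h' : HasDerivAt (fun t : ℝ => 2 * t ^ 2 - 1) (4 * t) t := by
      convert h using 1
      norm_num; ring
    exact h'.hasDerivWithinAt
  · intro a ha b hb hab
    have h1 : (a - b) * (a + b) = 0 := by
      have : 2 * a ^ 2 - 1 = 2 * b ^ 2 - 1 := hab
      nlinarith
    rcases mul_eq_zero.1 h1 with h | h
    · linarith
    · linarith [ha.1, hb.1]

theorem half_add_cyl {t : ℝ} (ht : t ∈ Ioo (0 : ℝ) 1) (φ : ℝ) :
    (1 / 2 : ℝ) • (ez + cyl (2 * t ^ 2 - 1) φ) = t • cyl t φ := by
  have h0 : 0 ≤ 1 - t ^ 2 := by nlinarith [ht.1, ht.2]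
  have h1 : √(1 - (2 * t ^ 2 - 1) ^ 2) = 2 * t * √(1 - t ^ 2) := by
    rw [show 1 - (2 * t ^ 2 - 1) ^ 2 = (2 * t) ^ 2 * (1 - t ^ 2) by ring,
      Real.sqrt_mul (by positivity), Real.sqrt_sq (by linarith [ht.1])]
  rw [ez, cyl, cyl, vec3_add, vec3_smul, vec3_smul, h1]
  congr 1 <;> ring

theorem ofReal_two_mul (x : ℝ) : ENNReal.ofReal (2 * x) = 2 * ENNReal.ofReal x := by
  rw [ENNReal.ofReal_mul (by norm_num)]; simp

/-- the σ form for relative velocity along `ez` -/
theorem lintegral_sigma_ez {ρ : ℝ} (hρ : 0 ≤ ρ) {F : R3 → ℝ≥0∞} (hF : Measurable F) :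
    ∫⁻ w, ENNReal.ofReal |inner ℝ (ρ • ez) w| * F ((inner ℝ (ρ • ez) w : ℝ) • w) ∂sphereMeasure
      = ENNReal.ofReal (ρ / 2) *
        ∫⁻ s, F ((1 / 2 : ℝ) • (ρ • ez + ρ • s)) ∂sphereMeasure := by
  have hin : ∀ w : R3, (inner ℝ (ρ • ez) w : ℝ) = ρ * w 2 := by
    intro w; rw [real_inner_smul_left, inner_ez]
  simp_rw [hin]
  have hG : Measurable fun w : R3 => ENNReal.ofReal |ρ * w 2| * F ((ρ * w 2) • w) := by
    apply Measurable.mul (by fun_prop)
    exact hF.comp (by fun_prop)
  rw [lintegral_sphere_even hG]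
  · have hFm : Measurable fun s : R3 => F ((1 / 2 : ℝ) • (ρ • ez + ρ • s)) := hF.comp (by fun_prop)
    rw [lintegral_sphere_cyl hFm, lintegral_double_angle, ← lintegral_const_mul, ← lintegral_const_mul]
    · refine setLIntegral_congr_fun measurableSet_Ioo fun t ht => ?_
      beta_reduce
      have hmt : Measurable fun φ : ℝ => F ((ρ * t) • cyl t φ) := by
        have h0 : Measurable fun φ : ℝ => cyl t φ := measurable_cyl.comp measurable_prodMk_left
        have h00 : Measurable fun φ : ℝ => (ρ * t) • cyl t φ := by fun_prop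
        exact hF.comp h00
      have h3 : ∀ φ : ℝ, (1 / 2 : ℝ) • (ρ • ez + ρ • cyl (2 * t ^ 2 - 1) φ) = (ρ * t) • cyl t φ := by
        intro φ
        rw [← smul_add, smul_comm, half_add_cyl ht, smul_smul]
      simp_rw [h3, cyl_two]
      rw [lintegral_const_mul _ hmt, ← mul_assoc, ← mul_assoc, ← ENNReal.ofReal_mul (by positivity),
        abs_of_nonneg (mul_nonneg hρ ht.1.le), ← ofReal_two_mul]
      congr 2
      ring
    · apply Measurable.mul (by fun_prop)
      have h5 : Measurable fun q : ℝ × ℝ => F ((1 / 2 : ℝ) • (ρ • ez + ρ • cyl (2 * q.1 ^ 2 - 1) q.2)) := by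
        have h6 : Measurable fun q : ℝ × ℝ => cyl (2 * q.1 ^ 2 - 1) q.2 :=
          measurable_cyl.comp
            (((measurable_fst.pow_const 2).const_mul 2).sub_const 1 |>.prodMk measurable_snd)
        have h7 : Measurable fun q : ℝ × ℝ =>
            (1 / 2 : ℝ) • (ρ • ez + ρ • cyl (2 * q.1 ^ 2 - 1) q.2) := by fun_prop
        exact hF.comp h7
      exact h5.lintegral_prod_right'
    · have h5 : Measurable fun q : ℝ × ℝ => ENNReal.ofReal |ρ * cyl q.1 q.2 2| *
          F ((ρ * cyl q.1 q.2 2) • cyl q.1 q.2) := hG.comp measurable_cyl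
      exact h5.lintegral_prod_right'
  · intro w
    simp only [PiLp.neg_apply, mul_neg, abs_neg, neg_smul, smul_neg, neg_neg]
  · intro w hw
    simp [hw]

/-- **σ form of the hard sphere kernel**: `⟨g,ω⟩ω` runs twice over the sphere with diameter `[0,g]` -/
theorem lintegral_sigma (g : R3) {F : R3 → ℝ≥0∞} (hF : Measurable F) :
    ∫⁻ w, ENNReal.ofReal |inner ℝ g w| * F ((inner ℝ g w : ℝ) • w) ∂sphereMeasure
      = ENNReal.ofReal (‖g‖ / 2) *
        ∫⁻ s, F ((1 / 2 : ℝ) • (g + ‖g‖ • s)) ∂sphereMeasure := by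
  by_cases hg : g = 0
  · subst hg; simp
  set u : R3 := ‖g‖⁻¹ • g with hu
  have hun : ‖u‖ = 1 := by
    rw [hu, norm_smul, norm_inv, norm_norm, inv_mul_cancel₀ (norm_ne_zero_iff.2 hg)]
  have hgu : g = ‖g‖ • u := by
    rw [hu, smul_smul, mul_inv_cancel₀ (norm_ne_zero_iff.2 hg), one_smul]
  set L := rot u with hL
  have hLg : L (‖g‖ • ez) = g := by
    rw [hL, map_smul, rot_ez hun, ← hgu]
  have hFL : Measurable fun x => F (L x) := hF.comp L.continuous.measurable
  have h1 := lintegral_sigma_ez (norm_nonneg g) hFL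
  have hm1 : Measurable fun w : R3 => ENNReal.ofReal |inner ℝ g w| * F ((inner ℝ g w : ℝ) • w) := by
    apply Measurable.mul (by fun_prop)
    exact hF.comp (by fun_prop)
  have hm2 : Measurable fun s : R3 => F ((1 / 2 : ℝ) • (g + ‖g‖ • s)) := hF.comp (by fun_prop)
  rw [← lintegral_sphere_isometry L hm1, ← lintegral_sphere_isometry L hm2]
  convert h1 using 1
  · refine lintegral_congr fun w => ?_
    have h2 : (inner ℝ g (L w) : ℝ) = inner ℝ (‖g‖ • ez) w := by
      conv_lhs => rw [← hLg]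
      exact L.inner_map_map _ _
    rw [h2, map_smul]
  · congr 1
    refine lintegral_congr fun s => ?_
    congr 1
    rw [map_smul, map_add, hLg, map_smul]

end Crest.Agent.R68
end

-- ▼ part R68/Sph4

/-!
R68 / Sph4: Archimedes' theorem in every direction, moments of the sphere measure, total
collision rate, means over the collision sphere (helper779).
-/

set_option autoImplicit false
open MeasureTheory Set Metric Submodule
open scoped ENNReal Real
open Crest.AnalysisR.VecCalc3 Crest.AnalysisR.PDE.Boltzmann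

namespace Crest.Agent.R68

theorem volume_Ioo_pi : volume (Ioo (-π) π) = ENNReal.ofReal (2 * π) := by
  rw [Real.volume_Ioo]; congr 1; ring

/-- **Archimedes** for the third coordinate -/
theorem lintegral_sphere_ez {f : ℝ → ℝ≥0∞} (hf : Measurable f) :
    ∫⁻ w, f (inner ℝ ez w) ∂sphereMeasure = ENNReal.ofReal (2 * π) * ∫⁻ t in Ioo (-1 : ℝ) 1, f t := by
  have hm : Measurable fun w : R3 => f (inner ℝ ez w) := hf.comp (by fun_prop)
  rw [lintegral_sphere_cyl hm, ← lintegral_const_mul _ hf]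
  refine setLIntegral_congr_fun measurableSet_Ioo fun t _ => ?_
  simp_rw [inner_ez, cyl_two]
  rw [lintegral_const, Measure.restrict_apply_univ, volume_Ioo_pi, mul_comm]

/-- **Archimedes**: every component of a uniform point of the sphere is uniform on `(-1,1)` -/
theorem lintegral_sphere_inner {e : R3} (he : ‖e‖ = 1) {f : ℝ → ℝ≥0∞} (hf : Measurable f) :
    ∫⁻ w, f (inner ℝ e w) ∂sphereMeasure = ENNReal.ofReal (2 * π) * ∫⁻ t in Ioo (-1 : ℝ) 1, f t := by
  have hm : Measurable fun w : R3 => f (inner ℝ e w) := hf.comp (by fun_prop)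
  rw [← lintegral_sphere_isometry (rot e) hm, ← lintegral_sphere_ez hf]
  refine lintegral_congr fun w => ?_
  congr 1
  have h := inner_rot e ez w
  rwa [rot_ez he] at h

theorem integral_sphere_inner {e : R3} (he : ‖e‖ = 1) {E : Type*} [NormedAddCommGroup E]
    [NormedSpace ℝ E] (f : ℝ → E) (hf : StronglyMeasurable f) :
    ∫ w, f (inner ℝ e w) ∂sphereMeasure = (2 * π) • ∫ t in Ioo (-1 : ℝ) 1, f t := by
  have hmp : sphereMeasure.map (fun w : R3 => (inner ℝ e w : ℝ))
      = (ENNReal.ofReal (2 * π)) • (volume.restrict (Ioo (-1 : ℝ) 1)) := by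
    ext s hs
    rw [Measure.map_apply (by fun_prop) hs, Measure.smul_apply, smul_eq_mul]
    have h := lintegral_sphere_inner he (f := s.indicator 1) (measurable_one.indicator hs)
    rw [lintegral_indicator_one hs] at h
    rw [← h, ← lintegral_indicator_one (by exact (show Measurable fun w : R3 => (inner ℝ e w : ℝ) by fun_prop) hs)]
    rfl
  have h1 : ∫ w, f (inner ℝ e w) ∂sphereMeasure
      = ∫ t, f t ∂(sphereMeasure.map (fun w : R3 => (inner ℝ e w : ℝ))) := by
    rw [integral_map (by fun_prop) hf.aestronglyMeasurable]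
  rw [h1, hmp, integral_smul_measure, ENNReal.toReal_ofReal (by positivity)]

/-- bounded measurable functions are integrable on the sphere -/
theorem integrable_sphere_of_bounded {f : R3 → ℝ} (hf : Measurable f) {C : ℝ}
    (hC : ∀ w : R3, ‖w‖ = 1 → |f w| ≤ C) : Integrable f sphereMeasure := by
  refine Integrable.mono' (integrable_const C) hf.aestronglyMeasurable ?_
  filter_upwards [ae_sphereMeasure] with w hw
  rw [Real.norm_eq_abs]; exact hC w hw

theorem abs_inner_le_of_unit {w : R3} (hw : ‖w‖ = 1) (a : R3) : |(inner ℝ a w : ℝ)| ≤ ‖a‖ := by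
  have := abs_real_inner_le_norm a w
  rwa [hw, mul_one] at this

theorem integrable_inner_sphere (a : R3) :
    Integrable (fun w : R3 => (inner ℝ a w : ℝ)) sphereMeasure :=
  integrable_sphere_of_bounded (by fun_prop) fun _ hw => abs_inner_le_of_unit hw a

theorem integrable_inner_mul_sphere (a b : R3) :
    Integrable (fun w : R3 => (inner ℝ a w : ℝ) * inner ℝ b w) sphereMeasure := by
  refine integrable_sphere_of_bounded (C := ‖a‖ * ‖b‖) (by fun_prop) fun w hw => ?_
  rw [abs_mul]
  exact mul_le_mul (abs_inner_le_of_unit hw a) (abs_inner_le_of_unit hw b) (abs_nonneg _)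
    (norm_nonneg _)

theorem sphereMeasure_real_univ : sphereMeasure.real (univ : Set R3) = 4 * π := by
  rw [Measure.real, sphereMeasure_univ, ENNReal.toReal_ofReal (by positivity)]

theorem integral_one_sphere (c : ℝ) : ∫ _, c ∂sphereMeasure = 4 * π * c := by
  rw [integral_const, sphereMeasure_real_univ, smul_eq_mul]

/-- first moments vanish -/
theorem integral_inner_sphere (a : R3) : ∫ w, (inner ℝ a w : ℝ) ∂sphereMeasure = 0 := by
  have hmp := measurePreserving_sphere_isometry (LinearIsometryEquiv.neg ℝ)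
  have h : ∫ w, (inner ℝ a w : ℝ) ∂sphereMeasure = ∫ w, (inner ℝ a (-w) : ℝ) ∂sphereMeasure :=
    (hmp.integral_comp (LinearIsometryEquiv.neg ℝ (E := R3)).toHomeomorph.measurableEmbedding
      (fun w => (inner ℝ a w : ℝ))).symm
  simp only [inner_neg_right] at h
  rw [integral_neg] at h
  linarith

theorem integral_sq_Ioo : ∫ t in Ioo (-1 : ℝ) 1, t ^ 2 = 2 / 3 := by
  rw [← integral_Ioc_eq_integral_Ioo, ← intervalIntegral.integral_of_le (by norm_num), integral_pow]
  norm_num

theorem integral_inner_sq_unit {e : R3} (he : ‖e‖ = 1) :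
    ∫ w, (inner ℝ e w : ℝ) ^ 2 ∂sphereMeasure = 4 * π / 3 := by
  rw [integral_sphere_inner he (fun t : ℝ => t ^ 2) (by fun_prop), integral_sq_Ioo, smul_eq_mul]
  ring

theorem integral_inner_sq_sphere (a : R3) :
    ∫ w, (inner ℝ a w : ℝ) ^ 2 ∂sphereMeasure = 4 * π / 3 * ‖a‖ ^ 2 := by
  by_cases ha : a = 0
  · subst ha; simp
  have hn : ‖a‖ ≠ 0 := norm_ne_zero_iff.2 ha
  have h1 : ∀ w : R3, (inner ℝ a w : ℝ) ^ 2 = ‖a‖ ^ 2 * (inner ℝ (‖a‖⁻¹ • a) w : ℝ) ^ 2 := by
    intro w
    rw [real_inner_smul_left]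
    field_simp
  simp_rw [h1]
  rw [integral_const_mul, integral_inner_sq_unit]
  · ring
  · rw [norm_smul, norm_inv, norm_norm, inv_mul_cancel₀ hn]

/-- second moments -/
theorem integral_inner_mul_sphere (a b : R3) :
    ∫ w, (inner ℝ a w : ℝ) * inner ℝ b w ∂sphereMeasure = 4 * π / 3 * inner ℝ a b := by
  have h1 := integral_inner_sq_sphere (a + b)
  have h2 : ∀ w : R3, (inner ℝ (a + b) w : ℝ) ^ 2
      = (inner ℝ a w : ℝ) ^ 2 + 2 * ((inner ℝ a w : ℝ) * inner ℝ b w) + (inner ℝ b w : ℝ) ^ 2 := by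
    intro w; rw [inner_add_left]; ring
  simp_rw [h2] at h1
  have ia : Integrable (fun w : R3 => (inner ℝ a w : ℝ) ^ 2) sphereMeasure := by
    simpa [pow_two] using integrable_inner_mul_sphere a a
  have ib : Integrable (fun w : R3 => (inner ℝ b w : ℝ) ^ 2) sphereMeasure := by
    simpa [pow_two] using integrable_inner_mul_sphere b b
  have iab := integrable_inner_mul_sphere a b
  have h3 : ∫ w, ((inner ℝ a w : ℝ) ^ 2 + 2 * ((inner ℝ a w : ℝ) * inner ℝ b w)
      + (inner ℝ b w : ℝ) ^ 2) ∂sphereMeasure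
      = ∫ w, (inner ℝ a w : ℝ) ^ 2 ∂sphereMeasure
        + 2 * ∫ w, (inner ℝ a w : ℝ) * inner ℝ b w ∂sphereMeasure
        + ∫ w, (inner ℝ b w : ℝ) ^ 2 ∂sphereMeasure := by
    have e1 := integral_add (ia.add (iab.const_mul 2)) ib
    have e2 := integral_add ia (iab.const_mul 2)
    have e3 := integral_const_mul (μ := sphereMeasure) (2 : ℝ)
      (fun w : R3 => (inner ℝ a w : ℝ) * inner ℝ b w)
    simp only [Pi.add_apply] at e1 e2
    rw [e1, e2, e3]
  rw [h3, integral_inner_sq_sphere, integral_inner_sq_sphere, norm_add_sq_real] at h1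
  linarith

/-- total hard sphere rate -/
theorem lintegral_abs_inner (g : R3) :
    ∫⁻ w, ENNReal.ofReal |inner ℝ g w| ∂sphereMeasure = ENNReal.ofReal (2 * π * ‖g‖) := by
  have h := lintegral_sigma g (F := fun _ => 1) measurable_const
  simp only [mul_one, lintegral_const, one_mul] at h
  rw [h, sphereMeasure_univ, ← ENNReal.ofReal_mul (by positivity)]
  congr 1; ring

theorem lintegral_abs_inner_mul (g : R3) (c : ℝ≥0∞) :
    ∫⁻ w, ENNReal.ofReal |inner ℝ g w| * c ∂sphereMeasure = ENNReal.ofReal (2 * π * ‖g‖) * c := by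
  rw [lintegral_mul_const _ (by fun_prop), lintegral_abs_inner]

/-- σ form, Bochner version -/
theorem integral_sigma (g : R3) (f : R3 → ℝ) (hf : Measurable f) :
    ∫ w, |(inner ℝ g w : ℝ)| * f ((inner ℝ g w : ℝ) • w) ∂sphereMeasure
      = ‖g‖ / 2 * ∫ s, f ((1 / 2 : ℝ) • (g + ‖g‖ • s)) ∂sphereMeasure := by
  have hmw : Measurable fun w : R3 => ENNReal.ofReal |(inner ℝ g w : ℝ)| := by fun_prop
  have hT : Measurable fun w : R3 => (inner ℝ g w : ℝ) • w := by fun_prop
  have hS : Measurable fun s : R3 => (1 / 2 : ℝ) • (g + ‖g‖ • s) := by fun_prop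
  have hmap : (sphereMeasure.withDensity fun w : R3 => ENNReal.ofReal |(inner ℝ g w : ℝ)|).map
      (fun w : R3 => (inner ℝ g w : ℝ) • w)
      = ENNReal.ofReal (‖g‖ / 2) • sphereMeasure.map (fun s : R3 => (1 / 2 : ℝ) • (g + ‖g‖ • s)) := by
    ext A hA
    rw [Measure.map_apply hT hA, withDensity_apply _ (hT hA), Measure.smul_apply,
      Measure.map_apply hS hA, smul_eq_mul]
    have h := lintegral_sigma g (F := A.indicator 1) (measurable_one.indicator hA)
    rw [← lintegral_indicator (hT hA), ← lintegral_indicator_one (hS hA)]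
    refine Eq.trans (lintegral_congr fun w => ?_) h
    by_cases hw : (inner ℝ g w : ℝ) • w ∈ A
    · rw [indicator_of_mem (by exact hw), indicator_of_mem hw]; simp
    · rw [indicator_of_notMem (by exact hw), indicator_of_notMem hw]; simp
  have hL : ∫ w, |(inner ℝ g w : ℝ)| * f ((inner ℝ g w : ℝ) • w) ∂sphereMeasure
      = ∫ w, f ((inner ℝ g w : ℝ) • w)
        ∂(sphereMeasure.withDensity fun w : R3 => ENNReal.ofReal |(inner ℝ g w : ℝ)|) := by
    rw [integral_withDensity_eq_integral_toReal_smul hmw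
      (Filter.Eventually.of_forall fun w => ENNReal.ofReal_lt_top)]
    refine integral_congr_ae (Filter.Eventually.of_forall fun w => ?_)
    simp [abs_nonneg]
  rw [hL, ← integral_map hT.aemeasurable hf.aestronglyMeasurable, hmap, integral_smul_measure,
    integral_map hS.aemeasurable hf.aestronglyMeasurable, ENNReal.toReal_ofReal (by positivity),
    smul_eq_mul]

end Crest.Agent.R68
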