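import Mathlib
import Crest.Agent.R68.Carl2
import Crest.Agent.R68.Defs

-- ▼ part R68/WK1
section

/-!
R68 / WK1 (helper330, Part W): Carleman representation for coupled products, exchange symmetry of
the hard-sphere gain integral.
-/

set_option autoImplicit false
open MeasureTheory Set Metric Submodule
open scoped ENNReal Real
open Crest.AnalysisR.VecCalc3 Crest.AnalysisR.PDE.Boltzmann

namespace Crest.Agent.R68.WK

attribute [local irreducible] rot vec3

/-- general gain integral of a function of the two incoming velocities -/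
noncomputable def Qg (Φ : R3 → R3 → ℝ≥0∞) (v : R3) : ℝ≥0∞ :=
  ∫⁻ vs, ∫⁻ w, ENNReal.ofReal |inner ℝ (v - vs) w| * Φ (postVel v vs w) (postVelStar v vs w)
    ∂sphereMeasure

theorem measurable_Qg_integrand {Φ : R3 → R3 → ℝ≥0∞}
    (hΦ : Measurable fun q : R3 × R3 => Φ q.1 q.2) (v : R3) :
    Measurable fun q : R3 × R3 =>
      ENNReal.ofReal |inner ℝ (v - q.1) q.2| * Φ (postVel v q.1 q.2) (postVelStar v q.1 q.2) := by
  have h1 : Measurable fun q : R3 × R3 => (postVel v q.1 q.2, postVelStar v q.1 q.2) := by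
    unfold postVel postVelStar
    fun_prop
  exact Measurable.mul (by fun_prop) (hΦ.comp h1)

theorem measurable_Qg_slice {Φ : R3 → R3 → ℝ≥0∞}
    (hΦ : Measurable fun q : R3 × R3 => Φ q.1 q.2) (v w : R3) :
    Measurable fun vs : R3 =>
      ENNReal.ofReal |inner ℝ (v - vs) w| * Φ (postVel v vs w) (postVelStar v vs w) := by
  have h1 : Measurable fun vs : R3 => (postVel v vs w, postVelStar v vs w) := by
    unfold postVel postVelStar
    fun_prop
  have h2 := hΦ.comp h1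
  exact Measurable.mul (by fun_prop) h2

theorem measurable_Qg_slice' {Φ : R3 → R3 → ℝ≥0∞}
    (hΦ : Measurable fun q : R3 × R3 => Φ q.1 q.2) (v vs : R3) :
    Measurable fun w : R3 =>
      ENNReal.ofReal |inner ℝ (v - vs) w| * Φ (postVel v vs w) (postVelStar v vs w) := by
  have h1 : Measurable fun w : R3 => (postVel v vs w, postVelStar v vs w) := by
    unfold postVel postVelStar
    fun_prop
  have h2 := hΦ.comp h1
  exact Measurable.mul (by fun_prop) h2

theorem Qg_gain_dir {Φ : R3 → R3 → ℝ≥0∞} (hΦ : Measurable fun q : R3 × R3 => Φ q.1 q.2) (v : R3)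
    {w : R3} (hw : ‖w‖ = 1) :
    ∫⁻ vs, ENNReal.ofReal |inner ℝ (v - vs) w| * Φ (postVel v vs w) (postVelStar v vs w)
      = ∫⁻ s : ℝ, ENNReal.ofReal |s| * planeInt (Φ (v + s • w)) v w := by
  have hm : Measurable fun vs : R3 =>
      ENNReal.ofReal |inner ℝ (v - vs) w| * Φ (postVel v vs w) (postVelStar v vs w) :=
    measurable_Qg_slice hΦ v w
  rw [lintegral_frame (rot w) v hm]
  refine lintegral_congr fun s => ?_
  have hin : ∀ p : ℝ × ℝ, (inner ℝ (v - (v + rot w (vec3 p.1 p.2 s))) w : ℝ) = -s := by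
    intro p
    have h1 : v - (v + rot w (vec3 p.1 p.2 s)) = - rot w (vec3 p.1 p.2 s) := by abel
    have h2 : (inner ℝ (rot w (vec3 p.1 p.2 s)) w : ℝ) = s := by
      have h3 := inner_rot w (vec3 p.1 p.2 s) ez
      rw [rot_ez hw] at h3
      rw [h3, real_inner_comm, inner_ez, vec3_two]
    rw [h1, inner_neg_left, h2]
  have hp : ∀ p : ℝ × ℝ, v + rot w (vec3 p.1 p.2 s) + (-s) • w = v + rot w (vec3 p.1 p.2 0) := by
    intro p
    have h : (-s) • w = rot w ((-s) • ez) := by rw [map_smul, rot_ez hw]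
    rw [add_assoc, h, ← map_add]
    congr 2
    apply vec3_ext <;> simp [ez]
  have hval : ∀ p : ℝ × ℝ, ENNReal.ofReal |inner ℝ (v - (v + rot w (vec3 p.1 p.2 s))) w| *
      Φ (postVel v (v + rot w (vec3 p.1 p.2 s)) w) (postVelStar v (v + rot w (vec3 p.1 p.2 s)) w)
      = ENNReal.ofReal |s| * Φ (v + s • w) (v + rot w (vec3 p.1 p.2 0)) := by
    intro p
    rw [postVel, postVelStar, hin, abs_neg, hp, neg_smul, sub_neg_eq_add]
  simp_rw [hval]
  rw [lintegral_const_mul, planeInt]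
  have hB : Measurable fun p : ℝ × ℝ => (v + s • w, v + rot w (vec3 p.1 p.2 0)) := by
    refine measurable_const.prodMk (measurable_const.add ?_)
    exact (rot w).continuous.measurable.comp (by fun_prop)
  exact hΦ.comp hB

/-- **Carleman representation**, general function of the incoming pair -/
theorem Qg_carleman {Φ : R3 → R3 → ℝ≥0∞} (hΦ : Measurable fun q : R3 × R3 => Φ q.1 q.2) (v : R3) :
    Qg Φ v = 2 * ∫⁻ z, ENNReal.ofReal ‖z‖⁻¹ * planeInt (Φ (v + z)) v (‖z‖⁻¹ • z) := by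
  have hm := measurable_Qg_integrand hΦ v
  unfold Qg
  rw [lintegral_lintegral_swap hm.aemeasurable]
  have h1 : ∫⁻ w, (∫⁻ vs, ENNReal.ofReal |inner ℝ (v - vs) w| * Φ (postVel v vs w)
        (postVelStar v vs w)) ∂sphereMeasure
      = ∫⁻ w, (∫⁻ s : ℝ, ENNReal.ofReal |s| * planeInt (Φ (v + s • w)) v w) ∂sphereMeasure := by
    refine lintegral_congr_ae ?_
    filter_upwards [ae_sphereMeasure] with w hw
    exact Qg_gain_dir hΦ v hw
  rw [h1]
  -- joint measurability of the plane integral in all parameters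
  have hP3 : Measurable fun q : R3 × R3 => planeInt (Φ (v + q.1)) v q.2 := by
    have hA : Measurable fun q : (R3 × R3) × (ℝ × ℝ) => (q.1.2, vec3 q.2.1 q.2.2 0) := by fun_prop
    have hB : Measurable fun q : (R3 × R3) × (ℝ × ℝ) => rot q.1.2 (vec3 q.2.1 q.2.2 0) :=
      measurable_rot.comp hA
    have hC : Measurable fun q : (R3 × R3) × (ℝ × ℝ) =>
        (v + q.1.1, v + rot q.1.2 (vec3 q.2.1 q.2.2 0)) :=
      Measurable.prodMk (by fun_prop) (measurable_const.add hB)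
    have h1 : Measurable fun q : (R3 × R3) × (ℝ × ℝ) =>
        Φ (v + q.1.1) (v + rot q.1.2 (vec3 q.2.1 q.2.2 0)) := hΦ.comp hC
    exact h1.lintegral_prod_right' (ν := (volume : Measure (ℝ × ℝ)))
  have hslice : ∀ a : R3, Measurable (Φ a) := fun a => hΦ.comp (measurable_const.prodMk measurable_id)
  have hmp : Measurable fun q : R3 × ℝ =>
      ENNReal.ofReal q.2 * planeInt (Φ (v + q.2 • q.1)) v q.1 := by
    apply Measurable.mul (by fun_prop)
    exact hP3.comp (Measurable.prodMk (by fun_prop) measurable_fst)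
  set A : R3 → ℝ≥0∞ := fun w =>
    ∫⁻ s in Ioi (0 : ℝ), ENNReal.ofReal s * planeInt (Φ (v + s • w)) v w with hA
  have hAm : Measurable A := by
    rw [hA]; exact hmp.lintegral_prod_right'
  have h2 : ∫⁻ w, (∫⁻ s : ℝ, ENNReal.ofReal |s| * planeInt (Φ (v + s • w)) v w) ∂sphereMeasure
      = ∫⁻ w, (A w + A (-w)) ∂sphereMeasure := by
    refine lintegral_congr_ae ?_
    filter_upwards [ae_sphereMeasure] with w hw
    have e1 : ∫⁻ s in Ioi (0 : ℝ), ENNReal.ofReal |s| * planeInt (Φ (v + s • w)) v w = A w := by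
      rw [hA]
      refine setLIntegral_congr_fun (measurableSet_Ioi (a := (0 : ℝ))) fun s hs => ?_
      beta_reduce
      rw [abs_of_pos hs]
    have e2 : ∫⁻ s in Ioi (0 : ℝ), ENNReal.ofReal |(-s)| * planeInt (Φ (v + (-s) • w)) v w
        = A (-w) := by
      rw [hA]
      refine setLIntegral_congr_fun (measurableSet_Ioi (a := (0 : ℝ))) fun s hs => ?_
      beta_reduce
      rw [abs_neg, abs_of_pos hs, planeInt_neg (hslice _) v hw, neg_smul, smul_neg]
    rw [lintegral_line_split, e1, e2]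
  rw [h2, lintegral_add_left hAm, lintegral_sphere_neg hAm, ← two_mul]
  congr 1
  have hmz : Measurable fun z : R3 => ENNReal.ofReal ‖z‖⁻¹ * planeInt (Φ (v + z)) v (‖z‖⁻¹ • z) := by
    apply Measurable.mul (by fun_prop)
    exact hP3.comp (Measurable.prodMk measurable_id (by fun_prop))
  rw [lintegral_polar' hmz]
  refine lintegral_congr_ae ?_
  filter_upwards [ae_sphereMeasure] with w hw
  refine setLIntegral_congr_fun measurableSet_Ioi fun r hr => ?_
  beta_reduce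
  have hr0 : (0 : ℝ) < r := hr
  have hn : ‖r • w‖ = r := by rw [norm_smul, hw, Real.norm_of_nonneg hr0.le, mul_one]
  rw [hn, smul_smul, inv_mul_cancel₀ hr0.ne', one_smul, ← mul_assoc, ← ENNReal.ofReal_mul (by positivity)]
  congr 2
  field_simp

/-- exchange symmetry of the gain integral -/
theorem Qg_swap {Φ : R3 → R3 → ℝ≥0∞} (hΦ : Measurable fun q : R3 × R3 => Φ q.1 q.2) (v : R3) :
    Qg (fun a b => Φ b a) v = Qg Φ v := by
  unfold Qg
  refine lintegral_congr fun vs => ?_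
  have e1 : ∀ Ψ : R3 → R3 → ℝ≥0∞, Measurable (fun q : R3 × R3 => Ψ q.1 q.2) →
      ∫⁻ w, ENNReal.ofReal |inner ℝ (v - vs) w| * Ψ (postVel v vs w) (postVelStar v vs w)
        ∂sphereMeasure
      = ENNReal.ofReal (‖v - vs‖ / 2) *
        ∫⁻ s, Ψ (v - (1 / 2 : ℝ) • ((v - vs) + ‖v - vs‖ • s))
          (vs + (1 / 2 : ℝ) • ((v - vs) + ‖v - vs‖ • s)) ∂sphereMeasure := by
    intro Ψ hΨ
    exact lintegral_sigma (v - vs) (F := fun a => Ψ (v - a) (vs + a))
      (hΨ.comp (Measurable.prodMk (by fun_prop) (by fun_prop)))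
  have hs : Measurable fun q : R3 × R3 => Φ q.2 q.1 :=
    hΦ.comp (measurable_snd.prodMk measurable_fst)
  rw [e1 (fun a b => Φ b a) hs, e1 _ hΦ]
  congr 1
  have hm : Measurable fun s : R3 => Φ (v - (1 / 2 : ℝ) • ((v - vs) + ‖v - vs‖ • s))
          (vs + (1 / 2 : ℝ) • ((v - vs) + ‖v - vs‖ • s)) :=
    hΦ.comp (Measurable.prodMk (by fun_prop) (by fun_prop))
  rw [← lintegral_sphere_neg hm]
  refine lintegral_congr fun s => ?_
  congr 1 <;> module

theorem Qp_eq_Qg (f g : R3 → ℝ≥0∞) (v : R3) : Qp f g v = Qg (fun a b => f a * g b) v := by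
  unfold Qp Qg
  simp_rw [mul_assoc]

theorem Qp_comm {f g : R3 → ℝ≥0∞} (hf : Measurable f) (hg : Measurable g) (v : R3) :
    Qp f g v = Qp g f v := by
  rw [Qp_eq_Qg, Qp_eq_Qg]
  rw [← Qg_swap (Φ := fun a b => f a * g b)
    ((hf.comp measurable_fst).mul (hg.comp measurable_snd))]
  simp_rw [mul_comm]

theorem Qg_mono {Φ Ψ : R3 → R3 → ℝ≥0∞} (h : ∀ a b, Φ a b ≤ Ψ a b) (v : R3) : Qg Φ v ≤ Qg Ψ v := by
  unfold Qg
  gcongr with vs w
  exact h _ _

theorem Qg_add {Φ Ψ : R3 → R3 → ℝ≥0∞} (hΦ : Measurable fun q : R3 × R3 => Φ q.1 q.2) (v : R3) :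
    Qg (fun a b => Φ a b + Ψ a b) v = Qg Φ v + Qg Ψ v := by
  unfold Qg
  have hm := measurable_Qg_integrand hΦ v
  rw [← lintegral_add_left]
  · refine lintegral_congr fun vs => ?_
    rw [← lintegral_add_left]
    · refine lintegral_congr fun w => ?_
      rw [mul_add]
    · exact measurable_Qg_slice' hΦ v vs
  · exact hm.lintegral_prod_right'

end Crest.Agent.R68.WK
end

-- ▼ part R68/WK2
section

/-!
R68 / WK2 (helper330, Part W): power singularities in velocity space and plane integrals of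
`(1+‖b‖)^m e^{-‖b‖}` with poles.
-/

set_option autoImplicit false
open MeasureTheory Set Metric Submodule
open scoped ENNReal Real NNReal
open Crest.AnalysisR.VecCalc3 Crest.AnalysisR.PDE.Boltzmann

namespace Crest.Agent.R68.WK

attribute [local irreducible] rot vec3

/-- `‖x‖^{-a}` in `[0,∞]` (`⊤` at `0` for `a > 0`) -/
noncomputable def kp (a : ℝ) (x : R3) : ℝ≥0∞ := (ENNReal.ofReal ‖x‖) ^ (-a)

@[fun_prop]
theorem measurable_kp (a : ℝ) : Measurable (kp a) := by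
  unfold kp; fun_prop



theorem kp_anti {a : ℝ} (ha : 0 ≤ a) {x y : R3} (h : ‖x‖ ≤ ‖y‖) : kp a y ≤ kp a x := by
  unfold kp
  rw [ENNReal.rpow_neg, ENNReal.rpow_neg]
  exact ENNReal.inv_le_inv.2 (ENNReal.rpow_le_rpow (ENNReal.ofReal_le_ofReal h) ha)

theorem kp_le_kp {a b : ℝ} (hab : a ≤ b) {x : R3} (hx : ‖x‖ ≤ 1) : kp a x ≤ kp b x := by
  unfold kp
  refine ENNReal.rpow_le_rpow_of_exponent_ge ?_ (by linarith)
  exact ENNReal.ofReal_le_one.2 hx

theorem kp_le_one {a : ℝ} (ha : 0 ≤ a) {x : R3} (hx : 1 ≤ ‖x‖) : kp a x ≤ 1 := by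
  unfold kp
  calc (ENNReal.ofReal ‖x‖) ^ (-a) ≤ (ENNReal.ofReal ‖x‖) ^ (0 : ℝ) :=
        ENNReal.rpow_le_rpow_of_exponent_le (ENNReal.one_le_ofReal.2 hx) (by linarith)
    _ = 1 := ENNReal.rpow_zero

theorem kp_mul_self {a b : ℝ} (ha : 0 < a) (hb : 0 < b) (x : R3) :
    kp a x * kp b x = kp (a + b) x := by
  unfold kp
  by_cases hx : x = 0
  · subst hx
    simp only [norm_zero, ENNReal.ofReal_zero]
    rw [ENNReal.zero_rpow_of_neg (by linarith), ENNReal.zero_rpow_of_neg (by linarith),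
      ENNReal.zero_rpow_of_neg (by linarith)]
    simp
  · rw [← ENNReal.rpow_add _ _ (by simpa using hx) ENNReal.ofReal_ne_top]
    congr 1
    ring

/-- the standard singularity -/
noncomputable def sing (x : R3) : ℝ≥0∞ := (ball (0 : R3) 1).indicator (kp (11 / 4)) x

@[fun_prop]
theorem measurable_sing : Measurable sing := (measurable_kp _).indicator measurableSet_ball

theorem kp_le_sing {a : ℝ} (ha : 0 ≤ a) (ha' : a ≤ 11 / 4) (x : R3) : kp a x ≤ 1 + sing x := by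
  by_cases hx : ‖x‖ < 1
  · have : sing x = kp (11 / 4) x := by
      unfold sing
      rw [indicator_of_mem]; simpa using hx
    rw [this]
    exact (kp_le_kp ha' hx.le).trans le_add_self
  · exact (kp_le_one ha (not_lt.1 hx)).trans le_self_add

theorem kp_mul_kp_le {a b : ℝ} (ha : 0 < a) (hb : 0 < b) (hab : a + b ≤ 11 / 4) (x y : R3) :
    kp a x * kp b y ≤ 1 + sing x + sing y := by
  rcases le_total ‖x‖ ‖y‖ with h | h
  · calc kp a x * kp b y ≤ kp a x * kp b x := mul_le_mul_right (kp_anti hb.le h) _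
      _ = kp (a + b) x := kp_mul_self ha hb x
      _ ≤ 1 + sing x := kp_le_sing (by linarith) hab x
      _ ≤ _ := le_self_add
  · calc kp a x * kp b y ≤ kp a y * kp b y := mul_le_mul_left (kp_anti ha.le h) _
      _ = kp (a + b) y := kp_mul_self ha hb y
      _ ≤ 1 + sing y := kp_le_sing (by linarith) hab y
      _ ≤ _ := by rw [add_right_comm]; exact le_self_add

theorem inv_norm_le_kp (x : R3) : ENNReal.ofReal ‖x‖⁻¹ ≤ kp 1 x := by
  unfold kp
  rw [ENNReal.rpow_neg_one]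
  by_cases hx : x = 0
  · subst hx; simp
  · rw [ENNReal.ofReal_inv_of_pos (norm_pos_iff.2 hx)]

theorem lintegral_rpow_Ioo {b : ℝ} (hb : -1 < b) :
    ∫⁻ r in Ioo (0 : ℝ) 1, ENNReal.ofReal (r ^ b) = ENNReal.ofReal (1 / (b + 1)) := by
  rw [← ofReal_integral_eq_lintegral_ofReal]
  · congr 1
    rw [← integral_Ioc_eq_integral_Ioo, ← intervalIntegral.integral_of_le zero_le_one,
      integral_rpow (Or.inl hb)]
    simp [Real.zero_rpow (by linarith : b + 1 ≠ 0)]
  · have := (intervalIntegral.intervalIntegrable_rpow' (a := 0) (b := 1) hb)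
    rw [intervalIntegrable_iff_integrableOn_Ioo_of_le zero_le_one] at this
    exact this
  · refine (ae_restrict_iff' measurableSet_Ioo).2 (Filter.Eventually.of_forall fun r hr => ?_)
    exact Real.rpow_nonneg hr.1.le _

theorem lintegral_sing_lt_top : ∫⁻ x, sing x < ⊤ := by
  rw [lintegral_polar measurable_sing]
  have h : ∀ r ∈ Ioi (0 : ℝ), ENNReal.ofReal (r ^ 2) * ∫⁻ w, sing (r • w) ∂sphereMeasure
      = (Ioo (0 : ℝ) 1).indicator (fun r => ENNReal.ofReal (r ^ (-(3 / 4) : ℝ))) r *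
        ENNReal.ofReal (4 * π) := by
    intro r hr
    have hr0 : (0 : ℝ) < r := hr
    by_cases h1 : r < 1
    · rw [indicator_of_mem (show r ∈ Ioo (0 : ℝ) 1 from ⟨hr0, h1⟩)]
      have e : ∫⁻ w, sing (r • w) ∂sphereMeasure
          = ∫⁻ _, (ENNReal.ofReal r) ^ (-(11 / 4) : ℝ) ∂sphereMeasure := by
        refine lintegral_congr_ae ?_
        filter_upwards [ae_sphereMeasure] with w hw
        have hn : ‖r • w‖ = r := by rw [norm_smul, hw, Real.norm_of_nonneg hr0.le, mul_one]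
        unfold sing
        rw [indicator_of_mem (by simpa [hn] using h1)]
        unfold kp
        rw [hn]
      rw [e, lintegral_const, sphereMeasure_univ, ← mul_assoc]
      congr 1
      rw [ENNReal.ofReal_rpow_of_pos hr0, ← ENNReal.ofReal_mul (by positivity)]
      congr 1
      rw [← Real.rpow_natCast r 2, ← Real.rpow_add hr0]
      norm_num
    · rw [indicator_of_notMem (fun h => h1 h.2), zero_mul]
      have e : ∫⁻ w, sing (r • w) ∂sphereMeasure = ∫⁻ _, 0 ∂sphereMeasure := by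
        refine lintegral_congr_ae ?_
        filter_upwards [ae_sphereMeasure] with w hw
        have hn : ‖r • w‖ = r := by rw [norm_smul, hw, Real.norm_of_nonneg hr0.le, mul_one]
        unfold sing
        rw [indicator_of_notMem]
        simpa [hn] using h1
      rw [e, lintegral_zero, mul_zero]
  rw [setLIntegral_congr_fun measurableSet_Ioi h]
  rw [lintegral_mul_const' _ _ ENNReal.ofReal_ne_top]
  refine ENNReal.mul_lt_top ?_ ENNReal.ofReal_lt_top
  rw [lintegral_indicator measurableSet_Ioo]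
  have h2 : ∫⁻ r in Ioo (0 : ℝ) 1, ENNReal.ofReal (r ^ (-(3 / 4) : ℝ)) ∂(volume.restrict (Ioi 0))
      ≤ ∫⁻ r in Ioo (0 : ℝ) 1, ENNReal.ofReal (r ^ (-(3 / 4) : ℝ)) := by
    refine lintegral_mono' ?_ le_rfl
    exact Measure.restrict_mono_measure Measure.restrict_le_self _
  refine h2.trans_lt ?_
  rw [lintegral_rpow_Ioo (by norm_num)]
  exact ENNReal.ofReal_lt_top

/-! ### plane integrals -/


/-- radial functions on planes -/
theorem planeInt_radial {F : ℝ → ℝ≥0∞} (hF : Measurable F) (v : R3) {w : R3} (hw : ‖w‖ = 1) :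
    planeInt (fun b => F ‖b‖) v w
      = ENNReal.ofReal (2 * π) * ∫⁻ r in Ioi |(inner ℝ v w : ℝ)|, ENNReal.ofReal r * F r := by
  set q : R3 := rot w v with hq
  have hv : v = rot w q := by rw [hq, rot_rot]
  have hd : (inner ℝ v w : ℝ) = q 2 := by
    have h3 := inner_rot w v w
    rw [rot_self hw, ← hq] at h3
    rw [← h3, real_inner_comm, inner_ez]
  set d : ℝ := |(inner ℝ v w : ℝ)| with hdd
  have hd0 : 0 ≤ d := abs_nonneg _
  have hd2 : q 2 ^ 2 = d ^ 2 := by rw [hdd, hd, sq_abs]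
  unfold planeInt
  have h1 : ∀ p : ℝ × ℝ, ‖v + rot w (vec3 p.1 p.2 0)‖
      = √((q 0 + p.1) ^ 2 + (q 1 + p.2) ^ 2 + d ^ 2) := by
    intro p
    conv_lhs => rw [hv, ← map_add]
    rw [norm_rot]
    conv_lhs => rw [← vec3_eta q]
    rw [vec3_add, norm_vec3, add_zero, hd2]
  simp_rw [h1]
  have h2 : ∫⁻ p : ℝ × ℝ, F (√((q 0 + p.1) ^ 2 + (q 1 + p.2) ^ 2 + d ^ 2))
      = ∫⁻ p : ℝ × ℝ, F (√(p.1 ^ 2 + p.2 ^ 2 + d ^ 2)) :=
    lintegral_add_left_eq_self (μ := (volume : Measure (ℝ × ℝ)))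
      (fun p : ℝ × ℝ => F (√(p.1 ^ 2 + p.2 ^ 2 + d ^ 2))) (q 0, q 1)
  rw [h2, lintegral_polar2 (by fun_prop)]
  have h3 : ∀ r ∈ Ioi (0 : ℝ), ∫⁻ φ in Ioo (-π) π, ENNReal.ofReal r *
      F (√((r * Real.cos φ) ^ 2 + (r * Real.sin φ) ^ 2 + d ^ 2))
      = ENNReal.ofReal (2 * π) * (ENNReal.ofReal r * F (√(r ^ 2 + d ^ 2))) := by
    intro r _
    have : ∀ φ : ℝ, (r * Real.cos φ) ^ 2 + (r * Real.sin φ) ^ 2 = r ^ 2 := by
      intro φ
      have := Real.sin_sq_add_cos_sq φ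
      calc _ = r ^ 2 * (Real.sin φ ^ 2 + Real.cos φ ^ 2) := by ring
        _ = r ^ 2 := by rw [this, mul_one]
    simp_rw [this]
    rw [lintegral_const, Measure.restrict_apply_univ, volume_Ioo_pi, mul_comm]
  rw [setLIntegral_congr_fun measurableSet_Ioi h3, lintegral_const_mul _ (by fun_prop)]
  congr 1
  -- substitution `ρ = √(r²+d²)`
  have himg : (fun r : ℝ => √(r ^ 2 + d ^ 2)) '' Ioi 0 = Ioi d := by
    ext ρ
    simp only [mem_image, mem_Ioi]
    constructor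
    · rintro ⟨r, hr, rfl⟩
      rw [Real.lt_sqrt hd0]
      nlinarith
    · intro hρ
      refine ⟨√(ρ ^ 2 - d ^ 2), Real.sqrt_pos.2 (by nlinarith), ?_⟩
      rw [Real.sq_sqrt (by nlinarith), sub_add_cancel, Real.sqrt_sq (by linarith)]
  rw [← himg]
  have hder : ∀ r ∈ Ioi (0 : ℝ), HasDerivWithinAt (fun r : ℝ => √(r ^ 2 + d ^ 2))
      (r / √(r ^ 2 + d ^ 2)) (Ioi 0) r := by
    intro r hr
    have hr0 : (0 : ℝ) < r := hr
    have hpos : 0 < r ^ 2 + d ^ 2 := by positivity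
    have h := ((hasDerivAt_pow 2 r).add_const (d ^ 2)).sqrt hpos.ne'
    refine h.hasDerivWithinAt.congr_deriv ?_
    have h0 : √(r ^ 2 + d ^ 2) ≠ 0 := (Real.sqrt_pos.2 hpos).ne'
    have h2 : (2 * √(r ^ 2 + d ^ 2)) ≠ 0 := mul_ne_zero two_ne_zero h0
    rw [div_eq_div_iff h2 h0]
    push_cast
    ring
  have hinj : InjOn (fun r : ℝ => √(r ^ 2 + d ^ 2)) (Ioi 0) := by
    intro a ha b hb hab
    have ha0 : (0 : ℝ) < a := ha
    have hb0 : (0 : ℝ) < b := hb
    have h : a ^ 2 + d ^ 2 = b ^ 2 + d ^ 2 := by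
      have := congrArg (fun x => x ^ 2) hab
      simp only at this
      rwa [Real.sq_sqrt (by positivity), Real.sq_sqrt (by positivity)] at this
    nlinarith [sq_nonneg (a - b), sq_nonneg (a + b)]
  rw [lintegral_image_eq_lintegral_abs_deriv_mul measurableSet_Ioi hder hinj]
  refine setLIntegral_congr_fun measurableSet_Ioi fun r hr => ?_
  have hr0 : (0 : ℝ) < r := hr
  have hpos : 0 < √(r ^ 2 + d ^ 2) := Real.sqrt_pos.2 (by positivity)
  beta_reduce
  rw [← mul_assoc, ← ENNReal.ofReal_mul (abs_nonneg _), abs_of_pos (by positivity)]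
  congr 2
  field_simp

/-- the plane constant of a `3/2`-pole -/
noncomputable def cpl : ℝ≥0∞ :=
  ∫⁻ p : ℝ × ℝ, {p : ℝ × ℝ | √(p.1 ^ 2 + p.2 ^ 2) < 1}.indicator
    (fun p => (ENNReal.ofReal √(p.1 ^ 2 + p.2 ^ 2)) ^ (-(3 / 2) : ℝ)) p

theorem cpl_lt_top : cpl < ⊤ := by
  unfold cpl
  have hms : MeasurableSet {p : ℝ × ℝ | √(p.1 ^ 2 + p.2 ^ 2) < 1} :=
    measurableSet_lt (by fun_prop) measurable_const
  rw [lintegral_polar2 (by
    apply Measurable.indicator _ hms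
    fun_prop)]
  have h3 : ∀ r ∈ Ioi (0 : ℝ), ∫⁻ φ in Ioo (-π) π, ENNReal.ofReal r *
      {p : ℝ × ℝ | √(p.1 ^ 2 + p.2 ^ 2) < 1}.indicator
      (fun p => (ENNReal.ofReal √(p.1 ^ 2 + p.2 ^ 2)) ^ (-(3 / 2) : ℝ))
        (r * Real.cos φ, r * Real.sin φ)
      = ENNReal.ofReal (2 * π) *
        (Ioo (0 : ℝ) 1).indicator (fun r => ENNReal.ofReal (r ^ (-(1 / 2) : ℝ))) r := by
    intro r hr
    have hr0 : (0 : ℝ) < r := hr
    have hc : ∀ φ : ℝ, √((r * Real.cos φ) ^ 2 + (r * Real.sin φ) ^ 2) = r := by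
      intro φ
      have := Real.sin_sq_add_cos_sq φ
      rw [show (r * Real.cos φ) ^ 2 + (r * Real.sin φ) ^ 2
        = r ^ 2 * (Real.sin φ ^ 2 + Real.cos φ ^ 2) by ring, this, mul_one, Real.sqrt_sq hr0.le]
    by_cases h1 : r < 1
    · have e : ∀ φ : ℝ, ENNReal.ofReal r * {p : ℝ × ℝ | √(p.1 ^ 2 + p.2 ^ 2) < 1}.indicator
          (fun p => (ENNReal.ofReal √(p.1 ^ 2 + p.2 ^ 2)) ^ (-(3 / 2) : ℝ))
          (r * Real.cos φ, r * Real.sin φ) = ENNReal.ofReal (r ^ (-(1 / 2) : ℝ)) := by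
        intro φ
        rw [indicator_of_mem (by simpa [hc φ] using h1)]
        rw [hc φ, ENNReal.ofReal_rpow_of_pos hr0, ← ENNReal.ofReal_mul hr0.le]
        congr 1
        nth_rewrite 1 [← Real.rpow_one r]
        rw [← Real.rpow_add hr0]
        norm_num
      simp_rw [e]
      rw [lintegral_const, Measure.restrict_apply_univ, volume_Ioo_pi, mul_comm,
        indicator_of_mem (show r ∈ Ioo (0 : ℝ) 1 from ⟨hr0, h1⟩)]
    · have e : ∀ φ : ℝ, ENNReal.ofReal r * {p : ℝ × ℝ | √(p.1 ^ 2 + p.2 ^ 2) < 1}.indicator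
          (fun p => (ENNReal.ofReal √(p.1 ^ 2 + p.2 ^ 2)) ^ (-(3 / 2) : ℝ))
          (r * Real.cos φ, r * Real.sin φ) = 0 := by
        intro φ
        rw [indicator_of_notMem (by simpa [hc φ] using h1), mul_zero]
      simp_rw [e]
      rw [lintegral_zero, indicator_of_notMem (fun h => h1 h.2), mul_zero]
  rw [setLIntegral_congr_fun measurableSet_Ioi h3, lintegral_const_mul' _ _ ENNReal.ofReal_ne_top]
  refine ENNReal.mul_lt_top ENNReal.ofReal_lt_top ?_
  rw [lintegral_indicator measurableSet_Ioo]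
  have h2 : ∫⁻ r in Ioo (0 : ℝ) 1, ENNReal.ofReal (r ^ (-(1 / 2) : ℝ)) ∂(volume.restrict (Ioi 0))
      ≤ ∫⁻ r in Ioo (0 : ℝ) 1, ENNReal.ofReal (r ^ (-(1 / 2) : ℝ)) := by
    refine lintegral_mono' ?_ le_rfl
    exact Measure.restrict_mono_measure Measure.restrict_le_self _
  refine h2.trans_lt ?_
  rw [lintegral_rpow_Ioo (by norm_num)]
  exact ENNReal.ofReal_lt_top

/-- local part of a `3/2`-pole at `u` -/
noncomputable def pole (u b : R3) : ℝ≥0∞ := (ball (0 : R3) 1).indicator (kp (3 / 2)) (b - u)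

theorem measurable_pole (u : R3) : Measurable (pole u) :=
  ((measurable_kp _).indicator measurableSet_ball).comp (by fun_prop)

theorem kp_le_pole (u b : R3) : kp (3 / 2) (b - u) ≤ 1 + pole u b := by
  unfold pole
  by_cases hx : ‖b - u‖ < 1
  · rw [indicator_of_mem (by simpa using hx)]; exact le_add_self
  · exact (kp_le_one (by norm_num) (not_lt.1 hx)).trans le_self_add

theorem planeInt_pole_le (u v : R3) (w : R3) : planeInt (pole u) v w ≤ cpl := by
  set q : R3 := rot w (v - u) with hq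
  have hv : v - u = rot w q := by rw [hq, rot_rot]
  have h1 : ∀ p : ℝ × ℝ, pole u (v + rot w (vec3 p.1 p.2 0)) ≤
      {p : ℝ × ℝ | √(p.1 ^ 2 + p.2 ^ 2) < 1}.indicator
      (fun p => (ENNReal.ofReal √(p.1 ^ 2 + p.2 ^ 2)) ^ (-(3 / 2) : ℝ))
        ((q 0, q 1) + p) := by
    intro p
    have e : v + rot w (vec3 p.1 p.2 0) - u = rot w (q + vec3 p.1 p.2 0) := by
      rw [map_add, ← hv]; abel
    have hn : ‖rot w (q + vec3 p.1 p.2 0)‖ = √((q 0 + p.1) ^ 2 + (q 1 + p.2) ^ 2 + q 2 ^ 2) := by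
      rw [norm_rot]
      conv_lhs => rw [← vec3_eta q]
      rw [vec3_add, norm_vec3, add_zero]
    have hle : √((q 0 + p.1) ^ 2 + (q 1 + p.2) ^ 2) ≤ ‖rot w (q + vec3 p.1 p.2 0)‖ := by
      rw [hn]
      exact Real.sqrt_le_sqrt (by nlinarith [sq_nonneg (q 2)])
    unfold pole
    rw [e]
    by_cases hx : ‖rot w (q + vec3 p.1 p.2 0)‖ < 1
    · rw [indicator_of_mem (by simpa using hx), indicator_of_mem]
      · unfold kp
        simp only [Prod.fst_add, Prod.snd_add]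
        rw [ENNReal.rpow_neg, ENNReal.rpow_neg]
        exact ENNReal.inv_le_inv.2 (ENNReal.rpow_le_rpow (ENNReal.ofReal_le_ofReal hle) (by norm_num))
      · show √((q 0 + p.1) ^ 2 + (q 1 + p.2) ^ 2) < 1
        exact hle.trans_lt hx
    · rw [indicator_of_notMem (by simpa using hx)]
      exact bot_le
  unfold planeInt cpl
  refine (lintegral_mono h1).trans ?_
  exact (lintegral_add_left_eq_self (μ := (volume : Measure (ℝ × ℝ))) _ (q 0, q 1)).le

/-- points of the plane through `v` orthogonal to `w` are at distance at least `|⟨v,w⟩|` -/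
theorem plane_norm_ge (v : R3) {w : R3} (hw : ‖w‖ = 1) (p : ℝ × ℝ) :
    |(inner ℝ v w : ℝ)| ≤ ‖v + rot w (vec3 p.1 p.2 0)‖ := by
  have h2 : (inner ℝ (rot w (vec3 p.1 p.2 0)) w : ℝ) = 0 := by
    have h3 := inner_rot w (vec3 p.1 p.2 0) ez
    rw [rot_ez hw] at h3
    rw [h3, real_inner_comm, inner_ez, vec3_two]
  have h4 : (inner ℝ v w : ℝ) = inner ℝ (v + rot w (vec3 p.1 p.2 0)) w := by
    rw [inner_add_left, h2, add_zero]
  rw [h4]
  calc _ ≤ ‖v + rot w (vec3 p.1 p.2 0)‖ * ‖w‖ := abs_real_inner_le_norm _ _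
    _ = _ := by rw [hw, mul_one]

end Crest.Agent.R68.WK
end

-- ▼ part R68/WK3
section

/-!
R68 / WK3 (helper330, Part W, (W1)): collisional estimates in the class
`E(v) = (1+‖v‖)^m e^{-‖v‖} (1 + κ ∑_{u∈U} ‖v-u‖^{-3/2})`, `κ · #U ≤ 1`.
-/

set_option autoImplicit false
open MeasureTheory Set Metric Submodule
open scoped ENNReal Real NNReal
open Crest.AnalysisR.VecCalc3 Crest.AnalysisR.PDE.Boltzmann

namespace Crest.Agent.R68.WK

attribute [local irreducible] rot vec3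

/-- exponential weight with polynomial factor -/
noncomputable def ew (m : ℕ) (v : R3) : ℝ≥0∞ := ENNReal.ofReal ((1 + ‖v‖) ^ m * Real.exp (-‖v‖))

/-- the poles -/
noncomputable def Sp (κ : ℝ≥0∞) (U : Finset R3) (v : R3) : ℝ≥0∞ :=
  1 + κ * ∑ u ∈ U, kp (3 / 2) (v - u)

/-- the class -/
noncomputable def Ep (m : ℕ) (κ : ℝ≥0∞) (U : Finset R3) (v : R3) : ℝ≥0∞ := ew m v * Sp κ U v

@[fun_prop]
theorem measurable_ew (m : ℕ) : Measurable (ew m) := by unfold ew; fun_prop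

@[fun_prop]
theorem measurable_Sp (κ : ℝ≥0∞) (U : Finset R3) : Measurable (Sp κ U) := by
  have h : Measurable fun v : R3 => ∑ u ∈ U, kp (3 / 2) (v - u) :=
    Finset.measurable_sum _ fun u _ => (measurable_kp _).comp (by fun_prop)
  exact (h.const_mul κ).const_add 1

@[fun_prop]
theorem measurable_Ep (m : ℕ) (κ : ℝ≥0∞) (U : Finset R3) : Measurable (Ep m κ U) := by
  unfold Ep; fun_prop

/-! ### one-dimensional integrals -/

theorem pow_le_fact_exp (n : ℕ) {x : ℝ} (hx : 0 ≤ x) : x ^ n ≤ n.factorial * Real.exp x := by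
  have := Real.pow_div_factorial_le_exp x hx n
  rwa [div_le_iff₀' (by positivity)] at this

theorem poly_exp_le (n : ℕ) {τ : ℝ} (hτ : 0 ≤ τ) :
    (1 + τ) ^ n * Real.exp (-τ) ≤ n.factorial * Real.exp 1 := by
  have h := pow_le_fact_exp n (x := 1 + τ) (by positivity)
  calc (1 + τ) ^ n * Real.exp (-τ) ≤ (n.factorial * Real.exp (1 + τ)) * Real.exp (-τ) := by
        gcongr
    _ = n.factorial * Real.exp 1 := by
        rw [mul_assoc, ← Real.exp_add]; congr 2; ring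

theorem poly_exp_le' (n : ℕ) {x : ℝ} (hx : 0 ≤ x) :
    (1 + 2 * x) ^ n * Real.exp (-(x / 2)) ≤ (8 ^ n * n.factorial * Real.exp 1) * Real.exp (-(x / 4)) := by
  have h := pow_le_fact_exp n (x := (1 + 2 * x) / 8) (by positivity)
  have h1 : (1 + 2 * x) ^ n = 8 ^ n * ((1 + 2 * x) / 8) ^ n := by
    rw [← mul_pow]; congr 1; ring
  have h2 : Real.exp ((1 + 2 * x) / 8) ≤ Real.exp 1 * Real.exp (x / 4) := by
    rw [← Real.exp_add]; apply Real.exp_le_exp.2; linarith
  calc (1 + 2 * x) ^ n * Real.exp (-(x / 2))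
      ≤ (8 ^ n * (n.factorial * (Real.exp 1 * Real.exp (x / 4)))) * Real.exp (-(x / 2)) := by
        rw [h1]
        gcongr
        exact h.trans (by gcongr)
    _ = _ := by
        rw [show Real.exp (-(x / 4)) = Real.exp (x / 4) * Real.exp (-(x / 2)) by
          rw [← Real.exp_add]; congr 1; ring]
        ring

/-- `∫_0^∞ (1+τ)^n e^{-τ}` -/
noncomputable def JJ (n : ℕ) : ℝ≥0∞ :=
  ∫⁻ τ in Ioi (0 : ℝ), ENNReal.ofReal ((1 + τ) ^ n * Real.exp (-τ))

theorem lintegral_exp_Ioi {β : ℝ} (hβ : 0 < β) :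
    ∫⁻ τ in Ioi (0 : ℝ), ENNReal.ofReal (Real.exp (-(β * τ))) < ⊤ := by
  have h : IntegrableOn (fun τ : ℝ => Real.exp (-(β * τ))) (Ioi 0) := by
    have := integrableOn_exp_mul_Ioi (a := -β) (by linarith) 0
    simpa [neg_mul] using this
  exact h.lintegral_lt_top

theorem JJ_lt_top (n : ℕ) : JJ n < ⊤ := by
  unfold JJ
  have h : ∀ τ ∈ Ioi (0 : ℝ), ENNReal.ofReal ((1 + τ) ^ n * Real.exp (-τ)) ≤
      ENNReal.ofReal (2 ^ n * n.factorial * Real.exp 1) *
        ENNReal.ofReal (Real.exp (-(1 / 2 * τ))) := by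
    intro τ hτ
    have hτ0 : (0 : ℝ) < τ := hτ
    rw [← ENNReal.ofReal_mul (by positivity)]
    apply ENNReal.ofReal_le_ofReal
    have h := pow_le_fact_exp n (x := (1 + τ) / 2) (by positivity)
    have h1 : (1 + τ) ^ n = 2 ^ n * ((1 + τ) / 2) ^ n := by
      rw [← mul_pow]; congr 1; ring
    have h2 : Real.exp ((1 + τ) / 2) ≤ Real.exp 1 * Real.exp (τ / 2) := by
      rw [← Real.exp_add]; apply Real.exp_le_exp.2; linarith
    calc (1 + τ) ^ n * Real.exp (-τ)
        ≤ (2 ^ n * (n.factorial * (Real.exp 1 * Real.exp (τ / 2)))) * Real.exp (-τ) := by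
          rw [h1]
          gcongr
          exact h.trans (by gcongr)
      _ = _ := by
          rw [show Real.exp (-(1 / 2 * τ)) = Real.exp (τ / 2) * Real.exp (-τ) by
            rw [← Real.exp_add]; congr 1; ring]
          ring
  refine (setLIntegral_mono' measurableSet_Ioi h).trans_lt ?_
  rw [lintegral_const_mul' _ _ ENNReal.ofReal_ne_top]
  exact ENNReal.mul_lt_top ENNReal.ofReal_lt_top (lintegral_exp_Ioi (by norm_num))

theorem exp_shift (m : ℕ) {D ρ : ℝ} (hD : 0 ≤ D) (h : D ≤ ρ) :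
    (1 + ρ) ^ m * Real.exp (-ρ) ≤
      ((1 + D) ^ m * Real.exp (-D)) * ((1 + (ρ - D)) ^ m * Real.exp (-(ρ - D))) := by
  have h1 : 1 + ρ ≤ (1 + D) * (1 + (ρ - D)) := by nlinarith
  have h2 : Real.exp (-ρ) = Real.exp (-D) * Real.exp (-(ρ - D)) := by
    rw [← Real.exp_add]; congr 1; ring
  calc (1 + ρ) ^ m * Real.exp (-ρ)
      ≤ ((1 + D) * (1 + (ρ - D))) ^ m * Real.exp (-ρ) := by gcongr; linarith
    _ = _ := by rw [h2, mul_pow]; ring

theorem exp_sup (m : ℕ) {D ρ : ℝ} (hD : 0 ≤ D) (h : D ≤ ρ) :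
    (1 + ρ) ^ m * Real.exp (-ρ) ≤
      ((1 + D) ^ m * Real.exp (-D)) * (m.factorial * Real.exp 1) := by
  refine (exp_shift m hD h).trans ?_
  exact mul_le_mul_of_nonneg_left (poly_exp_le m (by linarith)) (by positivity)

/-- truncated radial integral -/
theorem radial_tail (m : ℕ) {d D' : ℝ} (hd : 0 ≤ d) :
    ∫⁻ r in Ioi d, ENNReal.ofReal r *
        (Ici D').indicator (fun ρ => ENNReal.ofReal ((1 + ρ) ^ m * Real.exp (-ρ))) r
      ≤ ENNReal.ofReal ((1 + max d D') ^ (m + 1) * Real.exp (-(max d D'))) * JJ (m + 1) := by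
  set D := max d D' with hDdef
  have hD0 : 0 ≤ D := hd.trans (le_max_left _ _)
  set G : ℝ → ℝ≥0∞ := fun τ =>
    (Ici (0 : ℝ)).indicator (fun τ => ENNReal.ofReal ((1 + τ) ^ (m + 1) * Real.exp (-τ))) τ with hG
  have h1 : ∀ r ∈ Ioi d, ENNReal.ofReal r *
        (Ici D').indicator (fun ρ => ENNReal.ofReal ((1 + ρ) ^ m * Real.exp (-ρ))) r
      ≤ ENNReal.ofReal ((1 + D) ^ (m + 1) * Real.exp (-D)) * G (r - D) := by
    intro r hr
    have hr' : d < r := hr
    by_cases h : D' ≤ r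
    · have hDr : D ≤ r := max_le hr'.le h
      have hr0 : 0 ≤ r := hD0.trans hDr
      rw [indicator_of_mem (show r ∈ Ici D' from h), hG]
      beta_reduce
      rw [indicator_of_mem (show r - D ∈ Ici (0 : ℝ) from sub_nonneg.2 hDr),
        ← ENNReal.ofReal_mul hr0, ← ENNReal.ofReal_mul (by positivity)]
      apply ENNReal.ofReal_le_ofReal
      refine le_trans ?_ (exp_shift (m + 1) hD0 hDr)
      have : r ≤ 1 + r := by linarith
      calc r * ((1 + r) ^ m * Real.exp (-r)) ≤ (1 + r) * ((1 + r) ^ m * Real.exp (-r)) := by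
            gcongr
        _ = _ := by ring
    · rw [indicator_of_notMem (show r ∉ Ici D' from h), mul_zero]
      exact bot_le
  refine (setLIntegral_mono' measurableSet_Ioi h1).trans ?_
  rw [lintegral_const_mul' _ _ ENNReal.ofReal_ne_top]
  gcongr
  calc ∫⁻ r in Ioi d, G (r - D) ≤ ∫⁻ r : ℝ, G (r - D) := setLIntegral_le_lintegral _ _
    _ = ∫⁻ r : ℝ, G r := lintegral_sub_right_eq_self G D
    _ = JJ (m + 1) := by
        rw [hG]
        rw [lintegral_indicator measurableSet_Ici]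
        unfold JJ
        exact setLIntegral_congr Ioi_ae_eq_Ici.symm

/-! ### plane integrals of the class -/

/-- constant of `planeInt_Ep_le` -/
noncomputable def Cpl (m : ℕ) : ℝ≥0∞ :=
  2 * (ENNReal.ofReal (2 * π) * JJ (m + 1)) + ENNReal.ofReal (m.factorial * Real.exp 1) * cpl

theorem Cpl_lt_top (m : ℕ) : Cpl m < ⊤ := by
  unfold Cpl
  refine ENNReal.add_lt_top.2 ⟨?_, ENNReal.mul_lt_top ENNReal.ofReal_lt_top cpl_lt_top⟩
  exact ENNReal.mul_lt_top (by norm_num) (ENNReal.mul_lt_top ENNReal.ofReal_lt_top (JJ_lt_top _))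

theorem Sp_le {κ : ℝ≥0∞} {U : Finset R3} (hκ : κ * U.card ≤ 1) (b : R3) :
    Sp κ U b ≤ 2 + κ * ∑ u ∈ U, pole u b := by
  unfold Sp
  calc 1 + κ * ∑ u ∈ U, kp (3 / 2) (b - u) ≤ 1 + κ * ∑ u ∈ U, (1 + pole u b) := by
        gcongr with u hu
        exact kp_le_pole u b
    _ = 1 + (κ * U.card + κ * ∑ u ∈ U, pole u b) := by
        rw [Finset.sum_add_distrib, Finset.sum_const, nsmul_eq_mul, mul_one, mul_add]
    _ ≤ 1 + (1 + κ * ∑ u ∈ U, pole u b) := by gcongr
    _ = _ := by rw [← add_assoc, one_add_one_eq_two]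

theorem planeInt_Ep_le (m : ℕ) {κ : ℝ≥0∞} {U : Finset R3} (hκ : κ * U.card ≤ 1) (v : R3) {w : R3}
    (hw : ‖w‖ = 1) (D' : ℝ) :
    planeInt ({b : R3 | D' ≤ ‖b‖}.indicator (Ep m κ U)) v w
      ≤ Cpl m * ENNReal.ofReal ((1 + max |(inner ℝ v w : ℝ)| D') ^ (m + 1) *
        Real.exp (-(max |(inner ℝ v w : ℝ)| D'))) := by
  set d : ℝ := |(inner ℝ v w : ℝ)| with hd
  set D : ℝ := max d D' with hD
  have hd0 : 0 ≤ d := abs_nonneg _
  have hD0 : 0 ≤ D := hd0.trans (le_max_left _ _)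
  set F : ℝ → ℝ≥0∞ := fun r =>
    (Ici D').indicator (fun ρ => ENNReal.ofReal ((1 + ρ) ^ m * Real.exp (-ρ))) r with hF
  have hFm : Measurable F := by
    rw [hF]; exact Measurable.indicator (by fun_prop) measurableSet_Ici
  set K : ℝ≥0∞ := ENNReal.ofReal ((1 + D) ^ m * Real.exp (-D) * (m.factorial * Real.exp 1)) with hK
  -- pointwise bound on the plane
  have h1 : ∀ p : ℝ × ℝ, {b : R3 | D' ≤ ‖b‖}.indicator (Ep m κ U) (v + rot w (vec3 p.1 p.2 0))
      ≤ 2 * F ‖v + rot w (vec3 p.1 p.2 0)‖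
        + K * (κ * ∑ u ∈ U, pole u (v + rot w (vec3 p.1 p.2 0))) := by
    intro p
    set b := v + rot w (vec3 p.1 p.2 0) with hb
    have hdb : d ≤ ‖b‖ := plane_norm_ge v hw p
    by_cases h : D' ≤ ‖b‖
    · rw [indicator_of_mem (show b ∈ {b : R3 | D' ≤ ‖b‖} from h), hF]
      beta_reduce
      rw [indicator_of_mem (show ‖b‖ ∈ Ici D' from h)]
      unfold Ep
      have hDb : D ≤ ‖b‖ := max_le hdb h
      calc ew m b * Sp κ U b ≤ ew m b * (2 + κ * ∑ u ∈ U, pole u b) := by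
            gcongr; exact Sp_le hκ b
        _ = 2 * ew m b + ew m b * (κ * ∑ u ∈ U, pole u b) := by ring
        _ ≤ _ := by
            gcongr
            · rfl
            · unfold ew
              rw [hK]
              exact ENNReal.ofReal_le_ofReal (exp_sup m hD0 hDb)
    · rw [indicator_of_notMem (show b ∉ {b : R3 | D' ≤ ‖b‖} from h)]
      exact bot_le
  have hB : Measurable fun p : ℝ × ℝ => v + rot w (vec3 p.1 p.2 0) :=
    measurable_const.add ((rot w).continuous.measurable.comp (by fun_prop))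
  have hpm : ∀ u, Measurable fun p : ℝ × ℝ => pole u (v + rot w (vec3 p.1 p.2 0)) :=
    fun u => (measurable_pole u).comp hB
  have hFB : Measurable fun p : ℝ × ℝ => F ‖v + rot w (vec3 p.1 p.2 0)‖ :=
    hFm.comp (measurable_norm.comp hB)
  have hsum : Measurable fun p : ℝ × ℝ => ∑ u ∈ U, pole u (v + rot w (vec3 p.1 p.2 0)) :=
    Finset.measurable_sum _ fun u _ => hpm u
  have hlast : K * (κ * ∑ u ∈ U, cpl) ≤ (ENNReal.ofReal ((1 + D) ^ (m + 1) * Real.exp (-D)) *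
          ENNReal.ofReal (m.factorial * Real.exp 1)) * cpl := by
    calc K * (κ * ∑ u ∈ U, cpl) = K * ((κ * U.card) * cpl) := by
          rw [Finset.sum_const, nsmul_eq_mul, mul_assoc]
      _ ≤ K * (1 * cpl) := by gcongr
      _ = K * cpl := by rw [one_mul]
      _ ≤ _ := by
          gcongr
          rw [hK, ← ENNReal.ofReal_mul (by positivity)]
          apply ENNReal.ofReal_le_ofReal
          have : (1 + D) ^ m ≤ (1 + D) ^ (m + 1) := pow_le_pow_right₀ (by linarith) (Nat.le_succ m)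
          gcongr
  calc planeInt ({b : R3 | D' ≤ ‖b‖}.indicator (Ep m κ U)) v w
      ≤ ∫⁻ p : ℝ × ℝ, (2 * F ‖v + rot w (vec3 p.1 p.2 0)‖
        + K * (κ * ∑ u ∈ U, pole u (v + rot w (vec3 p.1 p.2 0)))) := lintegral_mono h1
    _ = 2 * planeInt (fun b => F ‖b‖) v w + K * (κ * ∑ u ∈ U, planeInt (pole u) v w) := by
        rw [lintegral_add_left (hFB.const_mul 2), lintegral_const_mul _ hFB,
          lintegral_const_mul _ (hsum.const_mul κ), lintegral_const_mul _ hsum,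
          lintegral_finsetSum _ fun u _ => hpm u]
        rfl
    _ ≤ 2 * (ENNReal.ofReal (2 * π) * (ENNReal.ofReal ((1 + D) ^ (m + 1) * Real.exp (-D)) *
          JJ (m + 1))) + K * (κ * ∑ u ∈ U, cpl) := by
        gcongr with u hu
        · rw [planeInt_radial hFm v hw]
          gcongr
          exact radial_tail m hd0
        · exact planeInt_pole_le u v w
    _ ≤ 2 * (ENNReal.ofReal (2 * π) * (ENNReal.ofReal ((1 + D) ^ (m + 1) * Real.exp (-D)) *
          JJ (m + 1))) + (ENNReal.ofReal ((1 + D) ^ (m + 1) * Real.exp (-D)) *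
          ENNReal.ofReal (m.factorial * Real.exp 1)) * cpl := by
        exact add_le_add le_rfl hlast
    _ = _ := by
        unfold Cpl
        ring

end Crest.Agent.R68.WK
end

-- ▼ part R68/WK4
section

/-!
R68 / WK4 (helper330, Part W, (W1)): gain, loss and interpolation estimates in the class
`Ep m κ U v = (1+‖v‖)^m e^{-‖v‖} (1 + κ ∑_{u∈U} ‖v-u‖^{-3/2})`, `κ · #U ≤ 1`.
-/

set_option autoImplicit false
open MeasureTheory Set Metric Submodule
open scoped ENNReal Real NNReal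
open Crest.AnalysisR.VecCalc3 Crest.AnalysisR.PDE.Boltzmann

namespace Crest.Agent.R68.WK

attribute [local irreducible] rot vec3

theorem lintegral_exp_norm_lt_top {β : ℝ} (hβ : 0 < β) :
    ∫⁻ y : R3, ENNReal.ofReal (Real.exp (-(β * ‖y‖))) < ⊤ := by
  rw [lintegral_polar (by fun_prop)]
  have h : ∀ r ∈ Ioi (0 : ℝ), ENNReal.ofReal (r ^ 2) *
      ∫⁻ w, ENNReal.ofReal (Real.exp (-(β * ‖r • w‖))) ∂sphereMeasure
      ≤ ENNReal.ofReal (4 * π * ((2 / β) ^ 2 * 2)) * ENNReal.ofReal (Real.exp (-(β / 2 * r))) := by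
    intro r hr
    have hr0 : (0 : ℝ) < r := hr
    have e : ∫⁻ w, ENNReal.ofReal (Real.exp (-(β * ‖r • w‖))) ∂sphereMeasure
        = ∫⁻ _, ENNReal.ofReal (Real.exp (-(β * r))) ∂sphereMeasure := by
      refine lintegral_congr_ae ?_
      filter_upwards [ae_sphereMeasure] with w hw
      have hn : ‖r • w‖ = r := by rw [norm_smul, hw, Real.norm_of_nonneg hr0.le, mul_one]
      rw [hn]
    rw [e, lintegral_const, sphereMeasure_univ, ← ENNReal.ofReal_mul (by positivity),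
      ← ENNReal.ofReal_mul (by positivity), ← ENNReal.ofReal_mul (by positivity)]
    apply ENNReal.ofReal_le_ofReal
    have h1 := pow_le_fact_exp 2 (x := β / 2 * r) (by positivity)
    have h2 : r ^ 2 = (2 / β) ^ 2 * (β / 2 * r) ^ 2 := by field_simp
    have h3 : Real.exp (-(β / 2 * r)) = Real.exp (β / 2 * r) * Real.exp (-(β * r)) := by
      rw [← Real.exp_add]; congr 1; ring
    have h4 : ((2 : ℕ).factorial : ℝ) = 2 := by norm_num [Nat.factorial]
    rw [h4] at h1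
    calc r ^ 2 * (Real.exp (-(β * r)) * (4 * π))
        = (4 * π) * ((2 / β) ^ 2 * (β / 2 * r) ^ 2) * Real.exp (-(β * r)) := by
          rw [← h2]; ring
      _ ≤ (4 * π) * ((2 / β) ^ 2 * (2 * Real.exp (β / 2 * r))) * Real.exp (-(β * r)) := by gcongr
      _ = _ := by rw [h3]; ring
  refine (setLIntegral_mono' measurableSet_Ioi h).trans_lt ?_
  rw [lintegral_const_mul' _ _ ENNReal.ofReal_ne_top]
  exact ENNReal.mul_lt_top ENNReal.ofReal_lt_top (lintegral_exp_Ioi (by positivity))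

/-- weight of the remaining integral -/
noncomputable def e4 (y : R3) : ℝ≥0∞ := ENNReal.ofReal (Real.exp (-(1 / 4 * ‖y‖)))

@[fun_prop]
theorem measurable_e4 : Measurable e4 := by unfold e4; fun_prop

theorem e4_le_one (y : R3) : e4 y ≤ 1 := by
  unfold e4
  rw [ENNReal.ofReal_le_one, Real.exp_le_one_iff]
  have := norm_nonneg y
  linarith

/-- the universal integral -/
noncomputable def KI : ℝ≥0∞ := 4 * (∫⁻ y, e4 y) + 4 * (∫⁻ y, sing y)

theorem KI_lt_top : KI < ⊤ := by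
  unfold KI
  refine ENNReal.add_lt_top.2 ⟨?_, ENNReal.mul_lt_top (by norm_num) lintegral_sing_lt_top⟩
  exact ENNReal.mul_lt_top (by norm_num) (lintegral_exp_norm_lt_top (by norm_num))

theorem sing_pt {a : ℝ} (ha : 0 < a) (ha' : a ≤ 5 / 4) {κ : ℝ≥0∞} {U : Finset R3}
    (hκ : κ * U.card ≤ 1) (z y : R3) :
    (1 + kp a z) * Sp κ U y ≤ 4 + 2 * sing z + 2 * (κ * ∑ u ∈ U, sing (y - u)) := by
  unfold Sp
  calc (1 + kp a z) * (1 + κ * ∑ u ∈ U, kp (3 / 2) (y - u))
      = 1 + kp a z + κ * ∑ u ∈ U, (kp (3 / 2) (y - u) + kp a z * kp (3 / 2) (y - u)) := by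
        rw [Finset.sum_add_distrib, ← Finset.mul_sum]; ring
    _ ≤ 1 + (1 + sing z) + κ * ∑ u ∈ U, ((1 + sing (y - u)) + (1 + sing z + sing (y - u))) := by
        gcongr with u hu
        · exact kp_le_sing ha.le (by linarith) z
        · exact kp_le_sing (by norm_num) (by norm_num) _
        · exact kp_mul_kp_le ha (by norm_num) (by linarith) _ _
    _ = 2 + sing z + (κ * U.card) * (2 + sing z) + 2 * (κ * ∑ u ∈ U, sing (y - u)) := by
        have : ∀ u ∈ U, (1 + sing (y - u)) + (1 + sing z + sing (y - u))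
            = (2 + sing z) + 2 * sing (y - u) := by
          intro u _; ring
        rw [Finset.sum_congr rfl this, Finset.sum_add_distrib, Finset.sum_const, nsmul_eq_mul,
          ← Finset.mul_sum]
        ring
    _ ≤ 2 + sing z + 1 * (2 + sing z) + 2 * (κ * ∑ u ∈ U, sing (y - u)) := by gcongr
    _ = _ := by ring

theorem key_int {a : ℝ} (ha : 0 < a) (ha' : a ≤ 5 / 4) {κ : ℝ≥0∞} {U : Finset R3}
    (hκ : κ * U.card ≤ 1) (v : R3) :
    ∫⁻ z, (1 + kp a z) * (e4 (v + z) * Sp κ U (v + z)) ≤ KI := by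
  have hs : ∀ u : R3, Measurable fun z : R3 => sing (v + z - u) :=
    fun u => measurable_sing.comp (by fun_prop)
  have hsum : Measurable fun z : R3 => ∑ u ∈ U, sing (v + z - u) :=
    Finset.measurable_sum _ fun u _ => hs u
  have he : Measurable fun z : R3 => e4 (v + z) := measurable_e4.comp (by fun_prop)
  calc ∫⁻ z, (1 + kp a z) * (e4 (v + z) * Sp κ U (v + z))
      ≤ ∫⁻ z, (4 * e4 (v + z) + (2 * sing z + 2 * (κ * ∑ u ∈ U, sing (v + z - u)))) := by
        refine lintegral_mono fun z => ?_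
        calc (1 + kp a z) * (e4 (v + z) * Sp κ U (v + z))
            = e4 (v + z) * ((1 + kp a z) * Sp κ U (v + z)) := by ring
          _ ≤ e4 (v + z) * (4 + 2 * sing z + 2 * (κ * ∑ u ∈ U, sing (v + z - u))) := by
              gcongr
              exact sing_pt ha ha' hκ z (v + z)
          _ = 4 * e4 (v + z) + e4 (v + z) * (2 * sing z + 2 * (κ * ∑ u ∈ U, sing (v + z - u))) := by
              ring
          _ ≤ 4 * e4 (v + z) + 1 * (2 * sing z + 2 * (κ * ∑ u ∈ U, sing (v + z - u))) := by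
              gcongr
              exact e4_le_one _
          _ = _ := by rw [one_mul]
    _ = 4 * (∫⁻ y, e4 y) + (2 * (∫⁻ z, sing z) + 2 * (κ * ∑ u ∈ U, ∫⁻ z, sing z)) := by
        rw [lintegral_add_left (he.const_mul 4), lintegral_const_mul _ he,
          lintegral_add_left (measurable_sing.const_mul 2), lintegral_const_mul _ measurable_sing,
          lintegral_const_mul _ (hsum.const_mul κ), lintegral_const_mul _ hsum,
          lintegral_finsetSum _ fun u _ => hs u, lintegral_add_left_eq_self e4 v]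
        congr 4
        refine Finset.sum_congr rfl fun u (_ : u ∈ U) => ?_
        have : (fun z : R3 => sing (v + z - u)) = fun z => sing ((v - u) + z) := by
          funext z; congr 1; abel
        rw [this]
        exact lintegral_add_left_eq_self sing (v - u)
    _ ≤ 4 * (∫⁻ y, e4 y) + (2 * (∫⁻ z, sing z) + 2 * (1 * ∫⁻ z, sing z)) := by
        have h : κ * ∑ u ∈ U, ∫⁻ z, sing z ≤ 1 * ∫⁻ z, sing z := by
          rw [Finset.sum_const, nsmul_eq_mul, ← mul_assoc]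
          gcongr
        gcongr
    _ = KI := by
        unfold KI
        ring

/-! ### geometry of the Carleman planes -/

theorem norm_le_of_plane {v z w : R3} (hz : z = ‖z‖ • w) :
    ‖v‖ ≤ max |(inner ℝ v w : ℝ)| ‖v + z‖ + ‖v + z‖ / 2 := by
  set D := max |(inner ℝ v w : ℝ)| ‖v + z‖ with hD
  have hi : (inner ℝ v z : ℝ) = ‖z‖ * inner ℝ v w := by
    conv_lhs => rw [hz]
    rw [real_inner_smul_right]
  have h1 : ‖v + z‖ ^ 2 = ‖v‖ ^ 2 + 2 * (‖z‖ * inner ℝ v w) + ‖z‖ ^ 2 := by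
    rw [norm_add_sq_real, hi]
  have h2 : |(inner ℝ v w : ℝ)| ≤ D := le_max_left _ _
  have h3 : ‖v + z‖ ≤ D := le_max_right _ _
  have h4 : (inner ℝ v w : ℝ) ^ 2 ≤ D ^ 2 := by
    rw [← sq_abs]; gcongr
  have h5 : ‖v‖ ^ 2 ≤ D ^ 2 + ‖v + z‖ ^ 2 := by
    have : ‖v‖ ^ 2 = (inner ℝ v w : ℝ) ^ 2 + ‖v + z‖ ^ 2 - ((inner ℝ v w : ℝ) + ‖z‖) ^ 2 := by
      rw [h1]; ring
    nlinarith [sq_nonneg ((inner ℝ v w : ℝ) + ‖z‖)]
  have h0 : 0 ≤ ‖v + z‖ := norm_nonneg _
  have hD0 : 0 ≤ D := h0.trans h3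
  refine (pow_le_pow_iff_left₀ (norm_nonneg v) (by positivity) two_ne_zero).1 ?_
  nlinarith

/-- constant of `geo_bound` -/
noncomputable def cm (m : ℕ) : ℝ := 8 ^ (2 * m + 1) * (2 * m + 1).factorial * Real.exp 1

theorem cm_nonneg (m : ℕ) : 0 ≤ cm m := by unfold cm; positivity

theorem geo_bound (m : ℕ) {v z w : R3} (hw : ‖w‖ = 1) (hz : z = ‖z‖ • w) (hz0 : 0 < ‖z‖) :
    ‖z‖⁻¹ * ((1 + ‖v + z‖) ^ m * Real.exp (-‖v + z‖)) *
        ((1 + max |(inner ℝ v w : ℝ)| ‖v + z‖) ^ (m + 1) *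
          Real.exp (-(max |(inner ℝ v w : ℝ)| ‖v + z‖)))
      ≤ ((1 + ‖v‖) ^ m * Real.exp (-‖v‖)) * ((1 + ‖z‖⁻¹) *
        (cm m * Real.exp (-(1 / 4 * ‖v + z‖)))) := by
  have ha := norm_le_of_plane (v := v) hz
  set D := max |(inner ℝ v w : ℝ)| ‖v + z‖ with hD
  set y := ‖v + z‖ with hy
  have hy0 : 0 ≤ y := norm_nonneg _
  have hv0 : 0 ≤ ‖v‖ := norm_nonneg _
  have hD0 : 0 ≤ D := hy0.trans (le_max_right _ _)
  have hb : D ≤ ‖v‖ + y := by
    refine max_le ?_ (by linarith)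
    calc |(inner ℝ v w : ℝ)| ≤ ‖v‖ * ‖w‖ := abs_real_inner_le_norm _ _
      _ ≤ ‖v‖ + y := by rw [hw, mul_one]; linarith
  have hvz : ‖v‖ ≤ y + ‖z‖ := by
    calc ‖v‖ = ‖(v + z) - z‖ := by congr 1; abel
      _ ≤ _ := norm_sub_le _ _
  have hi0 : 0 < ‖z‖⁻¹ := inv_pos.2 hz0
  have h1 : (1 + D) ^ m ≤ ((1 + ‖v‖) * (1 + 2 * y)) ^ m := by
    gcongr
    nlinarith
  have h2 : ‖z‖⁻¹ * (1 + D) ≤ (1 + 2 * y) * (1 + ‖z‖⁻¹) := by
    have : 1 + D ≤ (1 + 2 * y) + ‖z‖ := by linarith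
    calc ‖z‖⁻¹ * (1 + D) ≤ ‖z‖⁻¹ * ((1 + 2 * y) + ‖z‖) := by gcongr
      _ = ‖z‖⁻¹ * (1 + 2 * y) + 1 := by rw [mul_add, inv_mul_cancel₀ hz0.ne']
      _ ≤ _ := by nlinarith
  have h3 : (1 + y) ^ m ≤ (1 + 2 * y) ^ m := by
    gcongr; linarith
  have h4 : Real.exp (-y) * Real.exp (-D) ≤ Real.exp (-‖v‖) * Real.exp (-(y / 2)) := by
    rw [← Real.exp_add, ← Real.exp_add]
    apply Real.exp_le_exp.2; linarith
  have h5 := poly_exp_le' (2 * m + 1) hy0
  calc ‖z‖⁻¹ * ((1 + y) ^ m * Real.exp (-y)) * ((1 + D) ^ (m + 1) * Real.exp (-D))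
      = ((1 + y) ^ m * (1 + D) ^ m) * (‖z‖⁻¹ * (1 + D)) * (Real.exp (-y) * Real.exp (-D)) := by
        rw [pow_succ]; ring
    _ ≤ ((1 + 2 * y) ^ m * ((1 + ‖v‖) * (1 + 2 * y)) ^ m) * ((1 + 2 * y) * (1 + ‖z‖⁻¹)) *
        (Real.exp (-‖v‖) * Real.exp (-(y / 2))) := by gcongr
    _ = ((1 + ‖v‖) ^ m * Real.exp (-‖v‖)) * ((1 + ‖z‖⁻¹) *
        ((1 + 2 * y) ^ (2 * m + 1) * Real.exp (-(y / 2)))) := by
        rw [mul_pow, pow_succ, two_mul m, pow_add]; ring
    _ ≤ ((1 + ‖v‖) ^ m * Real.exp (-‖v‖)) * ((1 + ‖z‖⁻¹) *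
        ((8 ^ (2 * m + 1) * (2 * m + 1).factorial * Real.exp 1) * Real.exp (-(y / 4)))) := by
        gcongr
    _ = _ := by
        unfold cm
        congr 4; ring_nf

theorem norm_inv_smul_self {z : R3} (hz : z ≠ 0) : ‖‖z‖⁻¹ • z‖ = 1 := by
  rw [norm_smul, norm_inv, norm_norm, inv_mul_cancel₀ (norm_ne_zero_iff.2 hz)]

theorem eq_norm_smul {z : R3} (hz : z ≠ 0) : z = ‖z‖ • (‖z‖⁻¹ • z) := by
  rw [smul_smul, mul_inv_cancel₀ (norm_ne_zero_iff.2 hz), one_smul]

theorem planeInt_const_mul {g : R3 → ℝ≥0∞} (hg : Measurable g) (c : ℝ≥0∞) (v w : R3) :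
    planeInt (fun b => c * g b) v w = c * planeInt g v w := by
  unfold planeInt
  refine lintegral_const_mul _ (hg.comp ?_)
  exact measurable_const.add ((rot w).continuous.measurable.comp (by fun_prop))

/-- constant of the gain estimate -/
noncomputable def CQ (m : ℕ) : ℝ≥0∞ := 4 * (Cpl m * ENNReal.ofReal (cm m) * KI)

theorem CQ_lt_top (m : ℕ) : CQ m < ⊤ := by
  unfold CQ
  exact ENNReal.mul_lt_top (by norm_num)
    (ENNReal.mul_lt_top (ENNReal.mul_lt_top (Cpl_lt_top m) ENNReal.ofReal_lt_top) KI_lt_top)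

/-- **(W1a)** gain of the class: no growth factor -/
theorem Qp_Ep_le (m : ℕ) {κ : ℝ≥0∞} {U : Finset R3} (hκ : κ * U.card ≤ 1) (v : R3) :
    Qp (Ep m κ U) (Ep m κ U) v ≤ CQ m * ew m v := by
  classical
  set E := Ep m κ U with hE
  have hEm : Measurable E := measurable_Ep m κ U
  set Φ : R3 → R3 → ℝ≥0∞ := fun a b => E a * {b : R3 | ‖a‖ ≤ ‖b‖}.indicator E b with hΦ
  have hΦm : Measurable fun q : R3 × R3 => Φ q.1 q.2 := by
    have h1 : Measurable fun q : R3 × R3 =>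
        {q : R3 × R3 | ‖q.1‖ ≤ ‖q.2‖}.indicator (fun q => E q.2) q :=
      (hEm.comp measurable_snd).indicator (measurableSet_le (by fun_prop) (by fun_prop))
    exact (hEm.comp measurable_fst).mul h1
  have hle : ∀ a b, E a * E b ≤ Φ a b + Φ b a := by
    intro a b
    rcases le_total ‖a‖ ‖b‖ with h | h
    · have : Φ a b = E a * E b := by
        rw [hΦ]; beta_reduce; rw [indicator_of_mem (show b ∈ {b : R3 | ‖a‖ ≤ ‖b‖} from h)]
      rw [this]; exact le_self_add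
    · have : Φ b a = E a * E b := by
        rw [hΦ]; beta_reduce; rw [indicator_of_mem (show a ∈ {a : R3 | ‖b‖ ≤ ‖a‖} from h), mul_comm]
      rw [this]; exact le_add_self
  have h1 : Qp E E v ≤ 2 * Qg Φ v := by
    rw [Qp_eq_Qg]
    calc Qg (fun a b => E a * E b) v ≤ Qg (fun a b => Φ a b + Φ b a) v := Qg_mono hle v
      _ = Qg Φ v + Qg (fun a b => Φ b a) v := Qg_add hΦm v
      _ = 2 * Qg Φ v := by rw [Qg_swap hΦm]; ring
  refine h1.trans ?_
  rw [Qg_carleman hΦm]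
  have h2 : ∀ᵐ z : R3, ENNReal.ofReal ‖z‖⁻¹ * planeInt (Φ (v + z)) v (‖z‖⁻¹ • z) ≤
      (Cpl m * ENNReal.ofReal (cm m) * ew m v) *
        ((1 + kp 1 z) * (e4 (v + z) * Sp κ U (v + z))) := by
    filter_upwards [compl_mem_ae_iff.2 (measure_singleton (0 : R3))] with z hz
    have hz' : z ≠ 0 := hz
    have hz0 : 0 < ‖z‖ := norm_pos_iff.2 hz'
    set w : R3 := ‖z‖⁻¹ • z with hw
    have hw1 : ‖w‖ = 1 := norm_inv_smul_self hz'
    have hzw : z = ‖z‖ • w := eq_norm_smul hz'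
    have e1 : planeInt (Φ (v + z)) v w
        = E (v + z) * planeInt ({b : R3 | ‖v + z‖ ≤ ‖b‖}.indicator E) v w := by
      rw [← planeInt_const_mul]
      exact hEm.indicator (measurableSet_le measurable_const measurable_norm)
    rw [e1]
    have e2 := planeInt_Ep_le m hκ v hw1 ‖v + z‖
    set D := max |(inner ℝ v w : ℝ)| ‖v + z‖ with hD
    have hg := geo_bound m hw1 hzw hz0 (v := v)
    rw [← hD] at hg
    calc ENNReal.ofReal ‖z‖⁻¹ * (E (v + z) *
          planeInt ({b : R3 | ‖v + z‖ ≤ ‖b‖}.indicator E) v w)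
        ≤ ENNReal.ofReal ‖z‖⁻¹ * (E (v + z) * (Cpl m *
          ENNReal.ofReal ((1 + D) ^ (m + 1) * Real.exp (-D)))) := by gcongr
      _ = Cpl m * Sp κ U (v + z) * (ENNReal.ofReal ‖z‖⁻¹ * ew m (v + z) *
          ENNReal.ofReal ((1 + D) ^ (m + 1) * Real.exp (-D))) := by
          rw [hE]; unfold Ep; ring
      _ ≤ Cpl m * Sp κ U (v + z) * (ew m v * ((1 + kp 1 z) *
          (ENNReal.ofReal (cm m) * e4 (v + z)))) := by
          refine mul_le_mul_right ?_ _
          unfold ew e4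
          have hcm := cm_nonneg m
          rw [← ENNReal.ofReal_mul (by positivity), ← ENNReal.ofReal_mul (by positivity),
            ← ENNReal.ofReal_mul hcm]
          refine (ENNReal.ofReal_le_ofReal hg).trans ?_
          rw [ENNReal.ofReal_mul (by positivity)]
          gcongr
          rw [ENNReal.ofReal_mul (by positivity : (0 : ℝ) ≤ 1 + ‖z‖⁻¹)]
          gcongr
          rw [ENNReal.ofReal_add zero_le_one (by positivity), ENNReal.ofReal_one]
          gcongr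
          exact inv_norm_le_kp z
      _ = _ := by ring
  calc 2 * (2 * ∫⁻ z, ENNReal.ofReal ‖z‖⁻¹ * planeInt (Φ (v + z)) v (‖z‖⁻¹ • z))
      ≤ 2 * (2 * ∫⁻ z, (Cpl m * ENNReal.ofReal (cm m) * ew m v) *
        ((1 + kp 1 z) * (e4 (v + z) * Sp κ U (v + z)))) := by
        gcongr 2 * (2 * ?_)
        exact lintegral_mono_ae h2
    _ = 2 * (2 * ((Cpl m * ENNReal.ofReal (cm m) * ew m v) *
        ∫⁻ z, ((1 + kp 1 z) * (e4 (v + z) * Sp κ U (v + z))))) := by
        rw [lintegral_const_mul]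
        exact ((measurable_kp 1).const_add 1).mul
          ((measurable_e4.comp (by fun_prop)).mul ((measurable_Sp κ U).comp (by fun_prop)))
    _ ≤ 2 * (2 * ((Cpl m * ENNReal.ofReal (cm m) * ew m v) * KI)) := by
        gcongr
        exact key_int one_pos (by norm_num) hκ v
    _ = _ := by unfold CQ; ring

end Crest.Agent.R68.WK
end

-- ▼ part R68/WK5

/-!
R68 / WK5 (helper330, Part W, (W1)): loss, moments, interpolation with `∫ f`, cold gain, Maxwellian.
-/

set_option autoImplicit false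
open MeasureTheory Set Metric Submodule
open scoped ENNReal Real NNReal
open Crest.AnalysisR.VecCalc3 Crest.AnalysisR.PDE.Boltzmann

namespace Crest.Agent.R68.WK

attribute [local irreducible] rot vec3

/-! ### monotonicity, constants -/

theorem Qp_mono {f f' g g' : R3 → ℝ≥0∞} (hf : ∀ a, f a ≤ f' a) (hg : ∀ a, g a ≤ g' a) (v : R3) :
    Qp f g v ≤ Qp f' g' v := by
  rw [Qp_eq_Qg, Qp_eq_Qg]
  exact Qg_mono (fun a b => mul_le_mul' (hf a) (hg b)) v

theorem Qp_const_mul_left (c : ℝ≥0∞) {f g : R3 → ℝ≥0∞} (hf : Measurable f) (hg : Measurable g)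
    (v : R3) : Qp (fun a => c * f a) g v = c * Qp f g v := by
  have hm := measurable_Qg_integrand (Φ := fun a b => f a * g b)
    ((hf.comp measurable_fst).mul (hg.comp measurable_snd)) v
  rw [Qp_eq_Qg, Qp_eq_Qg]
  unfold Qg
  rw [← lintegral_const_mul _ hm.lintegral_prod_right']
  refine lintegral_congr fun vs => ?_
  rw [← lintegral_const_mul _ (measurable_Qg_slice' (Φ := fun a b => f a * g b)
    ((hf.comp measurable_fst).mul (hg.comp measurable_snd)) v vs)]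
  refine lintegral_congr fun w => ?_
  ring

theorem Qp_const_mul_right (c : ℝ≥0∞) {f g : R3 → ℝ≥0∞} (hf : Measurable f) (hg : Measurable g)
    (v : R3) : Qp f (fun a => c * g a) v = c * Qp f g v := by
  rw [Qp_comm hf (hg.const_mul c), Qp_const_mul_left c hg hf, Qp_comm hg hf]

theorem Lc_eq (g : R3 → ℝ≥0∞) (v : R3) :
    Lc g v = ∫⁻ vs, ENNReal.ofReal (2 * π * ‖v - vs‖) * g vs := by
  unfold Lc
  refine lintegral_congr fun vs => ?_
  exact lintegral_abs_inner_mul _ _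

/-- loss frequency through the first moment -/
theorem Lc_le_moment {g : R3 → ℝ≥0∞} (hg : Measurable g) (v : R3) :
    Lc g v ≤ ENNReal.ofReal (2 * π) * (ENNReal.ofReal (1 + ‖v‖) *
      ∫⁻ y, ENNReal.ofReal (1 + ‖y‖) * g y) := by
  rw [Lc_eq, ← lintegral_const_mul _ (by fun_prop), ← lintegral_const_mul _ (by fun_prop)]
  refine lintegral_mono fun y => ?_
  rw [← mul_assoc, ← mul_assoc, ← ENNReal.ofReal_mul (by positivity),
    ← ENNReal.ofReal_mul (by positivity)]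
  refine mul_le_mul' (ENNReal.ofReal_le_ofReal ?_) le_rfl
  have h := norm_sub_le v y
  have h1 := norm_nonneg v
  have h2 := norm_nonneg y
  have h3 : ‖v - y‖ ≤ (1 + ‖v‖) * (1 + ‖y‖) := by nlinarith
  calc 2 * π * ‖v - y‖ ≤ 2 * π * ((1 + ‖v‖) * (1 + ‖y‖)) := by gcongr
    _ = _ := by ring

/-! ### pointwise absorption -/

theorem ew_absorb (k m : ℕ) (y : R3) :
    ENNReal.ofReal ((1 + ‖y‖) ^ k) * ew m y ≤
      ENNReal.ofReal (8 ^ (k + m) * (k + m).factorial * Real.exp 1) * (e4 y * e4 y) := by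
  unfold ew e4
  rw [← ENNReal.ofReal_mul (by positivity), ← ENNReal.ofReal_mul (by positivity),
    ← ENNReal.ofReal_mul (by positivity)]
  apply ENNReal.ofReal_le_ofReal
  have hy : 0 ≤ ‖y‖ := norm_nonneg y
  have h := poly_exp_le' (k + m) hy
  have h1 : (1 + ‖y‖) ^ (k + m) ≤ (1 + 2 * ‖y‖) ^ (k + m) := by gcongr; linarith
  have e1 : Real.exp (-‖y‖) = Real.exp (-(‖y‖ / 2)) * Real.exp (-(‖y‖ / 2)) := by
    rw [← Real.exp_add]; congr 1; ring
  have e2 : Real.exp (-(1 / 4 * ‖y‖)) * Real.exp (-(1 / 4 * ‖y‖)) = Real.exp (-(‖y‖ / 2)) := by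
    rw [← Real.exp_add]; congr 1; ring
  have e3 : Real.exp (-(‖y‖ / 4)) ≤ 1 := by
    rw [Real.exp_le_one_iff]; linarith
  rw [e2]
  calc (1 + ‖y‖) ^ k * ((1 + ‖y‖) ^ m * Real.exp (-‖y‖))
      = ((1 + ‖y‖) ^ (k + m) * Real.exp (-(‖y‖ / 2))) * Real.exp (-(‖y‖ / 2)) := by
        rw [e1, pow_add]; ring
    _ ≤ ((8 ^ (k + m) * (k + m).factorial * Real.exp 1) * Real.exp (-(‖y‖ / 4))) *
        Real.exp (-(‖y‖ / 2)) := by
        have h2 : (1 + ‖y‖) ^ (k + m) * Real.exp (-(‖y‖ / 2)) ≤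
            (1 + 2 * ‖y‖) ^ (k + m) * Real.exp (-(‖y‖ / 2)) := by gcongr
        exact mul_le_mul_of_nonneg_right (h2.trans h) (Real.exp_pos _).le
    _ ≤ ((8 ^ (k + m) * (k + m).factorial * Real.exp 1) * 1) * Real.exp (-(‖y‖ / 2)) := by
        gcongr
    _ = _ := by ring

/-- constant of `ew_absorb` -/
noncomputable def ca (n : ℕ) : ℝ≥0∞ := ENNReal.ofReal (8 ^ n * n.factorial * Real.exp 1)

theorem ca_lt_top (n : ℕ) : ca n < ⊤ := ENNReal.ofReal_lt_top

theorem Ep_absorb (k m : ℕ) (κ : ℝ≥0∞) (U : Finset R3) (y : R3) :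
    ENNReal.ofReal ((1 + ‖y‖) ^ k) * Ep m κ U y ≤ ca (k + m) * (e4 y * (e4 y * Sp κ U y)) := by
  unfold Ep
  calc ENNReal.ofReal ((1 + ‖y‖) ^ k) * (ew m y * Sp κ U y)
      = (ENNReal.ofReal ((1 + ‖y‖) ^ k) * ew m y) * Sp κ U y := by ring
    _ ≤ (ca (k + m) * (e4 y * e4 y)) * Sp κ U y := mul_le_mul' (ew_absorb k m y) le_rfl
    _ = _ := by ring

theorem key_int_one {κ : ℝ≥0∞} {U : Finset R3} (hκ : κ * U.card ≤ 1) :
    ∫⁻ y, e4 y * Sp κ U y ≤ KI := by
  refine le_trans ?_ (key_int one_pos (by norm_num) hκ (0 : R3))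
  refine lintegral_mono fun y => ?_
  simp only [zero_add]
  exact le_mul_of_one_le_left' le_self_add

/-! ### moments of the class, loss -/

/-- polynomial moments of the class -/
theorem moment_Ep_le (k m : ℕ) {κ : ℝ≥0∞} {U : Finset R3} (hκ : κ * U.card ≤ 1) :
    ∫⁻ y, ENNReal.ofReal ((1 + ‖y‖) ^ k) * Ep m κ U y ≤ ca (k + m) * KI := by
  calc ∫⁻ y, ENNReal.ofReal ((1 + ‖y‖) ^ k) * Ep m κ U y
      ≤ ∫⁻ y, ca (k + m) * (e4 y * Sp κ U y) := by
        refine lintegral_mono fun y => (Ep_absorb k m κ U y).trans ?_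
        exact mul_le_mul' le_rfl (mul_le_of_le_one_left' (e4_le_one y))
    _ = ca (k + m) * ∫⁻ y, e4 y * Sp κ U y := lintegral_const_mul _ (by fun_prop)
    _ ≤ _ := by gcongr; exact key_int_one hκ

/-- **(W1b)** loss frequency of the class -/
theorem Lc_Ep_le (m : ℕ) {κ : ℝ≥0∞} {U : Finset R3} (hκ : κ * U.card ≤ 1) (v : R3) :
    Lc (Ep m κ U) v ≤ ENNReal.ofReal (2 * π) * (ca (1 + m) * KI) * ENNReal.ofReal (1 + ‖v‖) := by
  refine (Lc_le_moment (measurable_Ep m κ U) v).trans ?_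
  have h := moment_Ep_le 1 m hκ
  simp only [pow_one] at h
  calc _ ≤ ENNReal.ofReal (2 * π) * (ENNReal.ofReal (1 + ‖v‖) * (ca (1 + m) * KI)) := by gcongr
    _ = _ := by ring

/-- moment interpolation: high velocities are exponentially small, uniformly in the class -/
theorem moment_interp (k m : ℕ) {κ : ℝ≥0∞} {U : Finset R3} (hκ : κ * U.card ≤ 1)
    {f : R3 → ℝ≥0∞} (hf : Measurable f) (hfE : ∀ y, f y ≤ Ep m κ U y) (R : ℝ) :
    ∫⁻ y, ENNReal.ofReal ((1 + ‖y‖) ^ k) * f y ≤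
      ENNReal.ofReal ((1 + R) ^ k) * (∫⁻ y, f y) +
        ENNReal.ofReal (Real.exp (-(1 / 4 * R))) * (ca (k + m) * KI) := by
  have hpt : ∀ y, ENNReal.ofReal ((1 + ‖y‖) ^ k) * f y ≤ ENNReal.ofReal ((1 + R) ^ k) * f y +
      ENNReal.ofReal (Real.exp (-(1 / 4 * R))) * (ca (k + m) * (e4 y * Sp κ U y)) := by
    intro y
    rcases le_or_gt ‖y‖ R with h | h
    · refine le_trans ?_ le_self_add
      gcongr
    · refine le_trans ?_ le_add_self
      calc ENNReal.ofReal ((1 + ‖y‖) ^ k) * f y ≤ ENNReal.ofReal ((1 + ‖y‖) ^ k) * Ep m κ U y := by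
            gcongr; exact hfE y
        _ ≤ ca (k + m) * (e4 y * (e4 y * Sp κ U y)) := Ep_absorb k m κ U y
        _ ≤ ca (k + m) * (ENNReal.ofReal (Real.exp (-(1 / 4 * R))) * (e4 y * Sp κ U y)) := by
            gcongr
            unfold e4
            apply ENNReal.ofReal_le_ofReal
            apply Real.exp_le_exp.2
            linarith
        _ = _ := by ring
  calc ∫⁻ y, ENNReal.ofReal ((1 + ‖y‖) ^ k) * f y
      ≤ ∫⁻ y, (ENNReal.ofReal ((1 + R) ^ k) * f y +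
        ENNReal.ofReal (Real.exp (-(1 / 4 * R))) * (ca (k + m) * (e4 y * Sp κ U y))) :=
        lintegral_mono hpt
    _ = ENNReal.ofReal ((1 + R) ^ k) * (∫⁻ y, f y) +
        ENNReal.ofReal (Real.exp (-(1 / 4 * R))) * (ca (k + m) * ∫⁻ y, e4 y * Sp κ U y) := by
        rw [lintegral_add_left (hf.const_mul _), lintegral_const_mul _ hf,
          lintegral_const_mul _ (by fun_prop), lintegral_const_mul _ (by fun_prop)]
    _ ≤ _ := by gcongr; exact key_int_one hκ

/-! ### gain against the class, in kernel form -/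

/-- plane integrals of the class are bounded -/
theorem planeInt_Ep_le_const (m : ℕ) {κ : ℝ≥0∞} {U : Finset R3} (hκ : κ * U.card ≤ 1) (v : R3)
    {w : R3} (hw : ‖w‖ = 1) :
    planeInt (Ep m κ U) v w ≤ Cpl m * ENNReal.ofReal ((m + 1).factorial * Real.exp 1) := by
  have h := planeInt_Ep_le m hκ v hw 0
  have e : {b : R3 | (0 : ℝ) ≤ ‖b‖}.indicator (Ep m κ U) = Ep m κ U := by
    funext b
    rw [indicator_of_mem (show b ∈ {b : R3 | (0 : ℝ) ≤ ‖b‖} from norm_nonneg b)]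
  rw [e] at h
  refine h.trans (mul_le_mul' le_rfl (ENNReal.ofReal_le_ofReal ?_))
  exact poly_exp_le (m + 1) (le_max_right _ _)

/-- constant of `Qp_le_potential` -/
noncomputable def CP (m : ℕ) : ℝ≥0∞ :=
  2 * (Cpl m * ENNReal.ofReal ((m + 1).factorial * Real.exp 1))

theorem CP_lt_top (m : ℕ) : CP m < ⊤ := by
  unfold CP
  exact ENNReal.mul_lt_top (by norm_num) (ENNReal.mul_lt_top (Cpl_lt_top m) ENNReal.ofReal_lt_top)

/-- gain of an arbitrary profile against the class: Newton potential -/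
theorem Qp_le_potential (m : ℕ) {κ : ℝ≥0∞} {U : Finset R3} (hκ : κ * U.card ≤ 1)
    {f : R3 → ℝ≥0∞} (hf : Measurable f) (v : R3) :
    Qp f (Ep m κ U) v ≤ CP m * ∫⁻ z, kp 1 z * f (v + z) := by
  have hEm := measurable_Ep m κ U
  rw [Qp_eq_Qg, Qg_carleman ((hf.comp measurable_fst).mul (hEm.comp measurable_snd))]
  unfold CP
  rw [mul_assoc]
  refine mul_le_mul' le_rfl ?_
  have hkf : Measurable fun z => kp 1 z * f (v + z) :=
    (measurable_kp 1).mul (hf.comp (by fun_prop))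
  rw [← lintegral_const_mul _ hkf]
  refine lintegral_mono_ae ?_
  filter_upwards [compl_mem_ae_iff.2 (measure_singleton (0 : R3))] with z hz
  have hz' : z ≠ 0 := hz
  rw [planeInt_const_mul hEm]
  calc ENNReal.ofReal ‖z‖⁻¹ * (f (v + z) * planeInt (Ep m κ U) v (‖z‖⁻¹ • z))
      ≤ kp 1 z * (f (v + z) * (Cpl m * ENNReal.ofReal ((m + 1).factorial * Real.exp 1))) := by
        gcongr
        · exact inv_norm_le_kp z
        · exact planeInt_Ep_le_const m hκ v (norm_inv_smul_self hz')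
    _ = _ := by ring

theorem kp_one_split {δ : ℝ} (hδ : 0 < δ) (z : R3) :
    kp 1 z ≤ ENNReal.ofReal δ⁻¹ + ENNReal.ofReal (δ ^ (1 / 4 : ℝ)) * kp (5 / 4) z := by
  rcases le_or_gt δ ‖z‖ with h | h
  · refine le_trans ?_ le_self_add
    unfold kp
    rw [ENNReal.rpow_neg_one, ENNReal.ofReal_inv_of_pos hδ]
    exact ENNReal.inv_le_inv.2 (ENNReal.ofReal_le_ofReal h)
  · refine le_trans ?_ le_add_self
    unfold kp
    by_cases hz : z = 0
    · subst hz
      simp only [norm_zero, ENNReal.ofReal_zero]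
      rw [ENNReal.zero_rpow_of_neg (by norm_num), ENNReal.zero_rpow_of_neg (by norm_num),
        ENNReal.mul_top]
      exact (ENNReal.ofReal_pos.2 (by positivity)).ne'
    · have hz0 : 0 < ‖z‖ := norm_pos_iff.2 hz
      have e : (ENNReal.ofReal ‖z‖) ^ (-1 : ℝ)
          = (ENNReal.ofReal ‖z‖) ^ (1 / 4 : ℝ) * (ENNReal.ofReal ‖z‖) ^ (-(5 / 4) : ℝ) := by
        rw [← ENNReal.rpow_add _ _ (by simpa using hz) ENNReal.ofReal_ne_top]
        norm_num
      rw [e]
      gcongr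
      rw [← ENNReal.ofReal_rpow_of_nonneg hδ.le (by norm_num)]
      gcongr

/-- Newton potential of a function of the class: interpolation with its integral -/
theorem potential_interp (m : ℕ) {κ : ℝ≥0∞} {U : Finset R3} (hκ : κ * U.card ≤ 1)
    {f : R3 → ℝ≥0∞} (hf : Measurable f) (hfE : ∀ y, f y ≤ Ep m κ U y) {δ : ℝ} (hδ : 0 < δ)
    (v : R3) :
    ∫⁻ z, kp 1 z * f (v + z) ≤
      ENNReal.ofReal δ⁻¹ * (∫⁻ y, f y) + ENNReal.ofReal (δ ^ (1 / 4 : ℝ)) * (ca m * KI) := by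
  have hfv : Measurable fun z => f (v + z) := by fun_prop
  have hEv : Measurable fun z : R3 => e4 (v + z) * Sp κ U (v + z) := by
    exact (measurable_e4.comp (by fun_prop)).mul ((measurable_Sp κ U).comp (by fun_prop))
  have hk : Measurable fun z : R3 => (1 + kp (5 / 4) z) * (e4 (v + z) * Sp κ U (v + z)) :=
    ((measurable_kp _).const_add 1).mul hEv
  have hpt : ∀ z, kp 1 z * f (v + z) ≤ ENNReal.ofReal δ⁻¹ * f (v + z) +
      ENNReal.ofReal (δ ^ (1 / 4 : ℝ)) *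
        (ca m * ((1 + kp (5 / 4) z) * (e4 (v + z) * Sp κ U (v + z)))) := by
    intro z
    have hE := Ep_absorb 0 m κ U (v + z)
    simp only [pow_zero, ENNReal.ofReal_one, one_mul, zero_add] at hE
    have hf' : f (v + z) ≤ ca m * (e4 (v + z) * Sp κ U (v + z)) := by
      refine (hfE _).trans (hE.trans ?_)
      exact mul_le_mul' le_rfl (mul_le_of_le_one_left' (e4_le_one _))
    calc kp 1 z * f (v + z)
        ≤ (ENNReal.ofReal δ⁻¹ + ENNReal.ofReal (δ ^ (1 / 4 : ℝ)) * kp (5 / 4) z) * f (v + z) := by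
          gcongr; exact kp_one_split hδ z
      _ = ENNReal.ofReal δ⁻¹ * f (v + z) +
          ENNReal.ofReal (δ ^ (1 / 4 : ℝ)) * (kp (5 / 4) z * f (v + z)) := by ring
      _ ≤ ENNReal.ofReal δ⁻¹ * f (v + z) + ENNReal.ofReal (δ ^ (1 / 4 : ℝ)) *
          ((1 + kp (5 / 4) z) * (ca m * (e4 (v + z) * Sp κ U (v + z)))) := by
          gcongr
          exact le_add_self
      _ = _ := by ring
  calc ∫⁻ z, kp 1 z * f (v + z)
      ≤ ∫⁻ z, (ENNReal.ofReal δ⁻¹ * f (v + z) + ENNReal.ofReal (δ ^ (1 / 4 : ℝ)) *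
        (ca m * ((1 + kp (5 / 4) z) * (e4 (v + z) * Sp κ U (v + z))))) := lintegral_mono hpt
    _ = ENNReal.ofReal δ⁻¹ * (∫⁻ y, f y) + ENNReal.ofReal (δ ^ (1 / 4 : ℝ)) *
        (ca m * ∫⁻ z, ((1 + kp (5 / 4) z) * (e4 (v + z) * Sp κ U (v + z)))) := by
        rw [lintegral_add_left (hfv.const_mul _), lintegral_const_mul _ hfv,
          lintegral_const_mul _ (hk.const_mul _), lintegral_const_mul _ hk,
          lintegral_add_left_eq_self f v]
    _ ≤ _ := by gcongr; exact key_int (by norm_num) le_rfl hκ v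

/-- **(W1c)** gain against the class: interpolation with the mass -/
theorem Qp_interp (m : ℕ) {κ : ℝ≥0∞} {U : Finset R3} (hκ : κ * U.card ≤ 1)
    {f : R3 → ℝ≥0∞} (hf : Measurable f) (hfE : ∀ y, f y ≤ Ep m κ U y) {δ : ℝ} (hδ : 0 < δ)
    (v : R3) :
    Qp f (Ep m κ U) v ≤
      CP m * (ENNReal.ofReal δ⁻¹ * (∫⁻ y, f y) + ENNReal.ofReal (δ ^ (1 / 4 : ℝ)) * (ca m * KI)) := by
  refine (Qp_le_potential m hκ hf v).trans ?_
  gcongr
  exact potential_interp m hκ hf hfE hδ v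

/-! ### cold partner -/

/-- **(W1e)** gain of a cold profile (velocities `≤ R'`) against the class -/
theorem Qp_cold_le (m : ℕ) {κ : ℝ≥0∞} {U : Finset R3} (hκ : κ * U.card ≤ 1)
    {c : R3 → ℝ≥0∞} (hc : Measurable c) {R' : ℝ} (hR' : 0 ≤ R') (hsupp : ∀ y, R' < ‖y‖ → c y = 0)
    (v : R3) :
    Qp c (Ep m κ U) v ≤
      (2 * Cpl m * ENNReal.ofReal (Real.exp R' * (1 + R'))) * ew m v *
        ∫⁻ z, (1 + kp 1 z) * c (v + z) := by
  have hEm := measurable_Ep m κ U
  rw [Qp_eq_Qg, Qg_carleman ((hc.comp measurable_fst).mul (hEm.comp measurable_snd))]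
  have hkf : Measurable fun z => (1 + kp 1 z) * c (v + z) :=
    ((measurable_kp 1).const_add 1).mul (hc.comp (by fun_prop))
  rw [mul_assoc, mul_assoc, mul_assoc]
  refine mul_le_mul' le_rfl ?_
  rw [← lintegral_const_mul _ hkf, ← lintegral_const_mul _ (hkf.const_mul _),
    ← lintegral_const_mul _ ((hkf.const_mul _).const_mul _)]
  refine lintegral_mono_ae ?_
  filter_upwards [compl_mem_ae_iff.2 (measure_singleton (0 : R3))] with z hz
  have hz' : z ≠ 0 := hz
  have hz0 : 0 < ‖z‖ := norm_pos_iff.2 hz'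
  set w : R3 := ‖z‖⁻¹ • z with hw
  have hw1 : ‖w‖ = 1 := norm_inv_smul_self hz'
  have hzw : z = ‖z‖ • w := eq_norm_smul hz'
  rw [planeInt_const_mul hEm]
  rcases lt_or_ge R' ‖v + z‖ with hbig | hsm
  · rw [hsupp _ hbig]; simp
  have h := planeInt_Ep_le m hκ v hw1 0
  have e : {b : R3 | (0 : ℝ) ≤ ‖b‖}.indicator (Ep m κ U) = Ep m κ U := by
    funext b
    rw [indicator_of_mem (show b ∈ {b : R3 | (0 : ℝ) ≤ ‖b‖} from norm_nonneg b)]
  rw [e, max_eq_left (abs_nonneg _)] at h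
  set d := |(inner ℝ v w : ℝ)| with hd
  have hd0 : 0 ≤ d := abs_nonneg _
  have hv0 : 0 ≤ ‖v‖ := norm_nonneg v
  have hdv : d ≤ ‖v‖ := by
    calc d ≤ ‖v‖ * ‖w‖ := abs_real_inner_le_norm _ _
      _ = ‖v‖ := by rw [hw1, mul_one]
  have hvd : ‖v‖ ≤ d + R' := by
    have hi : (inner ℝ v z : ℝ) = ‖z‖ * inner ℝ v w := by
      conv_lhs => rw [hzw]
      rw [real_inner_smul_right]
    have h1 : ‖v + z‖ ^ 2 = ‖v‖ ^ 2 + 2 * (‖z‖ * inner ℝ v w) + ‖z‖ ^ 2 := by
      rw [norm_add_sq_real, hi]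
    have h2 : ‖v‖ ^ 2 = (inner ℝ v w : ℝ) ^ 2 + ‖v + z‖ ^ 2 - ((inner ℝ v w : ℝ) + ‖z‖) ^ 2 := by
      rw [h1]; ring
    have h3 : (inner ℝ v w : ℝ) ^ 2 = d ^ 2 := by rw [hd, sq_abs]
    have h4 : ‖v + z‖ ^ 2 ≤ R' ^ 2 := by gcongr
    refine (pow_le_pow_iff_left₀ hv0 (by positivity) two_ne_zero).1 ?_
    nlinarith [sq_nonneg ((inner ℝ v w : ℝ) + ‖z‖), mul_nonneg hd0 hR']
  have hvz : ‖v‖ ≤ R' + ‖z‖ := by
    calc ‖v‖ = ‖(v + z) - z‖ := by congr 1; abel
      _ ≤ ‖v + z‖ + ‖z‖ := norm_sub_le _ _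
      _ ≤ _ := by linarith
  have hi0 : 0 < ‖z‖⁻¹ := inv_pos.2 hz0
  have hreal : ‖z‖⁻¹ * ((1 + d) ^ (m + 1) * Real.exp (-d)) ≤
      (Real.exp R' * (1 + R')) * ((1 + ‖v‖) ^ m * Real.exp (-‖v‖)) * (1 + ‖z‖⁻¹) := by
    have h1 : Real.exp (-d) ≤ Real.exp R' * Real.exp (-‖v‖) := by
      rw [← Real.exp_add]; apply Real.exp_le_exp.2; linarith
    have h2 : ‖z‖⁻¹ * (1 + d) ≤ (1 + R') * (1 + ‖z‖⁻¹) := by
      have h0 : 1 + d ≤ (1 + R') + ‖z‖ := by linarith
      calc ‖z‖⁻¹ * (1 + d) ≤ ‖z‖⁻¹ * ((1 + R') + ‖z‖) := by gcongr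
        _ = ‖z‖⁻¹ * (1 + R') + 1 := by rw [mul_add, inv_mul_cancel₀ hz0.ne']
        _ ≤ _ := by nlinarith
    have h3 : (1 + d) ^ m ≤ (1 + ‖v‖) ^ m := by gcongr
    calc ‖z‖⁻¹ * ((1 + d) ^ (m + 1) * Real.exp (-d))
        = (‖z‖⁻¹ * (1 + d)) * (1 + d) ^ m * Real.exp (-d) := by rw [pow_succ]; ring
      _ ≤ ((1 + R') * (1 + ‖z‖⁻¹)) * (1 + ‖v‖) ^ m * (Real.exp R' * Real.exp (-‖v‖)) := by gcongr
      _ = _ := by ring
  calc ENNReal.ofReal ‖z‖⁻¹ * (c (v + z) * planeInt (Ep m κ U) v w)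
      ≤ ENNReal.ofReal ‖z‖⁻¹ * (c (v + z) *
        (Cpl m * ENNReal.ofReal ((1 + d) ^ (m + 1) * Real.exp (-d)))) := by gcongr
    _ = Cpl m * c (v + z) * ENNReal.ofReal (‖z‖⁻¹ * ((1 + d) ^ (m + 1) * Real.exp (-d))) := by
        rw [ENNReal.ofReal_mul hi0.le]; ring
    _ ≤ Cpl m * c (v + z) * ENNReal.ofReal ((Real.exp R' * (1 + R')) *
        ((1 + ‖v‖) ^ m * Real.exp (-‖v‖)) * (1 + ‖z‖⁻¹)) :=
        mul_le_mul' le_rfl (ENNReal.ofReal_le_ofReal hreal)
    _ = Cpl m * c (v + z) * (ENNReal.ofReal (Real.exp R' * (1 + R')) * ew m v *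
        (1 + ENNReal.ofReal ‖z‖⁻¹)) := by
        unfold ew
        rw [← ENNReal.ofReal_one, ← ENNReal.ofReal_add zero_le_one hi0.le,
          ← ENNReal.ofReal_mul (by positivity), ← ENNReal.ofReal_mul (by positivity)]
    _ ≤ Cpl m * c (v + z) * (ENNReal.ofReal (Real.exp R' * (1 + R')) * ew m v *
        (1 + kp 1 z)) := by
        gcongr; exact inv_norm_le_kp z
    _ = _ := by ring

/-! ### the Maxwellian belongs to the class -/





theorem Ep_succ (κ : ℝ≥0∞) (U : Finset R3) (m : ℕ) (v : R3) :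
    Ep (m + 1) κ U v = ENNReal.ofReal (1 + ‖v‖) * Ep m κ U v := by
  unfold Ep ew
  rw [← mul_assoc, ← ENNReal.ofReal_mul (by positivity)]
  congr 2
  rw [pow_succ]; ring

end Crest.Agent.R68.WK
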