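import Crest.Agent.R68.ColdVS
import Crest.Agent.R68.WK5
import Crest.Agent.R68.WA0

-- ▼ part R68/ColdW5
section

/-!
# Row 68, part W (helper827): collisions of two cold sheets, all times (one pair)
-/

set_option autoImplicit false
open MeasureTheory Set
open scoped ENNReal NNReal
open Crest.AnalysisR.VecCalc3 Crest.AnalysisR.PDE.Boltzmann

noncomputable section

namespace Crest.Agent.R68.ColdW

open Crest.Agent.R68
open Crest.Agent.R68.WA (We)
open Crest.Agent.R68.WK (ew Ep Qp_cold_le Cpl Cpl_lt_top kp measurable_kp)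

variable {P : Par}

/-! ### a bounded profile against a cold profile -/

theorem one_kp_newt {c : R3 → ℝ≥0∞} (hc : Measurable c) (v : R3) :
    ∫⁻ z, (1 + kp 1 z) * c (v + z) = (∫⁻ u, c u) + C.newt c v := by
  have h0 : ∫⁻ z, kp 1 z * c (v + z) = C.newt c v := by
    rw [C.newt_eq]
    refine lintegral_congr_ae ?_
    filter_upwards [compl_mem_ae_iff.2 (measure_singleton (0 : R3))] with z hz
    have hz0 : 0 < ‖z‖ := norm_pos_iff.2 hz
    congr 1
    unfold kp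
    rw [ENNReal.rpow_neg_one, ENNReal.ofReal_inv_of_pos hz0]
  rw [← h0]
  have h : ∀ z, (1 + kp 1 z) * c (v + z) = c (v + z) + kp 1 z * c (v + z) := fun z => by ring
  simp_rw [h]
  rw [lintegral_add_left (by fun_prop), lintegral_add_left_eq_self (fun z => c z) v]

/-- constant of the collisions with a bounded profile -/
def CS (R' : ℝ) : ℝ≥0∞ :=
  ENNReal.ofReal (Real.exp R') * (2 * Cpl 0 * ENNReal.ofReal (Real.exp R' * (1 + R')))

theorem CS_ne_top (R' : ℝ) : CS R' ≠ ⊤ :=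
  ENNReal.mul_ne_top ENNReal.ofReal_ne_top (ENNReal.mul_ne_top
    (ENNReal.mul_ne_top (by norm_num) (Cpl_lt_top 0).ne) ENNReal.ofReal_ne_top)

theorem Ep_zero_empty (y : R3) : Ep 0 0 ∅ y = We y := by
  unfold Ep WK.Sp ew We
  simp

/-- gain of a cold profile against a bounded one -/
theorem Qp_broad {M R' : ℝ} (hR' : 0 ≤ R') {f g : R3 → ℝ≥0∞} (hf : Measurable f)
    (hsf : ∀ y, R' < ‖y‖ → f y = 0) (hsg : ∀ y, R' < ‖y‖ → g y = 0)
    (hM : ∀ y, g y ≤ ENNReal.ofReal M) (v : R3) :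
    Qp f g v ≤ ENNReal.ofReal M * CS R' * (We v * ((∫⁻ u, f u) + C.newt f v)) := by
  have hc : ENNReal.ofReal M * ENNReal.ofReal (Real.exp R') ≠ ⊤ :=
    ENNReal.mul_ne_top ENNReal.ofReal_ne_top ENNReal.ofReal_ne_top
  have h1 : ∀ y, g y ≤ ENNReal.ofReal M * ENNReal.ofReal (Real.exp R') * Ep 0 0 ∅ y := by
    intro y
    rcases lt_or_ge R' ‖y‖ with h | h
    · rw [hsg y h]; exact bot_le
    · rw [Ep_zero_empty, mul_assoc]
      calc g y ≤ ENNReal.ofReal M * 1 := by rw [mul_one]; exact hM y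
        _ ≤ _ := by
          gcongr
          unfold We
          rw [← ENNReal.ofReal_mul (Real.exp_pos _).le, ← Real.exp_add, ← ENNReal.ofReal_one]
          apply ENNReal.ofReal_le_ofReal
          exact Real.one_le_exp (by linarith)
  calc Qp f g v ≤ Qp f (fun y => ENNReal.ofReal M * ENNReal.ofReal (Real.exp R') * Ep 0 0 ∅ y) v :=
        WA.Qp_mono (fun _ => le_rfl) h1 v
    _ = ENNReal.ofReal M * ENNReal.ofReal (Real.exp R') * Qp f (Ep 0 0 ∅) v :=
        WA.Qp_smul_right hc _ _ v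
    _ ≤ ENNReal.ofReal M * ENNReal.ofReal (Real.exp R') *
          ((2 * Cpl 0 * ENNReal.ofReal (Real.exp R' * (1 + R'))) * ew 0 v *
            ∫⁻ z, (1 + kp 1 z) * f (v + z)) := by
        gcongr
        exact Qp_cold_le 0 (by simp) hf hR' hsf v
    _ = _ := by
        rw [one_kp_newt hf]
        have e : ew 0 v = We v := by unfold ew We; simp
        rw [e]; unfold CS; ring

/-! ### sheets -/

/-- the majorant of one sheet `i = (image, lane)` -/
def sh (P : Par) (t : ℝ) (x : P2) (i : (ℤ × ℤ) × ℕ) (v : R3) : ℝ≥0∞ :=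
  phij P i.2 t (x + latt i.1) v + warmj P i.2 t (x + latt i.1) v

lemma sh_eq_zero (h : Big P) {t : ℝ} (ht : 0 ≤ t) {x : P2} {i : (ℤ × ℤ) × ℕ}
    (hz : ¬ zt P i.2 t (x + latt i.1)) (v : R3) : sh P t x i v = 0 := by
  unfold sh
  rw [warmj_eq_zero hz, add_zero]
  by_contra h1
  exact hz (Ztj_iff.1 (Ztj_of_phij h.ok h.p ht h1)).1


lemma phij_le_phiE (h : Big P) (t : ℝ) (x : P2) (i : (ℤ × ℤ) × ℕ) (v : R3) :
    phij P i.2 t (x + latt i.1) v ≤ phiE P t x v := by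
  unfold phiE
  rw [Fuel.ofReal_phi h.ok, phij_eq h.ok]
  exact (ENNReal.le_tsum (f := fun j => ENNReal.ofReal (Fuel.phs P j t (x + latt i.1) v)) i.2).trans
    (ENNReal.le_tsum (f := fun k => ∑' j, ENNReal.ofReal (Fuel.phs P j t (x + latt k) v)) i.1)

lemma warmj_le_warm (P : Par) (t : ℝ) (x : P2) (i : (ℤ × ℤ) × ℕ) (v : R3) :
    warmj P i.2 t (x + latt i.1) v ≤ warm P t x v := by
  unfold warm
  exact (ENNReal.le_tsum (f := fun j => warmj P j t (x + latt i.1) v) i.2).trans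
    (ENNReal.le_tsum (f := fun k => ∑' j, warmj P j t (x + latt k) v) i.1)

lemma sh_le_coldS (h : Big P) (t : ℝ) (x : P2) (i : (ℤ × ℤ) × ℕ) (v : R3) :
    sh P t x i v ≤ coldS P t x v :=
  add_le_add (phij_le_phiE h t x i v) (warmj_le_warm P t x i v)

lemma measurable_phij_v (h : Big P) (j : ℕ) (t : ℝ) (x : P2) : Measurable (phij P j t x) := by
  have h1 := Fuel.measurable_phs P j
  have h2 : Measurable fun v : R3 => (t, x, v) := by fun_prop
  have h3 : phij P j t x = fun v => ENNReal.ofReal (Fuel.phs P j t x v) :=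
    funext fun v => phij_eq h.ok j t x v
  rw [h3]
  exact (h1.comp h2).ennreal_ofReal

lemma measurable_sh (h : Big P) (t : ℝ) (x : P2) (i : (ℤ × ℤ) × ℕ) : Measurable (sh P t x i) :=
  (measurable_phij_v h i.2 t _).add (measurable_warmj_v P i.2 t _)

lemma sh_supp (h : Big P) {t : ℝ} (ht : 0 ≤ t) (x : P2) (i : (ℤ × ℤ) × ℕ) {y : R3}
    (hy : P.Y + 2 < ‖y‖) : sh P t x i y = 0 := by
  by_contra h0
  have h1 : coldS P t x y ≠ 0 := by
    intro h2
    apply h0
    have := sh_le_coldS h t x i y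
    rw [h2] at this
    exact le_antisymm this bot_le
  have := norm_lt_of_coldS_ne h ht h1
  linarith

/-- mass and Newton potential of one sheet -/
lemma sh_size (h : Big P) (hC : ColdPar C.C0 P) {t : ℝ} (ht : 0 < t) (x : P2) (i : (ℤ × ℤ) × ℕ)
    (v : R3) : (∫⁻ u, sh P t x i u) + C.newt (sh P t x i) v ≤
      ENNReal.ofReal (massB P t + NB P t) * Dm P t x v := by
  have h1 : (∫⁻ u, sh P t x i u) ≤ ENNReal.ofReal (massB P t) :=
    (lintegral_mono (sh_le_coldS h t x i)).trans (mass_coldS h ht x)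
  have h2 : C.newt (sh P t x i) v ≤ ENNReal.ofReal (NB P t) * Dm P t x v :=
    (C.newt_mono (sh_le_coldS h t x i) v).trans (newt_coldS h hC ht x v)
  rw [ENNReal.ofReal_add (massB_nonneg h ht.le) (NB_nonneg h ht.le), add_mul]
  refine add_le_add ?_ h2
  calc (∫⁻ u, sh P t x i u) ≤ ENNReal.ofReal (massB P t) * 1 := by rw [mul_one]; exact h1
    _ ≤ _ := by gcongr; exact C.one_le_Dm t x v

/-! ### pointwise bounds of the sheets -/

/-- `sup` of a sheet -/
lemma sh_le_pow (h : Big P) {t : ℝ} (ht : 0 ≤ t) (x : P2) {i : (ℤ × ℤ) × ℕ} (hi : P.j0 ≤ i.2)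
    (v : R3) : sh P t x i v ≤ ENNReal.ofReal (2 * (bj i.2)⁻¹ ^ (3 * P.p + 2)) := by
  have hb := bj_pos i.2
  have hK0 := h.ok.K0
  have hK := h.K_le hi
  have hη := Fuel.etaj_pos P.p i.2
  refine (sheet_le h ht i.2 (x + latt i.1) v).trans ?_
  unfold gaussj
  have e2 : ∀ y : ℝ, (2 : ℝ≥0∞) * ENNReal.ofReal y = ENNReal.ofReal (2 * y) := by
    intro y; rw [ENNReal.ofReal_mul (by norm_num)]; norm_num
  rw [e2]
  apply ENNReal.ofReal_le_ofReal
  have h1 : Real.exp (-‖v - uvec P (wj i.2) t (x + latt i.1)‖ ^ 2 / (4 * etaj P.p i.2 ^ 2)) ≤ 1 := by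
    apply Real.exp_le_one_iff.2
    rw [neg_div]
    have : 0 ≤ ‖v - uvec P (wj i.2) t (x + latt i.1)‖ ^ 2 / (4 * etaj P.p i.2 ^ 2) := by positivity
    linarith
  have e : etaj P.p i.2 = bj i.2 ^ P.p := rfl
  calc 2 * (P.K / (bj i.2 * etaj P.p i.2 ^ 3) *
        Real.exp (-‖v - uvec P (wj i.2) t (x + latt i.1)‖ ^ 2 / (4 * etaj P.p i.2 ^ 2)))
      ≤ 2 * ((bj i.2)⁻¹ / (bj i.2 * etaj P.p i.2 ^ 3) * 1) := by gcongr
    _ = 2 * (bj i.2)⁻¹ ^ (3 * P.p + 2) := by
      rw [e, mul_one, inv_pow]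
      congr 1
      rw [div_eq_mul_inv, ← mul_inv, inv_inj, ← pow_mul]
      ring

lemma inv_bj_le_of_lab (h : Big P) {j : ℕ} {A s : ℝ} (hA : A ∈ laneE j) (hs : 0 < s) (hs1 : s ≤ 1)
    (hsA : s ≤ |A|) : (bj j)⁻¹ ≤ 2 / s ^ 2 := by
  unfold bj
  rw [one_div, inv_inv]
  have h1 := hA.2.1
  have h2 : s ^ 2 ≤ A ^ 2 := by rw [← sq_abs A]; gcongr
  have h3 : 1 / A ^ 2 ≤ 1 / s ^ 2 := one_div_le_one_div_of_le (by positivity) h2
  have h4 : 1 ≤ 1 / s ^ 2 := by
    rw [le_div_iff₀ (by positivity), one_mul]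
    exact pow_le_one₀ hs.le hs1
  have e : 2 / s ^ 2 = 1 / s ^ 2 + 1 / s ^ 2 := by ring
  linarith

lemma sep_le_one (h : Big P) {t : ℝ} (ht : 0 ≤ t) : W.sep P t ≤ 1 := by
  have hd := Fuel.Ok.dlp h.ok
  have hY := h.Y1
  have hc := h.ok.c0
  unfold W.sep
  rw [div_le_one (by positivity)]
  have h1 : P.dl ≤ P.dl + P.c * t := by nlinarith [mul_nonneg hc.le ht]
  have h2 : 1 ≤ 16 * (2 * P.Y + 1) * (1 + t) := by nlinarith
  calc P.dl = 1 * P.dl := (one_mul _).symm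
    _ ≤ 16 * (2 * P.Y + 1) * (1 + t) * (P.dl + P.c * t) := by gcongr

lemma time_le_sep (h : Big P) {t : ℝ} (ht : 0 ≤ t) : t ≤ 2 / W.sep P t ^ 2 := by
  have hd := Fuel.Ok.dlp h.ok
  have hY := h.Y1
  have hc := h.ok.c0
  have hs := W.sep_pos h.pole ht
  have hs1 := sep_le_one h ht
  have h1 : t * W.sep P t ≤ 1 := by
    unfold W.sep
    rw [mul_div_assoc', div_le_one (by positivity)]
    have h1 : P.dl ≤ P.dl + P.c * t := by nlinarith [mul_nonneg hc.le ht]
    have h2 : t ≤ 16 * (2 * P.Y + 1) * (1 + t) := by nlinarith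
    gcongr
  rw [le_div_iff₀ (by positivity)]
  nlinarith

/-- **crossing**: two different images, one of the sheets is bounded -/
theorem cross_bound (h : Big P) {t : ℝ} (ht : 0 ≤ t) {x : P2} {i i' : (ℤ × ℤ) × ℕ}
    (hne : i ≠ i') (hi : zt P i.2 t (x + latt i.1)) (hi' : zt P i'.2 t (x + latt i'.1)) :
    (∀ v, sh P t x i v ≤ ENNReal.ofReal (2 * MS P t)) ∨
      (∀ v, sh P t x i' v ≤ ENNReal.ofReal (2 * MS P t)) := by
  have hs := W.sep_pos h.pole ht
  have hs1 := sep_le_one h ht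
  have hk : i.1 ≠ i'.1 := by
    intro hk
    apply hne
    have h1 := (zt_lane h.ok h.p hi).2
    have h2 := (zt_lane h.ok h.p hi').2
    rw [hk] at h1
    exact Prod.ext hk (Fuel.laneE_unique h1 h2)
  have hz := zt_zone h.ok h.p h.Y1 ht hi
  have hz' := zt_zone h.ok h.p h.Y1 ht hi'
  have hsep := W.sep_le_max h.pole ht hk hz.2.2 hz'.2.2
  have key : ∀ i : (ℤ × ℤ) × ℕ, zt P i.2 t (x + latt i.1) →
      W.sep P t ≤ |lab P t (x + latt i.1)| → ∀ v, sh P t x i v ≤ ENNReal.ofReal (2 * MS P t) := by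
    intro i hi hl v
    have hz := zt_zone h.ok h.p h.Y1 ht hi
    have hlt := lt_of_le_of_lt hl hz.1
    unfold MS
    rw [if_neg (not_lt.2 hlt.le)]
    refine (sh_le_pow h ht x hi.1 v).trans (ENNReal.ofReal_le_ofReal ?_)
    have h1 := inv_bj_le_of_lab h (zt_lane h.ok h.p hi).2 hs hs1 hl
    have h2 : 0 ≤ (bj i.2)⁻¹ := inv_nonneg.2 (bj_pos _).le
    gcongr
  rcases le_max_iff.1 hsep with h1 | h1
  · exact Or.inl (key i hi h1)
  · exact Or.inr (key i' hi' h1)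

/-- **late times**: after `tauj` the sheet is bounded -/
theorem late_bound (h : Big P) {t : ℝ} (ht : 0 ≤ t) {x : P2} {i : (ℤ × ℤ) × ℕ}
    (hi : zt P i.2 t (x + latt i.1)) (hτ : tauj P.p i.2 < t) (v : R3) :
    sh P t x i v ≤ ENNReal.ofReal (2 * MS P t) := by
  have hd := Fuel.Ok.dlp h.ok
  have hd20 := Fuel.Ok.dl20 h.ok
  have hdc := h.pole.dlc
  have hY := h.Y1
  have hc := h.ok.c0
  have hb := bj_pos i.2
  have hb1 := bj_le_one i.2
  have hp := h.p
  have hbd := bj_le_dl_sq h.ok hi.1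
  have hI1 : 1 ≤ (bj i.2)⁻¹ := one_le_inv_iff₀.2 ⟨hb, hb1⟩
  have hτe := tauj_eq P.p i.2
  -- `t ≥ dl⁻²`
  have ht1 : (P.dl ^ 2)⁻¹ ≤ t := by
    calc (P.dl ^ 2)⁻¹ ≤ (bj i.2)⁻¹ := inv_anti₀ hb hbd
      _ = (bj i.2)⁻¹ ^ 1 := (pow_one _).symm
      _ ≤ (bj i.2)⁻¹ ^ (P.p / 16) := pow_le_pow_right₀ hI1 (by omega)
      _ ≤ t := by rw [← hτe]; exact hτ.le
  have hns : ¬ P.dl < W.sep P t := by
    intro h1
    unfold W.sep at h1
    rw [lt_div_iff₀ (by positivity)] at h1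
    have h2 : P.dl * (16 * (2 * P.Y + 1) * (1 + t) * (P.dl + P.c * t)) < P.dl * 1 := by
      rw [mul_one]; exact h1
    have h3 := lt_of_mul_lt_mul_left h2 hd.le
    have h4 : 1 ≤ P.dl * t := by
      have h5 : P.dl * (P.dl ^ 2)⁻¹ ≤ P.dl * t := by gcongr
      have h6 : P.dl * (P.dl ^ 2)⁻¹ = P.dl⁻¹ := by field_simp
      have h7 : 1 ≤ P.dl⁻¹ := one_le_inv_iff₀.2 ⟨hd, by linarith⟩
      linarith
    have h5 : P.dl * t ≤ P.c * t := by gcongr
    have h6 : 1 ≤ 16 * (2 * P.Y + 1) * (1 + t) * (P.dl + P.c * t) := by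
      have h7 : 1 ≤ P.dl + P.c * t := by linarith
      have h8 : 1 ≤ 16 * (2 * P.Y + 1) * (1 + t) := by nlinarith
      nlinarith
    linarith
  unfold MS
  rw [if_neg hns]
  refine (sh_le_pow h ht x hi.1 v).trans (ENNReal.ofReal_le_ofReal ?_)
  have hs := W.sep_pos h.pole ht
  have hs1 := sep_le_one h ht
  have hB1 : 1 ≤ 2 / W.sep P t ^ 2 := by
    rw [le_div_iff₀ (by positivity)]
    have : W.sep P t ^ 2 ≤ 1 := pow_le_one₀ hs.le hs1
    linarith
  have ht0 : 0 ≤ t := ht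
  have hp1 : 3 * P.p + 2 ≤ P.p / 16 * 50 := by omega
  have hp2 : 50 ≤ 3 * P.p + 2 := by omega
  calc 2 * (bj i.2)⁻¹ ^ (3 * P.p + 2) ≤ 2 * (bj i.2)⁻¹ ^ ((P.p / 16) * 50) :=
        mul_le_mul_of_nonneg_left (pow_le_pow_right₀ hI1 hp1) (by norm_num)
    _ = 2 * (tauj P.p i.2) ^ 50 := by rw [pow_mul, hτe]
    _ ≤ 2 * t ^ 50 := by
        have := (tauj_pos P.p i.2).le
        gcongr
    _ ≤ 2 * (2 / W.sep P t ^ 2) ^ 50 := by
        have := time_le_sep h ht
        gcongr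
    _ ≤ 2 * (2 / W.sep P t ^ 2) ^ (3 * P.p + 2) :=
        mul_le_mul_of_nonneg_left (pow_le_pow_right₀ hB1 hp2) (by norm_num)

end Crest.Agent.R68.ColdW
end
end

-- ▼ part R68/ColdW6

/-!
# Row 68, part W (helper827): spill of the cold component, all times
-/

set_option autoImplicit false
open MeasureTheory Set
open scoped ENNReal NNReal
open Crest.AnalysisR.VecCalc3 Crest.AnalysisR.PDE.Boltzmann

noncomputable section

namespace Crest.Agent.R68.ColdW

open Crest.Agent.R68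
open Crest.Agent.R68.WA (We)

variable {P : Par}

/-- collisions of a sheet with itself whose product is outside the velocity cut -/
lemma own_far (h : Big P) {j : ℕ} {t : ℝ} (ht : 0 ≤ t) {x : P2} (hz : zt P j t x) {v : R3}
    (hv : rhoj P.p j ≤ ‖v - uvec P (wj j) t x‖) :
    Qp (fun w => 2 * gaussj P j t x w) (fun w => 2 * gaussj P j t x w) v ≤
      ENNReal.ofReal (P.dl ^ 2) * We v := by
  have hj := hz.1
  have hη := Fuel.etaj_pos P.p j
  have hη1 := Fuel.etaj_le_one P.p j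
  have hb := bj_pos j
  have hb1 := bj_le_one j
  have hb4 := bj_le h.ok hj
  have hbd := bj_le_dl_sq h.ok hj
  have hd := Fuel.Ok.dlp h.ok
  have hd20 := Fuel.Ok.dl20 h.ok
  have hK0 := h.ok.K0
  have hK := h.K_le hj
  have hp := h.p
  have hYs := h.ok.Ysm
  have hY := h.Y1
  have hu := norm_uvec_le h ht hz
  set u := uvec P (wj j) t x with hudef
  set a := ‖v - u‖ with ha
  set η := etaj P.p j with hηdef
  set b := bj j with hbdef
  set β := b⁻¹ with hβ
  have hβb : β * b = 1 := inv_mul_cancel₀ hb.ne'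
  have hβ401 : 401 ≤ β := by
    rw [hβ, le_inv_comm₀ (by norm_num) hb]
    linarith
  have hβ0 : 0 < β := by linarith
  have hβ1 : 1 ≤ β := by linarith
  have hηp : η = b ^ P.p := rfl
  have hρ : rhoj P.p j = b ^ (P.p / 2) := rfl
  set z := a / η with hz'
  have haz : a = z * η := by rw [hz']; field_simp
  -- `β ^ (p - p/2) ≤ z`
  set m := P.p - P.p / 2 with hm
  have hm1 : 256 ≤ m := by omega
  have hm2 : P.p ≤ m * 2 := by omega
  have hzβ : β ^ m ≤ z := by
    rw [hz', le_div_iff₀ hη]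
    calc β ^ m * η = β ^ m * (b ^ m * b ^ (P.p / 2)) := by
          rw [hηp, ← pow_add]; congr 2; omega
      _ = (β * b) ^ m * b ^ (P.p / 2) := by rw [mul_pow]; ring
      _ = rhoj P.p j := by rw [hβb, one_pow, one_mul, hρ]
      _ ≤ a := hv
  have hz6 : β ^ 6 ≤ z := (pow_le_pow_right₀ hβ1 (by omega)).trans hzβ
  have hzβ1 : β ≤ z := by
    calc β = β ^ 1 := (pow_one _).symm
      _ ≤ β ^ m := pow_le_pow_right₀ hβ1 (by omega)
      _ ≤ z := hzβ
  have hz1 : 401 ≤ z := hβ401.trans hzβ1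
  have hz0 : 0 < z := by linarith
  have hηz : η⁻¹ ≤ z ^ 2 := by
    calc η⁻¹ = β ^ P.p := by rw [hηp, hβ, inv_pow]
      _ ≤ β ^ (m * 2) := pow_le_pow_right₀ hβ1 hm2
      _ = (β ^ m) ^ 2 := pow_mul _ _ _
      _ ≤ z ^ 2 := by gcongr
  -- the norm of `v`
  have hnv : ‖v‖ ≤ 2 * z := by
    have h1 : ‖v‖ ≤ a + ‖u‖ := by
      have := norm_add_le (v - u) u
      simpa using this
    have h2 : a ≤ z := by
      rw [haz]; nlinarith
    have h3 : P.Y ≤ β / 20 := by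
      -- `Y ≤ 1/(20 dl) ≤ β/20`
      have h4 : P.dl * β ≥ 1 := by
        have h5 : b ≤ P.dl := by nlinarith
        calc (1 : ℝ) = β * b := hβb.symm
          _ ≤ β * P.dl := by gcongr
          _ = P.dl * β := mul_comm _ _
      have h5 : P.Y * 1 ≤ P.Y * (P.dl * β) := by gcongr
      nlinarith
    have h4 : a * 1 ≤ z := by rw [mul_one]; exact h2
    -- need the sharper `a ≤ z/2`
    have h5 : η ≤ 1 / 401 := by
      have : b ^ P.p ≤ b ^ 1 := pow_le_pow_of_le_one hb.le hb1 (by omega)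
      rw [pow_one] at this
      rw [hηp]; linarith
    have h6 : a ≤ z * (1 / 401) := by rw [haz]; gcongr
    linarith
  have hA : P.K / (b * η ^ 3) ≤ β ^ 2 * z ^ 6 := by
    calc P.K / (b * η ^ 3) ≤ β / (b * η ^ 3) := by gcongr
      _ = β * β * (η⁻¹) ^ 3 := by rw [hβ]; field_simp
      _ ≤ β * β * (z ^ 2) ^ 3 := by gcongr
      _ = _ := by ring
  have hA0 : 0 ≤ P.K / (b * η ^ 3) := by positivity
  have hs2 : √2 ≤ 2 := by
    rw [show (2 : ℝ) = √(2 ^ 2) by rw [Real.sqrt_sq (by norm_num)]]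
    exact Real.sqrt_le_sqrt (by norm_num)
  have hs0 : 0 < √2 := by positivity
  have h1 := C.Qp_le_gs (A := P.K / (b * η ^ 3)) (η := √2 * η) hA0 (by positivity) u
    (f := fun w => 2 * gaussj P j t x w) (g := fun w => 2 * gaussj P j t x w) (a := 2) (b := 2)
    (by norm_num) (by norm_num)
    (fun w => by rw [gaussj_eq_gs])
    (fun w => by rw [gaussj_eq_gs]) v
  refine h1.trans ?_
  have hCG := CG_le
  have hCG0 := C.CG_pos
  have e4 : (2 : ℝ≥0∞) * 2 = ENNReal.ofReal 4 := by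
    rw [show (4 : ℝ) = 2 * 2 by norm_num, ENNReal.ofReal_mul (by norm_num)]; norm_num
  unfold C.gs
  rw [e4, ← ENNReal.ofReal_mul (by positivity), ← ENNReal.ofReal_mul (by norm_num)]
  unfold We
  rw [← ENNReal.ofReal_mul (by positivity)]
  apply ENNReal.ofReal_le_ofReal
  have e5 : -‖v - u‖ ^ 2 / (2 * (√2 * η) ^ 2) = -(z ^ 2 / 4) := by
    rw [mul_pow, Real.sq_sqrt (by norm_num), ← ha, haz]
    field_simp
    ring
  rw [e5, ← ha]
  have h2 : C.CG * (P.K / (b * η ^ 3)) * (√2 * η) ^ 3 ≤ 512 * (8 * β ^ 2) := by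
    have e : (P.K / (b * η ^ 3)) * (√2 * η) ^ 3 = √2 ^ 3 * (P.K * β) := by
      rw [mul_pow, hβ]; field_simp
    rw [mul_assoc, e]
    have h3 : √2 ^ 3 ≤ 2 ^ 3 := by gcongr
    have h4 : P.K * β ≤ β ^ 2 := by rw [sq]; gcongr
    calc C.CG * (√2 ^ 3 * (P.K * β)) ≤ 512 * (2 ^ 3 * β ^ 2) := by gcongr
      _ = _ := by norm_num
  have h3 : a + √2 * η ≤ 2 * z := by
    have h5 : η ≤ 1 / 401 := by
      have : b ^ P.p ≤ b ^ 1 := pow_le_pow_of_le_one hb.le hb1 (by omega)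
      rw [pow_one] at this
      rw [hηp]; linarith
    have h6 : a ≤ z * 1 := by rw [haz]; gcongr
    have h7 : √2 * η ≤ 2 * 1 := by gcongr
    linarith
  have hpoly : 4 * (C.CG * (P.K / (b * η ^ 3)) * (√2 * η) ^ 3 * (a + √2 * η) *
      (P.K / (b * η ^ 3) * Real.exp (-(z ^ 2 / 4)))) ≤ z ^ 8 * Real.exp (-(z ^ 2 / 4)) := by
    have ha0 : 0 ≤ a := norm_nonneg _
    calc 4 * (C.CG * (P.K / (b * η ^ 3)) * (√2 * η) ^ 3 * (a + √2 * η) *
        (P.K / (b * η ^ 3) * Real.exp (-(z ^ 2 / 4))))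
        ≤ 4 * (512 * (8 * β ^ 2) * (2 * z) * (β ^ 2 * z ^ 6 * Real.exp (-(z ^ 2 / 4)))) := by
          gcongr
      _ = 32768 * β ^ 4 * z ^ 7 * Real.exp (-(z ^ 2 / 4)) := by ring
      _ ≤ β ^ 2 * β ^ 4 * z ^ 7 * Real.exp (-(z ^ 2 / 4)) := by
          gcongr
          nlinarith
      _ = β ^ 6 * z ^ 7 * Real.exp (-(z ^ 2 / 4)) := by ring
      _ ≤ z * z ^ 7 * Real.exp (-(z ^ 2 / 4)) := by gcongr
      _ = _ := by ring
  have hexp : z ^ 8 * Real.exp (-(z ^ 2 / 4)) ≤ b * Real.exp (-‖v‖) := by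
    have k1 : z ≤ Real.exp z := by linarith [Real.add_one_le_exp z]
    have k2 : z ^ 9 ≤ Real.exp (9 * z) := by
      calc z ^ 9 ≤ (Real.exp z) ^ 9 := by gcongr
        _ = Real.exp (9 * z) := by rw [← Real.exp_nat_mul]; norm_num
    have k3 : z ^ 8 = z ^ 9 * z⁻¹ := by field_simp
    have k4 : z⁻¹ ≤ b := by
      rw [inv_le_comm₀ hz0 hb]; exact hzβ1
    have k5 : Real.exp (9 * z) * Real.exp (-(z ^ 2 / 4)) ≤ Real.exp (-‖v‖) := by
      rw [← Real.exp_add]
      apply Real.exp_le_exp.2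
      nlinarith
    calc z ^ 8 * Real.exp (-(z ^ 2 / 4)) = z⁻¹ * (z ^ 9 * Real.exp (-(z ^ 2 / 4))) := by
          rw [k3]; ring
      _ ≤ b * (Real.exp (9 * z) * Real.exp (-(z ^ 2 / 4))) := by gcongr
      _ ≤ b * Real.exp (-‖v‖) := by gcongr
  exact hpoly.trans (hexp.trans (by gcongr))

/-! ### sums over pairs -/

open scoped Classical in
/-- spill of two families of sheets -/
def spillF (P : Par) (t : ℝ) (x : P2) (f g : (ℤ × ℤ) × ℕ → R3 → ℝ≥0∞) (v : R3) : ℝ≥0∞ :=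
  ∑' i : (ℤ × ℤ) × ℕ, ∑' i' : (ℤ × ℤ) × ℕ,
    if i = i' ∧ t ≤ tauj P.p i.2 ∧ Zj P i.2 1 t (x + latt i.1) v then 0 else Qp (f i) (g i') v

theorem coldSpill_eq (P : Par) (lam : ℝ → P2 → R3 → ℝ≥0∞) (t : ℝ) (x : P2) (v : R3) :
    coldSpill P lam t x v =
      spillF P t x (fun i => coldjk P lam i t x) (fun i => coldjk P lam i t x) v := rfl

theorem spillF_mono {t : ℝ} {x : P2} {f f' g g' : (ℤ × ℤ) × ℕ → R3 → ℝ≥0∞}
    (hf : ∀ i v, f i v ≤ f' i v) (hg : ∀ i v, g i v ≤ g' i v) (v : R3) :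
    spillF P t x f g v ≤ spillF P t x f' g' v := by
  unfold spillF
  refine ENNReal.tsum_le_tsum fun i => ENNReal.tsum_le_tsum fun i' => ?_
  split_ifs
  · exact le_rfl
  · exact WA.Qp_mono (hf i) (hg i') v

theorem spillF_smul {t : ℝ} {x : P2} {a b : ℝ≥0∞} (ha : a ≠ ⊤) (hb : b ≠ ⊤)
    (f g : (ℤ × ℤ) × ℕ → R3 → ℝ≥0∞) (v : R3) :
    spillF P t x (fun i z => a * f i z) (fun i z => b * g i z) v = a * b * spillF P t x f g v := by
  unfold spillF
  rw [← ENNReal.tsum_mul_left]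
  refine tsum_congr fun i => ?_
  rw [← ENNReal.tsum_mul_left]
  refine tsum_congr fun i' => ?_
  split_ifs
  · rw [mul_zero]
  · rw [WA.Qp_smul_left ha, WA.Qp_smul_right hb, mul_assoc]

/-- sums over the active sheets -/
lemma tsum_active_le (h : Big P) {t : ℝ} (ht : 0 ≤ t) (x : P2) (F : (ℤ × ℤ) × ℕ → ℝ≥0∞)
    {B : ℝ≥0∞} (h0 : ∀ i : (ℤ × ℤ) × ℕ, ¬ zt P i.2 t (x + latt i.1) → F i = 0)
    (hB : ∀ i : (ℤ × ℤ) × ℕ, zt P i.2 t (x + latt i.1) → F i ≤ B) :
    ∑' i, F i ≤ ENNReal.ofReal (cardB P t) * B := by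
  have e : ∑' i, F i = ∑' k, ∑' j, F (k, j) := ENNReal.tsum_prod' 
  rw [e]
  refine (tsum_sheets_le h ht x (fun k j => F (k, j)) (fun k j hz => h0 (k, j) hz)
    (fun k j hz => hB (k, j) hz)).trans ?_
  gcongr
  rw [← ENNReal.ofReal_natCast]
  exact ENNReal.ofReal_le_ofReal (W.card_seen_le h.pole ht x)

/-- one pair -/
theorem pair_le (h : Big P) (hC : ColdPar C.C0 P) {t : ℝ} (ht : 0 < t) {x : P2}
    {i i' : (ℤ × ℤ) × ℕ} (hi : zt P i.2 t (x + latt i.1)) (hi' : zt P i'.2 t (x + latt i'.1))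
    (v : R3) (hng : ¬ (i = i' ∧ t ≤ tauj P.p i.2 ∧ Zj P i.2 1 t (x + latt i.1) v)) :
    Qp (sh P t x i) (sh P t x i') v ≤ (if i = i' then ENNReal.ofReal (P.dl ^ 2) * We v else 0) +
      ENNReal.ofReal (2 * MS P t) * CS (P.Y + 2) *
        (We v * (ENNReal.ofReal (massB P t + NB P t) * Dm P t x v)) := by
  have hY := h.Y1
  have hY2 : 0 ≤ P.Y + 2 := by linarith
  have hs := fun i y (hy : P.Y + 2 < ‖y‖) => sh_supp h ht.le x i hy
  have broad_r : (∀ w, sh P t x i' w ≤ ENNReal.ofReal (2 * MS P t)) →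
      Qp (sh P t x i) (sh P t x i') v ≤ ENNReal.ofReal (2 * MS P t) * CS (P.Y + 2) *
        (We v * (ENNReal.ofReal (massB P t + NB P t) * Dm P t x v)) := fun hM => by
    refine (Qp_broad hY2 (measurable_sh h t x i) (hs i) (hs i') hM v).trans ?_
    gcongr
    exact sh_size h hC ht x i v
  have broad_l : (∀ w, sh P t x i w ≤ ENNReal.ofReal (2 * MS P t)) →
      Qp (sh P t x i) (sh P t x i') v ≤ ENNReal.ofReal (2 * MS P t) * CS (P.Y + 2) *
        (We v * (ENNReal.ofReal (massB P t + NB P t) * Dm P t x v)) := fun hM => by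
    rw [WK.Qp_comm (measurable_sh h t x i) (measurable_sh h t x i')]
    refine (Qp_broad hY2 (measurable_sh h t x i') (hs i') (hs i) hM v).trans ?_
    gcongr
    exact sh_size h hC ht x i' v
  by_cases hii : i = i'
  · subst hii
    rw [if_pos rfl]
    by_cases hτ : t ≤ tauj P.p i.2
    · have hZ : ¬ Zj P i.2 1 t (x + latt i.1) v := fun hZ => hng ⟨rfl, hτ, hZ⟩
      have hv : rhoj P.p i.2 ≤ ‖v - uvec P (wj i.2) t (x + latt i.1)‖ := by
        by_contra hlt
        push Not at hlt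
        apply hZ
        refine ⟨hi.1, (zt_lane h.ok h.p hi).2, (zt_zone h.ok h.p h.Y1 ht.le hi).2.1, ?_⟩
        rw [one_mul]; exact hlt
      have h1 : Qp (sh P t x i) (sh P t x i) v ≤ ENNReal.ofReal (P.dl ^ 2) * We v :=
        (WA.Qp_mono (fun w => sheet_le h ht.le i.2 _ w) (fun w => sheet_le h ht.le i.2 _ w) v).trans
          (own_far h ht.le hi hv)
      exact h1.trans le_self_add
    · push Not at hτ
      exact (broad_r fun w => late_bound h ht.le hi hτ w).trans le_add_self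
  · rw [if_neg hii, zero_add]
    rcases cross_bound h ht.le hii hi hi' with hM | hM
    · exact broad_l hM
    · exact broad_r hM

/-- constant of the spill -/
def CSp (Y : ℝ) : ℝ := 1 + 2 * (CS (Y + 2)).toReal

/-- size of the spill -/
def SB (P : Par) (t : ℝ) : ℝ :=
  (massB P t + NB P t) * (cardB P t ^ 2 * MS P t) + cardB P t * P.dl ^ 2

lemma MS_nonneg (h : Big P) {t : ℝ} (ht : 0 ≤ t) : 0 ≤ MS P t := by
  have hs := W.sep_pos h.pole ht
  unfold MS
  split_ifs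
  · exact le_rfl
  · positivity

lemma cardB_nonneg (t : ℝ) : 0 ≤ cardB P t := sq_nonneg _

/-- **the spill of the majorants** -/
theorem spillF_sh_le (h : Big P) (hC : ColdPar C.C0 P) {t : ℝ} (ht : 0 < t) (x : P2) (v : R3) :
    spillF P t x (sh P t x) (sh P t x) v ≤
      ENNReal.ofReal (CSp P.Y * SB P t) * (Dm P t x v * We v) := by
  classical
  have hMS := MS_nonneg h ht.le
  have hd := Fuel.Ok.dlp h.ok
  have hmass := massB_nonneg h ht.le
  have hNB := NB_nonneg h ht.le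
  have hcB := cardB_nonneg (P := P) t
  set T1 : ℝ≥0∞ := ENNReal.ofReal (P.dl ^ 2) * We v with hT1
  set T2 : ℝ≥0∞ := ENNReal.ofReal (2 * MS P t) * CS (P.Y + 2) *
        (We v * (ENNReal.ofReal (massB P t + NB P t) * Dm P t x v)) with hT2
  have hz0 : ∀ g : R3 → ℝ≥0∞, Qp (fun _ => 0) g v = 0 := fun g => by unfold Qp; simp
  have hz0' : ∀ g : R3 → ℝ≥0∞, Qp g (fun _ => 0) v = 0 := fun g => by unfold Qp; simp
  have hsh0 : ∀ i : (ℤ × ℤ) × ℕ, ¬ zt P i.2 t (x + latt i.1) → sh P t x i = fun _ => 0 :=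
    fun i hi => funext fun w => sh_eq_zero h ht.le hi w
  have hinner : ∀ i : (ℤ × ℤ) × ℕ, zt P i.2 t (x + latt i.1) →
      (∑' i' : (ℤ × ℤ) × ℕ, if i = i' ∧ t ≤ tauj P.p i.2 ∧ Zj P i.2 1 t (x + latt i.1) v then 0
        else Qp (sh P t x i) (sh P t x i') v) ≤ T1 + ENNReal.ofReal (cardB P t) * T2 := by
    intro i hi
    have h1 : ∀ i' : (ℤ × ℤ) × ℕ, (if i = i' ∧ t ≤ tauj P.p i.2 ∧ Zj P i.2 1 t (x + latt i.1) v
        then 0 else Qp (sh P t x i) (sh P t x i') v) ≤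
        (if i = i' then T1 else 0) + (if zt P i'.2 t (x + latt i'.1) then T2 else 0) := by
      intro i'
      by_cases c1 : i = i' ∧ t ≤ tauj P.p i.2 ∧ Zj P i.2 1 t (x + latt i.1) v
      · rw [if_pos c1]; exact bot_le
      · rw [if_neg c1]
        by_cases c2 : zt P i'.2 t (x + latt i'.1)
        · rw [if_pos c2]
          exact pair_le h hC ht hi c2 v c1
        · rw [hsh0 i' c2, hz0']; exact bot_le
    refine (ENNReal.tsum_le_tsum h1).trans ?_
    rw [ENNReal.tsum_add, tsum_ite_eq' i (fun _ => T1)]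
    refine add_le_add le_rfl ?_
    exact tsum_active_le h ht.le x _ (fun i' hi' => if_neg hi') (fun i' hi' => by rw [if_pos hi'])
  have houter : spillF P t x (sh P t x) (sh P t x) v ≤
      ENNReal.ofReal (cardB P t) * (T1 + ENNReal.ofReal (cardB P t) * T2) := by
    unfold spillF
    refine tsum_active_le h ht.le x _ (fun i hi => ?_) (fun i hi => hinner i hi)
    rw [ENNReal.tsum_eq_zero]
    intro i'
    split_ifs
    · rfl
    · rw [hsh0 i hi, hz0]
  refine houter.trans ?_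
  have hD : (1 : ℝ≥0∞) ≤ Dm P t x v := C.one_le_Dm t x v
  have hCS : CS (P.Y + 2) = ENNReal.ofReal (CS (P.Y + 2)).toReal :=
    (ENNReal.ofReal_toReal (CS_ne_top _)).symm
  have hCS0 : 0 ≤ (CS (P.Y + 2)).toReal := ENNReal.toReal_nonneg
  calc ENNReal.ofReal (cardB P t) * (T1 + ENNReal.ofReal (cardB P t) * T2)
      = ENNReal.ofReal (cardB P t) * ENNReal.ofReal (P.dl ^ 2) * (1 * We v) +
        ENNReal.ofReal (cardB P t) * ENNReal.ofReal (cardB P t) * ENNReal.ofReal (2 * MS P t) *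
          ENNReal.ofReal (CS (P.Y + 2)).toReal * ENNReal.ofReal (massB P t + NB P t) *
            (Dm P t x v * We v) := by
        rw [hT1, hT2, ← hCS]; ring
    _ ≤ ENNReal.ofReal (cardB P t * P.dl ^ 2) * (Dm P t x v * We v) +
        ENNReal.ofReal (cardB P t * cardB P t * (2 * MS P t) * (CS (P.Y + 2)).toReal *
          (massB P t + NB P t)) * (Dm P t x v * We v) := by
        rw [ENNReal.ofReal_mul (p := cardB P t * cardB P t * (2 * MS P t) *
          (CS (P.Y + 2)).toReal) (by positivity), ENNReal.ofReal_mul (p := cardB P t *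
          cardB P t * (2 * MS P t)) (by positivity), ENNReal.ofReal_mul (p := cardB P t *
          cardB P t) (by positivity), ENNReal.ofReal_mul (p := cardB P t) (by positivity),
          ENNReal.ofReal_mul (p := cardB P t) (by positivity)]
        gcongr
    _ = ENNReal.ofReal (cardB P t * P.dl ^ 2 + cardB P t * cardB P t * (2 * MS P t) *
          (CS (P.Y + 2)).toReal * (massB P t + NB P t)) * (Dm P t x v * We v) := by
        rw [ENNReal.ofReal_add (by positivity) (by positivity)]; ring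
    _ ≤ _ := by
        gcongr
        unfold CSp SB
        have e1 : 0 ≤ (massB P t + NB P t) * (cardB P t ^ 2 * MS P t) := by positivity
        have e2 : 0 ≤ cardB P t * P.dl ^ 2 := by positivity
        nlinarith [mul_nonneg hCS0 e1, mul_nonneg hCS0 e2]

/-- **spill of a family below the sheets** -/
theorem spillF_le (h : Big P) (hC : ColdPar C.C0 P) {t : ℝ} (ht : 0 < t) (x : P2)
    {f g : (ℤ × ℤ) × ℕ → R3 → ℝ≥0∞} {a b : ℝ≥0∞} (ha : a ≠ ⊤) (hb : b ≠ ⊤)
    (hf : ∀ i v, f i v ≤ a * sh P t x i v) (hg : ∀ i v, g i v ≤ b * sh P t x i v) (v : R3) :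
    spillF P t x f g v ≤ a * b * (ENNReal.ofReal (CSp P.Y * SB P t) * (Dm P t x v * We v)) := by
  refine (spillF_mono hf hg v).trans ?_
  rw [spillF_smul ha hb]
  gcongr
  exact spillF_sh_le h hC ht x v

end Crest.Agent.R68.ColdW
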