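/-
Row 68 (S0091), Part F: lanes, one-lane fuel, superposition formula (flow in labels).
-/
import Mathlib
import Crest.Agent.R68.FCell

set_option autoImplicit false

namespace Crest.Agent.R68

open Real MeasureTheory Set
open scoped ENNReal
open Crest.AnalysisR.VecCalc3 Crest.AnalysisR.PDE.Boltzmann

/-! ### lanes -/

lemma etaj_pos (p j : ℕ) : 0 < etaj p j := by unfold etaj; positivity

lemma etaj_le_one (p j : ℕ) : etaj p j ≤ 1 := by
  unfold etaj
  apply pow_le_one₀ (by positivity)
  rw [div_le_one (by positivity)]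
  have : (0 : ℝ) ≤ j := Nat.cast_nonneg j
  linarith

lemma rr_nonneg (a : ℝ) : 0 ≤ rr a := sq_nonneg a

lemma rr_pos {a : ℝ} (ha : a ≠ 0) : 0 < rr a := by unfold rr; positivity





lemma measurableSet_lane (j : ℕ) : MeasurableSet (lane j) := by
  have h : lane j = ({0}ᶜ ∩ (fun a : ℝ => 1 / a ^ 2) ⁻¹' Ioo (2 * (j : ℝ) + 1 / 100) (2 * j + 199 / 100)) := by
    ext a; simp only [lane, mem_ofPred_eq, mem_inter_iff, mem_compl_iff, mem_singleton_iff,
      mem_preimage, mem_Ioo]
  rw [h]
  refine (measurableSet_singleton 0).compl.inter (measurableSet_Ioo.preimage ?_)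
  exact (measurable_const.div (measurable_id.pow_const 2))



/-! ### profiles -/

lemma chij_nonneg (j : ℕ) (a : ℝ) : 0 ≤ chij j a := le_max_left _ _

lemma chij_le_one (j : ℕ) (a : ℝ) : chij j a ≤ 1 :=
  max_le zero_le_one (min_le_left _ _)

lemma ky_nonneg (P : Par) (y : ℝ) : 0 ≤ ky P y := le_max_left _ _

lemma ky_le_one (P : Par) (y : ℝ) : ky P y ≤ 1 :=
  max_le zero_le_one (min_le_left _ _)

lemma ky_eq_zero {P : Par} (hey : 0 < P.ey) {y : ℝ} (hy : P.Y ≤ |y|) : ky P y = 0 := by
  unfold ky
  apply max_eq_left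
  exact (min_le_right _ _).trans (div_nonpos_of_nonpos_of_nonneg (by linarith) hey.le)

lemma measurable_chij (j : ℕ) : Measurable (chij j) := by
  unfold chij; fun_prop

lemma measurable_ky (P : Par) : Measurable (ky P) := by
  unfold ky; fun_prop

/-- the chij of a label outside the lane (and nonzero) vanishes. -/
lemma chij_eq_zero {j : ℕ} {a : ℝ} (ha0 : a ≠ 0) (ha : a ∉ lane j) : chij j a = 0 := by
  unfold chij
  apply max_eq_left
  by_cases h1 : 2 * (j : ℝ) + 1 / 100 < 1 / a ^ 2
  · have h2 : 2 * (j : ℝ) + 199 / 100 ≤ 1 / a ^ 2 := by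
      by_contra h; push Not at h; exact ha ⟨ha0, h1, h⟩
    refine (min_le_right _ _).trans ((min_le_right _ _).trans ?_)
    nlinarith
  · push Not at h1
    refine (min_le_right _ _).trans ((min_le_left _ _).trans ?_)
    nlinarith

/-! ### the fuel of one lane -/












lemma measurable_phi0j (P : Par) (j : ℕ) : Measurable (fun q : P2 × R3 => phi0j P j q.1 q.2) := by
  unfold phi0j
  refine Measurable.ite ?_ ?_ measurable_const
  · have hc : ∀ i : Fin 3, Measurable (fun q : P2 × R3 => q.2 i) := fun i =>
      (EuclideanSpace.proj (𝕜 := ℝ) i).continuous.measurable.comp measurable_snd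
    have h1 : MeasurableSet {q : P2 × R3 | q.1.1 ∈ lane j} :=
      (measurableSet_lane j).preimage (measurable_fst.comp measurable_fst)
    have h2 : MeasurableSet {q : P2 × R3 | |q.1.2| < P.Y * rr q.1.1} := by
      apply measurableSet_lt
      · exact (measurable_snd.comp measurable_fst).abs
      · exact ((measurable_fst.comp measurable_fst).pow_const 2).const_mul _
    have h3 : ∀ i : Fin 3, MeasurableSet {q : P2 × R3 | |q.2 i - uvec P (wj j) 0 q.1 i| < etaj P.p j} := by
      intro i
      apply measurableSet_lt _ measurable_const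
      refine ((hc i).sub ?_).abs
      have hx1 : Measurable (fun q : P2 × R3 => q.1.1) := measurable_fst.comp measurable_fst
      have hx2 : Measurable (fun q : P2 × R3 => q.1.2) := measurable_snd.comp measurable_fst
      fin_cases i
      · show Measurable (fun q : P2 × R3 => P.c * q.1.1 / (P.dl + P.c * 0))
        exact (hx1.const_mul _).div_const _
      · show Measurable (fun q : P2 × R3 => q.1.2 / (0 + rr (lab P 0 q.1)))
        refine hx2.div (Measurable.const_add ?_ _)
        exact (((hx1.const_mul _).div_const _).pow_const 2)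
      · show Measurable (fun q : P2 × R3 => wj j)
        exact measurable_const
    have : {q : P2 × R3 | q.1.1 ∈ lane j ∧ |q.1.2| < P.Y * rr q.1.1 ∧
        ∀ i : Fin 3, |q.2 i - uvec P (wj j) 0 q.1 i| < etaj P.p j}
        = {q : P2 × R3 | q.1.1 ∈ lane j} ∩ ({q : P2 × R3 | |q.1.2| < P.Y * rr q.1.1} ∩
          ⋂ i : Fin 3, {q : P2 × R3 | |q.2 i - uvec P (wj j) 0 q.1 i| < etaj P.p j}) := by
      ext q; simp
    rw [this]
    exact h1.inter (h2.inter (MeasurableSet.iInter h3))
  · have hx1 : Measurable (fun q : P2 × R3 => q.1.1) := measurable_fst.comp measurable_fst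
    have hx2 : Measurable (fun q : P2 × R3 => q.1.2) := measurable_snd.comp measurable_fst
    have hr : Measurable (fun q : P2 × R3 => rr q.1.1) := hx1.pow_const 2
    refine Measurable.div (Measurable.mul (Measurable.const_mul ?_ _) ?_)
      (Measurable.mul_const (Measurable.const_mul hr _) _)
    · exact (measurable_chij j).comp hx1
    · exact (measurable_ky P).comp (hx2.div hr)


end Crest.Agent.R68
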