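import Mathlib
import Crest.Agent.R68.A1
import Crest.Agent.R68.EChain
import Crest.Agent.R68.A2

-- ▼ part R68/Int1
section

/-!
Row 68, PART I (helper858), module 1: exponential form ⟹ integral form in one time variable.
-/

set_option autoImplicit false
open MeasureTheory Set Filter
open scoped ENNReal Topology

noncomputable section

namespace Crest.Agent.R68.I

open Crest.Agent.R68.A (en en_zero en_top en_add en_le_one en_coe_ofReal measurable_en
  measurable_lintegral_Ioo)

/-- `n(s,t) = ∫_s^t ν`. -/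
def nn (ν : ℝ → ℝ≥0∞) (s t : ℝ) : ℝ≥0∞ := ∫⁻ r in Ioo s t, ν r

lemma nn_mono_right (ν : ℝ → ℝ≥0∞) {s t u : ℝ} (h : t ≤ u) : nn ν s t ≤ nn ν s u :=
  lintegral_mono_set (Ioo_subset_Ioo_right h)

lemma nn_mono_left (ν : ℝ → ℝ≥0∞) {r s t : ℝ} (h : r ≤ s) : nn ν s t ≤ nn ν r t :=
  lintegral_mono_set (Ioo_subset_Ioo_left h)



/-- `en(n(r,t)) + ∫_r^t ν(s) en(n(r,s)) ds = 1`. -/
theorem en_add_int {ν : ℝ → ℝ≥0∞} (hν : Measurable ν) {r t : ℝ} (hrt : r ≤ t)
    (hfin : nn ν r t ≠ ⊤) :
    en (nn ν r t) + ∫⁻ s in Ioo r t, ν s * en (nn ν r s) = 1 := by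
  -- shift to `[0, t - r]`
  wlog hr : r = 0 generalizing r t ν with H
  · have h1 := H (ν := fun s => ν (s + r)) (by fun_prop) (r := 0) (t := t - r) (by linarith) ?_ rfl
    · have e : ∀ u, nn (fun s => ν (s + r)) 0 u = nn ν r (u + r) := by
        intro u
        unfold nn
        have := (measurePreserving_add_right (volume : Measure ℝ) r).setLIntegral_comp_preimage_emb
          (measurableEmbedding_addRight r) ν (Ioo r (u + r))
        rw [← this]
        congr 2
        ext s; simp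
      rw [e, sub_add_cancel] at h1
      have e2 : ∫⁻ s in Ioo 0 (t - r), ν (s + r) * en (nn (fun s => ν (s + r)) 0 s) =
          ∫⁻ s in Ioo r t, ν s * en (nn ν r s) := by
        have := (measurePreserving_add_right (volume : Measure ℝ) r).setLIntegral_comp_preimage_emb
          (measurableEmbedding_addRight r) (fun s => ν s * en (nn ν r s)) (Ioo r t)
        rw [← this]
        have e3 : (fun x => x + r) ⁻¹' Ioo r t = Ioo 0 (t - r) := by
          ext s; simp [lt_sub_iff_add_lt]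
        rw [e3]
        refine lintegral_congr fun s => ?_
        rw [e]
      rw [e2] at h1
      exact h1
    · have e : nn (fun s => ν (s + r)) 0 (t - r) = nn ν r t := by
        unfold nn
        have := (measurePreserving_add_right (volume : Measure ℝ) r).setLIntegral_comp_preimage_emb
          (measurableEmbedding_addRight r) ν (Ioo r t)
        rw [← this]
        have e3 : (fun x => x + r) ⁻¹' Ioo r t = Ioo 0 (t - r) := by
          ext s; simp [lt_sub_iff_add_lt]
        rw [e3]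
      rw [e]; exact hfin
  subst hr
  -- real version
  set q : ℝ → ℝ := fun s => (ν s).toReal with hq
  have hae : ∀ᵐ s ∂(volume.restrict (Ioo 0 t)), ν s < ⊤ := ae_lt_top hν hfin
  have hqi : IntegrableOn q (Ioo 0 t) := integrable_toReal_of_lintegral_ne_top hν.aemeasurable hfin
  have hn : ∀ s ∈ Icc 0 t, nn ν 0 s = ENNReal.ofReal (∫ u in Ioo 0 s, q u) := by
    intro s hs
    have hae' : ∀ᵐ u ∂(volume.restrict (Ioo 0 s)), ν u < ⊤ :=
      ae_mono (Measure.restrict_mono (Ioo_subset_Ioo_right hs.2) le_rfl) hae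
    have hfin' : nn ν 0 s ≠ ⊤ := ne_top_of_le_ne_top hfin (nn_mono_right ν hs.2)
    rw [integral_toReal hν.aemeasurable hae']
    exact (ENNReal.ofReal_toReal hfin').symm
  have hpos : ∀ s, 0 ≤ ∫ u in Ioo 0 s, q u := fun s =>
    integral_nonneg fun u => ENNReal.toReal_nonneg
  obtain ⟨hI, hc⟩ := R68E.chain_rule hrt hqi 0 (φ := fun z => Real.exp (-z))
    (φ' := fun z => -Real.exp (-z)) (c := -1)
    (fun z _ => by
      have := (hasDerivAt_neg z).exp
      simpa using this)
    (by fun_prop) (fun s _ => by have := hpos s; linarith)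
  simp only [zero_add, neg_zero, Real.exp_zero] at hI hc
  have h1 : ∫⁻ s in Ioo 0 t, ν s * en (nn ν 0 s) =
      ENNReal.ofReal (∫ s in Ioo 0 t, Real.exp (-∫ u in Ioo 0 s, q u) * q s) := by
    have hI2 : IntegrableOn (fun s => Real.exp (-∫ u in Ioo 0 s, q u) * q s) (Ioo 0 t) := by
      refine hI.neg.congr (Eventually.of_forall fun s => ?_)
      simp
    rw [ofReal_integral_eq_lintegral_ofReal hI2 (Eventually.of_forall fun s =>
      mul_nonneg (Real.exp_pos _).le ENNReal.toReal_nonneg)]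
    refine setLIntegral_congr_fun_ae measurableSet_Ioo ?_
    have hae2 : ∀ᵐ s : ℝ, s ∈ Ioo 0 t → ν s < ⊤ := (ae_restrict_iff' measurableSet_Ioo).1 hae
    filter_upwards [hae2] with s hs hst
    rw [hn s ⟨hst.1.le, hst.2.le⟩, en_coe_ofReal (hpos s), ENNReal.ofReal_mul (Real.exp_pos _).le,
      ENNReal.ofReal_toReal (hs hst).ne, mul_comm]
  rw [h1, hn t ⟨hrt, le_rfl⟩, en_coe_ofReal (hpos t),
    ← ENNReal.ofReal_add (Real.exp_pos _).le]
  · rw [← ENNReal.ofReal_one]
    congr 1
    have h2 : ∫ s in Ioo 0 t, Real.exp (-∫ u in Ioo 0 s, q u) * q s =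
        - ∫ s in Ioo 0 t, -Real.exp (-∫ u in Ioo 0 s, q u) * q s := by
      rw [← integral_neg]
      refine integral_congr_ae (Eventually.of_forall fun s => ?_)
      simp
    rw [h2, ← hc]
    ring
  · exact integral_nonneg fun s => mul_nonneg (Real.exp_pos _).le ENNReal.toReal_nonneg

/-- **exponential form ⟹ integral form**, one time variable. -/
theorem expo_integral {ν q : ℝ → ℝ≥0∞} (hν : Measurable ν) (hq : Measurable q) {t : ℝ}
    (ht : 0 ≤ t) (hfin : nn ν 0 t ≠ ⊤) (y0 : ℝ≥0∞) {y : ℝ → ℝ≥0∞}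
    (hy : ∀ᵐ s ∂(volume.restrict (Ioo 0 t)),
      y s = y0 * en (nn ν 0 s) + ∫⁻ r in Ioo 0 s, en (nn ν r s) * q r)
    (hyt : y t = y0 * en (nn ν 0 t) + ∫⁻ r in Ioo 0 t, en (nn ν r t) * q r) :
    y t + ∫⁻ s in Ioo 0 t, y s * ν s = y0 + ∫⁻ s in Ioo 0 t, q s := by
  have hnm : Measurable fun p : ℝ × ℝ => nn ν p.1 p.2 := by
    unfold nn
    exact measurable_lintegral_Ioo (α := ℝ × ℝ) (q := fun z => ν z.2) (by fun_prop)
      measurable_fst measurable_snd
  have hem : Measurable fun p : ℝ × ℝ => en (nn ν p.1 p.2) := measurable_en.comp hnm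
  -- the triangle
  set K : ℝ × ℝ → ℝ≥0∞ := {p : ℝ × ℝ | p.2 < p.1}.indicator
    (fun p => ν p.1 * (en (nn ν p.2 p.1) * q p.2)) with hK
  have hKm : Measurable K := by
    refine Measurable.indicator ?_ (measurableSet_lt measurable_snd measurable_fst)
    exact (hν.comp measurable_fst).mul ((hem.comp (measurable_snd.prodMk measurable_fst)).mul
      (hq.comp measurable_snd))
  have h1 : ∫⁻ s in Ioo 0 t, y s * ν s =
      (∫⁻ s in Ioo 0 t, y0 * (ν s * en (nn ν 0 s))) + ∫⁻ s in Ioo 0 t, ∫⁻ r in Ioo 0 t, K (s, r) := by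
    rw [← lintegral_add_left]
    · refine lintegral_congr_ae ?_
      filter_upwards [hy, ae_restrict_mem measurableSet_Ioo] with s hs hst
      rw [hs, add_mul]
      congr 1
      · ring
      · have e1 : ∫⁻ r in Ioo 0 t, K (s, r) = ∫⁻ r in Ioo 0 s, ν s * (en (nn ν r s) * q r) := by
          have e2 : (fun r => K (s, r)) = (Iio s).indicator
              (fun r => ν s * (en (nn ν r s) * q r)) := by
            funext r
            simp only [hK]
            by_cases h : r < s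
            · rw [indicator_of_mem (show (s, r) ∈ {p : ℝ × ℝ | p.2 < p.1} from h),
                indicator_of_mem (show r ∈ Iio s from h)]
            · rw [indicator_of_notMem (show (s, r) ∉ {p : ℝ × ℝ | p.2 < p.1} from h),
                indicator_of_notMem (show r ∉ Iio s from h)]
          rw [e2, lintegral_indicator measurableSet_Iio, Measure.restrict_restrict measurableSet_Iio]
          congr 2
          ext r
          simp only [mem_inter_iff, mem_Iio, mem_Ioo]
          constructor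
          · rintro ⟨h1, h2, h3⟩; exact ⟨h2, h1⟩
          · rintro ⟨h1, h2⟩; exact ⟨h2, h1, h2.trans hst.2⟩
        rw [e1, lintegral_const_mul]
        · ring
        · exact (hem.comp (measurable_id.prodMk measurable_const)).mul hq
    · exact measurable_const.mul (hν.mul (hem.comp (measurable_const.prodMk measurable_id)))
  have h2 : ∫⁻ s in Ioo 0 t, ∫⁻ r in Ioo 0 t, K (s, r) =
      ∫⁻ r in Ioo 0 t, q r * ∫⁻ s in Ioo r t, ν s * en (nn ν r s) := by
    rw [lintegral_lintegral_swap (f := fun s r => K (s, r)) hKm.aemeasurable]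
    refine lintegral_congr_ae ?_
    filter_upwards [ae_restrict_mem measurableSet_Ioo] with r hr
    have e2 : (fun s => K (s, r)) = (Ioi r).indicator
        (fun s => ν s * (en (nn ν r s) * q r)) := by
      funext s
      simp only [hK]
      by_cases h : r < s
      · rw [indicator_of_mem (show (s, r) ∈ {p : ℝ × ℝ | p.2 < p.1} from h),
          indicator_of_mem (show s ∈ Ioi r from h)]
      · rw [indicator_of_notMem (show (s, r) ∉ {p : ℝ × ℝ | p.2 < p.1} from h),
          indicator_of_notMem (show s ∉ Ioi r from h)]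
    have e3 : ∫⁻ s in Ioo 0 t, K (s, r) = ∫⁻ s in Ioo r t, ν s * (en (nn ν r s) * q r) := by
      rw [e2, lintegral_indicator measurableSet_Ioi, Measure.restrict_restrict measurableSet_Ioi]
      congr 2
      ext s
      simp only [mem_inter_iff, mem_Ioi, mem_Ioo]
      constructor
      · rintro ⟨h1, h2, h3⟩; exact ⟨h1, h3⟩
      · rintro ⟨h1, h2⟩; exact ⟨h1, hr.1.trans h1, h2⟩
    have hm : Measurable fun s => ν s * en (nn ν r s) :=
      hν.mul (hem.comp (measurable_const.prodMk measurable_id))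
    rw [e3, ← lintegral_const_mul _ hm]
    refine lintegral_congr fun s => ?_
    ring
  have hJ : ∫⁻ s in Ioo 0 t, y0 * (ν s * en (nn ν 0 s)) =
      y0 * ∫⁻ s in Ioo 0 t, ν s * en (nn ν 0 s) := by
    have hm : Measurable fun s => ν s * en (nn ν 0 s) :=
      hν.mul (hem.comp (measurable_const.prodMk measurable_id))
    exact lintegral_const_mul _ hm
  rw [h1, h2, hyt, hJ]
  have h3 := en_add_int hν ht hfin
  have h4 : ∫⁻ r in Ioo 0 t, q r = (∫⁻ r in Ioo 0 t, en (nn ν r t) * q r) +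
      ∫⁻ r in Ioo 0 t, q r * ∫⁻ s in Ioo r t, ν s * en (nn ν r s) := by
    rw [← lintegral_add_left]
    · refine setLIntegral_congr_fun measurableSet_Ioo fun r hr => ?_
      have hfr : nn ν r t ≠ ⊤ := ne_top_of_le_ne_top hfin (nn_mono_left ν hr.1.le)
      have h5 := en_add_int hν hr.2.le hfr
      rw [mul_comm (en (nn ν r t)), ← mul_add, h5, mul_one]
    · exact (hem.comp (measurable_id.prodMk measurable_const)).mul hq
  have h5 : y0 * en (nn ν 0 t) + y0 * ∫⁻ s in Ioo 0 t, ν s * en (nn ν 0 s) = y0 := by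
    rw [← mul_add, h3, mul_one]
  rw [h4]
  calc y0 * en (nn ν 0 t) + (∫⁻ r in Ioo 0 t, en (nn ν r t) * q r) +
        (y0 * (∫⁻ s in Ioo 0 t, ν s * en (nn ν 0 s)) +
          ∫⁻ r in Ioo 0 t, q r * ∫⁻ s in Ioo r t, ν s * en (nn ν r s))
      = (y0 * en (nn ν 0 t) + y0 * ∫⁻ s in Ioo 0 t, ν s * en (nn ν 0 s)) +
        ((∫⁻ r in Ioo 0 t, en (nn ν r t) * q r) +
          ∫⁻ r in Ioo 0 t, q r * ∫⁻ s in Ioo r t, ν s * en (nn ν r s)) := by ring
    _ = _ := by rw [h5]

end Crest.Agent.R68.I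
end
end

-- ▼ part R68/Int2

/-!
Row 68, PART I (helper858), module 2: flights, a.e. properties along flights, exponential form
with rate `nu` and source `q + (nu - L) H` ⟹ mild form `H + ∫ L H = H0 + ∫ q` along a.e. flight.
-/

set_option autoImplicit false
open MeasureTheory Set Filter
open scoped ENNReal Topology
open Crest.AnalysisR.VecCalc3 Crest.AnalysisR.PDE.Boltzmann

noncomputable section

namespace Crest.Agent.R68.I

open Crest.Agent.R68.A

/-! ### free flow on phase space -/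

/-- free flow -/
def fs (t : ℝ) (p : P2 × R3) : P2 × R3 := (p.1 + t • bar p.2, p.2)

lemma measurable_fs_joint : Measurable fun z : ℝ × (P2 × R3) => fs z.1 z.2 := by
  unfold fs
  fun_prop


lemma mp_fs (t : ℝ) : MeasurePreserving (fs t) (volume : Measure (P2 × R3)) volume := by
  have h1 : MeasurePreserving (fun p : R3 × P2 => (p.1, p.2 + t • bar p.1))
      ((volume : Measure R3).prod (volume : Measure P2))
      ((volume : Measure R3).prod (volume : Measure P2)) := by
    refine (MeasurePreserving.id _).skew_product (g := fun v x => x + t • bar v) ?_ ?_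
    · show Measurable fun p : R3 × P2 => p.2 + t • bar p.1
      fun_prop
    · exact Eventually.of_forall fun v =>
        (measurePreserving_add_right (volume : Measure P2) (t • bar v)).map_eq
  have h2 : MeasurePreserving (Prod.swap : P2 × R3 → R3 × P2)
      (volume : Measure (P2 × R3)) ((volume : Measure R3).prod (volume : Measure P2)) :=
    Measure.measurePreserving_swap
  have h3 : MeasurePreserving (Prod.swap : R3 × P2 → P2 × R3)
      ((volume : Measure R3).prod (volume : Measure P2)) (volume : Measure (P2 × R3)) :=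
    Measure.measurePreserving_swap
  exact h3.comp (h1.comp h2)

lemma ae_fs {Q : P2 × R3 → Prop} (h : ∀ᵐ p, Q p) (t : ℝ) : ∀ᵐ p, Q (fs t p) :=
  (mp_fs t).quasiMeasurePreserving.ae h

/-- a property that holds a.e. at each time holds for a.e. time along a.e. flight -/
lemma ae_flight {Q : ℝ → P2 × R3 → Prop} {T : ℝ}
    (hm : MeasurableSet {z : ℝ × (P2 × R3) | Q z.1 z.2}) (h : ∀ s ∈ Ioo 0 T, ∀ᵐ p, Q s p) :
    ∀ᵐ p, ∀ᵐ s ∂(volume.restrict (Ioo 0 T)), Q s (fs s p) := by
  have hm' : MeasurableSet {z : ℝ × (P2 × R3) | Q z.1 (fs z.1 z.2)} := by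
    have : Measurable fun z : ℝ × (P2 × R3) => (z.1, fs z.1 z.2) :=
      measurable_fst.prodMk measurable_fs_joint
    exact this hm
  refine (Measure.ae_ae_comm hm').1 ?_
  filter_upwards [ae_restrict_mem measurableSet_Ioo] with s hs
  exact ae_fs (h s hs) s

/-- the same in the variables of `Meas3` -/
lemma ae_flight3 {Q : ℝ → P2 → R3 → Prop} {T : ℝ}
    (hm : MeasurableSet {z : ℝ × P2 × R3 | Q z.1 z.2.1 z.2.2})
    (h : ∀ s ∈ Ioo 0 T, ∀ᵐ p : P2 × R3, Q s p.1 p.2) :
    ∀ᵐ p : P2 × R3, ∀ᵐ s ∂(volume.restrict (Ioo 0 T)), Q s (p.1 + s • bar p.2) p.2 :=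
  ae_flight (Q := fun s p => Q s p.1 p.2) hm h

lemma ae_at {Q : P2 → R3 → Prop} (t : ℝ) (h : ∀ᵐ p : P2 × R3, Q p.1 p.2) :
    ∀ᵐ p : P2 × R3, Q (p.1 + t • bar p.2) p.2 :=
  ae_fs (Q := fun p => Q p.1 p.2) h t

/-! ### positions -/

lemma pos_back (x : P2) (v : R3) (t s : ℝ) :
    x + t • bar v - (t - s) • bar v = x + s • bar v := by
  rw [sub_smul]; abel

lemma pos_back0 (x : P2) (v : R3) (t : ℝ) : x + t • bar v - t • bar v = x := by
  abel

/-! ### mild form -/

theorem mild_of_expo {T : ℝ} {nu L q H W : ℝ → P2 → R3 → ℝ≥0∞} {H0 : P2 → R3 → ℝ≥0∞}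
    (hnu : Meas3 nu) (hLm : Meas3 L) (hq : Meas3 q) (hH : Meas3 H) (hW : Meas3 W)
    (hL : ∀ t ∈ Ioo 0 T, ∀ x v, L t x v ≤ nu t x v)
    (hWae : ∀ t ∈ Icc 0 T, ∀ᵐ p : P2 × R3, W t p.1 p.2 ≠ ⊤)
    (hfix : ∀ t ∈ Icc 0 T, ∀ x v, W t x v ≠ ⊤ → H t x v =
      H0 (x - t • bar v) v * en (∫⁻ s in Ioo 0 t, nu s (x - (t - s) • bar v) v) +
      ∫⁻ s in Ioo 0 t, en (∫⁻ r in Ioo s t, nu r (x - (t - r) • bar v) v) *
        (q s (x - (t - s) • bar v) v +
          (nu s (x - (t - s) • bar v) v - L s (x - (t - s) • bar v) v) *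
            H s (x - (t - s) • bar v) v))
    (hfin : ∀ᵐ p : P2 × R3, ∫⁻ s in Ioo 0 T, nu s (p.1 + s • bar p.2) p.2 *
      (1 + H s (p.1 + s • bar p.2) p.2) ≠ ⊤) :
    ∀ t ∈ Icc 0 T, ∀ᵐ p : P2 × R3,
      H t (p.1 + t • bar p.2) p.2 +
        ∫⁻ s in Ioo 0 t, L s (p.1 + s • bar p.2) p.2 * H s (p.1 + s • bar p.2) p.2 =
      H0 p.1 p.2 + ∫⁻ s in Ioo 0 t, q s (p.1 + s • bar p.2) p.2 := by
  intro t ht
  have hWm : MeasurableSet {z : ℝ × P2 × R3 | W z.1 z.2.1 z.2.2 ≠ ⊤} := by
    have : {z : ℝ × P2 × R3 | W z.1 z.2.1 z.2.2 ≠ ⊤} =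
        ((fun z : ℝ × P2 × R3 => W z.1 z.2.1 z.2.2) ⁻¹' {⊤})ᶜ := by ext z; simp
    rw [this]
    exact (hW (measurableSet_singleton _)).compl
  have h1 := ae_flight3 (Q := fun s x v => W s x v ≠ ⊤) (T := t) hWm
    (fun s hs => hWae s ⟨hs.1.le, hs.2.le.trans ht.2⟩)
  have h2 := ae_at (Q := fun x v => W t x v ≠ ⊤) t (hWae t ht)
  filter_upwards [h1, h2, hfin] with p hp1 hp2 hp3
  obtain ⟨x, v⟩ := p
  simp only at hp1 hp2 hp3 ⊢
  have mm : ∀ {F : ℝ → P2 → R3 → ℝ≥0∞}, Meas3 F → Measurable fun s : ℝ => F s (x + s • bar v) v := by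
    intro F hF
    exact hF.comp (by fun_prop) (by fun_prop) (by fun_prop)
  set n : ℝ → ℝ≥0∞ := fun s => nu s (x + s • bar v) v with hn
  set l : ℝ → ℝ≥0∞ := fun s => L s (x + s • bar v) v with hl
  set h : ℝ → ℝ≥0∞ := fun s => H s (x + s • bar v) v with hh
  set g : ℝ → ℝ≥0∞ := fun s => q s (x + s • bar v) v with hg
  have mn : Measurable n := mm hnu
  have ml : Measurable l := mm hLm
  have mh : Measurable h := mm hH
  have mg : Measurable g := mm hq
  have hmono : ∀ f : ℝ → ℝ≥0∞, ∫⁻ s in Ioo 0 t, f s ≤ ∫⁻ s in Ioo 0 T, f s := fun f =>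
    lintegral_mono_set (Ioo_subset_Ioo_right ht.2)
  have hf0 : ∫⁻ s in Ioo 0 t, n s * (1 + h s) ≠ ⊤ := ne_top_of_le_ne_top hp3 (hmono _)
  have hfn : nn n 0 t ≠ ⊤ := by
    refine ne_top_of_le_ne_top hf0 (lintegral_mono fun s => ?_)
    calc n s = n s * 1 := (mul_one _).symm
      _ ≤ n s * (1 + h s) := by gcongr; exact le_self_add
  have hfh : ∫⁻ s in Ioo 0 t, n s * h s ≠ ⊤ := by
    refine ne_top_of_le_ne_top hf0 (lintegral_mono fun s => ?_)
    gcongr
    exact le_add_self
  have key : ∀ s ∈ Icc 0 T, W s (x + s • bar v) v ≠ ⊤ →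
      h s = H0 x v * en (nn n 0 s) + ∫⁻ r in Ioo 0 s, en (nn n r s) * (g r + (n r - l r) * h r) := by
    intro s hs hWs
    have := hfix s hs (x + s • bar v) v hWs
    simp only [pos_back, pos_back0] at this
    exact this
  have hE := expo_integral (ν := n) (q := fun r => g r + (n r - l r) * h r) mn
    (mg.add ((mn.sub ml).mul mh)) ht.1 hfn (H0 x v) (y := h)
    (by
      filter_upwards [hp1, ae_restrict_mem measurableSet_Ioo] with s hs hst
      exact key s ⟨hst.1.le, hst.2.le.trans ht.2⟩ hs)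
    (key t ht hp2)
  -- cancel
  have hc : ∫⁻ s in Ioo 0 t, (n s - l s) * h s ≠ ⊤ := by
    refine ne_top_of_le_ne_top hfh (lintegral_mono fun s => ?_)
    gcongr
    exact tsub_le_self
  have e1 : ∫⁻ s in Ioo 0 t, h s * n s =
      (∫⁻ s in Ioo 0 t, (n s - l s) * h s) + ∫⁻ s in Ioo 0 t, l s * h s := by
    have mnlh : Measurable fun s => (n s - l s) * h s := (mn.sub ml).mul mh
    rw [← lintegral_add_left mnlh]
    refine setLIntegral_congr_fun measurableSet_Ioo fun s hs => ?_
    have hls : l s ≤ n s := hL s ⟨hs.1, hs.2.trans_le ht.2⟩ _ _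
    show h s * n s = (n s - l s) * h s + l s * h s
    rw [← add_mul, tsub_add_cancel_of_le hls, mul_comm]
  have e2 : ∫⁻ s in Ioo 0 t, (g s + (n s - l s) * h s) =
      (∫⁻ s in Ioo 0 t, g s) + ∫⁻ s in Ioo 0 t, (n s - l s) * h s :=
    lintegral_add_left mg _
  rw [e1, e2] at hE
  have hE' : (∫⁻ s in Ioo 0 t, (n s - l s) * h s) + (h t + ∫⁻ s in Ioo 0 t, l s * h s) =
      (∫⁻ s in Ioo 0 t, (n s - l s) * h s) + (H0 x v + ∫⁻ s in Ioo 0 t, g s) := by
    rw [← add_assoc, add_comm _ (h t), add_assoc, hE]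
    ring
  exact (ENNReal.add_right_inj hc).1 hE'

end Crest.Agent.R68.I
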