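import Crest.Agent.R68.ColdDefs
import Crest.Agent.R68.FSum

/-!
# R68 / KWarm (helper819): joint measurability and periodicity of `warm`, `coldS`
-/

set_option autoImplicit false
open MeasureTheory Set Filter
open scoped ENNReal Topology Pointwise
open Crest.AnalysisR.VecCalc3 Crest.AnalysisR.PDE.Boltzmann

noncomputable section

namespace Crest.Agent.R68.KC

variable {P : Par}

theorem isOpen_lane (j : ℕ) : IsOpen (lane j) := by
  have h1 : lane j = {a : ℝ | a ≠ 0} ∩ {a : ℝ | 2 * (j : ℝ) + 1 / 100 < 1 / a ^ 2 ∧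
      1 / a ^ 2 < 2 * j + 199 / 100} := by
    ext a; rfl
  rw [h1]
  have hc : ContinuousOn (fun a : ℝ => 1 / a ^ 2) {a : ℝ | a ≠ 0} := by
    apply ContinuousOn.div continuousOn_const (by fun_prop)
    intro a ha
    exact pow_ne_zero 2 ha
  have ho : IsOpen {a : ℝ | a ≠ 0} := isOpen_ne
  have h2 := hc.isOpen_inter_preimage ho (isOpen_Ioo (a := 2 * (j : ℝ) + 1 / 100)
    (b := 2 * j + 199 / 100))
  exact h2

theorem isOpen_near (j : ℕ) (r : ℝ) : IsOpen {l : ℝ | ∃ a ∈ lane j, |l - a| ≤ r} := by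
  have h1 : {l : ℝ | ∃ a ∈ lane j, |l - a| ≤ r} = lane j + Metric.closedBall (0 : ℝ) r := by
    ext l
    constructor
    · rintro ⟨a, ha, h⟩
      refine ⟨a, ha, l - a, ?_, by ring⟩
      simpa [Real.norm_eq_abs] using h
    · rintro ⟨a, ha, b, hb, rfl⟩
      refine ⟨a, ha, ?_⟩
      simpa [Real.norm_eq_abs] using hb
  rw [h1]
  exact (isOpen_lane j).add_right

theorem measurable_lab (P : Par) : Measurable (fun z : ℝ × P2 => lab P z.1 z.2) := by
  unfold lab
  fun_prop

theorem measurable_uvec (P : Par) (s : ℝ) : Measurable (fun z : ℝ × P2 => uvec P s z.1 z.2) := by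
  have h1 := measurable_lab P
  have h2 : Measurable (fun z : ℝ × P2 => rr (lab P z.1 z.2)) := by
    unfold rr; exact h1.pow_const 2
  unfold uvec
  refine (PiLp.continuous_toLp 2 _).measurable.comp (measurable_pi_lambda _ fun i => ?_)
  fin_cases i
  · show Measurable fun z : ℝ × P2 => P.c * z.2.1 / (P.dl + P.c * z.1)
    fun_prop
  · show Measurable fun z : ℝ × P2 => z.2.2 / (z.1 + rr (lab P z.1 z.2))
    exact (by fun_prop : Measurable fun z : ℝ × P2 => z.2.2).div
      ((by fun_prop : Measurable fun z : ℝ × P2 => z.1).add h2)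
  · show Measurable fun _ : ℝ × P2 => s
    exact measurable_const

theorem measurableSet_Ztj3 (P : Par) (j : ℕ) :
    MeasurableSet {z : ℝ × P2 × R3 | Ztj P j z.1 z.2.1 z.2.2} := by
  have hp : Measurable (fun z : ℝ × P2 × R3 => ((z.1, z.2.1) : ℝ × P2)) := by fun_prop
  have h1 : Measurable (fun z : ℝ × P2 × R3 => lab P z.1 z.2.1) := (measurable_lab P).comp hp
  have h2 : Measurable (fun z : ℝ × P2 × R3 => uvec P (wj j) z.1 z.2.1) :=
    (measurable_uvec P (wj j)).comp hp
  have h3 : Measurable (fun z : ℝ × P2 × R3 => rr (lab P z.1 z.2.1)) := by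
    unfold rr; exact h1.pow_const 2
  have m1 : MeasurableSet {z : ℝ × P2 × R3 | P.j0 ≤ j} := MeasurableSet.const _
  have m2 : MeasurableSet {z : ℝ × P2 × R3 | ∃ a ∈ lane j,
      |lab P z.1 z.2.1 - a| ≤ rhoj P.p j * tauj P.p j / bj j} :=
    (isOpen_near j _).measurableSet.preimage h1
  have m3 : MeasurableSet {z : ℝ × P2 × R3 | |z.2.1.2| ≤
      (P.Y + rhoj P.p j * tauj P.p j / bj j ^ 2) * (z.1 + rr (lab P z.1 z.2.1))} := by
    have k1 : Measurable fun z : ℝ × P2 × R3 => |z.2.1.2| :=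
      continuous_abs.measurable.comp (by fun_prop : Measurable fun z : ℝ × P2 × R3 => z.2.1.2)
    have k2 : Measurable fun z : ℝ × P2 × R3 =>
        (P.Y + rhoj P.p j * tauj P.p j / bj j ^ 2) * (z.1 + rr (lab P z.1 z.2.1)) :=
      Measurable.const_mul ((by fun_prop : Measurable fun z : ℝ × P2 × R3 => z.1).add h3) _
    exact measurableSet_le k1 k2
  have m4 : MeasurableSet {z : ℝ × P2 × R3 | ‖z.2.2 - uvec P (wj j) z.1 z.2.1‖ <
      2 * rhoj P.p j} := by
    have k1 : Measurable fun z : ℝ × P2 × R3 => ‖z.2.2 - uvec P (wj j) z.1 z.2.1‖ :=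
      ((by fun_prop : Measurable fun z : ℝ × P2 × R3 => z.2.2).sub h2).norm
    exact measurableSet_lt k1 measurable_const
  exact m1.inter (m2.inter (m3.inter m4))

theorem measurable_gaussj3 (P : Par) (j : ℕ) :
    Measurable (fun z : ℝ × P2 × R3 => gaussj P j z.1 z.2.1 z.2.2) := by
  have hp : Measurable (fun z : ℝ × P2 × R3 => ((z.1, z.2.1) : ℝ × P2)) := by fun_prop
  have h2 : Measurable (fun z : ℝ × P2 × R3 => uvec P (wj j) z.1 z.2.1) :=
    (measurable_uvec P (wj j)).comp hp
  have h3 : Measurable (fun z : ℝ × P2 × R3 => ‖z.2.2 - uvec P (wj j) z.1 z.2.1‖) :=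
    ((by fun_prop : Measurable fun z : ℝ × P2 × R3 => z.2.2).sub h2).norm
  unfold gaussj
  exact ENNReal.measurable_ofReal.comp
    ((Real.measurable_exp.comp (((h3.pow_const 2).neg).div_const _)).const_mul _)

theorem measurable_warmj3 (P : Par) (j : ℕ) :
    Measurable (fun z : ℝ × P2 × R3 => warmj P j z.1 z.2.1 z.2.2) := by
  unfold warmj
  exact Measurable.ite (measurableSet_Ztj3 P j) ((measurable_gaussj3 P j).const_mul _)
    measurable_const

/-- joint measurability of the warm majorant -/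
theorem measurable_warm3 (P : Par) :
    Measurable (fun z : ℝ × P2 × R3 => warm P z.1 z.2.1 z.2.2) := by
  unfold warm
  refine Measurable.tsum fun k => Measurable.tsum fun j => ?_
  have h1 : Measurable fun p : ℝ × P2 × R3 => (p.1, p.2.1 + latt k, p.2.2) := by fun_prop
  have h2 : Measurable ((fun z : ℝ × P2 × R3 => warmj P j z.1 z.2.1 z.2.2) ∘
      fun p : ℝ × P2 × R3 => (p.1, p.2.1 + latt k, p.2.2)) := (measurable_warmj3 P j).comp h1
  exact h2

theorem measurable_warm_v (P : Par) (t : ℝ) (x : P2) : Measurable (warm P t x) := by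
  have h1 : Measurable fun v : R3 => (t, x, v) := by fun_prop
  have h2 : Measurable ((fun z : ℝ × P2 × R3 => warm P z.1 z.2.1 z.2.2) ∘
      fun v : R3 => (t, x, v)) := (measurable_warm3 P).comp h1
  exact h2




end Crest.Agent.R68.KC
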