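import Mathlib
import Crest.Agent.R68.Carl3
import Crest.Agent.R68.Defs

/-!
R68 / Carl4: σ form, symmetry and weak form of the bilinear gain `Qp`, formula for `Lc`,
`Qp` with the outgoing partner as variable (helper779).
-/

set_option autoImplicit false
open MeasureTheory Set Metric Submodule
open scoped ENNReal Real
open Crest.AnalysisR.VecCalc3 Crest.AnalysisR.PDE.Boltzmann

namespace Crest.Agent.R68

attribute [local irreducible] rot vec3


theorem measurable_Qp {f g : R3 → ℝ≥0∞} (hf : Measurable f) (hg : Measurable g) :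
    Measurable (Qp f g) := by
  have h1 : Measurable fun q : (R3 × R3) × R3 => ENNReal.ofReal |inner ℝ (q.1.1 - q.1.2) q.2| *
      f (postVel q.1.1 q.1.2 q.2) * g (postVelStar q.1.1 q.1.2 q.2) := by
    have h3 : Measurable fun q : (R3 × R3) × R3 => postVel q.1.1 q.1.2 q.2 := by
      unfold postVel; fun_prop
    have h4 : Measurable fun q : (R3 × R3) × R3 => postVelStar q.1.1 q.1.2 q.2 := by
      unfold postVelStar; fun_prop
    exact Measurable.mul (Measurable.mul (by fun_prop) (hf.comp h3)) (hg.comp h4)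
  have h2 : Measurable fun q : R3 × R3 => ∫⁻ w, ENNReal.ofReal |inner ℝ (q.1 - q.2) w| *
      f (postVel q.1 q.2 w) * g (postVelStar q.1 q.2 w) ∂sphereMeasure := h1.lintegral_prod_right'
  exact h2.lintegral_prod_right'

/-- inner integral of the gain term in σ form -/
theorem lintegral_gain_sigma {f g : R3 → ℝ≥0∞} (hf : Measurable f) (hg : Measurable g) (v vs : R3) :
    ∫⁻ w, ENNReal.ofReal |inner ℝ (v - vs) w| * f (postVel v vs w) * g (postVelStar v vs w)
        ∂sphereMeasure
      = ENNReal.ofReal (‖v - vs‖ / 2) * ∫⁻ s, f ((1 / 2 : ℝ) • (v + vs) - (‖v - vs‖ / 2) • s) *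
          g ((1 / 2 : ℝ) • (v + vs) + (‖v - vs‖ / 2) • s) ∂sphereMeasure := by
  have hF : Measurable fun x : R3 => f (v - x) * g (vs + x) :=
    (hf.comp (by fun_prop)).mul (hg.comp (by fun_prop))
  have h := lintegral_sigma (v - vs) hF
  have e1 : ∀ w : R3, ENNReal.ofReal |inner ℝ (v - vs) w| * f (postVel v vs w) *
      g (postVelStar v vs w) = ENNReal.ofReal |inner ℝ (v - vs) w| *
      (f (v - (inner ℝ (v - vs) w : ℝ) • w) * g (vs + (inner ℝ (v - vs) w : ℝ) • w)) := by
    intro w; rw [postVel, postVelStar, mul_assoc]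
  have e2 : ∀ s : R3, v - (1 / 2 : ℝ) • (v - vs + ‖v - vs‖ • s)
      = (1 / 2 : ℝ) • (v + vs) - (‖v - vs‖ / 2) • s := by
    intro s; module
  have e3 : ∀ s : R3, vs + (1 / 2 : ℝ) • (v - vs + ‖v - vs‖ • s)
      = (1 / 2 : ℝ) • (v + vs) + (‖v - vs‖ / 2) • s := by
    intro s; module
  simp_rw [e1, h, e2, e3]

/-- `Qp` in σ form -/
theorem Qp_sigma {f g : R3 → ℝ≥0∞} (hf : Measurable f) (hg : Measurable g) (v : R3) :
    Qp f g v = ∫⁻ vs, ENNReal.ofReal (‖v - vs‖ / 2) *
      ∫⁻ s, f ((1 / 2 : ℝ) • (v + vs) - (‖v - vs‖ / 2) • s) *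
          g ((1 / 2 : ℝ) • (v + vs) + (‖v - vs‖ / 2) • s) ∂sphereMeasure := by
  unfold Qp
  exact lintegral_congr fun vs => lintegral_gain_sigma hf hg v vs

/-- symmetry of the bilinear gain -/
theorem Qp_comm {f g : R3 → ℝ≥0∞} (hf : Measurable f) (hg : Measurable g) (v : R3) :
    Qp f g v = Qp g f v := by
  rw [Qp_sigma hf hg, Qp_sigma hg hf]
  refine lintegral_congr fun vs => ?_
  congr 1
  have hm : Measurable fun s : R3 => g ((1 / 2 : ℝ) • (v + vs) - (‖v - vs‖ / 2) • s) *
      f ((1 / 2 : ℝ) • (v + vs) + (‖v - vs‖ / 2) • s) :=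
    (hg.comp (by fun_prop)).mul (hf.comp (by fun_prop))
  rw [← lintegral_sphere_neg hm]
  refine lintegral_congr fun s => ?_
  rw [smul_neg, sub_neg_eq_add, ← sub_eq_add_neg, mul_comm]

/-- Carleman representation of `Qp` -/
theorem Qp_carleman {f g : R3 → ℝ≥0∞} (hf : Measurable f) (hg : Measurable g) (v : R3) :
    Qp f g v = 2 * ∫⁻ z, ENNReal.ofReal ‖z‖⁻¹ * f (v + z) * planeInt g v (‖z‖⁻¹ • z) :=
  carleman hf hg v

/-- Carleman representation, variable = the outgoing partner `u = v'` -/
theorem Qp_carleman' {f g : R3 → ℝ≥0∞} (hf : Measurable f) (hg : Measurable g) (v : R3) :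
    Qp f g v = 2 * ∫⁻ u, ENNReal.ofReal ‖u - v‖⁻¹ * f u * planeInt g v (‖u - v‖⁻¹ • (u - v)) := by
  rw [Qp_carleman hf hg]
  congr 1
  have hP : Measurable fun w : R3 => planeInt g v w :=
    (measurable_planeInt hg).comp measurable_prodMk_left
  have h := lintegral_sub_right_eq_self (μ := (volume : Measure R3))
    (fun z : R3 => ENNReal.ofReal ‖z‖⁻¹ * f (v + z) * planeInt g v (‖z‖⁻¹ • z)) v
  rw [← h]
  refine lintegral_congr fun u => ?_
  rw [add_sub_cancel]

/-- loss term -/
theorem Lc_eq {g : R3 → ℝ≥0∞} (hg : Measurable g) (v : R3) :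
    Lc g v = ENNReal.ofReal (2 * π) * ∫⁻ vs, ENNReal.ofReal ‖v - vs‖ * g vs := by
  unfold Lc
  have hm : Measurable fun vs : R3 => ENNReal.ofReal ‖v - vs‖ * g vs :=
    Measurable.mul (by fun_prop) hg
  rw [← lintegral_const_mul _ hm]
  refine lintegral_congr fun vs => ?_
  rw [lintegral_abs_inner_mul, ENNReal.ofReal_mul (by positivity), mul_assoc]

/-- weak form at fixed impact direction -/
theorem lintegral_cmap_weak {ψ f g : R3 → ℝ≥0∞} (hψ : Measurable ψ) (hf : Measurable f)
    (hg : Measurable g) {w : R3} (hw : ‖w‖ = 1) :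
    ∫⁻ p : R3 × R3, ENNReal.ofReal |inner ℝ (p.1 - p.2) w| * ψ p.1 * f (postVel p.1 p.2 w) *
        g (postVelStar p.1 p.2 w)
      = ∫⁻ p : R3 × R3, ENNReal.ofReal |inner ℝ (p.1 - p.2) w| * ψ (postVel p.1 p.2 w) *
        f p.1 * g p.2 := by
  have hm : Measurable fun p : R3 × R3 => ENNReal.ofReal |inner ℝ (p.1 - p.2) w| *
      ψ (postVel p.1 p.2 w) * f p.1 * g p.2 := by
    have h1 : Measurable fun p : R3 × R3 => postVel p.1 p.2 w := by unfold postVel; fun_prop
    apply Measurable.mul
    · apply Measurable.mul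
      · exact Measurable.mul (by fun_prop) (hψ.comp h1)
      · exact hf.comp measurable_fst
    · exact hg.comp measurable_snd
  rw [← (measurePreserving_cmap hw).lintegral_comp hm]
  refine lintegral_congr fun p => ?_
  simp only [cmap]
  rw [abs_inner_post hw, postVel_post hw]

/-- **weak form** of the gain -/
theorem lintegral_mul_Qp {ψ f g : R3 → ℝ≥0∞} (hψ : Measurable ψ) (hf : Measurable f)
    (hg : Measurable g) :
    ∫⁻ v, ψ v * Qp f g v = ∫⁻ v, ∫⁻ vs, f v * g vs *
      ∫⁻ w, ENNReal.ofReal |inner ℝ (v - vs) w| * ψ (postVel v vs w) ∂sphereMeasure := by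
  have hA : Measurable fun q : (R3 × R3) × R3 => ENNReal.ofReal |inner ℝ (q.1.1 - q.1.2) q.2| *
      ψ q.1.1 * f (postVel q.1.1 q.1.2 q.2) * g (postVelStar q.1.1 q.1.2 q.2) := by
    have h1 : Measurable fun q : (R3 × R3) × R3 => postVel q.1.1 q.1.2 q.2 := by
      unfold postVel; fun_prop
    have h2 : Measurable fun q : (R3 × R3) × R3 => postVelStar q.1.1 q.1.2 q.2 := by
      unfold postVelStar; fun_prop
    apply Measurable.mul
    · apply Measurable.mul
      · exact Measurable.mul (by fun_prop) (hψ.comp measurable_fst.fst)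
      · exact hf.comp h1
    · exact hg.comp h2
  have hB : Measurable fun q : (R3 × R3) × R3 => ENNReal.ofReal |inner ℝ (q.1.1 - q.1.2) q.2| *
      ψ (postVel q.1.1 q.1.2 q.2) * f q.1.1 * g q.1.2 := by
    have h1 : Measurable fun q : (R3 × R3) × R3 => postVel q.1.1 q.1.2 q.2 := by
      unfold postVel; fun_prop
    apply Measurable.mul
    · apply Measurable.mul
      · exact Measurable.mul (by fun_prop) (hψ.comp h1)
      · exact hf.comp measurable_fst.fst
    · exact hg.comp measurable_fst.snd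
  have hAi : Measurable fun q : R3 × R3 => ∫⁻ w, ENNReal.ofReal |inner ℝ (q.1 - q.2) w| *
      ψ q.1 * f (postVel q.1 q.2 w) * g (postVelStar q.1 q.2 w) ∂sphereMeasure :=
    hA.lintegral_prod_right'
  have hBi : Measurable fun q : R3 × R3 => ∫⁻ w, ENNReal.ofReal |inner ℝ (q.1 - q.2) w| *
      ψ (postVel q.1 q.2 w) * f q.1 * g q.2 ∂sphereMeasure :=
    hB.lintegral_prod_right'
  have e1 : ∫⁻ v, ψ v * Qp f g v = ∫⁻ p : R3 × R3, ∫⁻ w, ENNReal.ofReal |inner ℝ (p.1 - p.2) w| *
      ψ p.1 * f (postVel p.1 p.2 w) * g (postVelStar p.1 p.2 w) ∂sphereMeasure := by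
    rw [show (volume : Measure (R3 × R3)) = (volume : Measure R3).prod volume from rfl,
      lintegral_prod _ hAi.aemeasurable]
    refine lintegral_congr fun v => ?_
    unfold Qp
    have hm1 : Measurable fun vs : R3 => ∫⁻ w, ENNReal.ofReal |inner ℝ (v - vs) w| *
        f (postVel v vs w) * g (postVelStar v vs w) ∂sphereMeasure := by
      have h1 : Measurable fun q : R3 × R3 => ENNReal.ofReal |inner ℝ (v - q.1) q.2| *
          f (postVel v q.1 q.2) * g (postVelStar v q.1 q.2) := by
        have h3 : Measurable fun q : R3 × R3 => postVel v q.1 q.2 := by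
          unfold postVel; fun_prop
        have h4 : Measurable fun q : R3 × R3 => postVelStar v q.1 q.2 := by
          unfold postVelStar; fun_prop
        exact Measurable.mul (Measurable.mul (by fun_prop) (hf.comp h3)) (hg.comp h4)
      exact h1.lintegral_prod_right'
    rw [← lintegral_const_mul _ hm1]
    refine lintegral_congr fun vs => ?_
    have hm2 : Measurable fun w : R3 => ENNReal.ofReal |inner ℝ (v - vs) w| *
        f (postVel v vs w) * g (postVelStar v vs w) := by
      have h3 : Measurable fun w : R3 => postVel v vs w := by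
        unfold postVel; fun_prop
      have h4 : Measurable fun w : R3 => postVelStar v vs w := by
        unfold postVelStar; fun_prop
      exact Measurable.mul (Measurable.mul (by fun_prop) (hf.comp h3)) (hg.comp h4)
    rw [← lintegral_const_mul _ hm2]
    refine lintegral_congr fun w => ?_
    ring
  have e2 : ∫⁻ v, ∫⁻ vs, f v * g vs *
      ∫⁻ w, ENNReal.ofReal |inner ℝ (v - vs) w| * ψ (postVel v vs w) ∂sphereMeasure
      = ∫⁻ p : R3 × R3, ∫⁻ w, ENNReal.ofReal |inner ℝ (p.1 - p.2) w| *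
      ψ (postVel p.1 p.2 w) * f p.1 * g p.2 ∂sphereMeasure := by
    rw [show (volume : Measure (R3 × R3)) = (volume : Measure R3).prod volume from rfl,
      lintegral_prod _ hBi.aemeasurable]
    refine lintegral_congr fun v => lintegral_congr fun vs => ?_
    have h1 : Measurable fun w : R3 => postVel v vs w := by unfold postVel; fun_prop
    have hm2 : Measurable fun w : R3 => ENNReal.ofReal |inner ℝ (v - vs) w| *
        ψ (postVel v vs w) := Measurable.mul (by fun_prop) (hψ.comp h1)
    rw [← lintegral_const_mul _ hm2]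
    refine lintegral_congr fun w => ?_
    ring
  have s1 := lintegral_lintegral_swap (μ := (volume : Measure (R3 × R3))) (ν := sphereMeasure)
    (f := fun p w => ENNReal.ofReal |inner ℝ (p.1 - p.2) w| *
      ψ p.1 * f (postVel p.1 p.2 w) * g (postVelStar p.1 p.2 w)) hA.aemeasurable
  have s2 := lintegral_lintegral_swap (μ := (volume : Measure (R3 × R3))) (ν := sphereMeasure)
    (f := fun p w => ENNReal.ofReal |inner ℝ (p.1 - p.2) w| *
      ψ (postVel p.1 p.2 w) * f p.1 * g p.2) hB.aemeasurable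
  rw [e1, e2, s1, s2]
  refine lintegral_congr_ae ?_
  filter_upwards [ae_sphereMeasure] with w hw
  exact lintegral_cmap_weak hψ hf hg hw

/-- weak form of the gain, σ version -/
theorem lintegral_mul_Qp_sigma {ψ f g : R3 → ℝ≥0∞} (hψ : Measurable ψ) (hf : Measurable f)
    (hg : Measurable g) :
    ∫⁻ v, ψ v * Qp f g v = ∫⁻ v, ∫⁻ vs, f v * g vs * (ENNReal.ofReal (‖v - vs‖ / 2) *
      ∫⁻ s, ψ ((1 / 2 : ℝ) • (v + vs) + (‖v - vs‖ / 2) • s) ∂sphereMeasure) := by
  rw [lintegral_mul_Qp hψ hf hg]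
  refine lintegral_congr fun v => lintegral_congr fun vs => ?_
  congr 1
  have h := lintegral_gain_sigma hψ (measurable_const (a := (1 : ℝ≥0∞))) v vs
  simp only [mul_one] at h
  rw [h]
  congr 1
  have hm : Measurable fun s : R3 => ψ ((1 / 2 : ℝ) • (v + vs) + (‖v - vs‖ / 2) • s) :=
    hψ.comp (by fun_prop)
  rw [← lintegral_sphere_neg hm]
  refine lintegral_congr fun s => ?_
  rw [smul_neg, ← sub_eq_add_neg]



end Crest.Agent.R68
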