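import Crest.Agent.R68.LNeu
import Crest.Agent.R68.Carl4

/-!
# Row 68, Part L: `TL` and null sets (helper813)

* `TL_ae_vel` : if `f = f'` a.e. in space-time then, for EVERY `(s,y)`, `TL φ f s y = TL φ f' s y`
  for a.e. velocity;
* `TL_TL_congr` : `TL φ (TL φ f)` depends only on the a.e. class of `f`, everywhere;
* `posOp_cutN` : the truncated operator is a `L.PosOp` for Lebesgue measure.
-/

set_option autoImplicit false
open MeasureTheory Set Filter
open scoped ENNReal Topology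
open Crest.AnalysisR.VecCalc3 Crest.AnalysisR.PDE.Boltzmann

noncomputable section

namespace Crest.Agent.R68.L

open Crest.Agent.R68.A

variable {φ : Den}

/-! ### the gain and null sets of velocities -/

theorem Qp_congr_left_all {f f' g : R3 → ℝ≥0∞} (hf : Measurable f) (hf' : Measurable f')
    (hg : Measurable g) (h : ∀ᵐ z : R3, f z = f' z) (v : R3) : Qp f g v = Qp f' g v := by
  rw [Qp_carleman' hf hg, Qp_carleman' hf' hg]
  congr 1
  refine lintegral_congr_ae ?_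
  filter_upwards [h] with z hz
  rw [hz]

theorem Qp_congr_right_all {f g g' : R3 → ℝ≥0∞} (hf : Measurable f) (hg : Measurable g)
    (hg' : Measurable g') (h : ∀ᵐ z : R3, g z = g' z) (v : R3) : Qp f g v = Qp f g' v := by
  rw [Qp_comm hf hg, Qp_comm hf hg', Qp_congr_left_all hg hg' hf h]

theorem Gf_congr_slice (hφ : Meas3 φ) {h h' : Den} (hh : Meas3 h) (hh' : Meas3 h') {s : ℝ}
    {y : P2} (heq : ∀ᵐ z : R3, h s y z = h' s y z) (v : R3) : Gf φ h s y v = Gf φ h' s y v := by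
  unfold Gf
  rw [Qp_congr_right_all (hφ.slice s y) (hh.slice s y) (hh'.slice s y) heq]

/-! ### null sets of positions along flights with variable velocity -/

theorem ae_bar {Q : P2 → Prop} (h : ∀ᵐ x : P2, Q x) : ∀ᵐ z : R3, Q (bar z) := by
  have h1 : ∀ᵐ p : ℝ × ℝ × ℝ, Q (p.1, p.2.1) := by
    have h2 : ∀ᵐ p : (ℝ × ℝ) × ℝ, Q p.1 := Measure.quasiMeasurePreserving_fst.ae h
    have h3 := (volume_preserving_prodAssoc (α₁ := ℝ) (β₁ := ℝ) (γ₁ := ℝ)).symm
    exact h3.quasiMeasurePreserving.ae h2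
  -- transport by `vec3`
  obtain ⟨S, hsub, hsm, hs0⟩ :=
    exists_measurable_superset_of_null (show volume {p : ℝ × ℝ × ℝ | ¬ Q (p.1, p.2.1)} = 0 from h1)
  have hinv : Measurable fun z : R3 => ((z 0, z 1, z 2) : ℝ × ℝ × ℝ) := by fun_prop
  have hS' : MeasurableSet ((fun z : R3 => ((z 0, z 1, z 2) : ℝ × ℝ × ℝ)) ⁻¹' S) := hinv hsm
  have h4 : volume ((fun z : R3 => ((z 0, z 1, z 2) : ℝ × ℝ × ℝ)) ⁻¹' S) = 0 := by
    rw [← mp_vec3.measure_preimage hS'.nullMeasurableSet, ← hs0]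
    congr 1
  rw [ae_iff]
  refine measure_mono_null (fun z hz => ?_) h4
  exact hsub hz

theorem ae_affine_bar {Q : P2 → Prop} (h : ∀ᵐ x : P2, Q x) (y : P2) {c : ℝ} (hc : c ≠ 0) :
    ∀ᵐ z : R3, Q (y - c • bar z) := by
  have h1 : ∀ᵐ x : P2, Q (y - x) :=
    (quasiMeasurePreserving_sub_left (volume : Measure P2) y).ae h
  have h2 : ∀ᵐ x : P2, Q (y - c • x) := by
    have h3 : volume {x : P2 | ¬ Q (y - x)} = 0 := h1
    rw [ae_iff]
    have h4 : {x : P2 | ¬ Q (y - c • x)} = (fun x : P2 => c • x) ⁻¹' {x : P2 | ¬ Q (y - x)} := rfl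
    rw [h4, Measure.addHaar_preimage_smul _ hc, h3, mul_zero]
  exact ae_bar h2

/-- the set of good `(r, x)` -/
theorem ae_slice_vel {Pr : D.Ph → Prop} (h : ∀ᵐ p : D.Ph, Pr p) :
    ∀ᵐ q : ℝ × P2, ∀ᵐ z : R3, Pr (q.1, q.2, z) := by
  have h1 := (volume_preserving_prodAssoc (α₁ := ℝ) (β₁ := P2) (γ₁ := R3)).quasiMeasurePreserving.ae h
  exact Measure.ae_ae_of_ae_prod h1

theorem ae_flight_vel {Q : ℝ × P2 → Prop} (h : ∀ᵐ q : ℝ × P2, Q q) (s : ℝ) (y : P2) :
    ∀ᵐ z : R3, ∀ᵐ r : ℝ, Q (r, y - (s - r) • bar z) := by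
  obtain ⟨S, hsub, hsm, hs0⟩ :=
    exists_measurable_superset_of_null (show volume {q : ℝ × P2 | ¬ Q q} = 0 from h)
  have hS : ∀ᵐ q : ℝ × P2, q ∉ S := by rw [ae_iff]; simpa using hs0
  have hb : Measurable bar := D.measurable_bar
  have hset : MeasurableSet {p : ℝ × R3 | ((p.1, y - (s - p.1) • bar p.2) : ℝ × P2) ∉ S} := by
    have : Measurable fun p : ℝ × R3 => ((p.1, y - (s - p.1) • bar p.2) : ℝ × P2) := by fun_prop
    exact this hsm.compl
  have h1 : ∀ᵐ r : ℝ, ∀ᵐ z : R3, ((r, y - (s - r) • bar z) : ℝ × P2) ∉ S := by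
    have h2 := Measure.ae_ae_of_ae_prod hS
    have h3 : ∀ᵐ r : ℝ, r ≠ s := by
      rw [ae_iff]; simp
    filter_upwards [h2, h3] with r hr hrs
    exact ae_affine_bar (Q := fun x => ((r, x) : ℝ × P2) ∉ S) hr y (sub_ne_zero.2 hrs.symm)
  have h4 : ∀ᵐ z : R3, ∀ᵐ r : ℝ, ((r, y - (s - r) • bar z) : ℝ × P2) ∉ S := by
    rw [← Measure.ae_prod_iff_ae_ae hset] at h1
    have h5 : ∀ᵐ p : R3 × ℝ, ((p.2, y - (s - p.2) • bar p.1) : ℝ × P2) ∉ S :=
      (Measure.measurePreserving_swap (μ := (volume : Measure R3))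
        (ν := (volume : Measure ℝ))).quasiMeasurePreserving.ae h1
    exact Measure.ae_ae_of_ae_prod h5
  filter_upwards [h4] with z hz
  filter_upwards [hz] with r hr
  by_contra hc
  exact hr (hsub hc)

/-- if `f = f'` a.e. in space-time (positive times), then for EVERY `(s,y)` the functions
`TL φ f s y` and `TL φ f' s y` agree for a.e. velocity -/
theorem TL_ae_vel (hφ : Meas3 φ) {f f' : Den} (hf : Meas3 f) (hf' : Meas3 f')
    (h : ∀ᵐ p : D.Ph, 0 < p.1 → f p.1 p.2.1 p.2.2 = f' p.1 p.2.1 p.2.2) (s : ℝ) (y : P2) :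
    ∀ᵐ z : R3, TL φ f s y z = TL φ f' s y z := by
  filter_upwards [ae_flight_vel (ae_slice_vel h) s y] with z hz
  show Dam φ (Gf φ f) s y z = Dam φ (Gf φ f') s y z
  unfold Dam
  refine lintegral_congr_ae ?_
  rw [EventuallyEq, ae_restrict_iff' measurableSet_Ioo]
  filter_upwards [hz] with r hr hmem
  have h1 : ∀ᵐ z' : R3, f r (y - (s - r) • bar z) z' = f' r (y - (s - r) • bar z) z' := by
    filter_upwards [hr] with z' hz' using hz' hmem.1
  rw [Gf_congr_slice hφ hf hf' h1]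

theorem TL_TL_congr' (hφ : Meas3 φ) {f f' : Den} (hf : Meas3 f) (hf' : Meas3 f')
    (h : ∀ᵐ p : D.Ph, 0 < p.1 → f p.1 p.2.1 p.2.2 = f' p.1 p.2.1 p.2.2) :
    TL φ (TL φ f) = TL φ (TL φ f') := by
  funext t x v
  show Dam φ (Gf φ (TL φ f)) t x v = Dam φ (Gf φ (TL φ f')) t x v
  unfold Dam
  refine lintegral_congr fun s => ?_
  rw [Gf_congr_slice hφ (meas3_TL hφ hf) (meas3_TL hφ hf')
    (TL_ae_vel hφ hf hf' h s (x - (t - s) • bar v))]

/-- `TL ∘ TL` of an a.e. modification is the same everywhere -/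
theorem TL_TL_congr (hφ : Meas3 φ) {f g : Den} (hf : Meas3 f) (hg : Meas3 g)
    (h : ∀ᵐ p : ℝ × P2 × R3, f p.1 p.2.1 p.2.2 = g p.1 p.2.1 p.2.2) :
    TL φ (TL φ f) = TL φ (TL φ g) :=
  TL_TL_congr' hφ hf hg (by filter_upwards [h] with p hp _ using hp)


/-! ### the truncated operator -/






/-! ### geometric series on a weight -/

theorem tsum_iter_eq (B : Den) (t : ℝ) (x : P2) (v : R3) :
    ∑' n : ℕ, (TL φ)^[n] B t x v = B t x v + sol φ (Gf φ B) t x v := by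
  rw [tsum_eq_zero_add' ENNReal.summable]
  simp only [Function.iterate_zero, id_eq, Function.iterate_succ_apply]
  rfl

end Crest.Agent.R68.L
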