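import Crest.Agent.R68.FSum
import Crest.Agent.R68.FCell
import Crest.Agent.R68.ZDefs
import Crest.Agent.R68.WEnt

-- ▼ part R68/FDat1
section

/-! Row 68, PART F (helper195).  Entropy type integrals of the initial fuel. -/

set_option autoImplicit false

namespace Crest.Agent.R68.Fuel

open MeasureTheory Crest.AnalysisR.VecCalc3 Set Filter
open scoped ENNReal Topology

noncomputable section

/-! ### Lengths of lanes -/

theorem volume_lane_le {j : ℕ} (hj : 1 ≤ j) :
    volume (lane j) ≤ ENNReal.ofReal (2 * (j : ℝ) ^ (-(3 / 2) : ℝ)) := by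
  have hj' : (1 : ℝ) ≤ j := by exact_mod_cast hj
  set u := √(2 * (j : ℝ)) with hu
  set w := √(2 * (j : ℝ) + 2) with hw
  have hu0 : 0 < u := Real.sqrt_pos.2 (by linarith)
  have hw0 : 0 < w := Real.sqrt_pos.2 (by linarith)
  have hu2 : u ^ 2 = 2 * j := Real.sq_sqrt (by linarith)
  have hw2 : w ^ 2 = 2 * j + 2 := Real.sq_sqrt (by linarith)
  have huw : u ≤ w := Real.sqrt_le_sqrt (by linarith)
  have h1 : lane j ⊆ Ioo (1 / w) (1 / u) ∪ Ioo (-(1 / u)) (-(1 / w)) := by
    intro a ha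
    have h2 := lane_upper ha
    have h3 := lane_lower ha
    have h4 : |a| < 1 / u := by
      refine abs_lt_of_sq_lt_sq ?_ (by positivity)
      rw [div_pow, one_pow, hu2, lt_div_iff₀ (by linarith)]
      nlinarith [sq_nonneg a]
    have h5 : 1 / w < |a| := by
      have h6 : (1 / w) ^ 2 < |a| ^ 2 := by
        rw [div_pow, one_pow, hw2, div_lt_iff₀ (by linarith), sq_abs]
        nlinarith [sq_nonneg a]
      exact lt_of_pow_lt_pow_left₀ 2 (abs_nonneg a) h6
    rcases le_total 0 a with h0 | h0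
    · rw [abs_of_nonneg h0] at h4 h5
      exact Or.inl ⟨h5, h4⟩
    · rw [abs_of_nonpos h0] at h4 h5
      exact Or.inr ⟨by linarith, by linarith⟩
  refine (measure_mono h1).trans ((measure_union_le _ _).trans ?_)
  rw [Real.volume_Ioo, Real.volume_Ioo, ← ENNReal.ofReal_add]
  · refine ENNReal.ofReal_le_ofReal ?_
    have h2 : 1 / u - 1 / w ≤ 1 / u ^ 3 := by
      have h3 : 1 / u - 1 / w = 2 / ((w + u) * u * w) := by
        field_simp
        nlinarith
      rw [h3, div_le_div_iff₀ (by positivity) (by positivity)]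
      have h4 : u * u ≤ w * u := mul_le_mul_of_nonneg_right huw hu0.le
      have h5 : 2 * u ^ 3 ≤ (w + u) * u * w := by nlinarith
      linarith
    have h6 : 1 / u ^ 3 ≤ (j : ℝ) ^ (-(3 / 2) : ℝ) := by
      rw [Real.rpow_neg (by linarith), ← one_div]
      refine one_div_le_one_div_of_le (by positivity) ?_
      have h7 : (j : ℝ) ^ (3 / 2 : ℝ) = (√j) ^ 3 := by
        rw [Real.sqrt_eq_rpow, ← Real.rpow_natCast, ← Real.rpow_mul (by linarith)]
        norm_num
      rw [h7]
      have h8 : √(j : ℝ) ≤ u := Real.sqrt_le_sqrt (by linarith)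
      gcongr
    linarith
  · have : 1 / w ≤ 1 / u := one_div_le_one_div_of_le hu0 huw
    linarith
  · have : 1 / w ≤ 1 / u := one_div_le_one_div_of_le hu0 huw
    linarith

/-! ### The function `z (C + |log z|)` -/

/-- entropy type function -/
def ent (C z : ℝ) : ℝ := z * (C + |Real.log z|)

@[simp] theorem ent_zero (C : ℝ) : ent C 0 = 0 := by simp [ent]

theorem measurable_ent (C : ℝ) : Measurable (ent C) := by
  unfold ent
  exact measurable_id.mul (measurable_const.add Real.measurable_log.abs)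

theorem ent_nonneg {C z : ℝ} (hC : 0 ≤ C) (hz : 0 ≤ z) : 0 ≤ ent C z := by unfold ent; positivity

theorem ent_le {C z A : ℝ} (hz : 0 ≤ z) (hzA : z ≤ A) :
    ent C z ≤ z * (C + max 0 (Real.log A)) + 1 := by
  unfold ent
  rcases hz.eq_or_lt with rfl | hz0
  · simp
  rcases le_total 1 z with h1 | h1
  · rw [abs_of_nonneg (Real.log_nonneg h1)]
    have h2 : Real.log z ≤ max 0 (Real.log A) := (Real.log_le_log hz0 hzA).trans (le_max_right _ _)
    nlinarith
  · have h2 : |Real.log z| = Real.log z⁻¹ := by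
      rw [Real.log_inv, abs_of_nonpos (Real.log_nonpos hz h1)]
    have h3 : Real.log z⁻¹ ≤ z⁻¹ - 1 := Real.log_le_sub_one_of_pos (by positivity)
    have h4 : z * Real.log z⁻¹ ≤ 1 := by
      have h5 := mul_le_mul_of_nonneg_left h3 hz
      have h6 : z * (z⁻¹ - 1) = 1 - z := by field_simp
      linarith
    have h5 : 0 ≤ z * max 0 (Real.log A) := by positivity
    rw [h2]
    nlinarith

/-! ### Unfolding -/

/-- functions of the fuel are sums over images and lanes -/
theorem fun_phi {P : Par} (h : P.Ok) {G : ℝ → ℝ≥0∞} (hG0 : G 0 = 0) (t : ℝ) (x : P2) (v : R3) :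
    G (phi P t x v) = ∑' k : ℤ × ℤ, ∑' j : ℕ, G (phs P j t (x + latt k) v) := by
  by_cases h0 : phi P t x v = 0
  · rw [h0, hG0]
    have h1 : ∀ k j, phs P j t (x + latt k) v = 0 := by
      intro k j
      by_contra h2
      have h3 := mem_of_phs_ne h2
      have h4 := phi_eq_phij h h3.1 h3.2
      rw [phs_of_le h3.1] at h2
      exact h2 (h4 ▸ h0)
    simp [h1, hG0]
  · obtain ⟨k, j, hj, hv⟩ := exists_of_phi_ne h h0
    rw [phi_eq_phij h hj hv, tsum_eq_single k, tsum_eq_single j, phs_of_le hj]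
    · intro i hi
      have h1 : phs P i t (x + latt k) v = 0 := by
        by_contra h2
        have h3 := mem_of_phs_ne h2
        exact hi (image_lane_unique h h3.1 hj h3.2 hv).2
      rw [h1, hG0]
    · intro l hl
      have h1 : ∀ i, phs P i t (x + latt l) v = 0 := by
        intro i
        by_contra h2
        have h3 := mem_of_phs_ne h2
        exact hl (image_lane_unique h h3.1 hj h3.2 hv).1
      simp [h1, hG0]

theorem measurable_phs_slice (P : Par) (j : ℕ) (t : ℝ) :
    Measurable fun q : P2 × R3 => phs P j t q.1 q.2 := by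
  have h1 : Measurable fun q : P2 × R3 => (t, q.1, q.2) := by fun_prop
  exact (measurable_phs P j).comp h1

/-- integrals over a period of functions of the fuel -/
theorem lint_fun_phi {P : Par} (h : P.Ok) {G : ℝ → ℝ≥0∞} (hG : Measurable G) (hG0 : G 0 = 0)
    (t : ℝ) : ∫⁻ q in cellG ×ˢ (univ : Set R3), G (phi P t q.1 q.2) =
      ∑' j : ℕ, ∫⁻ x : P2, ∫⁻ v : R3, G (phs P j t x v) := by
  have hm : ∀ j : ℕ, Measurable fun q : P2 × R3 => G (phs P j t q.1 q.2) := fun j =>
    hG.comp (measurable_phs_slice P j t)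
  have hm2 : Measurable fun q : P2 × R3 => ∑' j : ℕ, G (phs P j t q.1 q.2) :=
    Measurable.tsum hm
  have hm3 : Measurable fun x : P2 => ∫⁻ v : R3, ∑' j : ℕ, G (phs P j t x v) :=
    hm2.lintegral_prod_right'
  have hm4 : Measurable fun q : P2 × R3 => G (phi P t q.1 q.2) := by
    have h1 : Measurable fun q : P2 × R3 => (t, q.1, q.2) := by fun_prop
    exact hG.comp ((measurable_phi h).comp h1)
  have e1 : (volume : Measure (P2 × R3)).restrict (cellG ×ˢ (univ : Set R3)) =
      ((volume : Measure P2).restrict cellG).prod (volume : Measure R3) := by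
    rw [Measure.volume_eq_prod P2 R3, ← Measure.prod_restrict, Measure.restrict_univ]
  rw [e1, lintegral_prod _ hm4.aemeasurable]
  have e2 : ∀ x : P2, ∫⁻ v : R3, G (phi P t x v) =
      ∑' k : ℤ × ℤ, ∫⁻ v : R3, ∑' j : ℕ, G (phs P j t (x + latt k) v) := by
    intro x
    rw [← lintegral_tsum]
    · exact lintegral_congr fun v => fun_phi h hG0 t x v
    · intro k
      have h2 : Measurable fun v : R3 => (x + latt k, v) := by fun_prop
      exact (hm2.comp h2).aemeasurable
  simp_rw [e2]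
  rw [lintegral_cellG_tsum hm3]
  have e3 : ∀ x : P2, ∫⁻ v : R3, ∑' j : ℕ, G (phs P j t x v) =
      ∑' j : ℕ, ∫⁻ v : R3, G (phs P j t x v) := by
    intro x
    rw [lintegral_tsum]
    intro j
    have h2 : Measurable fun v : R3 => (x, v) := by fun_prop
    exact ((hm j).comp h2).aemeasurable
  simp_rw [e3]
  rw [lintegral_tsum]
  intro j
  exact (hm j).lintegral_prod_right'.aemeasurable

/-! ### One lane at time zero -/

/-- amplitude bound -/
def Aj (P : Par) (j : ℕ) : ℝ := P.K * (2 * j + 2) / (8 * etaj P.p j ^ 3)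

theorem phij_le_Aj {P : Par} (h : P.Ok) (j : ℕ) (t : ℝ) (x : P2) (v : R3) :
    phij P j t x v ≤ Aj P j := by
  have hη := etaj_pos P.p j
  have hK := h.K0
  by_cases hv : v ∈ lset P j t x
  · rw [phij_of_mem hv]
    have h1 := hv.1.1
    set a := x.1 - t * v 0
    have h2 : 0 < rr a := rr_pos h1.1
    have h3 := lane_lower h1
    have h4 : 1 ≤ rr a * (2 * j + 2) := by
      unfold rr
      nlinarith [sq_nonneg a]
    have h5 := qj_le hK j a (x.2 - t * v 1)
    rw [qj, if_pos hv.1] at h5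
    unfold Aj
    rw [div_le_div_iff₀ (by positivity) (by positivity)]
    have h6 : 0 < 8 * etaj P.p j ^ 3 := by positivity
    calc P.K * chij j a * ky P ((x.2 - t * v 1) / rr a) * (8 * etaj P.p j ^ 3)
        ≤ P.K * (8 * etaj P.p j ^ 3) := mul_le_mul_of_nonneg_right h5 h6.le
      _ ≤ P.K * (8 * etaj P.p j ^ 3) * (rr a * (2 * j + 2)) :=
          le_mul_of_one_le_right (by positivity) h4
      _ = _ := by ring
  · rw [phij_of_notMem hv]
    unfold Aj
    positivity

/-- profile used to bound the entropy of a lane -/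
def qe (P : Par) (j : ℕ) (B a z : ℝ) : ℝ :=
  open scoped Classical in
    if a ∈ lane j ∧ |z| < P.Y * rr a then P.K * B + 8 * rr a * etaj P.p j ^ 3 else 0

theorem measurable_qe (P : Par) (j : ℕ) (B : ℝ) : Measurable fun p : ℝ × ℝ => qe P j B p.1 p.2 := by
  unfold qe
  have h1 : Measurable fun p : ℝ × ℝ => |p.2| := by fun_prop
  have h2 : Measurable fun p : ℝ × ℝ => P.Y * rr p.1 :=
    (measurable_rr.comp measurable_fst).const_mul _
  have h3 : Measurable fun p : ℝ × ℝ => P.K * B + 8 * rr p.1 * etaj P.p j ^ 3 :=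
    measurable_const.add (((measurable_rr.comp measurable_fst).const_mul 8).mul_const _)
  exact Measurable.ite ((measurable_fst (measurableSet_lane j)).inter (measurableSet_lt h1 h2)) h3
    measurable_const

theorem ent_phij_le {P : Par} (h : P.Ok) {C : ℝ} (hC : 0 ≤ C) (j : ℕ) (t : ℝ) (x : P2) (v : R3) :
    ent C (phij P j t x v) ≤
      strm P.kap (etaj P.p j) (wj j) rr (qe P j (C + max 0 (Real.log (Aj P j)))) t x v := by
  have hη := etaj_pos P.p j
  have hK := h.K0
  set B := C + max 0 (Real.log (Aj P j)) with hB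
  have hB0 : 0 ≤ B := add_nonneg hC (le_max_left _ _)
  by_cases hv : v ∈ lset P j t x
  · have h1 := ent_le (C := C) (phij_nonneg hK j t x v) (phij_le_Aj h j t x v)
    refine h1.trans ?_
    unfold strm
    rw [if_pos hv.2, qe, if_pos hv.1]
    have h2 : 0 < rr (x.1 - t * v 0) := rr_pos hv.1.1.1
    have h3 : phij P j t x v ≤ P.K / (8 * rr (x.1 - t * v 0) * etaj P.p j ^ 3) := by
      rw [phij_of_mem hv]
      have h5 := qj_le hK j (x.1 - t * v 0) (x.2 - t * v 1)
      rw [qj, if_pos hv.1] at h5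
      gcongr
    have h4 : (P.K * B + 8 * rr (x.1 - t * v 0) * etaj P.p j ^ 3) /
        (8 * rr (x.1 - t * v 0) * etaj P.p j ^ 3) =
        P.K / (8 * rr (x.1 - t * v 0) * etaj P.p j ^ 3) * B + 1 := by
      field_simp
    rw [h4]
    have := mul_le_mul_of_nonneg_right h3 hB0
    linarith
  · rw [phij_of_notMem hv, ent_zero]
    refine strm_nonneg hη.le rr_nonneg ?_ t x v
    intro a z
    unfold qe
    split_ifs
    · have := rr_nonneg a
      positivity
    · exact le_rfl

/-- entropy of one lane at time zero -/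
theorem lint_ent_phij {P : Par} (h : P.Ok) {C : ℝ} (hC : 0 ≤ C) {j : ℕ} (hj : 1 ≤ j) :
    ∫⁻ x : P2, ∫⁻ v : R3, ENNReal.ofReal (ent C (phij P j 0 x v)) ≤
      ENNReal.ofReal (2 * P.Y * (P.K * (C + max 0 (Real.log (Aj P j))) + 8)) * volume (lane j) := by
  have hη := etaj_pos P.p j
  have hη1 := etaj_le_one P.p j
  have hK := h.K0
  have hY := h.Y0
  set B := C + max 0 (Real.log (Aj P j)) with hB
  have hB0 : 0 ≤ B := add_nonneg hC (le_max_left _ _)
  have h1 : ∀ x : P2, ∫⁻ v : R3, ENNReal.ofReal (ent C (phij P j 0 x v)) ≤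
      ENNReal.ofReal (qe P j B x.1 x.2 / rr x.1) := by
    intro x
    have h2 := lint_strm (w := wj j) (Ok.kap0 h) hη rr_nonneg measurable_rr (measurable_qe P j B)
      (fun a z ha => by
        unfold qe
        rw [if_neg]
        rintro ⟨h3, -⟩
        exact (rr_pos h3.1).ne' ha) le_rfl x (g := fun _ => 1) measurable_const
    simp only [mul_one] at h2
    refine (lintegral_mono fun v => ENNReal.ofReal_le_ofReal (ent_phij_le h hC j 0 x v)).trans ?_
    rw [h2]
    have h3 : ∀ s, sa P.kap (etaj P.p j) 0 x s = x.1 := by intro s; simp [sa]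
    by_cases h5 : x.1 = 0
    · have h6 : ∀ s s', qe P j B (sa P.kap (etaj P.p j) 0 x s)
          (sz P.kap (etaj P.p j) rr 0 x s s') = 0 := by
        intro s s'
        unfold qe
        rw [if_neg]
        rintro ⟨h7, -⟩
        rw [h3] at h7
        exact h7.1 h5
      simp [h6]
    · have h4 : ∀ s s', sz P.kap (etaj P.p j) rr 0 x s s' = x.2 := by
        intro s s'
        have := rr_pos h5
        unfold sz
        rw [h3]
        field_simp
        ring
      simp only [h3, h4, zero_add, mul_zero, add_zero, mul_one]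
      simp only [lintegral_const, Measure.restrict_apply_univ, Real.volume_Ioo]
      have h6 := rr_pos h5
      have h7 : 0 ≤ qe P j B x.1 x.2 := by
        unfold qe
        split_ifs <;> positivity
      rw [← ENNReal.ofReal_mul (by positivity), ← ENNReal.ofReal_mul (by positivity),
        ← ENNReal.ofReal_mul (by positivity)]
      refine ENNReal.ofReal_le_ofReal (le_of_eq ?_)
      field_simp
      ring
  refine (lintegral_mono h1).trans ?_
  have hm : Measurable fun x : P2 => ENNReal.ofReal (qe P j B x.1 x.2 / rr x.1) :=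
    ENNReal.measurable_ofReal.comp ((measurable_qe P j B).div (measurable_rr.comp measurable_fst))
  rw [Measure.volume_eq_prod, lintegral_prod _ hm.aemeasurable]
  have h8 : ∀ a : ℝ, ∫⁻ z : ℝ, ENNReal.ofReal (qe P j B a z / rr a) ≤
      (lane j).indicator (fun _ => ENNReal.ofReal (2 * P.Y * (P.K * B + 8))) a := by
    intro a
    by_cases ha : a ∈ lane j
    · rw [indicator_of_mem ha]
      have hr := rr_pos ha.1
      have h9 : ∀ z : ℝ, ENNReal.ofReal (qe P j B a z / rr a) ≤
          (Ioo (-(P.Y * rr a)) (P.Y * rr a)).indicator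
            (fun _ => ENNReal.ofReal ((P.K * B + 8 * rr a * etaj P.p j ^ 3) / rr a)) z := by
        intro z
        by_cases hz : |z| < P.Y * rr a
        · have hz' : z ∈ Ioo (-(P.Y * rr a)) (P.Y * rr a) := abs_lt.1 hz
          rw [indicator_of_mem hz', qe, if_pos ⟨ha, hz⟩]
        · have hz' : z ∉ Ioo (-(P.Y * rr a)) (P.Y * rr a) := fun h => hz (abs_lt.2 h)
          rw [indicator_of_notMem hz', qe, if_neg fun h => hz h.2]
          simp
      refine (lintegral_mono h9).trans ?_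
      rw [lintegral_indicator measurableSet_Ioo, setLIntegral_const, Real.volume_Ioo,
        ← ENNReal.ofReal_mul (by positivity)]
      refine ENNReal.ofReal_le_ofReal ?_
      have h10 : (P.K * B + 8 * rr a * etaj P.p j ^ 3) / rr a * (P.Y * rr a - -(P.Y * rr a)) =
          2 * P.Y * (P.K * B + 8 * (rr a * etaj P.p j ^ 3)) := by
        field_simp
        ring
      rw [h10]
      have h11 : rr a ≤ 1 := by
        have h12 := lane_upper ha
        have h13 : (1 : ℝ) ≤ j := by exact_mod_cast hj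
        unfold rr
        nlinarith [sq_nonneg a]
      have h14 : etaj P.p j ^ 3 ≤ 1 := pow_le_one₀ hη.le hη1
      have h15 : rr a * etaj P.p j ^ 3 ≤ 1 := mul_le_one₀ h11 (by positivity) h14
      gcongr
      linarith
    · rw [indicator_of_notMem ha]
      have h9 : ∀ z, qe P j B a z = 0 := fun z => by
        unfold qe
        exact if_neg fun h => ha h.1
      simp [h9]
  refine (lintegral_mono h8).trans ?_
  rw [lintegral_indicator (measurableSet_lane j), setLIntegral_const]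

theorem log_Aj_le {P : Par} (h : P.Ok) {j : ℕ} (hj : 1 ≤ j) :
    max 0 (Real.log (Aj P j)) ≤
      (max 0 (Real.log P.K) + 8 * (3 * P.p + 1)) * (j : ℝ) ^ (1 / 4 : ℝ) := by
  have hj' : (1 : ℝ) ≤ j := by exact_mod_cast hj
  have hq : 1 ≤ (j : ℝ) ^ (1 / 4 : ℝ) := Real.one_le_rpow hj' (by norm_num)
  have hp : (0 : ℝ) ≤ P.p := Nat.cast_nonneg _
  have hm0 : 0 ≤ max 0 (Real.log P.K) := le_max_left _ _
  rcases h.K0.eq_or_lt with hK | hK
  · have : Aj P j = 0 := by unfold Aj; rw [← hK]; simp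
    rw [this, Real.log_zero, max_self]
    positivity
  have hη := etaj_pos P.p j
  have h1 : Aj P j ≤ P.K * (2 * j + 2) ^ (3 * P.p + 1) := by
    unfold Aj
    rw [div_le_iff₀ (by positivity)]
    have h2 : 1 ≤ (2 * (j : ℝ) + 2) ^ (3 * P.p) * etaj P.p j ^ 3 := by
      unfold etaj
      rw [← pow_mul, mul_comm P.p 3, ← mul_pow]
      refine one_le_pow₀ ?_
      rw [mul_one_div, le_div_iff₀ (by positivity)]
      linarith
    calc P.K * (2 * j + 2) ≤ P.K * (2 * j + 2) * ((2 * (j : ℝ) + 2) ^ (3 * P.p) * etaj P.p j ^ 3 * 8) := by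
          refine le_mul_of_one_le_right (by positivity) ?_
          linarith
      _ = _ := by rw [pow_succ]; ring
  have h3 : Real.log (Aj P j) ≤ Real.log P.K + (3 * P.p + 1) * Real.log (2 * j + 2) := by
    have hA : 0 < Aj P j := by unfold Aj; positivity
    refine (Real.log_le_log hA h1).trans (le_of_eq ?_)
    rw [Real.log_mul hK.ne' (by positivity), Real.log_pow]
    push_cast
    ring
  have h4 : Real.log (2 * (j : ℝ) + 2) ≤ 8 * (j : ℝ) ^ (1 / 4 : ℝ) := by
    have h5 := Real.log_le_rpow_div (x := 2 * (j : ℝ) + 2) (by positivity) (ε := 1 / 4) (by norm_num)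
    have h6 : (2 * (j : ℝ) + 2) ^ (1 / 4 : ℝ) ≤ 2 * (j : ℝ) ^ (1 / 4 : ℝ) := by
      calc (2 * (j : ℝ) + 2) ^ (1 / 4 : ℝ) ≤ (16 * (j : ℝ)) ^ (1 / 4 : ℝ) :=
            Real.rpow_le_rpow (by positivity) (by linarith) (by norm_num)
        _ = 16 ^ (1 / 4 : ℝ) * (j : ℝ) ^ (1 / 4 : ℝ) := Real.mul_rpow (by norm_num) (by positivity)
        _ = 2 * (j : ℝ) ^ (1 / 4 : ℝ) := by
          rw [show (16 : ℝ) = 2 ^ (4 : ℝ) by norm_num, ← Real.rpow_mul (by norm_num)]
          norm_num
    calc _ ≤ (2 * (j : ℝ) + 2) ^ (1 / 4 : ℝ) / (1 / 4) := h5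
      _ ≤ 2 * (j : ℝ) ^ (1 / 4 : ℝ) / (1 / 4) := by gcongr
      _ = _ := by ring
  refine max_le (by positivity) (h3.trans ?_)
  have h5 : Real.log P.K ≤ max 0 (Real.log P.K) * (j : ℝ) ^ (1 / 4 : ℝ) :=
    (le_max_right _ _).trans (le_mul_of_one_le_right hm0 hq)
  nlinarith [mul_le_mul_of_nonneg_left h4 (show 0 ≤ 3 * (P.p : ℝ) + 1 by positivity)]

/-- constant in the entropy bound -/
def CE (K Y : ℝ) (p : ℕ) (C : ℝ) : ℝ := 4 * Y * (K * (C + max 0 (Real.log K) + 8 * (3 * p + 1)) + 8)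

/-- the summable majorant -/
def SE (K Y : ℝ) (p : ℕ) (C : ℝ) (j : ℕ) : ℝ≥0∞ :=
  ENNReal.ofReal (CE K Y p C * (j : ℝ) ^ (-(5 / 4) : ℝ))

theorem lint_ent_phij_le {P : Par} (h : P.Ok) {C : ℝ} (hC : 0 ≤ C) {j : ℕ} (hj : 1 ≤ j) :
    ∫⁻ x : P2, ∫⁻ v : R3, ENNReal.ofReal (ent C (phij P j 0 x v)) ≤ SE P.K P.Y P.p C j := by
  have hj' : (1 : ℝ) ≤ j := by exact_mod_cast hj
  have hK := h.K0
  have hY := h.Y0
  refine (lint_ent_phij h hC hj).trans ?_
  refine (mul_le_mul_right (volume_lane_le hj) _).trans ?_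
  have hm0 : 0 ≤ max 0 (Real.log (Aj P j)) := le_max_left _ _
  have hm1 : 0 ≤ max 0 (Real.log P.K) := le_max_left _ _
  rw [← ENNReal.ofReal_mul (by positivity)]
  refine ENNReal.ofReal_le_ofReal ?_
  have h1 := log_Aj_le h hj
  have hq : 1 ≤ (j : ℝ) ^ (1 / 4 : ℝ) := Real.one_le_rpow hj' (by norm_num)
  have h2 : (j : ℝ) ^ (-(5 / 4) : ℝ) = (j : ℝ) ^ (1 / 4 : ℝ) * (j : ℝ) ^ (-(3 / 2) : ℝ) := by
    rw [← Real.rpow_add (by linarith)]
    norm_num
  rw [h2]
  have h3 : 0 ≤ (j : ℝ) ^ (-(3 / 2) : ℝ) := by positivity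
  set Q := (j : ℝ) ^ (1 / 4 : ℝ)
  set Z := (j : ℝ) ^ (-(3 / 2) : ℝ)
  set L := max 0 (Real.log (Aj P j))
  set M := max 0 (Real.log P.K)
  have h4 : P.K * (C + L) + 8 ≤ (P.K * (C + M + 8 * (3 * P.p + 1)) + 8) * Q := by
    have h5 : C + L ≤ (C + M + 8 * (3 * P.p + 1)) * Q := by nlinarith
    have h6 := mul_le_mul_of_nonneg_left h5 hK
    nlinarith
  unfold CE
  calc 2 * P.Y * (P.K * (C + L) + 8) * (2 * Z)
      ≤ 2 * P.Y * ((P.K * (C + M + 8 * (3 * P.p + 1)) + 8) * Q) * (2 * Z) := by gcongr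
    _ = _ := by ring

theorem tsum_SE_ne_top (K Y : ℝ) (p : ℕ) (C : ℝ) : ∑' j, SE K Y p C j ≠ ⊤ := by
  unfold SE
  have h1 : Summable fun j : ℕ => |CE K Y p C| * (j : ℝ) ^ (-(5 / 4) : ℝ) :=
    (Real.summable_nat_rpow.2 (by norm_num)).mul_left _
  have h2 := ENNReal.ofReal_tsum_of_nonneg
    (f := fun j : ℕ => |CE K Y p C| * (j : ℝ) ^ (-(5 / 4) : ℝ)) (fun j => by positivity) h1
  have h3 : (∑' j : ℕ, ENNReal.ofReal (CE K Y p C * (j : ℝ) ^ (-(5 / 4) : ℝ))) ≤
      ∑' j : ℕ, ENNReal.ofReal (|CE K Y p C| * (j : ℝ) ^ (-(5 / 4) : ℝ)) :=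
    ENNReal.tsum_le_tsum fun j => ENNReal.ofReal_le_ofReal
      (mul_le_mul_of_nonneg_right (le_abs_self _) (by positivity))
  exact ne_top_of_le_ne_top (h2 ▸ ENNReal.ofReal_ne_top) h3

/-- entropy of the fuel in one period -/
theorem lint_ent_phi {P : Par} (h : P.Ok) {C : ℝ} (hC : 0 ≤ C) :
    ∫⁻ q in cellG ×ˢ (univ : Set R3), ENNReal.ofReal (ent C (phi P 0 q.1 q.2)) ≤
      ∑' i : ℕ, SE P.K P.Y P.p C (i + P.j0) := by
  rw [lint_fun_phi h (G := fun z => ENNReal.ofReal (ent C z))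
    (ENNReal.measurable_ofReal.comp (measurable_ent C)) (by simp) 0]
  have h1 : ∀ j : ℕ, ∫⁻ x : P2, ∫⁻ v : R3, ENNReal.ofReal (ent C (phs P j 0 x v)) ≤
      if P.j0 ≤ j then SE P.K P.Y P.p C j else 0 := by
    intro j
    unfold phs
    split_ifs with hj
    · exact lint_ent_phij_le h hC ((Ok.j1 h).trans hj)
    · simp
  refine (ENNReal.tsum_le_tsum h1).trans (le_of_eq ?_)
  rw [← (Summable.sum_add_tsum_nat_add' (k := P.j0) ENNReal.summable)]
  rw [Finset.sum_eq_zero, zero_add]
  · refine tsum_congr fun i => if_pos (Nat.le_add_left _ _)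
  · intro i hi
    exact if_neg (not_le.2 (Finset.mem_range.1 hi))

theorem lint_ent_phi_lt_top {P : Par} (h : P.Ok) {C : ℝ} (hC : 0 ≤ C) :
    ∫⁻ q in cellG ×ˢ (univ : Set R3), ENNReal.ofReal (ent C (phi P 0 q.1 q.2)) < ⊤ := by
  refine (lint_ent_phi h hC).trans_lt (lt_top_iff_ne_top.2 ?_)
  refine ne_top_of_le_ne_top (tsum_SE_ne_top P.K P.Y P.p C) ?_
  exact ENNReal.tsum_comp_le_tsum_of_injective (add_left_injective _) _

/-- the entropy of the fuel is small if the first lane is far out -/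
theorem exists_j0_ent {K Y : ℝ} {p : ℕ} {C : ℝ} (hC : 0 ≤ C) {ε : ℝ≥0∞} (hε : 0 < ε) :
    ∃ J : ℕ, ∀ P : Par, P.Ok → P.K = K → P.Y = Y → P.p = p → J ≤ P.j0 →
      ∫⁻ q in cellG ×ˢ (univ : Set R3), ENNReal.ofReal (ent C (phi P 0 q.1 q.2)) ≤ ε := by
  have h1 := ENNReal.tendsto_sum_nat_add (SE K Y p C) (tsum_SE_ne_top K Y p C)
  have h2 := (h1.eventually (ge_mem_nhds hε))
  rw [eventually_atTop] at h2
  obtain ⟨J, hJ⟩ := h2
  refine ⟨J, fun P hP hK hY hp hj => (lint_ent_phi hP hC).trans ?_⟩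
  rw [hK, hY, hp]
  exact hJ P.j0 hj

end

end Crest.Agent.R68.Fuel
end

-- ▼ part R68/FDat2

/-! Row 68, PART F (helper195).  The initial datum: admissibility, mass, relative entropy. -/

set_option autoImplicit false

namespace Crest.Agent.R68.Fuel

open MeasureTheory Crest.AnalysisR.VecCalc3 Set Filter Crest.AnalysisR.PDE.Boltzmann
open scoped ENNReal Topology

noncomputable section

/-- background with a hole of radius `rh` around the lattice and velocity cut-off `R` -/
def bg (rh R : ℝ) (x : P2) (v : R3) : ℝ :=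
  open scoped Classical in if ‖v‖ < R ∧ rh < distG x then maxwellian v else 0

/-- **the initial datum** in the planar frame -/
def F0 (P : Par) (rh R : ℝ) (x : P2) (v : R3) : ℝ := phi P 0 x v + bg rh R x v

theorem bg_nonneg (rh R : ℝ) (x : P2) (v : R3) : 0 ≤ bg rh R x v := by
  unfold bg
  split_ifs
  · exact (W.maxwellian_pos v).le
  · exact le_rfl

theorem bg_le (rh R : ℝ) (x : P2) (v : R3) : bg rh R x v ≤ maxwellian v := by
  unfold bg
  split_ifs
  · exact le_rfl
  · exact (W.maxwellian_pos v).le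

theorem perG_bg (rh R : ℝ) (v : R3) : PerG fun x => bg rh R x v := by
  intro x k
  show bg rh R (x + latt k) v = bg rh R x v
  unfold bg
  rw [distG_add_latt]

theorem measurable_bg (rh R : ℝ) : Measurable fun q : P2 × R3 => bg rh R q.1 q.2 := by
  unfold bg
  refine Measurable.ite ?_ (W.measurable_maxwellian.comp measurable_snd) measurable_const
  have h1 : Measurable fun q : P2 × R3 => ‖q.2‖ := by fun_prop
  have h2 : Measurable fun q : P2 × R3 => distG q.1 := measurable_distG.comp measurable_fst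
  exact (measurableSet_lt h1 measurable_const).inter (measurableSet_lt measurable_const h2)

/-- fuel velocities are bounded -/
theorem norm_lset_lt {P : Par} (h : P.Ok) {j : ℕ} (hj : P.j0 ≤ j) {t : ℝ} {x : P2} {v : R3}
    (hv : v ∈ lset P j t x) : ‖v‖ < P.Y + 4 := by
  rw [mem_lset] at hv
  obtain ⟨⟨h1, h2⟩, h3, h4, h5⟩ := hv
  set a := x.1 - t * v 0
  set z := x.2 - t * v 1
  have hr := rr_pos h1.1
  have hη := etaj_le_one P.p j
  have hY := h.Y0
  have ha := lane_lt_dl (Ok.j1 h) hj h1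
  have hκ := Ok.kap0 h
  have hd := Ok.dlp h
  have hκ' : P.kap * P.dl = P.c := by unfold Par.kap; field_simp
  have b0 : |v 0| ≤ 2 := by
    have k1 : |v 0| ≤ |v 0 - P.kap * a| + |P.kap * a| := by
      have := abs_add_le (v 0 - P.kap * a) (P.kap * a)
      rwa [sub_add_cancel] at this
    have k2 : |P.kap * a| ≤ P.c := by
      rw [abs_mul, abs_of_nonneg hκ, ← hκ']
      exact mul_le_mul_of_nonneg_left ha.le hκ
    have := h.c1
    linarith
  have b1 : |v 1| ≤ P.Y + 1 := by
    have k1 : |v 1| ≤ |v 1 - z / rr a| + |z / rr a| := by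
      have := abs_add_le (v 1 - z / rr a) (z / rr a)
      rwa [sub_add_cancel] at this
    have k2 : |z / rr a| ≤ P.Y := by
      rw [abs_div, abs_of_pos hr, div_le_iff₀ hr]
      exact h2.le
    linarith
  have b2 : |v 2| ≤ 2 := by
    have k1 : |v 2| ≤ |v 2 - wj j| + |wj j| := by
      have := abs_add_le (v 2 - wj j) (wj j)
      rwa [sub_add_cancel] at this
    have k2 : |wj j| = 1 := by unfold wj; simp
    linarith
  have h6 : ‖v‖ ^ 2 < (P.Y + 4) ^ 2 := by
    rw [EuclideanSpace.norm_sq_eq, Fin.sum_univ_three]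
    simp only [Real.norm_eq_abs]
    nlinarith [abs_nonneg (v 0), abs_nonneg (v 1), abs_nonneg (v 2)]
  exact lt_of_pow_lt_pow_left₀ 2 (by linarith) h6

theorem norm_lt_of_phi_ne {P : Par} (h : P.Ok) {t : ℝ} {x : P2} {v : R3} (h0 : phi P t x v ≠ 0) :
    ‖v‖ < P.Y + 4 := by
  obtain ⟨k, j, hj, hv⟩ := exists_of_phi_ne h h0
  exact norm_lset_lt h hj hv

theorem distG_le_of_phi_ne {P : Par} (h : P.Ok) {x : P2} {v : R3} (h0 : phi P 0 x v ≠ 0) :
    distG x ≤ (1 + P.Y) * P.dl := by
  obtain ⟨k, j, hj, hv⟩ := exists_of_phi_ne h h0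
  refine (distG_le x k).trans ?_
  have h1 := norm_of_vis h le_rfl (t := 0) (x := x) (k := k) ⟨j, hj, v, hv⟩
  rwa [mul_zero, add_zero] at h1

theorem bg_eq_zero {P : Par} (h : P.Ok) {rh R : ℝ} (hrh : (1 + P.Y) * P.dl ≤ rh) {x : P2} {v : R3}
    (h0 : phi P 0 x v ≠ 0) : bg rh R x v = 0 := by
  unfold bg
  rw [if_neg]
  rintro ⟨-, h1⟩
  exact absurd ((distG_le_of_phi_ne h h0).trans hrh) (not_le.2 h1)

/-! ### Gaussian integrals -/

/-- a convenient Gaussian -/
def G4 (v : R3) : ℝ := Real.exp (-(1 / 4) * ‖v‖ ^ 2)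

theorem lint_G4 : ∫⁻ v, ENNReal.ofReal (G4 v) ∂(volume : Measure R3) < ⊤ := by
  have h1 : ∫ v, G4 v ∂(volume : Measure R3) ≠ 0 := by
    unfold G4
    rw [GaussianFourier.integral_rexp_neg_mul_sq_norm (by norm_num)]
    positivity
  have h2 : Integrable G4 (volume : Measure R3) := by
    by_contra h
    exact h1 (integral_undef h)
  exact (hasFiniteIntegral_iff_ofReal (ae_of_all _ fun v => (Real.exp_pos _).le)).1 h2.2

theorem log_maxwellian (v : R3) :
    Real.log (maxwellian v) = -(3 / 2) * Real.log (2 * Real.pi) - ‖v‖ ^ 2 / 2 := by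
  unfold maxwellian
  rw [Real.log_mul (by positivity) (by positivity), Real.log_exp, Real.log_rpow (by positivity)]
  ring

theorem abs_log_maxwellian_le (v : R3) : |Real.log (maxwellian v)| ≤ 3 + ‖v‖ ^ 2 / 2 := by
  rw [log_maxwellian]
  have h1 : 0 ≤ Real.log (2 * Real.pi) := Real.log_nonneg (by nlinarith [Real.pi_gt_three])
  have h2 : Real.log (2 * Real.pi) ≤ 2 := by
    have h3 : 2 * Real.pi ≤ Real.exp 2 := by
      have h4 : Real.exp 2 = Real.exp 1 * Real.exp 1 := by rw [← Real.exp_add]; norm_num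
      have h5 := Real.exp_one_gt_d9
      have h6 := Real.pi_lt_d2
      rw [h4]
      nlinarith
    calc Real.log (2 * Real.pi) ≤ Real.log (Real.exp 2) := Real.log_le_log (by positivity) h3
      _ = 2 := Real.log_exp 2
  rw [abs_of_nonpos (by nlinarith [sq_nonneg ‖v‖])]
  nlinarith

theorem maxwellian_le (v : R3) : maxwellian v ≤ Real.exp (-‖v‖ ^ 2 / 2) := by
  unfold maxwellian
  have h1 : (2 * Real.pi) ^ (-(3 / 2 : ℝ)) ≤ 1 :=
    Real.rpow_le_one_of_one_le_of_nonpos (by nlinarith [Real.pi_gt_three]) (by norm_num)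
  have h2 := (Real.exp_pos (-‖v‖ ^ 2 / 2)).le
  nlinarith

theorem maxwellian_poly_le (v : R3) :
    maxwellian v * (4 + 2 * ‖v‖ ^ 2) ≤ 8 * G4 v := by
  have h1 := maxwellian_le v
  have h2 : 4 + 2 * ‖v‖ ^ 2 ≤ 8 * Real.exp (‖v‖ ^ 2 / 4) := by
    have := Real.add_one_le_exp (‖v‖ ^ 2 / 4)
    nlinarith [sq_nonneg ‖v‖]
  have h3 : G4 v = Real.exp (-‖v‖ ^ 2 / 2) * Real.exp (‖v‖ ^ 2 / 4) := by
    unfold G4
    rw [← Real.exp_add]
    congr 1
    ring
  calc maxwellian v * (4 + 2 * ‖v‖ ^ 2)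
      ≤ Real.exp (-‖v‖ ^ 2 / 2) * (8 * Real.exp (‖v‖ ^ 2 / 4)) :=
        mul_le_mul h1 h2 (by positivity) (Real.exp_pos _).le
    _ = _ := by rw [h3]; ring

theorem lint_maxwellian_log :
    ∫⁻ v, ENNReal.ofReal (maxwellian v * (1 + ‖v‖ ^ 2 + |Real.log (maxwellian v)|))
      ∂(volume : Measure R3) < ⊤ := by
  have h1 : ∀ v : R3, ENNReal.ofReal (maxwellian v * (1 + ‖v‖ ^ 2 + |Real.log (maxwellian v)|)) ≤
      ENNReal.ofReal 8 * ENNReal.ofReal (G4 v) := by
    intro v
    rw [← ENNReal.ofReal_mul (by norm_num)]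
    refine ENNReal.ofReal_le_ofReal ?_
    refine le_trans ?_ (maxwellian_poly_le v)
    refine mul_le_mul_of_nonneg_left ?_ (W.maxwellian_pos v).le
    have := abs_log_maxwellian_le v
    nlinarith [sq_nonneg ‖v‖]
  refine (lintegral_mono h1).trans_lt ?_
  rw [lintegral_const_mul' _ _ ENNReal.ofReal_ne_top]
  exact ENNReal.mul_lt_top ENNReal.ofReal_lt_top lint_G4

/-- tail of the Maxwellian -/
def tM (R : ℝ) : ℝ≥0∞ := ∫⁻ v, {v : R3 | R ≤ ‖v‖}.indicator (fun v => ENNReal.ofReal (maxwellian v)) v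

theorem tM_le {R : ℝ} (hR : 0 < R) :
    tM R ≤ ENNReal.ofReal (8 / R ^ 2) * ∫⁻ v, ENNReal.ofReal (G4 v) ∂(volume : Measure R3) := by
  unfold tM
  rw [← lintegral_const_mul' _ _ ENNReal.ofReal_ne_top]
  refine lintegral_mono fun v => ?_
  by_cases hv : v ∈ {v : R3 | R ≤ ‖v‖}
  · rw [indicator_of_mem hv, ← ENNReal.ofReal_mul (by positivity)]
    refine ENNReal.ofReal_le_ofReal ?_
    have h1 := maxwellian_poly_le v
    have h2 : R ^ 2 ≤ ‖v‖ ^ 2 := by
      have hv' : R ≤ ‖v‖ := hv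
      gcongr
    have h3 := (W.maxwellian_pos v).le
    rw [div_mul_eq_mul_div, le_div_iff₀ (by positivity)]
    nlinarith
  · rw [indicator_of_notMem hv]
    exact zero_le

theorem tendsto_tM {ε : ℝ≥0∞} (hε : 0 < ε) : ∃ R0 : ℝ, ∀ R, R0 ≤ R → tM R ≤ ε := by
  have h1 : Tendsto (fun R : ℝ => ENNReal.ofReal (8 / R ^ 2) *
      ∫⁻ v, ENNReal.ofReal (G4 v) ∂(volume : Measure R3)) atTop (𝓝 0) := by
    have h2 : Tendsto (fun R : ℝ => 8 / R ^ 2) atTop (𝓝 0) :=
      tendsto_const_nhds.div_atTop (tendsto_pow_atTop (by norm_num))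
    have h3 := ENNReal.tendsto_ofReal h2
    rw [ENNReal.ofReal_zero] at h3
    have h4 := ENNReal.Tendsto.mul_const h3 (Or.inr lint_G4.ne)
    rwa [zero_mul] at h4
  obtain ⟨R0, hR0⟩ := eventually_atTop.1 (h1.eventually (ge_mem_nhds hε))
  refine ⟨max R0 1, fun R hR => ?_⟩
  exact (tM_le (lt_of_lt_of_le one_pos ((le_max_right _ _).trans hR))).trans
    (hR0 R ((le_max_left _ _).trans hR))

/-! ### The hole -/

theorem volume_hole {rh : ℝ} (hrh : 0 ≤ rh) :
    ∫⁻ x in cellG, {x : P2 | distG x ≤ rh}.indicator (fun _ => (1 : ℝ≥0∞)) x ≤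
      ENNReal.ofReal (4 * rh ^ 2) := by
  set S : Set P2 := Icc (-rh) rh ×ˢ Icc (-rh) rh with hS
  have hSm : MeasurableSet S := measurableSet_Icc.prod measurableSet_Icc
  have hm : Measurable (S.indicator fun _ => (1 : ℝ≥0∞)) := measurable_const.indicator hSm
  have h1 : ∀ x : P2, {x : P2 | distG x ≤ rh}.indicator (fun _ => (1 : ℝ≥0∞)) x ≤
      ∑' k : ℤ × ℤ, S.indicator (fun _ => (1 : ℝ≥0∞)) (x + latt k) := by
    intro x
    by_cases hx : x ∈ {x : P2 | distG x ≤ rh}
    · rw [indicator_of_mem hx]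
      obtain ⟨k, hk⟩ := exists_distG_eq x
      have h2 : ‖x + latt k‖ ≤ rh := hk ▸ hx
      rw [Prod.norm_def, max_le_iff, Real.norm_eq_abs, Real.norm_eq_abs, abs_le, abs_le] at h2
      have h3 : x + latt k ∈ S := ⟨h2.1, h2.2⟩
      calc (1 : ℝ≥0∞) = S.indicator (fun _ => (1 : ℝ≥0∞)) (x + latt k) := by
            rw [indicator_of_mem h3]
        _ ≤ _ := ENNReal.le_tsum k
    · rw [indicator_of_notMem hx]
      exact zero_le
  refine (lintegral_mono h1).trans ?_
  rw [lintegral_cellG_tsum hm]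
  have h2 := lintegral_indicator_one (μ := (volume : Measure P2)) hSm
  have h3 : (S.indicator (1 : P2 → ℝ≥0∞)) = S.indicator fun _ => (1 : ℝ≥0∞) := rfl
  rw [h3] at h2
  rw [h2, hS, Measure.volume_eq_prod, Measure.prod_prod, Real.volume_Icc,
    ← ENNReal.ofReal_mul (by linarith)]
  refine ENNReal.ofReal_le_ofReal (le_of_eq ?_)
  ring

/-! ### Admissibility -/

/-- constant in the entropy bounds -/
def CY (Y : ℝ) : ℝ := 4 + (Y + 4) ^ 2

theorem CY_nonneg (Y : ℝ) : 0 ≤ CY Y := by unfold CY; positivity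

theorem F0_of_ne {P : Par} (h : P.Ok) {rh R : ℝ} (hrh : (1 + P.Y) * P.dl ≤ rh) {x : P2} {v : R3}
    (h0 : phi P 0 x v ≠ 0) : F0 P rh R x v = phi P 0 x v := by
  rw [F0, bg_eq_zero h hrh h0, add_zero]

theorem F0_of_eq {P : Par} {rh R : ℝ} {x : P2} {v : R3}
    (h0 : phi P 0 x v = 0) : F0 P rh R x v = bg rh R x v := by rw [F0, h0, zero_add]

theorem measurable_phi_zero {P : Par} (h : P.Ok) :
    Measurable fun q : P2 × R3 => phi P 0 q.1 q.2 := by
  have h1 : Measurable fun q : P2 × R3 => ((0 : ℝ), q.1, q.2) := by fun_prop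
  exact (measurable_phi h).comp h1

theorem restrict_cellG : (volume : Measure (P2 × R3)).restrict (cellG ×ˢ (univ : Set R3)) =
    ((volume : Measure P2).restrict cellG).prod (volume : Measure R3) := by
  rw [Measure.volume_eq_prod P2 R3, ← Measure.prod_restrict, Measure.restrict_univ]

/-- **the datum is admissible** -/
theorem datumG_F0 {P : Par} (h : P.Ok) {rh R : ℝ} (hrh : (1 + P.Y) * P.dl ≤ rh)
    (hR : P.Y + 4 ≤ R) : DatumG (F0 P rh R) R := by
  refine ⟨(measurable_phi_zero h).add (measurable_bg rh R),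
    fun x v => add_nonneg (phi_nonneg h 0 x v) (bg_nonneg rh R x v), ?_, ?_, ?_⟩
  · intro v x k
    show F0 P rh R (x + latt k) v = F0 P rh R x v
    unfold F0
    have h1 : phi P 0 (x + latt k) v = phi P 0 x v := perG_phi P 0 v x k
    have h2 : bg rh R (x + latt k) v = bg rh R x v := perG_bg rh R v x k
    rw [h1, h2]
  · intro x v hv
    unfold F0
    have h1 : phi P 0 x v = 0 := by
      by_contra h0
      exact absurd (norm_lt_of_phi_ne h h0) (not_lt.2 (hR.trans hv))
    have h2 : bg rh R x v = 0 := by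
      unfold bg
      rw [if_neg]
      rintro ⟨h3, -⟩
      exact absurd h3 (not_lt.2 hv)
    rw [h1, h2, add_zero]
  · have h1 : ∀ q : P2 × R3,
        ENNReal.ofReal (F0 P rh R q.1 q.2 * (1 + ‖q.2‖ ^ 2 + |Real.log (F0 P rh R q.1 q.2)|)) ≤
        ENNReal.ofReal (ent (CY P.Y) (phi P 0 q.1 q.2)) +
          ENNReal.ofReal (maxwellian q.2 * (1 + ‖q.2‖ ^ 2 + |Real.log (maxwellian q.2)|)) := by
      rintro ⟨x, v⟩
      by_cases h0 : phi P 0 x v = 0
      · refine le_add_left ?_
        simp only [F0_of_eq h0]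
        by_cases h2 : ‖v‖ < R ∧ rh < distG x
        · unfold bg; rw [if_pos h2]
        · unfold bg; rw [if_neg h2]; simp
      · refine le_add_right (ENNReal.ofReal_le_ofReal ?_)
        simp only [F0_of_ne h hrh h0]
        unfold ent
        refine mul_le_mul_of_nonneg_left ?_ (phi_nonneg h 0 x v)
        have h3 := norm_lt_of_phi_ne h h0
        have h4 : ‖v‖ ^ 2 ≤ (P.Y + 4) ^ 2 := by gcongr
        unfold CY
        linarith
    refine (lintegral_mono h1).trans_lt ?_
    rw [lintegral_add_left]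
    · refine ENNReal.add_lt_top.2 ⟨lint_ent_phi_lt_top h (CY_nonneg _), ?_⟩
      rw [restrict_cellG, lintegral_prod]
      · simp only [lintegral_const, Measure.restrict_apply_univ, volume_cellG, mul_one]
        exact lint_maxwellian_log
      · have hM : Measurable fun q : P2 × R3 => maxwellian q.2 :=
          W.measurable_maxwellian.comp measurable_snd
        have hN : Measurable fun q : P2 × R3 => ‖q.2‖ ^ 2 := by fun_prop
        exact (ENNReal.measurable_ofReal.comp
          (hM.mul ((measurable_const.add hN).add (Real.measurable_log.comp hM).abs))).aemeasurable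
    · exact ENNReal.measurable_ofReal.comp ((measurable_ent _).comp (measurable_phi_zero h))

/-- mass of the datum -/
theorem mass_F0_le {P : Par} (h : P.Ok) (rh R : ℝ) :
    ∫⁻ q in cellG ×ˢ (univ : Set R3), ENNReal.ofReal (F0 P rh R q.1 q.2) ≤
      (∫⁻ q in cellG ×ˢ (univ : Set R3), ENNReal.ofReal (ent (CY P.Y) (phi P 0 q.1 q.2))) + 1 := by
  have h1 : ∀ q : P2 × R3, ENNReal.ofReal (F0 P rh R q.1 q.2) ≤
      ENNReal.ofReal (ent (CY P.Y) (phi P 0 q.1 q.2)) + ENNReal.ofReal (maxwellian q.2) := by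
    rintro ⟨x, v⟩
    unfold F0
    refine ENNReal.ofReal_add_le.trans (add_le_add (ENNReal.ofReal_le_ofReal ?_)
      (ENNReal.ofReal_le_ofReal (bg_le _ _ _ _)))
    unfold ent CY
    refine le_mul_of_one_le_right (phi_nonneg h 0 x v) ?_
    have := abs_nonneg (Real.log (phi P 0 x v))
    nlinarith [sq_nonneg (P.Y + 4)]
  refine (lintegral_mono h1).trans ?_
  rw [lintegral_add_left]
  · refine add_le_add le_rfl (le_of_eq ?_)
    rw [restrict_cellG, lintegral_prod]
    · simp only [W.lintegral_maxwellian, lintegral_const, Measure.restrict_apply_univ,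
        volume_cellG, mul_one]
    · have hM : Measurable fun q : P2 × R3 => maxwellian q.2 :=
        W.measurable_maxwellian.comp measurable_snd
      exact (ENNReal.measurable_ofReal.comp hM).aemeasurable
  · exact ENNReal.measurable_ofReal.comp ((measurable_ent _).comp (measurable_phi_zero h))

/-- **relative entropy of the datum** -/
theorem relEnt_F0_le {P : Par} (h : P.Ok) {rh R : ℝ} (hrh : (1 + P.Y) * P.dl ≤ rh) :
    ∫⁻ q in cellG ×ˢ (univ : Set R3), ENNReal.ofReal (F0 P rh R q.1 q.2 *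
        Real.log (F0 P rh R q.1 q.2 / maxwellian q.2) - F0 P rh R q.1 q.2 + maxwellian q.2) ≤
      (∫⁻ q in cellG ×ˢ (univ : Set R3), ENNReal.ofReal (ent (CY P.Y) (phi P 0 q.1 q.2))) +
        ENNReal.ofReal (4 * rh ^ 2) + tM R := by
  have hrh0 : 0 ≤ rh := by
    have := h.Y0
    have := Ok.dlp h
    exact le_trans (by positivity) hrh
  have h1 : ∀ q : P2 × R3, ENNReal.ofReal (F0 P rh R q.1 q.2 *
        Real.log (F0 P rh R q.1 q.2 / maxwellian q.2) - F0 P rh R q.1 q.2 + maxwellian q.2) ≤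
      ENNReal.ofReal (ent (CY P.Y) (phi P 0 q.1 q.2)) +
        {x : P2 | distG x ≤ rh}.indicator (fun _ => (1 : ℝ≥0∞)) q.1 *
          ENNReal.ofReal (maxwellian q.2) +
        {v : R3 | R ≤ ‖v‖}.indicator (fun v => ENNReal.ofReal (maxwellian v)) q.2 := by
    rintro ⟨x, v⟩
    have hM := W.maxwellian_pos v
    by_cases h0 : phi P 0 x v = 0
    · simp only [F0_of_eq h0]
      by_cases h2 : ‖v‖ < R ∧ rh < distG x
      · unfold bg; rw [if_pos h2, div_self hM.ne', Real.log_one]; simp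
      · unfold bg; rw [if_neg h2]
        simp only [zero_mul, sub_zero, zero_add]
        rw [not_and_or, not_lt, not_lt] at h2
        rcases h2 with h2 | h2
        · refine le_add_left ?_
          rw [indicator_of_mem (show v ∈ {v : R3 | R ≤ ‖v‖} from h2)]
        · refine le_add_right (le_add_left ?_)
          rw [indicator_of_mem (show x ∈ {x : P2 | distG x ≤ rh} from h2), one_mul]
    · simp only [F0_of_ne h hrh h0]
      refine le_add_right ?_
      have hx : x ∈ {x : P2 | distG x ≤ rh} := (distG_le_of_phi_ne h h0).trans hrh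
      rw [indicator_of_mem hx, one_mul, ← ENNReal.ofReal_add
        (ent_nonneg (CY_nonneg _) (phi_nonneg h 0 x v)) hM.le]
      refine ENNReal.ofReal_le_ofReal ?_
      have hφ : 0 < phi P 0 x v := lt_of_le_of_ne (phi_nonneg h 0 x v) (Ne.symm h0)
      rw [Real.log_div h0 hM.ne']
      unfold ent
      have h3 := norm_lt_of_phi_ne h h0
      have h4 : ‖v‖ ^ 2 ≤ (P.Y + 4) ^ 2 := by gcongr
      have h5 := abs_log_maxwellian_le v
      have h6 : Real.log (phi P 0 x v) - Real.log (maxwellian v) ≤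
          CY P.Y + |Real.log (phi P 0 x v)| := by
        have := le_abs_self (Real.log (phi P 0 x v))
        have := neg_abs_le (Real.log (maxwellian v))
        unfold CY
        nlinarith
      have := mul_le_mul_of_nonneg_left h6 hφ.le
      linarith
  refine (lintegral_mono h1).trans ?_
  have hm1 : Measurable fun q : P2 × R3 => ENNReal.ofReal (ent (CY P.Y) (phi P 0 q.1 q.2)) :=
    ENNReal.measurable_ofReal.comp ((measurable_ent _).comp (measurable_phi_zero h))
  have hm2 : Measurable fun q : P2 × R3 =>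
      {x : P2 | distG x ≤ rh}.indicator (fun _ => (1 : ℝ≥0∞)) q.1 *
        ENNReal.ofReal (maxwellian q.2) := by
    refine Measurable.mul ?_ ?_
    · have : Measurable ({x : P2 | distG x ≤ rh}.indicator fun _ => (1 : ℝ≥0∞)) :=
        measurable_const.indicator (measurableSet_le measurable_distG measurable_const)
      exact this.comp measurable_fst
    · exact ENNReal.measurable_ofReal.comp (W.measurable_maxwellian.comp measurable_snd)
  have hm12 : Measurable fun q : P2 × R3 => ENNReal.ofReal (ent (CY P.Y) (phi P 0 q.1 q.2)) +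
      {x : P2 | distG x ≤ rh}.indicator (fun _ => (1 : ℝ≥0∞)) q.1 *
        ENNReal.ofReal (maxwellian q.2) := hm1.add hm2
  rw [lintegral_add_left hm12, lintegral_add_left hm1]
  refine add_le_add (add_le_add le_rfl ?_) ?_
  · rw [restrict_cellG, lintegral_prod _ hm2.aemeasurable]
    have h2 : ∀ x : P2, ∫⁻ v : R3, {x : P2 | distG x ≤ rh}.indicator (fun _ => (1 : ℝ≥0∞)) x *
        ENNReal.ofReal (maxwellian v) = {x : P2 | distG x ≤ rh}.indicator (fun _ => (1 : ℝ≥0∞)) x := by
      intro x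
      have hM : Measurable fun v : R3 => ENNReal.ofReal (maxwellian v) :=
        ENNReal.measurable_ofReal.comp W.measurable_maxwellian
      rw [lintegral_const_mul _ hM, W.lintegral_maxwellian, mul_one]
    simp_rw [h2]
    exact volume_hole hrh0
  · have hm3 : Measurable ({v : R3 | R ≤ ‖v‖}.indicator fun v => ENNReal.ofReal (maxwellian v)) :=
      (ENNReal.measurable_ofReal.comp W.measurable_maxwellian).indicator
        (measurableSet_le measurable_const measurable_norm)
    have hm4 : Measurable fun q : P2 × R3 =>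
        {v : R3 | R ≤ ‖v‖}.indicator (fun v => ENNReal.ofReal (maxwellian v)) q.2 :=
      hm3.comp measurable_snd
    rw [restrict_cellG, lintegral_prod _ hm4.aemeasurable]
    simp only [lintegral_const, Measure.restrict_apply_univ, volume_cellG, mul_one]
    exact le_rfl

/-- **smallness of the relative entropy and bound of the mass** -/
theorem exists_relEnt_small {K Y : ℝ} {p : ℕ} {ε : ℝ≥0∞} (hε : 0 < ε) :
    ∃ (J : ℕ) (R0 ρ : ℝ), 0 < ρ ∧ ∀ (P : Par) (rh R : ℝ), P.Ok → P.K = K → P.Y = Y → P.p = p →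
      J ≤ P.j0 → (1 + P.Y) * P.dl ≤ rh → rh ≤ ρ → R0 ≤ R →
      (∫⁻ q in cellG ×ˢ (univ : Set R3), ENNReal.ofReal (F0 P rh R q.1 q.2 *
        Real.log (F0 P rh R q.1 q.2 / maxwellian q.2) - F0 P rh R q.1 q.2 + maxwellian q.2) ≤ ε) ∧
      (∫⁻ q in cellG ×ˢ (univ : Set R3), ENNReal.ofReal (F0 P rh R q.1 q.2) ≤ 2) := by
  have hε3 : 0 < min 1 (ε / 3) := lt_min one_pos (ENNReal.div_pos hε.ne' (by norm_num))
  obtain ⟨J, hJ⟩ := exists_j0_ent (K := K) (Y := Y) (p := p) (CY_nonneg Y) hε3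
  obtain ⟨R0, hR0⟩ := tendsto_tM hε3
  have h1 : Tendsto (fun r : ℝ => ENNReal.ofReal (4 * r ^ 2)) (𝓝 0) (𝓝 0) := by
    have h2 : Continuous fun r : ℝ => ENNReal.ofReal (4 * r ^ 2) :=
      ENNReal.continuous_ofReal.comp (by fun_prop)
    have h3 := h2.tendsto 0
    simpa using h3
  have h2 := h1.eventually (ge_mem_nhds hε3)
  obtain ⟨ρ, hρ, hρ'⟩ := Metric.eventually_nhds_iff.1 h2
  refine ⟨J, R0, ρ / 2, by positivity, fun P rh R hP hK hY hp hj hrh hrhρ hR => ?_⟩
  have e1 := hJ P hP hK hY hp hj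
  rw [← hY] at e1
  have e2 := hR0 R hR
  have hrh0 : 0 ≤ rh := by
    have := hP.Y0
    have := Ok.dlp hP
    exact le_trans (by positivity) hrh
  have e3 : ENNReal.ofReal (4 * rh ^ 2) ≤ min 1 (ε / 3) := hρ' (by
    rw [Real.dist_eq, sub_zero, abs_of_nonneg hrh0]; linarith)
  constructor
  · refine (relEnt_F0_le hP hrh).trans ?_
    calc _ ≤ ε / 3 + ε / 3 + ε / 3 := add_le_add (add_le_add (e1.trans (min_le_right _ _))
          (e3.trans (min_le_right _ _))) (e2.trans (min_le_right _ _))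
      _ = ε := ENNReal.add_thirds ε
  · refine (mass_F0_le hP rh R).trans ?_
    calc _ ≤ (1 : ℝ≥0∞) + 1 := add_le_add (e1.trans (min_le_left _ _)) le_rfl
      _ = 2 := one_add_one_eq_two

end

end Crest.Agent.R68.Fuel
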