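import Crest.Agent.R68.Params
import Crest.Agent.R68.NHyp
import Crest.Agent.R68.FDat2

/-!
# Row 68: final assembly (helper195)

`LOut`, `AOut`, `CKOut`, `NOut`, `WOut`, `DOut` are the final statements of the parts (as `Prop`s,
thresholds only through `∀ᶠ j0 in atTop`); `main0` (file `Main1`) derives S0091 from them.
Every part proves `Crest.Agent.R68.<Part>.<prop>_holds` in `R68/<Part>Out.lean`
(finally `Y = 10`).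
-/

set_option autoImplicit false
open MeasureTheory Set Filter
open scoped ENNReal Topology
open Crest.AnalysisR.VecCalc3 Crest.AnalysisR.PDE.Boltzmann

noncomputable section

namespace Crest.Agent.R68.Main0

open Crest.Agent.R68.A (en Meas3)
open Crest.Agent.R68.N

/-- background datum -/
def H0f (j0 : ℕ) (R : ℝ) (x : P2) (v : R3) : ℝ≥0∞ := ENNReal.ofReal (Fuel.bg (rhj j0) R x v)

/-- hot solution for the final parameters on `(0, T1]` -/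
def Hot (P : Par) (j0 : ℕ) (R : ℝ) (H : Fld) : Prop :=
  HotSol P (coldR P) (coldSpill P) (H0f j0 R) (T1j j0) H

/-! Fixed exponents: `g0 = 1/10`, `g1 = g2 = 1/25`, `g1' = g2' = 1/50`. -/

/-- **Part L (+ 559's extension to `(0,T1]`)**: for `K ≥ K0` there are exponents `a`, `b`, and for
`p`, `j0` large an ancient solution and the solver bound on `(0,T1]`. -/
def LOut (Y : ℝ) : Prop :=
  ∃ K0 : ℝ, ∀ K : ℝ, K0 ≤ K → ∃ ey : ℝ, 0 < ey ∧ ey ≤ 1 / 100 ∧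
    ∃ a b : ℝ, 2 < a ∧ 0 < b ∧ b ≤ 2 * (a - 2) ∧
    ∀ᶠ p : ℕ in atTop, ∀ᶠ j0 : ℕ in atTop, ∃ (Hs : Fld) (CL : ℝ≥0∞),
      LInp (par K Y ey p j0) (T1j j0) Hs (1 / 25) (1 / 25) (1 / 50) (1 / 50) a b CL

/-- **Part A**: the unburnt solution. -/
def AOut (Y : ℝ) : Prop :=
  ∃ K1 : ℝ, ∀ K : ℝ, 1 ≤ K → K1 ≤ K → ∀ ey β : ℝ, 0 < ey → ey ≤ 1 / 100 → 0 ≤ β → ∀ᶠ p : ℕ in atTop, ∀ R ε : ℝ, 0 < ε → ∀ᶠ j0 : ℕ in atTop,
    ∃ (H1 : Fld) (C1 : ℝ≥0∞), Hot (par K Y ey p j0) j0 R H1 ∧ C1 ≠ ⊤ ∧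
      (∀ t ∈ Ioc 0 (T1j j0), ∀ x v,
        H1 t x v ≤ C1 * tx β t x * Zg (par K Y ey p j0) (1 / 10) t x v) ∧
      (∀ t ∈ Ioc 0 (T1j j0), ∀ x v, dd (H1 t x v) (H0f j0 R (x - t • bar v) v) ≤
        ENNReal.ofReal ε * Zg (par K Y ey p j0) (1 / 20) t x v)

/-- **Parts C and K** for Part N -/
def CKOut (Y : ℝ) : Prop :=
  ∃ K1 : ℝ, ∀ K : ℝ, 1 ≤ K → K1 ≤ K → ∀ ey q : ℝ, 0 < ey → ey ≤ 1 / 100 → 0 ≤ q → ∀ᶠ p : ℕ in atTop, ∀ᶠ j0 : ℕ in atTop,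
    ∃ (V : ℝ) (Mc Wm : Fld) (CC CK : ℝ≥0∞), 0 ≤ V ∧
      ColdInp (par K Y ey p j0) (T1j j0) V (coldR (par K Y ey p j0)) (coldSpill (par K Y ey p j0))
        Mc Wm CC q ∧
      KInp (par K Y ey p j0) (T1j j0) Mc Wm q (1 / 10) (1 / 25) (1 / 25) CK ∧
      KInp (par K Y ey p j0) (T1j j0) Mc Wm q (1 / 50 + 1 / 50) (1 / 50) (1 / 50) CK

/-- **Part N** (`NIface.N_main`) -/
def NOut : Prop :=
  ∀ {P : Par} {T V : ℝ} {Cf Sf : Fld → Fld} {Mc Wm : Fld} {CC CK CL C1 : ℝ≥0∞} {q : ℝ}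
    {g0 g1 g2 g1' g2' a b β : ℝ}
    (_ : P.Ok) (_ : 0 < T) (_ : T ≤ 1) (_ : 0 ≤ V) (_ : 0 ≤ P.c)
    (_ : 0 < g2') (_ : √T / 100 < g1') (_ : g1' + g2' ≤ 1) (_ : g1' < g1) (_ : g2' < g2)
    (_ : g1 + g2 ≤ g0)
    (_ : 0 < b) (_ : b ≤ 2 * (a - 2)) (_ : b ≤ β) (_ : b ≤ q)
    (_ : 2 < a)
    (_ : ColdInp P T V Cf Sf Mc Wm CC q)
    (_ : KInp P T Mc Wm q g0 g1 g2 CK) (_ : KInp P T Mc Wm q (g1' + g2') g1' g2' CK)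
    {H0 : P2 → R3 → ℝ≥0∞} (_ : Measurable (fun p : P2 × R3 => H0 p.1 p.2))
    (_ : ∀ v, PerG (fun x => H0 x v)) (_ : ∀ x v, distG x = 0 → H0 x v = 0)
    {H1 : Fld} (_ : HotSol P Cf Sf H0 T H1) (_ : C1 ≠ ⊤)
    (_ : ∀ t ∈ Ioc 0 T, ∀ x v, H1 t x v ≤ C1 * tx β t x * Zg P g0 t x v)
    {Hs : Fld} (_ : LInp P T Hs g1 g2 g1' g2' a b CL)
    {ε0 : ℝ≥0∞} (_ : 0 < ε0),
    ∃ H2 : Fld, HotSol P Cf Sf H0 T H2 ∧
      (∀ t ∈ Ioc 0 T, ∀ x v, dd (H1 t x v) (H2 t x v) ≤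
        ε0 * ENNReal.ofReal (t ^ (min b (a - 2))) * EE P g1' g2' t x v) ∧
      ¬ ∀ᵐ p : ℝ × P2 × R3, p.1 ∈ Ioo 0 T → H1 p.1 p.2.1 p.2.2 = H2 p.1 p.2.1 p.2.2

/-- **Part W (+ gluing)**: every hot solution on `(0,T1]` which is close to the transported
background at `T1` is continued to a global mild solution with datum `F0`. -/
def WOut (Y : ℝ) : Prop :=
  ∃ K1 : ℝ, ∀ K : ℝ, 1 ≤ K → K1 ≤ K → ∀ ey : ℝ, 0 < ey → ey ≤ 1 / 100 → ∀ᶠ p : ℕ in atTop, ∃ R : ℝ, ∃ ε : ℝ, 0 < ε ∧ ∀ᶠ j0 : ℕ in atTop,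
    ∀ (H : Fld) (A : ℝ≥0∞), Hot (par K Y ey p j0) j0 R H → A ≠ ⊤ →
      (∀ t ∈ Ioc 0 (T1j j0), ∀ x v, H t x v ≤ A * Zg (par K Y ey p j0) (1 / 50) t x v) →
      (∀ x v, dd (H (T1j j0) x v) (H0f j0 R (x - T1j j0 • bar v) v) ≤
        ENNReal.ofReal ε * Zg (par K Y ey p j0) (1 / 50) (T1j j0) x v) →
      ∃ G : ℝ → P2 → R3 → ℝ, MildG G (Fuel.F0 (par K Y ey p j0) (rhj j0) R) R ∧
        ∀ᵐ z : ℝ × P2 × R3, z.1 ∈ Ioo 0 (T1j j0) → ENNReal.ofReal (G z.1 z.2.1 z.2.2) =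
          coldR (par K Y ey p j0) (LcF H) z.1 z.2.1 z.2.2 + H z.1 z.2.1 z.2.2

/-- **Distinguishing** (559's NDiff, from C8): equal sums `c + H` imply equal hot components. -/
def DOut (Y : ℝ) : Prop :=
  ∃ K1 : ℝ, ∀ K : ℝ, 1 ≤ K → K1 ≤ K → ∀ ey : ℝ, 0 < ey → ey ≤ 1 / 100 → ∀ᶠ p : ℕ in atTop, ∀ᶠ j0 : ℕ in atTop, ∀ (R : ℝ) (H H' : Fld) (A : ℝ≥0∞),
    Hot (par K Y ey p j0) j0 R H → Hot (par K Y ey p j0) j0 R H' → A ≠ ⊤ →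
      (∀ t ∈ Ioc 0 (T1j j0), ∀ x v, H t x v ≤ A * Zg (par K Y ey p j0) (1 / 50) t x v) →
      (∀ t ∈ Ioc 0 (T1j j0), ∀ x v, H' t x v ≤ A * Zg (par K Y ey p j0) (1 / 50) t x v) →
      (∀ᵐ z : ℝ × P2 × R3, z.1 ∈ Ioo 0 (T1j j0) →
        coldR (par K Y ey p j0) (LcF H) z.1 z.2.1 z.2.2 + H z.1 z.2.1 z.2.2 =
        coldR (par K Y ey p j0) (LcF H') z.1 z.2.1 z.2.2 + H' z.1 z.2.1 z.2.2) →
      ∀ᵐ z : ℝ × P2 × R3, z.1 ∈ Ioo 0 (T1j j0) → H z.1 z.2.1 z.2.2 = H' z.1 z.2.1 z.2.2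

/-! ### Elementary facts -/

theorem gau_mono {g g' : ℝ} (h : g' ≤ g) (t : ℝ) (v : R3) : gau g t v ≤ gau g' t v := by
  unfold gau
  refine Real.exp_le_exp.2 ?_
  nlinarith [sq_nonneg ‖v‖]

theorem Zg_mono (P : Par) {g g' : ℝ} (h : g' ≤ g) (t : ℝ) (x : P2) (v : R3) :
    Zg P g t x v ≤ Zg P g' t x v :=
  mul_le_mul_left (ENNReal.ofReal_le_ofReal (gau_mono h t v)) _

theorem EE_le_Zg (P : Par) {g1 g2 : ℝ} (h : 0 ≤ g2) (t : ℝ) (x : P2) (v : R3) :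
    EE P g1 g2 t x v ≤ Zg P g1 t x v := by
  unfold EE B2 Zg
  refine mul_le_mul_left (ENNReal.ofReal_le_ofReal ?_) _
  rw [Real.rpow_zero, one_mul]
  have h1 : Real.exp (-g2 * (max ‖v‖ (distG x / t)) ^ 2) ≤ 1 := by
    rw [Real.exp_le_one_iff]
    nlinarith [sq_nonneg (max ‖v‖ (distG x / t))]
  have h2 : 0 ≤ gau g1 t v := (Real.exp_pos _).le
  nlinarith

theorem dd_comm (a b : ℝ≥0∞) : dd a b = dd b a := by unfold dd; rw [add_comm]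

theorem le_add_dd (a b : ℝ≥0∞) : a ≤ b + dd a b := by
  unfold dd
  calc a ≤ b + (a - b) := le_add_tsub
    _ ≤ b + (a - b + (b - a)) := add_le_add le_rfl le_self_add


theorem dd_triangle (a b c : ℝ≥0∞) : dd a c ≤ dd a b + dd b c := by
  have h : ∀ x y z : ℝ≥0∞, x - z ≤ (x - y) + (y - z) := fun x y z => tsub_le_tsub_add_tsub
  unfold dd
  calc a - c + (c - a) ≤ (a - b + (b - c)) + (c - b + (b - a)) := add_le_add (h a b c) (h c b a)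
    _ = _ := by ring

theorem measurable_H0f (j0 : ℕ) (R : ℝ) :
    Measurable (fun p : P2 × R3 => H0f j0 R p.1 p.2) :=
  ENNReal.measurable_ofReal.comp (Fuel.measurable_bg _ _)

theorem perG_H0f (j0 : ℕ) (R : ℝ) (v : R3) : PerG (fun x => H0f j0 R x v) := by
  intro x k
  show H0f j0 R (x + latt k) v = H0f j0 R x v
  unfold H0f
  have : Fuel.bg (rhj j0) R (x + latt k) v = Fuel.bg (rhj j0) R x v := Fuel.perG_bg _ _ v x k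
  rw [this]

theorem H0f_zero {j0 : ℕ} (h : 0 < rhj j0) (R : ℝ) (x : P2) (v : R3) (hx : distG x = 0) :
    H0f j0 R x v = 0 := by
  unfold H0f Fuel.bg
  rw [if_neg, ENNReal.ofReal_zero]
  rintro ⟨-, h1⟩
  rw [hx] at h1
  exact absurd h1 (not_lt.2 h.le)

/-- the conclusion of S0091 -/
def Concl : Prop :=
  ∃ R : ℝ, ∃ F₀ : R3 → R3 → ℝ, IsAdmissibleDatum F₀ R ∧
    ∃ F₁ F₂ : ℝ → R3 → R3 → ℝ, IsGlobalSolution F₁ F₀ ∧ IsGlobalSolution F₂ F₀ ∧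
      0 < volume {p : ℝ × R3 × R3 | p ∈ region ∧ F₁ p.1 p.2.1 p.2.2 ≠ F₂ p.1 p.2.1 p.2.2}

end Crest.Agent.R68.Main0
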