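import Crest.Agent.R68.ColdDefs
import Crest.Agent.R68.FLab
import Crest.Agent.R68.FSum
import Crest.Agent.R68.KWarm
import Crest.Agent.R68.LNull
import Crest.Agent.R68.Int2
import Crest.Agent.R68.Main0
import Crest.Agent.R68.NFix

-- ▼ part R68/DCong
section

/-!
# Row 68 (helper559): the cold component depends only on the a.e. class of the full rate (C8)
-/

set_option autoImplicit false
open MeasureTheory Set Filter
open scoped ENNReal Topology
open Crest.AnalysisR.VecCalc3 Crest.AnalysisR.PDE.Boltzmann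

noncomputable section

namespace Crest.Agent.R68.DCong

open Crest.Agent.R68.A (en Meas3 measurable_en measurable_lintegral_Ioo measurable_Qp Meas3.comp)
open Crest.Agent.R68.I (fs mp_fs measurable_fs_joint)

/-- fields -/
abbrev Fl : Type := ℝ → P2 → R3 → ℝ≥0∞

/-- equality a.e. on `(0,T)` -/
def EqT (T : ℝ) (f g : Fl) : Prop :=
  ∀ᵐ z : ℝ × P2 × R3, 0 < z.1 → z.1 < T → f z.1 z.2.1 z.2.2 = g z.1 z.2.1 z.2.2

/-- equality a.e. at every time of `[0,T]` -/
def EqA (T : ℝ) (f g : Fl) : Prop :=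
  ∀ t, 0 ≤ t → t ≤ T → ∀ᵐ q : P2 × R3, f t q.1 q.2 = g t q.1 q.2

/-! ### measurability -/

theorem meas3_phij (P : Par) (j : ℕ) : Meas3 (phij P j) := by
  unfold Meas3 phij
  by_cases h : P.j0 ≤ j
  · simp only [h, if_true]
    have h1 := measurable_phi0j P j
    exact ENNReal.measurable_ofReal.comp (h1.comp (g := fun q : P2 × R3 => phi0j P j q.1 q.2)
      (f := fun p : ℝ × P2 × R3 => (p.2.1 - p.1 • bar p.2.2, p.2.2))
      ((measurable_snd.fst.sub (measurable_fst.smul
        (A.measurable_bar.comp measurable_snd.snd))).prodMk measurable_snd.snd))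
  · simp only [h, if_false]
    exact measurable_const

theorem measurable_damp {α : Type*} [MeasurableSpace α] {Λ : Fl} (hΛ : Meas3 Λ) {s t : α → ℝ}
    {x : α → P2} {v : α → R3} (hs : Measurable s) (ht : Measurable t) (hx : Measurable x)
    (hv : Measurable v) : Measurable (fun a => damp Λ (s a) (t a) (x a) (v a)) := by
  unfold damp
  refine measurable_en.comp ?_
  refine measurable_lintegral_Ioo (q := fun z : α × ℝ =>
    Λ z.2 (x z.1 - (t z.1 - z.2) • bar (v z.1)) (v z.1)) ?_ hs ht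
  exact hΛ.comp (by fun_prop) (by fun_prop) (by fun_prop)

theorem meas3_DuhD {Λ q : Fl} (hΛ : Meas3 Λ) (hq : Meas3 q) : Meas3 (DuhD Λ q) := by
  unfold Meas3 DuhD
  refine measurable_lintegral_Ioo (α := ℝ × P2 × R3) (q := fun z : (ℝ × P2 × R3) × ℝ =>
      damp Λ z.2 z.1.1 z.1.2.1 z.1.2.2 *
      q z.2 (z.1.2.1 - (z.1.1 - z.2) • bar z.1.2.2) z.1.2.2) ?_ measurable_const (by fun_prop)
  refine Measurable.mul ?_ ?_
  · exact measurable_damp hΛ (by fun_prop) (by fun_prop) (by fun_prop) (by fun_prop)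
  · exact hq.comp (by fun_prop) (by fun_prop) (by fun_prop)

theorem measurableSet_Zj (P : Par) (j : ℕ) (θ : ℝ) :
    MeasurableSet {z : ℝ × P2 × R3 | Zj P j θ z.1 z.2.1 z.2.2} := by
  have hp : Measurable (fun z : ℝ × P2 × R3 => ((z.1, z.2.1) : ℝ × P2)) := by fun_prop
  have h1 : Measurable (fun z : ℝ × P2 × R3 => lab P z.1 z.2.1) := (KC.measurable_lab P).comp hp
  have h2 : Measurable (fun z : ℝ × P2 × R3 => uvec P (wj j) z.1 z.2.1) :=
    (KC.measurable_uvec P (wj j)).comp hp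
  have h3 : Measurable (fun z : ℝ × P2 × R3 => rr (lab P z.1 z.2.1)) := by
    unfold rr; exact h1.pow_const 2
  have m1 : MeasurableSet {z : ℝ × P2 × R3 | P.j0 ≤ j} := MeasurableSet.const _
  have m2 : MeasurableSet {z : ℝ × P2 × R3 | lab P z.1 z.2.1 ∈ laneE j} :=
    h1 (Fuel.measurableSet_laneE j)
  have m3 : MeasurableSet {z : ℝ × P2 × R3 | |z.2.1.2| < 2 * P.Y * (z.1 + rr (lab P z.1 z.2.1))} := by
    refine measurableSet_lt ?_ ?_
    · exact (by fun_prop : Measurable fun z : ℝ × P2 × R3 => z.2.1.2).abs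
    · exact measurable_const.mul (measurable_fst.add h3)
  have m4 : MeasurableSet {z : ℝ × P2 × R3 |
      ‖z.2.2 - uvec P (wj j) z.1 z.2.1‖ < θ * rhoj P.p j} :=
    measurableSet_lt (measurable_snd.snd.sub h2).norm measurable_const
  exact m1.inter (m2.inter (m3.inter m4))

theorem meas3_gainj (P : Par) (j : ℕ) {c : Fl} (hc : Meas3 c) : Meas3 (gainj P j c) := by
  classical
  unfold Meas3 gainj
  refine Measurable.ite ?_ ?_ measurable_const
  · exact (measurableSet_le measurable_fst measurable_const).inter (measurableSet_Zj P j 1)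
  · exact A.meas3_Qp hc hc

theorem meas3_itj (P : Par) (j : ℕ) {Λ : Fl} (hΛ : Meas3 Λ) (n : ℕ) : Meas3 (itj P j Λ n) := by
  induction n with
  | zero => exact measurable_const
  | succ n ih =>
    show Measurable fun p : ℝ × P2 × R3 => phij P j p.1 p.2.1 p.2.2 * damp Λ 0 p.1 p.2.1 p.2.2 +
      DuhD Λ (gainj P j (itj P j Λ n)) p.1 p.2.1 p.2.2
    exact ((meas3_phij P j).mul (measurable_damp hΛ measurable_const measurable_fst
      measurable_snd.fst measurable_snd.snd)).add (meas3_DuhD hΛ (meas3_gainj P j ih))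

/-! ### null sets along flights -/

theorem mpA (t : ℝ) : MeasurePreserving (fun z : ℝ × (P2 × R3) => (z.1, fs (-(t - z.1)) z.2))
    (volume : Measure (ℝ × (P2 × R3))) volume := by
  refine (MeasurePreserving.id (volume : Measure ℝ)).skew_product
    (g := fun s q => fs (-(t - s)) q) ?_ ?_
  · show Measurable fun z : ℝ × (P2 × R3) => fs (-(t - z.1)) z.2
    exact measurable_fs_joint.comp (((measurable_const.sub measurable_fst).neg).prodMk
      measurable_snd)
  · exact Eventually.of_forall fun s => (mp_fs _).map_eq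

/-- a.e. equality along flights -/
theorem flight_ae {T : ℝ} {f g : Fl} (h : EqT T f g) {t : ℝ} (ht : t ≤ T) :
    ∀ᵐ q : P2 × R3, ∀ᵐ s : ℝ, 0 < s → s < t →
      f s (q.1 - (t - s) • bar q.2) q.2 = g s (q.1 - (t - s) • bar q.2) q.2 := by
  have h1 : ∀ᵐ z : ℝ × (P2 × R3), 0 < z.1 → z.1 < T →
      f z.1 (fs (-(t - z.1)) z.2).1 (fs (-(t - z.1)) z.2).2 =
        g z.1 (fs (-(t - z.1)) z.2).1 (fs (-(t - z.1)) z.2).2 :=
    (mpA t).quasiMeasurePreserving.ae h
  have h2 : ∀ᵐ w : (P2 × R3) × ℝ, 0 < w.2 → w.2 < T →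
      f w.2 (fs (-(t - w.2)) w.1).1 (fs (-(t - w.2)) w.1).2 =
        g w.2 (fs (-(t - w.2)) w.1).1 (fs (-(t - w.2)) w.1).2 := by
    have hs : MeasurePreserving (Prod.swap : (P2 × R3) × ℝ → ℝ × (P2 × R3))
        (volume : Measure ((P2 × R3) × ℝ)) (volume : Measure (ℝ × (P2 × R3))) :=
      Measure.measurePreserving_swap
    exact hs.quasiMeasurePreserving.ae h1
  have h3 := Measure.ae_ae_of_ae_prod h2
  filter_upwards [h3] with q hq
  filter_upwards [hq] with s hs h0 h4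
  have h5 := hs h0 (h4.trans_le ht)
  have e : (fs (-(t - s)) q).1 = q.1 - (t - s) • bar q.2 := by
    unfold fs
    simp only
    rw [neg_smul]
    exact (sub_eq_add_neg _ _).symm
  rw [e] at h5
  exact h5

/-- from each time to joint a.e. -/
theorem EqA.toEqT {T : ℝ} {f g : Fl} (hf : Meas3 f) (hg : Meas3 g) (h : EqA T f g) : EqT T f g := by
  have hm : MeasurableSet {z : ℝ × P2 × R3 | 0 < z.1 → z.1 < T →
      f z.1 z.2.1 z.2.2 = g z.1 z.2.1 z.2.2} := by
    have e : {z : ℝ × P2 × R3 | 0 < z.1 → z.1 < T → f z.1 z.2.1 z.2.2 = g z.1 z.2.1 z.2.2} =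
        ({z : ℝ × P2 × R3 | 0 < z.1} ∩ {z : ℝ × P2 × R3 | z.1 < T})ᶜ ∪
          {z : ℝ × P2 × R3 | f z.1 z.2.1 z.2.2 = g z.1 z.2.1 z.2.2} := by
      ext z
      simp only [mem_ofPred_eq, mem_union, mem_compl_iff, mem_inter_iff]
      tauto
    rw [e]
    exact ((measurableSet_lt measurable_const measurable_fst).inter
      (measurableSet_lt measurable_fst measurable_const)).compl.union
      (measurableSet_eq_fun hf hg)
  unfold EqT
  rw [show (volume : Measure (ℝ × P2 × R3)) = (volume : Measure ℝ).prod volume from rfl,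
    Measure.ae_prod_iff_ae_ae hm]
  refine Eventually.of_forall fun t => ?_
  by_cases h0 : 0 < t ∧ t < T
  · filter_upwards [h t h0.1.le h0.2.le] with q hq _ _ using hq
  · refine Eventually.of_forall fun q h1 h2 => absurd ⟨h1, h2⟩ h0

/-! ### congruence -/

theorem damp_congr {Λ Λ' : Fl} {s t : ℝ} {x : P2} {v : R3} (h0 : 0 ≤ s)
    (h : ∀ᵐ r : ℝ, 0 < r → r < t →
      Λ r (x - (t - r) • bar v) v = Λ' r (x - (t - r) • bar v) v) :
    damp Λ s t x v = damp Λ' s t x v := by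
  unfold damp
  congr 1
  refine lintegral_congr_ae ?_
  rw [EventuallyEq, ae_restrict_iff' measurableSet_Ioo]
  filter_upwards [h] with r hr hmem using hr (h0.trans_lt hmem.1) hmem.2

theorem DuhD_congr {Λ Λ' q q' : Fl} {t : ℝ} {x : P2} {v : R3}
    (h : ∀ᵐ r : ℝ, 0 < r → r < t →
      Λ r (x - (t - r) • bar v) v = Λ' r (x - (t - r) • bar v) v)
    (hq : ∀ᵐ r : ℝ, 0 < r → r < t →
      q r (x - (t - r) • bar v) v = q' r (x - (t - r) • bar v) v) :
    DuhD Λ q t x v = DuhD Λ' q' t x v := by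
  unfold DuhD
  refine lintegral_congr_ae ?_
  rw [EventuallyEq, ae_restrict_iff' measurableSet_Ioo]
  filter_upwards [hq] with r hr hmem
  rw [hr hmem.1 hmem.2, damp_congr hmem.1.le h]

theorem gainj_EqA (P : Par) (j : ℕ) {T : ℝ} {c c' : Fl} (hc : Meas3 c) (hc' : Meas3 c')
    (h : EqA T c c') : EqA T (gainj P j c) (gainj P j c') := by
  intro t h0 hT
  have h1 : ∀ᵐ x : P2, ∀ᵐ v : R3, c t x v = c' t x v := Measure.ae_ae_of_ae_prod (h t h0 hT)
  have h2 : ∀ᵐ x : P2, ∀ v : R3, Qp (c t x) (c t x) v = Qp (c' t x) (c' t x) v := by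
    filter_upwards [h1] with x hx v
    rw [L.Qp_congr_left_all (hc.slice t x) (hc'.slice t x) (hc.slice t x) hx,
      L.Qp_congr_right_all (hc'.slice t x) (hc.slice t x) (hc'.slice t x) hx]
  have h3 : ∀ᵐ q : P2 × R3, ∀ v : R3, Qp (c t q.1) (c t q.1) v = Qp (c' t q.1) (c' t q.1) v :=
    Measure.quasiMeasurePreserving_fst.ae h2
  filter_upwards [h3] with q hq
  unfold gainj
  split_ifs
  · exact hq q.2
  · rfl

theorem itj_EqA (P : Par) (j : ℕ) {T : ℝ} {Λ Λ' : Fl} (hΛ : Meas3 Λ) (hΛ' : Meas3 Λ')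
    (h : EqT T Λ Λ') (n : ℕ) : EqA T (itj P j Λ n) (itj P j Λ' n) := by
  induction n with
  | zero => exact fun t _ _ => Eventually.of_forall fun q => rfl
  | succ n ih =>
    intro t h0 hT
    have hg := (gainj_EqA P j (meas3_itj P j hΛ n) (meas3_itj P j hΛ' n) ih).toEqT
      (meas3_gainj P j (meas3_itj P j hΛ n)) (meas3_gainj P j (meas3_itj P j hΛ' n))
    filter_upwards [flight_ae h hT, flight_ae hg hT] with q h1 h2
    show phij P j t q.1 q.2 * damp Λ 0 t q.1 q.2 + DuhD Λ (gainj P j (itj P j Λ n)) t q.1 q.2 =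
      phij P j t q.1 q.2 * damp Λ' 0 t q.1 q.2 + DuhD Λ' (gainj P j (itj P j Λ' n)) t q.1 q.2
    rw [damp_congr le_rfl h1, DuhD_congr h1 h2]

theorem coldj_EqA (P : Par) (j : ℕ) {T : ℝ} {Λ Λ' : Fl} (hΛ : Meas3 Λ) (hΛ' : Meas3 Λ')
    (h : EqT T Λ Λ') : EqA T (coldj P j Λ) (coldj P j Λ') := by
  intro t h0 hT
  have h1 : ∀ᵐ q : P2 × R3, ∀ n, itj P j Λ n t q.1 q.2 = itj P j Λ' n t q.1 q.2 :=
    ae_all_iff.2 fun n => itj_EqA P j hΛ hΛ' h n t h0 hT
  filter_upwards [h1] with q hq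
  unfold coldj
  exact iSup_congr fun n => hq n

/-- **(C8), core**: the cold component for the full rate `Λ` depends only on the a.e. class -/
theorem coldL_EqA (P : Par) {T : ℝ} {Λ Λ' : Fl} (hΛ : Meas3 Λ) (hΛ' : Meas3 Λ')
    (h : EqT T Λ Λ') : EqA T (coldL P Λ) (coldL P Λ') := by
  intro t h0 hT
  have h1 : ∀ᵐ q : P2 × R3, ∀ k : ℤ × ℤ, ∀ j : ℕ,
      coldj P j Λ t (q.1 + latt k) q.2 = coldj P j Λ' t (q.1 + latt k) q.2 := by
    refine ae_all_iff.2 fun k => ae_all_iff.2 fun j => ?_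
    have hmp : MeasurePreserving (fun q : P2 × R3 => (q.1 + latt k, q.2))
        (volume : Measure (P2 × R3)) volume :=
      (measurePreserving_add_right (volume : Measure P2) (latt k)).prod
        (MeasurePreserving.id (volume : Measure R3))
    exact hmp.quasiMeasurePreserving.ae (coldj_EqA P j hΛ hΛ' h t h0 hT)
  filter_upwards [h1] with q hq
  unfold coldL
  exact tsum_congr fun k => tsum_congr fun j => hq k j

end Crest.Agent.R68.DCong
end
end

-- ▼ part R68/DOut

/-!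
# Row 68 (helper559): the distinguishing statement `DOut` from the facts (C1) about `coldR`
-/

set_option autoImplicit false
open MeasureTheory Set Filter
open scoped ENNReal Topology
open Crest.AnalysisR.VecCalc3 Crest.AnalysisR.PDE.Boltzmann

noncomputable section

namespace Crest.Agent.R68.DCong

open Crest.Agent.R68.A (en Meas3)
open Crest.Agent.R68.N (Fld PerF LcF HotSol Zg)

/-- facts about the cold component needed here -/
structure ColdD (P : Par) (T : ℝ) : Prop where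
  meas : ∀ lam : Fld, Meas3 lam → PerF lam → Meas3 (coldR P lam)
  full : ∀ lam : Fld, Meas3 lam → PerF lam → ∀ t x v, 0 ≤ t →
    coldR P lam t x v = coldL P (rateC P lam) t x v
  fin : ∀ lam : Fld, Meas3 lam → PerF lam → ∀ t, 0 < t → t < T →
    ∀ᵐ q : P2 × R3, coldR P lam t q.1 q.2 ≠ ⊤

theorem meas3_rateC {P : Par} {T : ℝ} (hC : ColdD P T) {lam : Fld} (hm : Meas3 lam)
    (hp : PerF lam) : Meas3 (rateC P lam) := by
  have h := A.meas3_Lc (hC.meas lam hm hp)
  exact Measurable.add h hm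

/-- **(C8)** -/
theorem coldR_EqA {P : Par} {T : ℝ} (hC : ColdD P T) {lam lam' : Fld} (hm : Meas3 lam)
    (hp : PerF lam) (hm' : Meas3 lam') (hp' : PerF lam') {T' : ℝ}
    (h : EqT T' (rateC P lam) (rateC P lam')) : EqA T' (coldR P lam) (coldR P lam') := by
  intro t h0 hT
  filter_upwards [coldL_EqA P (meas3_rateC hC hm hp) (meas3_rateC hC hm' hp') h t h0 hT] with q hq
  rw [hC.full lam hm hp t q.1 q.2 h0, hC.full lam' hm' hp' t q.1 q.2 h0, hq]

theorem ae_of_ae_pos {Q : ℝ × P2 → Prop} (h : ∀ᵐ q : ℝ × P2, Q q) :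
    ∀ᵐ z : ℝ × P2 × R3, Q (z.1, z.2.1) := by
  have h2 : ∀ᵐ p : (ℝ × P2) × R3, Q p.1 := Measure.quasiMeasurePreserving_fst.ae h
  have h3 := (volume_preserving_prodAssoc (α₁ := ℝ) (β₁ := P2) (γ₁ := R3)).symm
  exact h3.quasiMeasurePreserving.ae h2

theorem Lc_congr_ae {f g : R3 → ℝ≥0∞} (h : ∀ᵐ v : R3, f v = g v) (v : R3) : Lc f v = Lc g v := by
  unfold Lc
  refine lintegral_congr_ae ?_
  filter_upwards [h] with z hz
  simp only [hz]

/-- equal sums `c + H` give equal full rates -/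
theorem EqT_rate {P : Par} {T : ℝ} (hC : ColdD P T) {H H' : Fld} (hm : Meas3 H) (hp : PerF H)
    (hm' : Meas3 H') (hp' : PerF H')
    (h : EqT T (fun t x v => coldR P (LcF H) t x v + H t x v)
      (fun t x v => coldR P (LcF H') t x v + H' t x v)) :
    EqT T (rateC P (LcF H)) (rateC P (LcF H')) := by
  have h1 := L.ae_slice_vel h
  have h2 : ∀ᵐ q : ℝ × P2, ∀ v : R3, 0 < q.1 → q.1 < T →
      rateC P (LcF H) q.1 q.2 v = rateC P (LcF H') q.1 q.2 v := by
    filter_upwards [h1] with q hq v h0 hT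
    have h3 : ∀ᵐ z : R3, coldR P (LcF H) q.1 q.2 z + H q.1 q.2 z =
        coldR P (LcF H') q.1 q.2 z + H' q.1 q.2 z := by
      filter_upwards [hq] with z hz using hz h0 hT
    have h4 := Lc_congr_ae h3 v
    rw [A.Lc_add ((hC.meas _ (N.meas3_LcF hm) (N.perF_LcF hp)).slice q.1 q.2),
      A.Lc_add ((hC.meas _ (N.meas3_LcF hm') (N.perF_LcF hp')).slice q.1 q.2)] at h4
    exact h4
  have h5 := ae_of_ae_pos h2
  filter_upwards [h5] with z hz h0 hT using hz z.2.2 h0 hT

/-- equal sums give equal hot components -/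
theorem hot_eq {P : Par} {T : ℝ} (hC : ColdD P T) {H H' : Fld} (hm : Meas3 H) (hp : PerF H)
    (hm' : Meas3 H') (hp' : PerF H')
    (h : EqT T (fun t x v => coldR P (LcF H) t x v + H t x v)
      (fun t x v => coldR P (LcF H') t x v + H' t x v)) : EqT T H H' := by
  have mL := N.meas3_LcF hm
  have pL := N.perF_LcF hp
  have mL' := N.meas3_LcF hm'
  have pL' := N.perF_LcF hp'
  have h1 := (coldR_EqA hC mL pL mL' pL' (EqT_rate hC hm hp hm' hp' h)).toEqT
    (hC.meas _ mL pL) (hC.meas _ mL' pL')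
  have h2 : ∀ᵐ z : ℝ × P2 × R3, 0 < z.1 → z.1 < T → coldR P (LcF H) z.1 z.2.1 z.2.2 ≠ ⊤ := by
    have hms : MeasurableSet {z : ℝ × P2 × R3 | 0 < z.1 → z.1 < T →
        coldR P (LcF H) z.1 z.2.1 z.2.2 ≠ ⊤} := by
      have e : {z : ℝ × P2 × R3 | 0 < z.1 → z.1 < T → coldR P (LcF H) z.1 z.2.1 z.2.2 ≠ ⊤} =
          ({z : ℝ × P2 × R3 | 0 < z.1} ∩ {z : ℝ × P2 × R3 | z.1 < T})ᶜ ∪
            {z : ℝ × P2 × R3 | coldR P (LcF H) z.1 z.2.1 z.2.2 = ⊤}ᶜ := by
        ext z
        simp only [mem_ofPred_eq, mem_union, mem_compl_iff, mem_inter_iff]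
        tauto
      rw [e]
      exact ((measurableSet_lt measurable_const measurable_fst).inter
        (measurableSet_lt measurable_fst measurable_const)).compl.union
        ((hC.meas _ mL pL) (measurableSet_singleton ⊤)).compl
    rw [show (volume : Measure (ℝ × P2 × R3)) = (volume : Measure ℝ).prod volume from rfl,
      Measure.ae_prod_iff_ae_ae hms]
    refine Eventually.of_forall fun t => ?_
    by_cases h0 : 0 < t ∧ t < T
    · filter_upwards [hC.fin _ mL pL t h0.1 h0.2] with q hq _ _ using hq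
    · refine Eventually.of_forall fun q h1 h2 => absurd ⟨h1, h2⟩ h0
  filter_upwards [h, h1, h2] with z hz1 hz2 hz3 h0 hT
  have e1 := hz1 h0 hT
  have e2 := hz2 h0 hT
  rw [← e2] at e1
  exact (ENNReal.add_right_inj (hz3 h0 hT)).1 e1

/-- `DOut` from `ColdD` for the final parameters -/
theorem DOut_of {Y : ℝ} (hC : ∃ K1 : ℝ, ∀ K : ℝ, 1 ≤ K → K1 ≤ K → ∀ ey : ℝ, 0 < ey →
    ey ≤ 1 / 100 → ∀ᶠ p : ℕ in atTop, ∀ᶠ j0 : ℕ in atTop, ColdD (par K Y ey p j0) (T1j j0)) :
    Main0.DOut Y := by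
  obtain ⟨K1, hK1⟩ := hC
  refine ⟨K1, fun K hK hK' ey he he' => ?_⟩
  filter_upwards [hK1 K hK hK' ey he he'] with p hp
  filter_upwards [hp] with j0 hj0
  intro R H H' A hH hH' _ _ _ h
  have h1 := hot_eq hj0 hH.meas hH.per hH'.meas hH'.per (by
    filter_upwards [h] with z hz h0 hT using hz ⟨h0, hT⟩)
  filter_upwards [h1] with z hz hT using hz hT.1 hT.2

end Crest.Agent.R68.DCong
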