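import Crest.Agent.R68.Defs
import Crest.Agent.R68.FLattice

/-!
# Row 68, PART K1a (helper819): the weights `Θ`, `gau`, `ω` along flights and under collisions
-/

set_option autoImplicit false
open MeasureTheory Set
open scoped ENNReal
open Crest.AnalysisR.VecCalc3 Crest.AnalysisR.PDE.Boltzmann

noncomputable section

namespace Crest.Agent.R68.K

theorem norm_bar_le (v : R3) : ‖bar v‖ ≤ ‖v‖ := by
  have h0 : ‖v 0‖ ≤ ‖v‖ := PiLp.norm_apply_le v 0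
  have h1 : ‖v 1‖ ≤ ‖v‖ := PiLp.norm_apply_le v 1
  exact max_le h0 h1

/-- `|x|_Γ + s|v|` along a flight -/
theorem dist_flight {s t : ℝ} (hst : s ≤ t) (x : P2) (v : R3) :
    distG (x - (t - s) • bar v) + s * ‖v‖ ≤ distG x + t * ‖v‖ := by
  have h1 : distG (x - (t - s) • bar v) ≤ distG x + ‖-((t - s) • bar v)‖ := by
    rw [sub_eq_add_neg]
    exact distG_le_add _ _
  rw [norm_neg, norm_smul, Real.norm_of_nonneg (by linarith)] at h1
  have h2 : (t - s) * ‖bar v‖ ≤ (t - s) * ‖v‖ :=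
    mul_le_mul_of_nonneg_left (norm_bar_le v) (by linarith)
  linarith

/-- `dΘ/dt ≥ 1` along every flight -/
theorem Th_flight {Lam s t : ℝ} (hL : 0 < Lam) (hs : 0 ≤ s) (hst : s ≤ t) (x : P2) (v : R3) :
    Th Lam s (x - (t - s) • bar v) v + (t - s) ≤ Th Lam t x v := by
  unfold Th
  have h := dist_flight hst x v
  have h0 : 0 ≤ distG (x - (t - s) • bar v) + s * ‖v‖ :=
    add_nonneg (distG_nonneg _) (mul_nonneg hs (norm_nonneg _))
  have h1 : (distG (x - (t - s) • bar v) + s * ‖v‖) ^ 2 ≤ (distG x + t * ‖v‖) ^ 2 :=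
    pow_le_pow_left₀ h0 h 2
  have h2 := div_le_div_of_nonneg_right h1 hL.le
  linarith

theorem Th_nonneg {Lam t : ℝ} (hL : 0 ≤ Lam) (ht : 0 ≤ t) (x : P2) (v : R3) :
    0 ≤ Th Lam t x v := by
  unfold Th
  positivity

theorem le_Th {Lam t : ℝ} (hL : 0 ≤ Lam) (x : P2) (v : R3) : t ≤ Th Lam t x v := by
  unfold Th
  have : 0 ≤ (distG x + t * ‖v‖) ^ 2 / Lam := by positivity
  linarith

/-- one step of the collisional stability of `Θ` -/
theorem Th_coll_aux {Lam b s : ℝ} (hL : 0 < Lam) (hb : 1 ≤ b) (hs : 0 ≤ s) (x : P2)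
    (v vs z : R3) (hz : ‖z‖ ^ 2 ≤ ‖v‖ ^ 2 + ‖vs‖ ^ 2) :
    Th Lam s x z ≤ Th Lam s x v * (1 + 1 / b + (b + 1) / Lam * s * ‖vs‖ ^ 2) := by
  have hb0 : 0 < b := by linarith
  have hzle : ‖z‖ ≤ ‖v‖ + ‖vs‖ := by
    have h1 : ‖z‖ ^ 2 ≤ (‖v‖ + ‖vs‖) ^ 2 := by
      nlinarith [norm_nonneg v, norm_nonneg vs, mul_nonneg (norm_nonneg v) (norm_nonneg vs)]
    exact le_of_sq_le_sq h1 (by positivity)
  set A : ℝ := distG x + s * ‖v‖ with hA
  have hA0 : 0 ≤ A := add_nonneg (distG_nonneg _) (mul_nonneg hs (norm_nonneg _))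
  have h1 : distG x + s * ‖z‖ ≤ A + s * ‖vs‖ := by
    have := mul_le_mul_of_nonneg_left hzle hs
    rw [hA]; linarith
  have h2 : (distG x + s * ‖z‖) ^ 2 ≤ (A + s * ‖vs‖) ^ 2 :=
    pow_le_pow_left₀ (add_nonneg (distG_nonneg _) (mul_nonneg hs (norm_nonneg _))) h1 2
  have h3 : (A + s * ‖vs‖) ^ 2 ≤ (1 + 1 / b) * A ^ 2 + (1 + b) * (s * ‖vs‖) ^ 2 := by
    have hk : 0 ≤ (A - b * (s * ‖vs‖)) ^ 2 / b := by positivity
    have : (1 + 1 / b) * A ^ 2 + (1 + b) * (s * ‖vs‖) ^ 2 - (A + s * ‖vs‖) ^ 2 =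
        (A - b * (s * ‖vs‖)) ^ 2 / b := by
      field_simp; ring
    linarith
  have h4 : (distG x + s * ‖z‖) ^ 2 / Lam ≤
      ((1 + 1 / b) * A ^ 2 + (1 + b) * (s * ‖vs‖) ^ 2) / Lam :=
    div_le_div_of_nonneg_right (h2.trans h3) hL.le
  have hT : Th Lam s x v = s + A ^ 2 / Lam := rfl
  have hTz : Th Lam s x z = s + (distG x + s * ‖z‖) ^ 2 / Lam := rfl
  have hAL : 0 ≤ A ^ 2 / Lam := by positivity
  rw [hTz, hT]
  have h5 : ((1 + 1 / b) * A ^ 2 + (1 + b) * (s * ‖vs‖) ^ 2) / Lam =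
      (1 + 1 / b) * (A ^ 2 / Lam) + s * ((b + 1) / Lam * s * ‖vs‖ ^ 2) := by
    field_simp; ring
  rw [h5] at h4
  have h6 : 0 ≤ (b + 1) / Lam * s * ‖vs‖ ^ 2 := by positivity
  have h7 : 0 ≤ (A ^ 2 / Lam) * ((b + 1) / Lam * s * ‖vs‖ ^ 2) := mul_nonneg hAL h6
  have h8 : 0 ≤ s * (1 / b) := by positivity
  nlinarith

/-- collisional stability of the `Θ`-factor -/
theorem Th_coll {Lam b ρ s : ℝ} (hL : 0 < Lam) (hb : 1 ≤ b) (hρ : 0 < ρ) (hs : 0 ≤ s) (x : P2)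
    (v vs z : R3) (hz : ‖z‖ ^ 2 ≤ ‖v‖ ^ 2 + ‖vs‖ ^ 2) :
    (min 1 (Th Lam s x z / ρ)) ^ b ≤
      Real.exp (1 + b * (b + 1) / Lam * s * ‖vs‖ ^ 2) * (min 1 (Th Lam s x v / ρ)) ^ b := by
  have hb0 : 0 < b := by linarith
  set E : ℝ := 1 / b + (b + 1) / Lam * s * ‖vs‖ ^ 2 with hE
  have hE0 : 0 ≤ E := by positivity
  have hTv : 0 ≤ Th Lam s x v := Th_nonneg hL.le hs x v
  have hTz : 0 ≤ Th Lam s x z := Th_nonneg hL.le hs x z
  have h1 : Th Lam s x z ≤ Th Lam s x v * Real.exp E := by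
    have h := Th_coll_aux hL hb hs x v vs z hz
    have h2 : 1 + 1 / b + (b + 1) / Lam * s * ‖vs‖ ^ 2 ≤ Real.exp E := by
      have := Real.add_one_le_exp E
      rw [hE] at this ⊢
      linarith
    exact h.trans (mul_le_mul_of_nonneg_left h2 hTv)
  have h2 : min 1 (Th Lam s x z / ρ) ≤ Real.exp E * min 1 (Th Lam s x v / ρ) := by
    have he : 1 ≤ Real.exp E := Real.one_le_exp hE0
    rw [mul_min_of_nonneg _ _ (Real.exp_pos _).le]
    apply min_le_min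
    · linarith
    · rw [← mul_div_assoc]
      apply div_le_div_of_nonneg_right _ hρ.le
      linarith
  have h0 : 0 ≤ min 1 (Th Lam s x z / ρ) := le_min zero_le_one (by positivity)
  have h0' : 0 ≤ min 1 (Th Lam s x v / ρ) := le_min zero_le_one (by positivity)
  calc (min 1 (Th Lam s x z / ρ)) ^ b ≤ (Real.exp E * min 1 (Th Lam s x v / ρ)) ^ b :=
        Real.rpow_le_rpow h0 h2 hb0.le
    _ = Real.exp E ^ b * (min 1 (Th Lam s x v / ρ)) ^ b :=
        Real.mul_rpow (Real.exp_pos _).le h0'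
    _ = _ := by
        congr 1
        rw [← Real.exp_mul]
        congr 1
        rw [hE]
        field_simp

theorem gau_flight {g s t : ℝ} (v : R3) :
    gau g s v = gau g t v * Real.exp (-((√t - √s) / 100) * ‖v‖ ^ 2) := by
  unfold gau
  rw [← Real.exp_add]
  congr 1
  ring


theorem max_flight {s t : ℝ} (hs : 0 < s) (hst : s ≤ t) (x : P2) (v : R3) :
    max ‖v‖ (distG x / t) ≤ max ‖v‖ (distG (x - (t - s) • bar v) / s) := by
  have ht : 0 < t := lt_of_lt_of_le hs hst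
  set m := max ‖v‖ (distG (x - (t - s) • bar v) / s) with hm
  have h1 : ‖v‖ ≤ m := le_max_left _ _
  have h2 : distG (x - (t - s) • bar v) ≤ m * s := by
    have : distG (x - (t - s) • bar v) / s ≤ m := le_max_right _ _
    rwa [div_le_iff₀ hs] at this
  apply max_le h1
  rw [div_le_iff₀ ht]
  have h3 : distG x ≤ distG (x - (t - s) • bar v) + ‖(t - s) • bar v‖ := by
    have := distG_le_add (x - (t - s) • bar v) ((t - s) • bar v)
    rwa [sub_add_cancel] at this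
  rw [norm_smul, Real.norm_of_nonneg (by linarith)] at h3
  have h4 : (t - s) * ‖bar v‖ ≤ (t - s) * m :=
    mul_le_mul_of_nonneg_left ((norm_bar_le v).trans h1) (by linarith)
  nlinarith


/-- `Θ` on the fuel zone (enlarged: `|y| ≤ 2Y`, `|a| ≤ 2 dl`) -/
theorem Th_fuel (P : Par) {Lam t : ℝ} (hY : 1 ≤ P.Y) (hc : 0 ≤ P.c) (hc1 : P.c ≤ 1) (hj : 2 ≤ P.j0)
    (hL : 100 * P.Y ^ 2 ≤ Lam) (ht : 0 ≤ t) (ht1 : t ≤ 1) (x : P2) (k : ℤ × ℤ) (v : R3)
    (hx : |lab P t (x + latt k)| ≤ 2 * P.dl)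
    (hy : |(x + latt k).2| ≤ 2 * P.Y * (t + rr (lab P t (x + latt k)))) :
    Th Lam t x v ≤ (t + rr (lab P t (x + latt k))) * (2 + t * ‖v‖ ^ 2) := by
  set X := x + latt k with hX
  set a := lab P t X with ha
  have hj' : (2 : ℝ) ≤ P.j0 := by exact_mod_cast hj
  have hsq : (2 : ℝ) ≤ √(2 * P.j0) := by
    rw [Real.le_sqrt' (by norm_num)]; linarith
  have hdl : 0 < P.dl := by unfold Par.dl; positivity
  have hdl2 : P.dl ≤ 1 / 2 := by
    unfold Par.dl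
    rw [div_le_div_iff₀ (by positivity) (by norm_num)]
    linarith
  have hden : 0 < P.dl + P.c * t := by positivity
  have hr0 : 0 ≤ rr a := by unfold rr; positivity
  -- first coordinate
  have hX1 : X.1 = a * (P.dl + P.c * t) / P.dl := by
    rw [ha]; unfold lab; field_simp
  have hX1' : |X.1| ≤ |a| + 2 * (P.c * t) := by
    have h1 : X.1 = a + a / P.dl * (P.c * t) := by rw [hX1]; field_simp
    rw [h1]
    refine (abs_add_le _ _).trans ?_
    have h2 : |a / P.dl * (P.c * t)| ≤ 2 * (P.c * t) := by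
      rw [abs_mul, abs_div, abs_of_pos hdl, abs_of_nonneg (by positivity : 0 ≤ P.c * t)]
      apply mul_le_mul_of_nonneg_right _ (by positivity)
      rw [div_le_iff₀ hdl]
      exact hx
    linarith
  have hct : P.c * t ≤ t := by nlinarith
  have hX1sq : X.1 ^ 2 ≤ 2 * rr a + 8 * t := by
    have h1 : X.1 ^ 2 ≤ (|a| + 2 * (P.c * t)) ^ 2 := by
      rw [← sq_abs]
      exact pow_le_pow_left₀ (abs_nonneg _) hX1' 2
    have h2 : (P.c * t) ^ 2 ≤ t := by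
      have : (P.c * t) ^ 2 ≤ t ^ 2 := pow_le_pow_left₀ (by positivity) hct 2
      nlinarith
    have h3 : |a| ^ 2 = rr a := by rw [sq_abs]; rfl
    nlinarith [sq_nonneg (|a| - 2 * (P.c * t))]
  have hr2 : rr a ≤ 1 := by
    have h1 : |a| ≤ 1 := by linarith
    have h3 : |a| ^ 2 = rr a := by rw [sq_abs]; rfl
    rw [← h3]
    exact pow_le_one₀ (abs_nonneg _) h1
  have htr : t + rr a ≤ 2 := by linarith
  have hX2sq : X.2 ^ 2 ≤ 8 * P.Y ^ 2 * (t + rr a) := by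
    have h1 : X.2 ^ 2 ≤ (2 * P.Y * (t + rr a)) ^ 2 := by
      rw [← sq_abs]
      exact pow_le_pow_left₀ (abs_nonneg _) hy 2
    have h2 : (t + rr a) ^ 2 ≤ 2 * (t + rr a) := by nlinarith
    nlinarith [sq_nonneg P.Y]
  have hd : distG x ≤ ‖X‖ := distG_le x k
  have hnX : ‖X‖ ^ 2 ≤ 8 * P.Y ^ 2 * (t + rr a) := by
    have hY2 : 1 ≤ P.Y ^ 2 := by nlinarith
    rcases max_choice ‖X.1‖ ‖X.2‖ with h | h
    · have : ‖X‖ = ‖X.1‖ := h
      rw [this, Real.norm_eq_abs, sq_abs]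
      nlinarith
    · have : ‖X‖ = ‖X.2‖ := h
      rw [this, Real.norm_eq_abs, sq_abs]
      exact hX2sq
  have hd2 : distG x ^ 2 ≤ 8 * P.Y ^ 2 * (t + rr a) :=
    (pow_le_pow_left₀ (distG_nonneg x) hd 2).trans hnX
  have hYpos : 0 < P.Y ^ 2 := by positivity
  have hLpos : 0 < Lam := by nlinarith
  have hmain : (distG x + t * ‖v‖) ^ 2 ≤ 16 * P.Y ^ 2 * (t + rr a) + 2 * (t * ‖v‖) ^ 2 := by
    nlinarith [sq_nonneg (distG x - t * ‖v‖)]
  have htr0 : 0 ≤ t + rr a := by positivity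
  have hdiv : (distG x + t * ‖v‖) ^ 2 / Lam ≤ (t + rr a) + t ^ 2 * ‖v‖ ^ 2 := by
    rw [div_le_iff₀ hLpos]
    refine hmain.trans ?_
    have h1 : 16 * P.Y ^ 2 * (t + rr a) ≤ (t + rr a) * Lam := by
      have h11 : 16 * P.Y ^ 2 ≤ Lam := by linarith
      have := mul_le_mul_of_nonneg_right h11 htr0
      linarith
    have h2 : 2 * (t * ‖v‖) ^ 2 ≤ t ^ 2 * ‖v‖ ^ 2 * Lam := by
      have hL2 : (2 : ℝ) ≤ Lam := by
        have : (1 : ℝ) ≤ P.Y ^ 2 := by nlinarith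
        linarith
      have h21 : 0 ≤ t ^ 2 * ‖v‖ ^ 2 := by positivity
      have := mul_le_mul_of_nonneg_left hL2 h21
      calc 2 * (t * ‖v‖) ^ 2 = t ^ 2 * ‖v‖ ^ 2 * 2 := by ring
        _ ≤ _ := this
    linarith
  have h5 : 0 ≤ rr a * (t * ‖v‖ ^ 2) := by positivity
  calc Th Lam t x v = t + (distG x + t * ‖v‖) ^ 2 / Lam := rfl
    _ ≤ t + ((t + rr a) + t ^ 2 * ‖v‖ ^ 2) := by linarith
    _ = (t + rr a) * (2 + t * ‖v‖ ^ 2) - rr a - rr a * (t * ‖v‖ ^ 2) := by ring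
    _ ≤ (t + rr a) * (2 + t * ‖v‖ ^ 2) := by linarith

end Crest.Agent.R68.K
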