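import Crest.Agent.R68.K1a

/-!
# Row 68, PART K1b (helper819): `Dw`, `Dm`, `B1`, `B2` along flights; the absorption integral
-/

set_option autoImplicit false
open MeasureTheory Set
open scoped ENNReal
open Crest.AnalysisR.VecCalc3 Crest.AnalysisR.PDE.Boltzmann

noncomputable section

namespace Crest.Agent.R68.K

theorem Dset_nonneg (P : Par) (t : ℝ) (ht : 0 ≤ t) (x : P2) (v : R3) {d : ℝ}
    (hd : d ∈ Dset P t x v) : 0 ≤ d := by
  obtain ⟨k, j, a, y, s, -, -, -, -, rfl⟩ := hd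
  unfold rr
  positivity

theorem Dset_bdd (P : Par) (t : ℝ) (ht : 0 ≤ t) (x : P2) (v : R3) : BddBelow (Dset P t x v) :=
  ⟨0, fun _ hd => Dset_nonneg P t ht x v hd⟩

theorem Dw_nonneg (P : Par) (t : ℝ) (ht : 0 ≤ t) (x : P2) (v : R3) : 0 ≤ Dw P t x v :=
  le_min zero_le_one (Real.sInf_nonneg fun _ hd => Dset_nonneg P t ht x v hd)

theorem Dw_le_one (P : Par) (t : ℝ) (x : P2) (v : R3) : Dw P t x v ≤ 1 := min_le_left _ _

/-- the point `x - t v` is constant along flights -/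
theorem flight_sub (s t : ℝ) (x y : P2) (v : R3) :
    x - (t - s) • bar v + y - s • bar v = x + y - t • bar v := by
  rw [sub_smul]; abel

/-- `Dw` is non-increasing along flights -/
theorem Dw_flight (P : Par) {s t : ℝ} (hs : 0 ≤ s) (hst : s ≤ t) (x : P2) (v : R3) :
    Dw P t x v ≤ Dw P s (x - (t - s) • bar v) v := by
  unfold Dw
  apply min_le_min le_rfl
  have ht : 0 ≤ t := hs.trans hst
  by_cases hne : (Dset P s (x - (t - s) • bar v) v).Nonempty
  · apply le_csInf hne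
    rintro d ⟨k, j, a, y, σ, h1, h2, h3, h4, rfl⟩
    refine (csInf_le (Dset_bdd P t ht x v) ⟨k, j, a, y, σ, h1, h2, h3, h4, rfl⟩).trans ?_
    rw [flight_sub]
    have ha : 0 < rr a := by
      unfold rr
      have := h2.1
      positivity
    gcongr
  · rw [Set.not_nonempty_iff_eq_empty] at hne
    have hne2 : Dset P t x v = ∅ := by
      rw [Set.eq_empty_iff_forall_notMem] at hne ⊢
      rintro d ⟨k, j, a, y, σ, h1, h2, h3, h4, rfl⟩
      exact hne _ ⟨k, j, a, y, σ, h1, h2, h3, h4, rfl⟩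
    rw [hne, hne2]

theorem rpow_anti {a b : ℝ≥0∞} (h : a ≤ b) : b ^ (-(3 / 2) : ℝ) ≤ a ^ (-(3 / 2) : ℝ) := by
  rw [ENNReal.rpow_neg, ENNReal.rpow_neg]
  exact ENNReal.inv_le_inv.2 (ENNReal.rpow_le_rpow h (by norm_num))

theorem Dm_flight (P : Par) {s t : ℝ} (hs : 0 ≤ s) (hst : s ≤ t) (x : P2) (v : R3) :
    Dm P s (x - (t - s) • bar v) v ≤ Dm P t x v := by
  unfold Dm
  exact rpow_anti (ENNReal.ofReal_le_ofReal (Dw_flight P hs hst x v))

theorem one_le_Dm (P : Par) (t : ℝ) (x : P2) (v : R3) : 1 ≤ Dm P t x v := by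
  unfold Dm
  have h : ENNReal.ofReal (Dw P t x v) ≤ 1 := by
    rw [← ENNReal.ofReal_one]
    exact ENNReal.ofReal_le_ofReal (Dw_le_one P t x v)
  have := rpow_anti h
  rwa [ENNReal.one_rpow] at this

/-- the scalar factor of `B1` -/
def b1 (Lam rh g b : ℝ) (t : ℝ) (x : P2) (v : R3) : ℝ :=
  (min 1 (Th Lam t x v / rh ^ 2)) ^ b * gau g t v

theorem B1_eq (P : Par) (Lam rh g b t : ℝ) (x : P2) (v : R3) :
    B1 P Lam rh g b t x v = ENNReal.ofReal (b1 Lam rh g b t x v) * Dm P t x v := rfl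

theorem gau_pos (g t : ℝ) (v : R3) : 0 < gau g t v := Real.exp_pos _

theorem minTh_nonneg {Lam rh t : ℝ} (hL : 0 ≤ Lam) (ht : 0 ≤ t) (x : P2) (v : R3) :
    0 ≤ min 1 (Th Lam t x v / rh ^ 2) :=
  le_min zero_le_one (div_nonneg (Th_nonneg hL ht x v) (sq_nonneg _))

theorem minTh_flight {Lam rh b s t : ℝ} (hL : 0 < Lam) (hb : 0 ≤ b)
    (hs : 0 ≤ s) (hst : s ≤ t) (x : P2) (v : R3) :
    (min 1 (Th Lam s (x - (t - s) • bar v) v / rh ^ 2)) ^ b ≤
      (min 1 (Th Lam t x v / rh ^ 2)) ^ b := by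
  apply Real.rpow_le_rpow (minTh_nonneg hL.le hs _ _) _ hb
  apply min_le_min le_rfl
  apply div_le_div_of_nonneg_right _ (sq_nonneg _)
  have := Th_flight hL hs hst x v
  linarith

theorem b1_flight {Lam rh g b s t : ℝ} (hL : 0 < Lam) (hb : 0 ≤ b)
    (hs : 0 ≤ s) (hst : s ≤ t) (x : P2) (v : R3) :
    b1 Lam rh g b s (x - (t - s) • bar v) v ≤
      b1 Lam rh g b t x v * Real.exp (-((√t - √s) / 100) * ‖v‖ ^ 2) := by
  unfold b1
  rw [gau_flight (s := s) (t := t) v]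
  have h1 := minTh_flight (rh := rh) hL hb hs hst x v
  have h2 : 0 ≤ gau g t v * Real.exp (-((√t - √s) / 100) * ‖v‖ ^ 2) := by
    have := gau_pos g t v
    positivity
  calc _ ≤ (min 1 (Th Lam t x v / rh ^ 2)) ^ b *
        (gau g t v * Real.exp (-((√t - √s) / 100) * ‖v‖ ^ 2)) :=
        mul_le_mul_of_nonneg_right h1 h2
    _ = _ := by ring


theorem exp_absorb_le_one {s t : ℝ} (hst : s ≤ t) (v : R3) :
    Real.exp (-((√t - √s) / 100) * ‖v‖ ^ 2) ≤ 1 := by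
  apply Real.exp_le_one_iff.2
  have h := Real.sqrt_le_sqrt hst
  nlinarith [sq_nonneg ‖v‖]


/-- sharper: with the Gaussian gain -/
theorem B1_flight' (P : Par) {Lam rh g b s t : ℝ} (hL : 0 < Lam) (hb : 0 ≤ b)
    (hs : 0 ≤ s) (hst : s ≤ t) (x : P2) (v : R3) :
    B1 P Lam rh g b s (x - (t - s) • bar v) v ≤
      ENNReal.ofReal (Real.exp (-((√t - √s) / 100) * ‖v‖ ^ 2)) * B1 P Lam rh g b t x v := by
  rw [B1_eq, B1_eq, ← mul_assoc, ← ENNReal.ofReal_mul (Real.exp_pos _).le]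
  apply mul_le_mul' _ (Dm_flight P hs hst x v)
  apply ENNReal.ofReal_le_ofReal
  refine (b1_flight hL hb hs hst x v).trans ?_
  rw [mul_comm]

/-- `B2` along flights, with the Gaussian gain -/
theorem B2_flight' (P : Par) {g1 g2 b s t : ℝ} (hg : 0 ≤ g2)
    (hs : 0 < s) (hst : s ≤ t) (x : P2) (v : R3) :
    B2 P g1 g2 b s (x - (t - s) • bar v) v ≤
      ENNReal.ofReal ((s / t) ^ b * Real.exp (-((√t - √s) / 100) * ‖v‖ ^ 2)) *
        B2 P g1 g2 b t x v := by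
  have ht : 0 < t := lt_of_lt_of_le hs hst
  unfold B2
  rw [← mul_assoc, ← ENNReal.ofReal_mul (by positivity)]
  apply mul_le_mul' _ (Dm_flight P hs.le hst x v)
  apply ENNReal.ofReal_le_ofReal
  have h1 : Real.exp (-g2 * (max ‖v‖ (distG (x - (t - s) • bar v) / s)) ^ 2) ≤
      Real.exp (-g2 * (max ‖v‖ (distG x / t)) ^ 2) := by
    apply Real.exp_le_exp.2
    have h := max_flight hs hst x v
    have h0 : 0 ≤ max ‖v‖ (distG x / t) := le_max_of_le_left (norm_nonneg _)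
    have h2 := pow_le_pow_left₀ h0 h 2
    nlinarith
  have h2 : s ^ b = (s / t) ^ b * t ^ b := by
    rw [← Real.mul_rpow (by positivity) ht.le, div_mul_cancel₀ _ ht.ne']
  rw [gau_flight (s := s) (t := t) v, h2]
  have h3 : 0 ≤ (s / t) ^ b * t ^ b * (gau g1 t v * Real.exp (-((√t - √s) / 100) * ‖v‖ ^ 2)) := by
    have := gau_pos g1 t v
    positivity
  calc _ ≤ (s / t) ^ b * t ^ b * (gau g1 t v * Real.exp (-((√t - √s) / 100) * ‖v‖ ^ 2)) *
        Real.exp (-g2 * (max ‖v‖ (distG x / t)) ^ 2) := mul_le_mul_of_nonneg_left h1 h3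
    _ = _ := by ring

theorem B2_flight (P : Par) {g1 g2 b s t : ℝ} (hg : 0 ≤ g2)
    (hs : 0 < s) (hst : s ≤ t) (x : P2) (v : R3) :
    B2 P g1 g2 b s (x - (t - s) • bar v) v ≤ ENNReal.ofReal ((s / t) ^ b) * B2 P g1 g2 b t x v := by
  refine (B2_flight' P hg hs hst x v).trans ?_
  apply mul_le_mul' _ le_rfl
  apply ENNReal.ofReal_le_ofReal
  have ht : 0 < t := lt_of_lt_of_le hs hst
  exact mul_le_of_le_one_right (by positivity) (exp_absorb_le_one hst v)

/-- elementary: `√t - √s ≥ (t-s)/(2√t)` -/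
theorem sqrt_sub_ge {s t : ℝ} (hs : 0 ≤ s) (ht : 0 < t) (hst : s ≤ t) :
    (t - s) / (2 * √t) ≤ √t - √s := by
  have h1 : 0 < √t := Real.sqrt_pos.2 ht
  have h2 : √s ≤ √t := Real.sqrt_le_sqrt hst
  have h3 : 0 ≤ √s := Real.sqrt_nonneg _
  rw [div_le_iff₀ (by positivity)]
  have h4 : √t ^ 2 = t := Real.sq_sqrt ht.le
  have h5 : √s ^ 2 = s := Real.sq_sqrt hs
  nlinarith

/-- `∫_0^t c e^{-c (t-s)} ds ≤ 1` -/
theorem lintegral_exp_le {c t : ℝ} (hc : 0 < c) (ht : 0 < t) :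
    ∫⁻ s in Ioo 0 t, ENNReal.ofReal (c * Real.exp (-(c * (t - s)))) ≤ 1 := by
  have hint : IntervalIntegrable (fun s => c * Real.exp (-(c * (t - s)))) volume 0 t := by
    apply Continuous.intervalIntegrable
    fun_prop
  have h1 : ∫⁻ s in Ioo 0 t, ENNReal.ofReal (c * Real.exp (-(c * (t - s)))) =
      ENNReal.ofReal (∫ s in (0 : ℝ)..t, c * Real.exp (-(c * (t - s)))) := by
    rw [intervalIntegrable_iff_integrableOn_Ioc_of_le ht.le] at hint
    rw [intervalIntegral.integral_of_le ht.le, restrict_Ioo_eq_restrict_Ioc]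
    rw [ofReal_integral_eq_lintegral_ofReal hint]
    filter_upwards with s
    positivity
  rw [h1]
  have h2 : ∫ s in (0 : ℝ)..t, c * Real.exp (-(c * (t - s))) = 1 - Real.exp (-(c * t)) := by
    have hd : ∀ s ∈ uIcc 0 t, HasDerivAt (fun s => Real.exp (-(c * (t - s))))
        (c * Real.exp (-(c * (t - s)))) s := by
      intro s _
      have h : HasDerivAt (fun s : ℝ => -(c * (t - s))) c s := by
        have := (((hasDerivAt_id s).const_sub t).const_mul c).fun_neg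
        simpa using this
      have := h.exp
      rwa [mul_comm] at this
    rw [intervalIntegral.integral_eq_sub_of_hasDerivAt hd hint]
    simp
  rw [h2, ← ENNReal.ofReal_one]
  apply ENNReal.ofReal_le_ofReal
  have := Real.exp_pos (-(c * t))
  linarith

/-- `∫_0^t |v|² e^{-(√t-√s)|v|²/100} ds ≤ 200 √t` -/
theorem lintegral_absorb_sq {t : ℝ} (ht : 0 < t) (v : R3) :
    ∫⁻ s in Ioo 0 t, ENNReal.ofReal (‖v‖ ^ 2 * Real.exp (-((√t - √s) / 100) * ‖v‖ ^ 2)) ≤
      ENNReal.ofReal (200 * √t) := by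
  have h1 : 0 < √t := Real.sqrt_pos.2 ht
  rcases eq_or_lt_of_le (norm_nonneg v) with hv | hv
  · rw [← hv]; simp
  set c : ℝ := ‖v‖ ^ 2 / (200 * √t) with hc
  have hc0 : 0 < c := by positivity
  have hle : ∀ s ∈ Ioo 0 t, ENNReal.ofReal (‖v‖ ^ 2 * Real.exp (-((√t - √s) / 100) * ‖v‖ ^ 2)) ≤
      ENNReal.ofReal (200 * √t) * ENNReal.ofReal (c * Real.exp (-(c * (t - s)))) := by
    intro s hs
    rw [← ENNReal.ofReal_mul (by positivity)]
    apply ENNReal.ofReal_le_ofReal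
    have h3 : 200 * √t * (c * Real.exp (-(c * (t - s)))) =
        ‖v‖ ^ 2 * Real.exp (-(c * (t - s))) := by
      rw [hc]; field_simp
    rw [h3]
    apply mul_le_mul_of_nonneg_left _ (by positivity)
    apply Real.exp_le_exp.2
    have h4 := sqrt_sub_ge hs.1.le ht hs.2.le
    have h5 : c * (t - s) = (t - s) / (2 * √t) / 100 * ‖v‖ ^ 2 := by
      rw [hc]; field_simp; ring
    rw [h5]
    have h6 : (t - s) / (2 * √t) / 100 * ‖v‖ ^ 2 ≤ (√t - √s) / 100 * ‖v‖ ^ 2 := by gcongr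
    linarith
  calc _ ≤ ∫⁻ s in Ioo 0 t, ENNReal.ofReal (200 * √t) *
        ENNReal.ofReal (c * Real.exp (-(c * (t - s)))) := setLIntegral_mono' measurableSet_Ioo hle
    _ = ENNReal.ofReal (200 * √t) * ∫⁻ s in Ioo 0 t, ENNReal.ofReal (c * Real.exp (-(c * (t - s)))) := by
        rw [lintegral_const_mul']
        exact ENNReal.ofReal_ne_top
    _ ≤ ENNReal.ofReal (200 * √t) * 1 := by gcongr; exact lintegral_exp_le hc0 ht
    _ = _ := mul_one _

/-- absorbing `1+|v|` in the decreasing Gaussian exponent -/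
theorem lintegral_absorb {t : ℝ} (ht : 0 < t) (ht1 : t ≤ 1) (v : R3) :
    ∫⁻ s in Ioo 0 t, ENNReal.ofReal ((1 + ‖v‖) * Real.exp (-((√t - √s) / 100) * ‖v‖ ^ 2)) ≤
      ENNReal.ofReal (16 * t ^ (3 / 4 : ℝ)) := by
  -- `1 + |v| ≤ (1 + m) + |v|²/(4m)...` with `m = 7 t^{-1/4}`
  set q : ℝ := t ^ (1 / 4 : ℝ) with hq
  have hq0 : 0 < q := Real.rpow_pos_of_pos ht _
  have hq4 : q ^ 4 = t := by
    rw [hq, ← Real.rpow_natCast, ← Real.rpow_mul ht.le]; norm_num
  have hq2 : q ^ 2 = √t := by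
    rw [Real.sqrt_eq_rpow, hq, ← Real.rpow_natCast, ← Real.rpow_mul ht.le]; norm_num
  have hq3 : t ^ (3 / 4 : ℝ) = q ^ 3 := by
    rw [hq, ← Real.rpow_natCast, ← Real.rpow_mul ht.le]; norm_num
  have hq1 : q ≤ 1 := Real.rpow_le_one ht.le ht1 (by norm_num)
  have hpt : ∀ s ∈ Ioo 0 t, ENNReal.ofReal ((1 + ‖v‖) * Real.exp (-((√t - √s) / 100) * ‖v‖ ^ 2)) ≤
      ENNReal.ofReal (1 + 7 / q) +
        ENNReal.ofReal (q / 28) * ENNReal.ofReal (‖v‖ ^ 2 * Real.exp (-((√t - √s) / 100) * ‖v‖ ^ 2)) := by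
    intro s hs
    rw [← ENNReal.ofReal_mul (by positivity), ← ENNReal.ofReal_add (by positivity) (by positivity)]
    apply ENNReal.ofReal_le_ofReal
    set e := Real.exp (-((√t - √s) / 100) * ‖v‖ ^ 2) with he
    have he0 : 0 < e := Real.exp_pos _
    have he1 : e ≤ 1 := exp_absorb_le_one hs.2.le v
    have h1 : ‖v‖ ≤ 7 / q + q / 28 * ‖v‖ ^ 2 := by
      have h2 : 0 ≤ (q * ‖v‖ - 14) ^ 2 / (28 * q) := by positivity
      have h3 : 7 / q + q / 28 * ‖v‖ ^ 2 - ‖v‖ = (q * ‖v‖ - 14) ^ 2 / (28 * q) := by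
        field_simp; ring
      linarith
    have h7 : 0 ≤ 1 + 7 / q := by positivity
    calc (1 + ‖v‖) * e ≤ (1 + (7 / q + q / 28 * ‖v‖ ^ 2)) * e := by gcongr
      _ = (1 + 7 / q) * e + q / 28 * (‖v‖ ^ 2 * e) := by ring
      _ ≤ (1 + 7 / q) * 1 + q / 28 * (‖v‖ ^ 2 * e) := by gcongr
      _ = _ := by ring
  calc _ ≤ ∫⁻ s in Ioo 0 t, (ENNReal.ofReal (1 + 7 / q) +
        ENNReal.ofReal (q / 28) * ENNReal.ofReal (‖v‖ ^ 2 * Real.exp (-((√t - √s) / 100) * ‖v‖ ^ 2))) :=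
        setLIntegral_mono' measurableSet_Ioo hpt
    _ = ENNReal.ofReal (1 + 7 / q) * ENNReal.ofReal t + ENNReal.ofReal (q / 28) *
        ∫⁻ s in Ioo 0 t, ENNReal.ofReal (‖v‖ ^ 2 * Real.exp (-((√t - √s) / 100) * ‖v‖ ^ 2)) := by
        rw [lintegral_add_left measurable_const, lintegral_const_mul' _ _ ENNReal.ofReal_ne_top]
        congr 1
        simp
    _ ≤ ENNReal.ofReal (1 + 7 / q) * ENNReal.ofReal t +
        ENNReal.ofReal (q / 28) * ENNReal.ofReal (200 * √t) := by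
        gcongr
        exact lintegral_absorb_sq ht v
    _ = ENNReal.ofReal ((1 + 7 / q) * t + q / 28 * (200 * √t)) := by
        rw [← ENNReal.ofReal_mul (by positivity), ← ENNReal.ofReal_mul (by positivity),
          ← ENNReal.ofReal_add (by positivity) (by positivity)]
    _ ≤ _ := by
        apply ENNReal.ofReal_le_ofReal
        rw [hq3, ← hq2]
        have h8 : (1 + 7 / q) * t = q ^ 4 + 7 * q ^ 3 := by
          rw [← hq4]; field_simp
        rw [h8]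
        have h9 : q ^ 4 ≤ q ^ 3 := pow_le_pow_of_le_one hq0.le hq1 (by norm_num)
        have h10 : q / 28 * (200 * q ^ 2) ≤ 8 * q ^ 3 := by
          have : 0 < q ^ 3 := by positivity
          nlinarith
        linarith

end Crest.Agent.R68.K
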