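import Crest.Agent.R68.K2d
import Crest.Agent.R68.K1b
import Crest.Agent.R68.DPoles3

/-!
# Row 68, K4a (helper616): the weights of `Defs` are dominated by the pole sums of K2
-/

set_option autoImplicit false
open MeasureTheory Set Metric
open scoped ENNReal Real
open Crest.AnalysisR.VecCalc3 Crest.AnalysisR.PDE.Boltzmann

noncomputable section

namespace Crest.Agent.R68.K4

open Crest.Agent.R68.K2 Crest.Agent.R68.DPole

/-- number of poles (up to the sign) for `t ≤ 1` -/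
def Np (Y : ℝ) : ℕ := ⌈(3 * (Y + 2) + 1) ^ 2 * 4⌉₊

theorem card_KKf_le_Np {P : Par} (hP : ParD P) {t : ℝ} (ht : 0 ≤ t) (ht1 : t ≤ 1) (x : P2) :
    (KKf P t x).card ≤ Np P.Y := by
  have h1 := card_poles hP ht x
  have h2 : (3 * (P.Y + 2) + 1) ^ 2 * (1 + t) ^ 2 ≤ (3 * (P.Y + 2) + 1) ^ 2 * 4 := by
    have : (1 + t) ^ 2 ≤ 4 := by nlinarith
    exact mul_le_mul_of_nonneg_left this (by positivity)
  have h3 : (3 * (P.Y + 2) + 1) ^ 2 * 4 ≤ (Np P.Y : ℝ) := Nat.le_ceil _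
  exact_mod_cast (h1.trans h2).trans h3

/-- **poles**: `Dm ≤ C(Y) Sw u` with a fixed number of poles -/
theorem exists_Sw {P : Par} (hP : ParD P) {t : ℝ} (ht : 0 ≤ t) (ht1 : t ≤ 1) (x : P2) :
    ∃ u : Fin (Np P.Y) × Bool → R3, ∀ v,
      Dm P t x v ≤ ENNReal.ofReal ((8 + 6 * P.Y) ^ 2) * Sw u v := by
  classical
  obtain ⟨e⟩ : Nonempty ((KKf P t x) ↪ Fin (Np P.Y)) := by
    apply Function.Embedding.nonempty_of_card_le
    simpa using card_KKf_le_Np hP ht ht1 x
  let U : Fin (Np P.Y) → Bool → R3 := fun i b =>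
    if h : ∃ k : KKf P t x, e k = i then
      uvec P (if b then 1 else -1) t (x + latt (h.choose : ℤ × ℤ)) else 0
  have hU : ∀ (k : KKf P t x) (b : Bool), U (e k) b =
      uvec P (if b then 1 else -1) t (x + latt (k : ℤ × ℤ)) := by
    intro k b
    have h : ∃ k' : KKf P t x, e k' = e k := ⟨k, rfl⟩
    have hk : h.choose = k := e.injective h.choose_spec
    simp only [U, dif_pos h, hk]
  refine ⟨fun q => U q.1 q.2, fun v => (Dm_le_Spole hP ht x v).trans ?_⟩
  gcongr ENNReal.ofReal ((8 + 6 * P.Y) ^ 2) * ?_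
  unfold Spole Sw
  gcongr 1 + ?_
  calc ∑ k ∈ KKf P t x, (ENNReal.ofReal ‖v - uvec P 1 t (x + latt k)‖ ^ (-(3 / 2) : ℝ) +
        ENNReal.ofReal ‖v - uvec P (-1) t (x + latt k)‖ ^ (-(3 / 2) : ℝ))
      = ∑ k : KKf P t x, (pk ‖v - U (e k) true‖ + pk ‖v - U (e k) false‖) := by
        rw [← Finset.sum_coe_sort]
        refine Finset.sum_congr rfl fun k _ => ?_
        rw [hU k true, hU k false]
        simp [pk]
    _ = ∑ i ∈ Finset.univ.map e, (pk ‖v - U i true‖ + pk ‖v - U i false‖) := by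
        rw [Finset.sum_map]
    _ ≤ ∑ i, (pk ‖v - U i true‖ + pk ‖v - U i false‖) :=
        Finset.sum_le_sum_of_subset (Finset.subset_univ _)
    _ = _ := by
        rw [Fintype.sum_prod_type]
        refine Finset.sum_congr rfl fun i _ => ?_
        rw [Fintype.sum_bool]

theorem card_ix (Y : ℝ) : Fintype.card (Fin (Np Y) × Bool) = Np Y * 2 := by
  simp

/-! ### measurability -/

theorem measurable_Dm_v {P : Par} (hP : ParD P) {t : ℝ} (ht : 0 ≤ t) (x : P2) :
    Measurable (fun v => Dm P t x v) := by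
  have h := (measurable_Dm_t hP.Y ht).comp
    (measurable_prodMk_left : Measurable (fun v : R3 => ((x, v) : P2 × R3)))
  simpa only [Function.comp_def] using h


theorem measurable_B1_v {P : Par} (hP : ParD P) (Lam rh g b : ℝ) {t : ℝ} (ht : 0 ≤ t) (x : P2) :
    Measurable (fun v => B1 P Lam rh g b t x v) := by
  unfold B1 Th gau
  exact Measurable.mul (by fun_prop) (measurable_Dm_v hP ht x)

theorem measurable_B2_v {P : Par} (hP : ParD P) (g1 g2 b : ℝ) {t : ℝ} (ht : 0 ≤ t) (x : P2) :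
    Measurable (fun v => B2 P g1 g2 b t x v) := by
  unfold B2 gau
  exact Measurable.mul (by fun_prop) (measurable_Dm_v hP ht x)

/-- the Gaussian weight times `D^{-3/2}` -/
def Zw (P : Par) (g t : ℝ) (x : P2) (v : R3) : ℝ≥0∞ := ENNReal.ofReal (gau g t v) * Dm P t x v

theorem measurable_Zw_v {P : Par} (hP : ParD P) (g : ℝ) {t : ℝ} (ht : 0 ≤ t) (x : P2) :
    Measurable (fun v => Zw P g t x v) := by
  unfold Zw gau
  exact Measurable.mul (by fun_prop) (measurable_Dm_v hP ht x)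

/-! ### the outer weights -/

/-- outer weight of `B1` -/
def omB (Lam rh g b t : ℝ) (x : P2) (v : R3) : ℝ≥0∞ :=
  ENNReal.ofReal ((min 1 (Th Lam t x v / rh ^ 2)) ^ b * gau g t v)

theorem B1_eq_omB (P : Par) (Lam rh g b t : ℝ) (x : P2) (v : R3) :
    B1 P Lam rh g b t x v = omB Lam rh g b t x v * Dm P t x v := rfl

theorem gau_eq_ga (g t : ℝ) (v : R3) : ENNReal.ofReal (gau g t v) = ga (g - √t / 100) v := rfl

theorem B2_eq_omE (P : Par) (g1 g2 b t : ℝ) (x : P2) (v : R3) :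
    B2 P g1 g2 b t x v =
      ENNReal.ofReal (t ^ b) * omE (g1 - √t / 100) g2 (distG x / t) v * Dm P t x v := by
  unfold B2 omE gau
  by_cases h : 0 ≤ t ^ b
  · rw [← ENNReal.ofReal_mul h, mul_assoc, ← Real.exp_add]
    congr 4
    ring
  · push Not at h
    rw [ENNReal.ofReal_of_nonpos (p := t ^ b) h.le, zero_mul, zero_mul, ENNReal.ofReal_of_nonpos, zero_mul]
    rw [mul_assoc]
    exact mul_nonpos_of_nonpos_of_nonneg h.le (by positivity)

theorem ga_anti {a b : ℝ} (h : a ≤ b) (v : R3) : ga b v ≤ ga a v := by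
  unfold ga
  apply ENNReal.ofReal_le_ofReal
  apply Real.exp_le_exp.2
  nlinarith [sq_nonneg ‖v‖]

/-- the effective exponent -/
theorem half_le {g t : ℝ} (hg : 1 / 50 ≤ g) (ht1 : t ≤ 1) : g / 2 ≤ g - √t / 100 := by
  have : √t ≤ 1 := Real.sqrt_le_one.2 ht1
  linarith

theorem omB_le_ga {Lam rh g b t : ℝ} (hL : 0 ≤ Lam) (ht : 0 ≤ t) (hb : 0 ≤ b) (x : P2) (v : R3) :
    omB Lam rh g b t x v ≤ ga (g - √t / 100) v := by
  rw [← gau_eq_ga]
  unfold omB
  apply ENNReal.ofReal_le_ofReal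
  have h1 : (min 1 (Th Lam t x v / rh ^ 2)) ^ b ≤ 1 :=
    Real.rpow_le_one (K.minTh_nonneg hL ht x v) (min_le_left _ _) hb
  have h2 := (K.gau_pos g t v).le
  nlinarith

theorem B1_le_Zw (P : Par) {Lam rh g b t : ℝ} (hL : 0 ≤ Lam) (ht : 0 ≤ t) (hb : 0 ≤ b) (x : P2)
    (v : R3) : B1 P Lam rh g b t x v ≤ Zw P g t x v := by
  rw [B1_eq_omB]
  unfold Zw
  rw [gau_eq_ga]
  exact mul_le_mul_left (omB_le_ga hL ht hb x v) _

end Crest.Agent.R68.K4
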