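import Crest.Agent.R68.CNewt2
import Crest.Agent.R68.ColdDefs
import Crest.Agent.R68.K1a
import Crest.Agent.R68.NHyp
import Crest.Agent.R68.K4a
import Crest.Agent.R68.Carl4
import Crest.Agent.R68.CGauss

-- ▼ part R68/KC
section

/-!
# R68 / KC (helper819): size of the cold majorant `coldS` on `[0,T]`, `T ≤ 1`

Support, Newton potential, mass, mass times `(t+|x|)²`; and `B1 ≤ C (t+|x|)^β Z_{g0}`,
absorption of powers of `|x|/t` by the Gaussian in `B2`.
-/

set_option autoImplicit false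
open MeasureTheory Set Filter
open scoped ENNReal Topology
open Crest.AnalysisR.VecCalc3 Crest.AnalysisR.PDE.Boltzmann

noncomputable section

namespace Crest.Agent.R68.KC

open Crest.Agent.R68.C (newt rho)
open Crest.Agent.R68.N (tx Zg EE)

variable {P : Par}

/-- size of the warm majorant on `[0,T]` (906's `warm_size`) -/
structure WSz (P : Par) (T : ℝ) : Prop where
  supp : ∀ t, 0 ≤ t → t ≤ T → ∀ x v, warm P t x v ≠ 0 → ‖v‖ < P.Y + 3
  mass : ∀ t, 0 ≤ t → t ≤ T → ∀ x, (∫⁻ v, warm P t x v) ≤ 1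
  newt : ∀ t, 0 ≤ t → t ≤ T → ∀ x v,
    (∫⁻ v', warm P t x v' / ENNReal.ofReal ‖v - v'‖) ≤ Dm P t x v

/-- from the form of the interface -/
theorem WSz.of {T : ℝ} (h : ∀ t x, 0 ≤ t → t ≤ T →
    (∀ v, warm P t x v ≠ 0 → ‖v‖ < P.Y + 3) ∧
    (∫⁻ v, warm P t x v) ≤ 1 ∧
    (∀ v, (∫⁻ v', warm P t x v' / ENNReal.ofReal ‖v - v'‖) ≤ Dm P t x v)) : WSz P T where
  supp t ht hT x := (h t x ht hT).1
  mass t ht hT x := (h t x ht hT).2.1
  newt t ht hT x := (h t x ht hT).2.2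

theorem measurable_phiE (h : P.Ok) (t : ℝ) (x : P2) : Measurable (phiE P t x) := by
  have h1 : Measurable fun v : R3 => (t, x, v) := by fun_prop
  have h2 : Measurable ((fun p : ℝ × P2 × R3 => ENNReal.ofReal (phi P p.1 p.2.1 p.2.2)) ∘
      fun v : R3 => (t, x, v)) := (Fuel.measurable_ofReal_phi h).comp h1
  exact h2

theorem phiE_supp (h : P.Ok) {t : ℝ} {x : P2} {v : R3} (hv : P.Y + 5 < ‖v‖) : phiE P t x v = 0 := by
  unfold phiE
  rw [C.phi_eq_zero_of_norm h hv, ENNReal.ofReal_zero]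

theorem warm_supp {T : ℝ} (hW : WSz P T) {t : ℝ} (ht : 0 ≤ t) (hT : t ≤ T) {x : P2} {v : R3}
    (hv : P.Y + 3 < ‖v‖) : warm P t x v = 0 := by
  by_contra h0
  exact absurd (hW.supp t ht hT x v h0) (not_lt.2 hv.le)

theorem coldS_supp (h : P.Ok) {T : ℝ} (hW : WSz P T) {t : ℝ} (ht : 0 ≤ t) (hT : t ≤ T) {x : P2}
    {v : R3} (hv : P.Y + 5 < ‖v‖) : coldS P t x v = 0 := by
  unfold coldS
  rw [phiE_supp h hv, warm_supp hW ht hT (by linarith), add_zero]

/-- `ofReal ‖v-u‖⁻¹ ≤ (ofReal ‖v-u‖)⁻¹`, equality off the diagonal -/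
theorem ofReal_inv_le (r : ℝ) : ENNReal.ofReal r⁻¹ ≤ (ENNReal.ofReal r)⁻¹ := by
  rcases le_or_gt r 0 with h | h
  · rw [ENNReal.ofReal_of_nonpos (inv_nonpos.2 h)]; exact zero_le
  · rw [ENNReal.ofReal_inv_of_pos h]

theorem newt_warm {T : ℝ} (hW : WSz P T) {t : ℝ} (ht : 0 ≤ t) (hT : t ≤ T) (x : P2) (v : R3) :
    newt (warm P t x) v ≤ Dm P t x v := by
  refine le_trans ?_ (hW.newt t ht hT x v)
  refine lintegral_mono fun u => ?_
  rw [ENNReal.div_eq_inv_mul, mul_comm]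
  exact mul_le_mul_left (ofReal_inv_le _) _

theorem newt_coldS (h : P.Ok) {T : ℝ} (hW : WSz P T) {t : ℝ} (ht : 0 ≤ t) (hT : t ≤ T) (x : P2)
    (v : R3) :
    newt (coldS P t x) v ≤ (ENNReal.ofReal (144 * (1 + t)) * rho P t x + 1) * Dm P t x v := by
  have h1 : newt (coldS P t x) v = newt (phiE P t x) v + newt (warm P t x) v :=
    C.newt_add (measurable_phiE h t x) v
  rw [h1, add_mul, one_mul]
  exact add_le_add (C.newt_phi_le h ht x v) (newt_warm hW ht hT x v)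

theorem mass_coldS (h : P.Ok) {T : ℝ} (hW : WSz P T) {t : ℝ} (ht : 0 ≤ t) (hT : t ≤ T) (x : P2) :
    ∫⁻ v, coldS P t x v ≤ 2 * rho P t x + 1 := by
  unfold coldS
  rw [lintegral_add_left (measurable_phiE h t x)]
  exact add_le_add (C.density_phi h ht x) (hW.mass t ht hT x)

/-- the constant of the density `rho ≤ C / t` -/
def Crho (P : Par) : ℝ := (3 * P.Y + 10) ^ 2 * P.K

theorem Crho_nonneg (h : P.Ok) : 0 ≤ Crho P := mul_nonneg (sq_nonneg _) h.K0

theorem rho_le_div (h : P.Ok) {t : ℝ} (ht : 0 < t) (ht1 : t ≤ 1) (x : P2) :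
    rho P t x ≤ ENNReal.ofReal (Crho P / t) := by
  refine (C.rho_le h ht x).trans (ENNReal.ofReal_le_ofReal ?_)
  have hK := h.K0
  have hY := h.Y0
  have hκ := Fuel.Ok.kap0 h
  unfold Crho
  rw [mul_div_assoc]
  have h1 : (4 + 3 * (P.Y + 2) * t) ^ 2 ≤ (3 * P.Y + 10) ^ 2 := by
    apply pow_le_pow_left₀ (by positivity)
    nlinarith
  have h2 : P.K / (t * (1 + P.kap * t)) ≤ P.K / t := by
    apply div_le_div_of_nonneg_left hK ht
    nlinarith [mul_nonneg hκ ht.le]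
  exact mul_le_mul h1 h2 (by positivity) (by positivity)

/-- Newton constant of the cold majorant -/
def CN (P : Par) : ℝ := 288 * Crho P + 1

/-- mass constant of the cold majorant -/
def Cm (P : Par) : ℝ := 2 * Crho P + 1

theorem CN_pos (h : P.Ok) : 0 < CN P := by
  have := Crho_nonneg h; unfold CN; positivity

theorem Cm_pos (h : P.Ok) : 0 < Cm P := by
  have := Crho_nonneg h; unfold Cm; positivity

/-- **Newton potential** of the cold majorant -/
theorem newt_coldS_le (h : P.Ok) {T : ℝ} (hT1 : T ≤ 1) (hW : WSz P T) {t : ℝ} (ht : 0 < t)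
    (hT : t ≤ T) (x : P2) (v : R3) :
    newt (coldS P t x) v ≤ ENNReal.ofReal (CN P / t) * Dm P t x v := by
  refine (newt_coldS h hW ht.le hT x v).trans (mul_le_mul_left ?_ _)
  have ht1 : t ≤ 1 := hT.trans hT1
  have hC := Crho_nonneg h
  calc ENNReal.ofReal (144 * (1 + t)) * rho P t x + 1
      ≤ ENNReal.ofReal 288 * ENNReal.ofReal (Crho P / t) + ENNReal.ofReal (1 / t) := by
        gcongr
        · linarith
        · exact rho_le_div h ht ht1 x
        · rw [← ENNReal.ofReal_one]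
          apply ENNReal.ofReal_le_ofReal
          rw [le_div_iff₀ ht]; linarith
    _ = _ := by
        rw [← ENNReal.ofReal_mul (by norm_num), ← ENNReal.ofReal_add (by positivity) (by positivity)]
        congr 1
        unfold CN
        ring

/-- **mass** of the cold majorant -/
theorem mass_coldS_le (h : P.Ok) {T : ℝ} (hT1 : T ≤ 1) (hW : WSz P T) {t : ℝ} (ht : 0 < t)
    (hT : t ≤ T) (x : P2) : ∫⁻ v, coldS P t x v ≤ ENNReal.ofReal (Cm P / t) := by
  refine (mass_coldS h hW ht.le hT x).trans ?_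
  have ht1 : t ≤ 1 := hT.trans hT1
  have hC := Crho_nonneg h
  calc 2 * rho P t x + 1
      ≤ ENNReal.ofReal 2 * ENNReal.ofReal (Crho P / t) + ENNReal.ofReal (1 / t) := by
        rw [show ENNReal.ofReal 2 = 2 by norm_num]
        gcongr
        · exact rho_le_div h ht ht1 x
        · rw [← ENNReal.ofReal_one]
          apply ENNReal.ofReal_le_ofReal
          rw [le_div_iff₀ ht]; linarith
    _ = _ := by
        rw [← ENNReal.ofReal_mul (by norm_num), ← ENNReal.ofReal_add (by positivity) (by positivity)]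
        congr 1
        unfold Cm
        ring

/-- `(t+|x|)² ≤ C (t+r(a))` on the visible fuel -/
theorem sq_le_of_vis (h : P.Ok) (hY : 1 ≤ P.Y) {t : ℝ} (ht : 0 ≤ t) (ht1 : t ≤ 1) {x : P2}
    {k : ℤ × ℤ} (hk : k ∈ Fuel.vis P t x) :
    (t + distG x) ^ 2 ≤ (2 + 400 * P.Y ^ 2) * (t + rr (lab P t (x + latt k))) := by
  obtain ⟨h1, h2⟩ := C.vis_zone h hY ht hk
  have h3 := K.Th_fuel P (Lam := 100 * P.Y ^ 2) hY h.c0.le h.c1 (le_trans (by norm_num) h.j0) le_rfl
    ht ht1 x k 0 h1 h2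
  unfold Th at h3
  simp only [norm_zero, mul_zero, add_zero] at h3
  have hr : 0 ≤ rr (lab P t (x + latt k)) := sq_nonneg _
  set r := rr (lab P t (x + latt k)) with hrdef
  have hY2 : 0 < P.Y ^ 2 := by positivity
  have h4 : distG x ^ 2 / (100 * P.Y ^ 2) ≤ (t + r) * 2 := by
    have h0 : (0 : ℝ) ^ 2 = 0 := by norm_num
    rw [h0, mul_zero, add_zero] at h3
    linarith
  rw [div_le_iff₀ (by positivity)] at h4
  have h5 : t ^ 2 ≤ t + r := by nlinarith
  nlinarith [sq_nonneg (t - distG x)]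

/-- `(t+|x|)² rho ≤ C` -/
theorem sq_mul_rho (h : P.Ok) (hY : 1 ≤ P.Y) {t : ℝ} (ht : 0 < t) (ht1 : t ≤ 1) (x : P2) :
    ENNReal.ofReal ((t + distG x) ^ 2) * rho P t x ≤
      ENNReal.ofReal ((2 + 400 * P.Y ^ 2) * Crho P) := by
  have hf := Fuel.vis_finite h ht.le x
  have hκ := Fuel.Ok.kap0 h
  have hK := h.K0
  have hY0 := h.Y0
  have h1 : ENNReal.ofReal ((t + distG x) ^ 2) * rho P t x ≤
      (Fuel.vis P t x).ncard * ENNReal.ofReal ((2 + 400 * P.Y ^ 2) * P.K) := by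
    unfold C.rho
    rw [tsum_eq_sum (s := hf.toFinset)]
    · rw [Set.ncard_eq_toFinset_card _ hf, ← nsmul_eq_mul, ← Finset.sum_const, Finset.mul_sum]
      refine Finset.sum_le_sum fun k hk => ?_
      have hk' := hf.mem_toFinset.1 hk
      rw [indicator_of_mem hk', ← ENNReal.ofReal_mul (by positivity)]
      apply ENNReal.ofReal_le_ofReal
      have h2 := sq_le_of_vis h hY ht.le ht1 hk'
      have hr : 0 ≤ rr (lab P t (x + latt k)) := sq_nonneg _
      set r := rr (lab P t (x + latt k)) with hrdef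
      have h3 : dens P t (lab P t (x + latt k)) ≤ P.K / (t + r) := by
        unfold dens
        rw [Fuel.one_add_kap]
        apply div_le_div_of_nonneg_left hK (by positivity)
        nlinarith [mul_nonneg hκ ht.le]
      calc (t + distG x) ^ 2 * dens P t (lab P t (x + latt k))
          ≤ ((2 + 400 * P.Y ^ 2) * (t + r)) * (P.K / (t + r)) := by
            apply mul_le_mul h2 h3
            · unfold dens
              rw [Fuel.one_add_kap]
              positivity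
            · positivity
        _ = _ := by field_simp
    · intro k hk
      exact Set.indicator_of_notMem (fun h' => hk (hf.mem_toFinset.2 h')) _
  refine h1.trans ?_
  rw [← ENNReal.ofReal_natCast, ← ENNReal.ofReal_mul (by positivity)]
  apply ENNReal.ofReal_le_ofReal
  have h2 : ((Fuel.vis P t x).ncard : ℝ) ≤ (3 * P.Y + 10) ^ 2 := by
    refine (Fuel.vis_ncard h ht.le x).trans ?_
    apply pow_le_pow_left₀ (by positivity)
    nlinarith
  unfold Crho
  calc ((Fuel.vis P t x).ncard : ℝ) * ((2 + 400 * P.Y ^ 2) * P.K)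
      ≤ (3 * P.Y + 10) ^ 2 * ((2 + 400 * P.Y ^ 2) * P.K) := by
        apply mul_le_mul_of_nonneg_right h2 (by positivity)
    _ = _ := by ring

/-- constant of `sq_mul_mass_coldS` -/
def Cq (P : Par) : ℝ := 2 * ((2 + 400 * P.Y ^ 2) * Crho P) + 4

theorem Cq_nonneg (h : P.Ok) : 0 ≤ Cq P := by
  have := Crho_nonneg h; unfold Cq; positivity

/-- `(t+|x|)² ∫ coldS ≤ C` -/
theorem sq_mul_mass_coldS (h : P.Ok) (hY : 1 ≤ P.Y) {T : ℝ} (hT1 : T ≤ 1) (hW : WSz P T) {t : ℝ}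
    (ht : 0 < t) (hT : t ≤ T) (x : P2) :
    ENNReal.ofReal ((t + distG x) ^ 2) * ∫⁻ v, coldS P t x v ≤ ENNReal.ofReal (Cq P) := by
  have ht1 : t ≤ 1 := hT.trans hT1
  have hC := Crho_nonneg h
  have hd0 := distG_nonneg x
  have hd1 := distG_le_one x
  calc ENNReal.ofReal ((t + distG x) ^ 2) * ∫⁻ v, coldS P t x v
      ≤ ENNReal.ofReal ((t + distG x) ^ 2) * (2 * rho P t x + 1) := by
        gcongr
        exact mass_coldS h hW ht.le hT x
    _ = 2 * (ENNReal.ofReal ((t + distG x) ^ 2) * rho P t x) + ENNReal.ofReal ((t + distG x) ^ 2) := by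
        ring
    _ ≤ ENNReal.ofReal 2 * ENNReal.ofReal ((2 + 400 * P.Y ^ 2) * Crho P) + ENNReal.ofReal 4 := by
        rw [show ENNReal.ofReal 2 = 2 by norm_num]
        gcongr
        · exact sq_mul_rho h hY ht ht1 x
        · nlinarith
    _ = _ := by
        rw [← ENNReal.ofReal_mul (by norm_num), ← ENNReal.ofReal_add (by positivity) (by norm_num)]
        rfl

end Crest.Agent.R68.KC
end
end

-- ▼ part R68/K4b
section

/-!
# Row 68, K4b (helper616): hot × hot gains and hot losses with the weights of `Defs`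

All constants are explicit reals depending only on `Y` and the Gaussian exponent.
-/

set_option autoImplicit false
open MeasureTheory Set Metric
open scoped ENNReal Real
open Crest.AnalysisR.VecCalc3 Crest.AnalysisR.PDE.Boltzmann

noncomputable section

namespace Crest.Agent.R68.K4

open Crest.Agent.R68.K2 Crest.Agent.R68.DPole

/-- constant of the pole lemma -/
def Cd (Y : ℝ) : ℝ≥0∞ := ENNReal.ofReal ((8 + 6 * Y) ^ 2)

theorem Cd_lt_top (Y : ℝ) : Cd Y < ⊤ := ENNReal.ofReal_lt_top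

/-- constant of the hot gain (extended form) -/
def CQe (Y g : ℝ) : ℝ≥0∞ :=
  ENNReal.ofReal (Real.exp 1) * (Cbil (g / 4) (Np Y * 2) (Np Y * 2) * Cd Y * Cd Y)

theorem CQe_lt_top (Y g : ℝ) : CQe Y g < ⊤ :=
  ENNReal.mul_lt_top ENNReal.ofReal_lt_top
    (ENNReal.mul_lt_top (ENNReal.mul_lt_top (Cbil_lt_top _ _ _) (Cd_lt_top _)) (Cd_lt_top _))

/-- constant of the hot gain -/
def CQ (Y g : ℝ) : ℝ := (CQe Y g).toReal

theorem CQ_nonneg (Y g : ℝ) : 0 ≤ CQ Y g := ENNReal.toReal_nonneg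

theorem ofReal_CQ (Y g : ℝ) : ENNReal.ofReal (CQ Y g) = CQe Y g :=
  ENNReal.ofReal_toReal (CQe_lt_top Y g).ne

/-- constant of the hot loss (extended form) -/
def CLe (Y g : ℝ) : ℝ≥0∞ := Clos (g / 4) (Np Y * 2) * Cd Y

theorem CLe_lt_top (Y g : ℝ) : CLe Y g < ⊤ := ENNReal.mul_lt_top (Clos_lt_top _ _) (Cd_lt_top _)

/-- constant of the hot loss -/
def CL (Y g : ℝ) : ℝ := (CLe Y g).toReal

theorem CL_nonneg (Y g : ℝ) : 0 ≤ CL Y g := ENNReal.toReal_nonneg

theorem ofReal_CL (Y g : ℝ) : ENNReal.ofReal (CL Y g) = CLe Y g :=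
  ENNReal.ofReal_toReal (CLe_lt_top Y g).ne

theorem one_add_ofReal (v : R3) : 1 + ENNReal.ofReal ‖v‖ = ENNReal.ofReal (1 + ‖v‖) := by
  rw [ENNReal.ofReal_add zero_le_one (norm_nonneg _), ENNReal.ofReal_one]

variable {P : Par} {t : ℝ}

/-- abstract hot × hot estimate with the weight `D^{-3/2}` -/
theorem Qp_Dm_Dm (hP : ParD P) (ht : 0 ≤ t) (ht1 : t ≤ 1) (x : P2) {α : ℝ} (hα : 0 < α)
    {om1 om2 : R3 → ℝ≥0∞} {om : ℝ≥0∞} (v : R3)
    (hom : ∀ vs w : R3, ‖w‖ = 1 →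
      om1 (postVel v vs w) * om2 (postVelStar v vs w) ≤ om * ga α vs) :
    Qp (fun y => om1 y * Dm P t x y) (fun y => om2 y * Dm P t x y) v ≤
      Cbil α (Np P.Y * 2) (Np P.Y * 2) * Cd P.Y * Cd P.Y * (1 + ENNReal.ofReal ‖v‖) * om := by
  obtain ⟨u, hu⟩ := exists_Sw hP ht ht1 x
  have h := Qp_hot (f := fun y => om1 y * Dm P t x y) (g := fun y => om2 y * Dm P t x y)
    (om1 := om1) (om2 := om2) (om := fun _ => om) (A := Cd P.Y) (A' := Cd P.Y) hα u u v
    (fun y => by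
      calc om1 y * Dm P t x y ≤ om1 y * (Cd P.Y * Sw u y) := mul_le_mul_right (hu y) _
        _ = _ := by ring)
    (fun y => by
      calc om2 y * Dm P t x y ≤ om2 y * (Cd P.Y * Sw u y) := mul_le_mul_right (hu y) _
        _ = _ := by ring) hom
  rw [card_ix] at h
  exact h

/-- abstract loss estimate with the weight `D^{-3/2}` -/
theorem Lc_Dm (hP : ParD P) (ht : 0 ≤ t) (ht1 : t ≤ 1) (x : P2) {α : ℝ} (hα : 0 < α)
    {om1 : R3 → ℝ≥0∞} {A : ℝ≥0∞} (v : R3) (hom : ∀ y, om1 y ≤ A * ga α y) :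
    Lc (fun y => om1 y * Dm P t x y) v ≤
      Clos α (Np P.Y * 2) * Cd P.Y * A * (1 + ENNReal.ofReal ‖v‖) := by
  obtain ⟨u, hu⟩ := exists_Sw hP ht ht1 x
  have h := Lc_hot (g := fun y => om1 y * Dm P t x y) (A := Cd P.Y * A) hα u
    (fun y => by
      calc om1 y * Dm P t x y ≤ (A * ga α y) * (Cd P.Y * Sw u y) := mul_le_mul' (hom y) (hu y)
        _ = _ := by ring) v
  rw [card_ix] at h
  refine h.trans_eq ?_
  ring

theorem le_mul_Dm (P : Par) (t : ℝ) (x : P2) (v : R3) (a : ℝ≥0∞) : a ≤ a * Dm P t x v :=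
  le_mul_of_one_le_right zero_le (K.one_le_Dm P t x v)

/-- common last step of the gain estimates -/
theorem gain_fin {Y g : ℝ} {om B : ℝ≥0∞} {v : R3} (h : om ≤ ENNReal.ofReal (Real.exp 1) * B) :
    Cbil (g / 4) (Np Y * 2) (Np Y * 2) * Cd Y * Cd Y * (1 + ENNReal.ofReal ‖v‖) * om ≤
      ENNReal.ofReal (CQ Y g * (1 + ‖v‖)) * B := by
  rw [ENNReal.ofReal_mul (CQ_nonneg _ _), ofReal_CQ, ← one_add_ofReal]
  unfold CQe
  calc _ ≤ Cbil (g / 4) (Np Y * 2) (Np Y * 2) * Cd Y * Cd Y * (1 + ENNReal.ofReal ‖v‖) *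
        (ENNReal.ofReal (Real.exp 1) * B) := mul_le_mul_right h _
    _ = _ := by ring

theorem le_exp_one_mul (a : ℝ≥0∞) : a ≤ ENNReal.ofReal (Real.exp 1) * a := by
  refine le_mul_of_one_le_left zero_le ?_
  rw [← ENNReal.ofReal_one]
  exact ENNReal.ofReal_le_ofReal (Real.one_le_exp zero_le_one)

/-! ### gains -/


/-- `Z × EE → EE` -/
theorem Qp_Z_B2 (hP : ParD P) (ht : 0 ≤ t) (ht1 : t ≤ 1) {g g1 g2 b : ℝ} (hg1 : 1 / 50 ≤ g1)
    (hg2 : 0 ≤ g2) (hg : g1 + g2 ≤ g) (x : P2) (v : R3) :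
    Qp (Zw P g t x) (B2 P g1 g2 b t x) v ≤
      ENNReal.ofReal (CQ P.Y g1 * (1 + ‖v‖)) * B2 P g1 g2 b t x v := by
  have hζ : 0 ≤ distG x / t := div_nonneg (distG_nonneg x) ht
  have h := Qp_Dm_Dm hP ht ht1 x (α := g1 / 4) (by linarith)
    (om1 := fun y => ENNReal.ofReal (gau g t y))
    (om2 := fun y => ENNReal.ofReal (t ^ b) * omE (g1 - √t / 100) g2 (distG x / t) y)
    (om := ENNReal.ofReal (t ^ b) * omE (g1 - √t / 100) g2 (distG x / t) v) v (by
      intro vs w hw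
      simp only [gau_eq_ga]
      calc _ = ENNReal.ofReal (t ^ b) * (ga (g - √t / 100) (postVel v vs w) *
            omE (g1 - √t / 100) g2 (distG x / t) (postVelStar v vs w)) := by ring
        _ ≤ ENNReal.ofReal (t ^ b) * (omE (g1 - √t / 100) g2 (distG x / t) v *
            ga (g1 - √t / 100) vs) := by
            exact mul_le_mul_right (ga_mul_omE_post (g := g - √t / 100) (g1 := g1 - √t / 100)
              hg2 hζ (by linarith) hw) _
        _ ≤ ENNReal.ofReal (t ^ b) * (omE (g1 - √t / 100) g2 (distG x / t) v *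
            ga (g1 / 4) vs) := by
            gcongr
            exact ga_anti (by linarith [half_le hg1 ht1]) vs
        _ = _ := by ring)
  have e : B2 P g1 g2 b t x = fun y =>
      (ENNReal.ofReal (t ^ b) * omE (g1 - √t / 100) g2 (distG x / t) y) * Dm P t x y := by
    funext y; exact B2_eq_omE P g1 g2 b t x y
  rw [e]
  refine h.trans (gain_fin ?_)
  exact (le_mul_Dm P t x v _).trans (le_exp_one_mul _)



/-- `B1 × B1 → B1` -/
theorem Qp_B1_B1 (hP : ParD P) (ht : 0 ≤ t) (ht1 : t ≤ 1) {Lam rh g b : ℝ} (hg : 1 / 50 ≤ g)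
    (hrh : 0 < rh) (hb : 1 ≤ b) (hL : 8 * b * (b + 1) ≤ g * Lam) (x : P2) (v : R3) :
    Qp (B1 P Lam rh g b t x) (B1 P Lam rh g b t x) v ≤
      ENNReal.ofReal (CQ P.Y g * (1 + ‖v‖)) * B1 P Lam rh g b t x v := by
  have hL0 : 0 < Lam := by
    by_contra hc
    push Not at hc
    have h1 : g * Lam ≤ 0 := mul_nonpos_of_nonneg_of_nonpos (by linarith) hc
    have h2 : 0 < 8 * b * (b + 1) := by positivity
    linarith
  have hrat : b * (b + 1) / Lam ≤ g / 8 := by
    rw [div_le_div_iff₀ hL0 (by norm_num)]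
    linarith
  have h := Qp_Dm_Dm hP ht ht1 x (α := g / 4) (by linarith)
    (om1 := fun y => omB Lam rh g b t x y) (om2 := fun y => omB Lam rh g b t x y)
    (om := ENNReal.ofReal (Real.exp 1) * omB Lam rh g b t x v) v (by
      intro vs w hw
      refine (mul_le_mul_right (omB_le_ga hL0.le ht (by linarith) x _) _).trans ?_
      unfold omB ga
      have hpn := post_norm_sq hw v vs
      have h1 := K.Th_coll (Lam := Lam) (b := b) (ρ := rh ^ 2) (s := t) hL0 hb (by positivity) ht x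
        v vs (postVel v vs w) (by nlinarith [sq_nonneg ‖postVelStar v vs w‖])
      have hT0 : 0 ≤ (min 1 (Th Lam t x v / rh ^ 2)) ^ b :=
        Real.rpow_nonneg (K.minTh_nonneg hL0.le ht x v) _
      rw [← ENNReal.ofReal_mul (mul_nonneg (Real.rpow_nonneg (K.minTh_nonneg hL0.le ht x _) _)
        (K.gau_pos _ _ _).le), ← ENNReal.ofReal_mul (by positivity), ← ENNReal.ofReal_mul
        (mul_nonneg (by positivity) (mul_nonneg hT0 (K.gau_pos _ _ _).le))]
      apply ENNReal.ofReal_le_ofReal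
      unfold gau
      have hsum : ‖postVel v vs w‖ ^ 2 + ‖postVelStar v vs w‖ ^ 2 = ‖v‖ ^ 2 + ‖vs‖ ^ 2 := by
        linarith
      calc (min 1 (Th Lam t x (postVel v vs w) / rh ^ 2)) ^ b *
            Real.exp (-(g - √t / 100) * ‖postVel v vs w‖ ^ 2) *
            Real.exp (-(g - √t / 100) * ‖postVelStar v vs w‖ ^ 2)
          = (min 1 (Th Lam t x (postVel v vs w) / rh ^ 2)) ^ b *
            Real.exp (-(g - √t / 100) * (‖v‖ ^ 2 + ‖vs‖ ^ 2)) := by
            rw [mul_assoc, ← Real.exp_add, ← hsum]; congr 2; ring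
        _ ≤ (Real.exp (1 + b * (b + 1) / Lam * t * ‖vs‖ ^ 2) *
            (min 1 (Th Lam t x v / rh ^ 2)) ^ b) *
            Real.exp (-(g - √t / 100) * (‖v‖ ^ 2 + ‖vs‖ ^ 2)) := by
            exact mul_le_mul_of_nonneg_right h1 (Real.exp_pos _).le
        _ = (min 1 (Th Lam t x v / rh ^ 2)) ^ b *
            (Real.exp (1 + b * (b + 1) / Lam * t * ‖vs‖ ^ 2) *
            Real.exp (-(g - √t / 100) * (‖v‖ ^ 2 + ‖vs‖ ^ 2))) := by ring
        _ ≤ (min 1 (Th Lam t x v / rh ^ 2)) ^ b *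
            (Real.exp 1 * Real.exp (-(g - √t / 100) * ‖v‖ ^ 2) *
              Real.exp (-(g / 4) * ‖vs‖ ^ 2)) := by
            apply mul_le_mul_of_nonneg_left _ hT0
            rw [← Real.exp_add, ← Real.exp_add, ← Real.exp_add]
            apply Real.exp_le_exp.2
            have h3 := half_le hg ht1
            have h4 : b * (b + 1) / Lam * t ≤ g / 8 := by
              calc b * (b + 1) / Lam * t ≤ b * (b + 1) / Lam * 1 := by gcongr
                _ ≤ g / 8 := by rw [mul_one]; exact hrat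
            have h5 := mul_le_mul_of_nonneg_right h4 (sq_nonneg ‖vs‖)
            have h6 := mul_le_mul_of_nonneg_right h3 (sq_nonneg ‖vs‖)
            nlinarith [sq_nonneg ‖vs‖]
        _ = _ := by ring)
  refine h.trans (gain_fin ?_)
  gcongr
  exact le_mul_Dm P t x v _



/-! ### losses -/

theorem Lc_Z (hP : ParD P) (ht : 0 ≤ t) (ht1 : t ≤ 1) {g : ℝ} (hg : 1 / 50 ≤ g) (x : P2)
    (v : R3) : Lc (Zw P g t x) v ≤ ENNReal.ofReal (CL P.Y g * (1 + ‖v‖)) := by
  have h := Lc_Dm hP ht ht1 x (α := g / 4) (by linarith) (A := 1)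
    (om1 := fun y => ENNReal.ofReal (gau g t y)) v (by
      intro y
      rw [gau_eq_ga, one_mul]
      exact ga_anti (by linarith [half_le hg ht1]) y)
  rw [ENNReal.ofReal_mul (CL_nonneg _ _), ofReal_CL, ← one_add_ofReal]
  refine h.trans_eq ?_
  unfold CLe
  ring

theorem Lc_B1 (hP : ParD P) (ht : 0 ≤ t) (ht1 : t ≤ 1) {Lam rh g b : ℝ} (hL : 0 ≤ Lam)
    (hb : 0 ≤ b) (hg : 1 / 50 ≤ g) (x : P2) (v : R3) :
    Lc (B1 P Lam rh g b t x) v ≤ ENNReal.ofReal (CL P.Y g * (1 + ‖v‖)) :=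
  (C.Lc_mono (fun y => B1_le_Zw P hL ht hb x y) v).trans (Lc_Z hP ht ht1 hg x v)

theorem omE_le_exp_mul_ga {g1 g2 ζ : ℝ} (h2 : 0 ≤ g2) (hζ : 0 ≤ ζ) (v : R3) :
    omE g1 g2 ζ v ≤ ENNReal.ofReal (Real.exp (-g2 * ζ ^ 2)) * ga g1 v := by
  unfold omE ga
  rw [← ENNReal.ofReal_mul (Real.exp_pos _).le, ← Real.exp_add]
  apply ENNReal.ofReal_le_ofReal
  apply Real.exp_le_exp.2
  have h1 : ζ ^ 2 ≤ (max ‖v‖ ζ) ^ 2 := by
    gcongr
    exact le_max_right _ _
  nlinarith [mul_le_mul_of_nonneg_left h1 h2]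

theorem Lc_B2 (hP : ParD P) (ht : 0 ≤ t) (ht1 : t ≤ 1) {g1 g2 b : ℝ} (hg1 : 1 / 50 ≤ g1)
    (hg2 : 0 ≤ g2) (x : P2) (v : R3) :
    Lc (B2 P g1 g2 b t x) v ≤ ENNReal.ofReal (CL P.Y g1 * (1 + ‖v‖)) *
      (ENNReal.ofReal (t ^ b) * ENNReal.ofReal (Real.exp (-g2 * (distG x / t) ^ 2))) := by
  have hζ : 0 ≤ distG x / t := div_nonneg (distG_nonneg x) ht
  have h := Lc_Dm hP ht ht1 x (α := g1 / 4) (by linarith)
    (A := ENNReal.ofReal (t ^ b) * ENNReal.ofReal (Real.exp (-g2 * (distG x / t) ^ 2)))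
    (om1 := fun y => ENNReal.ofReal (t ^ b) * omE (g1 - √t / 100) g2 (distG x / t) y) v (by
      intro y
      calc _ ≤ ENNReal.ofReal (t ^ b) * (ENNReal.ofReal (Real.exp (-g2 * (distG x / t) ^ 2)) *
            ga (g1 - √t / 100) y) := mul_le_mul_right (omE_le_exp_mul_ga hg2 hζ y) _
        _ ≤ ENNReal.ofReal (t ^ b) * (ENNReal.ofReal (Real.exp (-g2 * (distG x / t) ^ 2)) *
            ga (g1 / 4) y) := by
            gcongr
            exact ga_anti (by linarith [half_le hg1 ht1]) y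
        _ = _ := by ring)
  have e : B2 P g1 g2 b t x = fun y =>
      (ENNReal.ofReal (t ^ b) * omE (g1 - √t / 100) g2 (distG x / t) y) * Dm P t x y := by
    funext y; exact B2_eq_omE P g1 g2 b t x y
  rw [e, ENNReal.ofReal_mul (CL_nonneg _ _), ofReal_CL, ← one_add_ofReal]
  refine h.trans_eq ?_
  unfold CLe
  ring

end Crest.Agent.R68.K4
end
end

-- ▼ part R68/K4c
section

/-!
# Row 68, K4c (helper616): cold × hot gains with the weights of `Defs`, abstract cold partner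

`c : R3 → ℝ≥0∞` measurable, `c u = 0` for `R < ‖u‖`; `N` = its Newton potential relative to
`D^{-3/2}`.
-/

set_option autoImplicit false
open MeasureTheory Set Metric
open scoped ENNReal Real
open Crest.AnalysisR.VecCalc3 Crest.AnalysisR.PDE.Boltzmann

noncomputable section

namespace Crest.Agent.R68.K4

open Crest.Agent.R68.K2 Crest.Agent.R68.DPole

theorem newton_shift (c : R3 → ℝ≥0∞) (v : R3) :
    ∫⁻ z, ENNReal.ofReal ‖z‖⁻¹ * c (v + z) = ∫⁻ u, c u * ENNReal.ofReal ‖v - u‖⁻¹ := by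
  have h := lintegral_add_left_eq_self (μ := (volume : Measure R3))
    (fun u : R3 => c u * ENNReal.ofReal ‖v - u‖⁻¹) v
  rw [← h]
  refine lintegral_congr fun z => ?_
  rw [sub_add_cancel_left, norm_neg, mul_comm]

/-- constant of the cold gain (extended form) -/
def CCe (Y g G R : ℝ) : ℝ≥0∞ :=
  4 * Cpl (g / 4) (Np Y * 2) * Cd Y * ENNReal.ofReal (Real.exp (1 + G * R ^ 2))

theorem CCe_lt_top (Y g G R : ℝ) : CCe Y g G R < ⊤ :=
  ENNReal.mul_lt_top (ENNReal.mul_lt_top (ENNReal.mul_lt_top (by norm_num) (Cpl_lt_top _ _))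
    (Cd_lt_top _)) ENNReal.ofReal_lt_top

/-- constant of the cold gain: depends on `Y`, the exponents and the support radius `R` only -/
def CC (Y g G R : ℝ) : ℝ := (CCe Y g G R).toReal

theorem CC_nonneg (Y g G R : ℝ) : 0 ≤ CC Y g G R := ENNReal.toReal_nonneg

theorem ofReal_CC (Y g G R : ℝ) : ENNReal.ofReal (CC Y g G R) = CCe Y g G R :=
  ENNReal.ofReal_toReal (CCe_lt_top Y g G R).ne

variable {P : Par} {t : ℝ}

/-- abstract cold × hot estimate with the weight `D^{-3/2}` -/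
theorem Qp_cold_Dm (hP : ParD P) (ht : 0 ≤ t) (ht1 : t ≤ 1) (x : P2) {α : ℝ} (hα : 0 < α)
    {c : R3 → ℝ≥0∞} {R : ℝ} (hcm : Measurable c) (hc : ∀ y, R < ‖y‖ → c y = 0)
    {om2 : R3 → ℝ≥0∞} {om L : ℝ≥0∞} (v : R3)
    (hom : ∀ vs w : R3, ‖w‖ = 1 → ‖postVel v vs w‖ ≤ R →
      om2 (postVelStar v vs w) ≤ L * om * ga α vs) :
    Qp c (fun y => om2 y * Dm P t x y) v ≤
      2 * Cpl α (Np P.Y * 2) * Cd P.Y * L * om * ∫⁻ u, c u * ENNReal.ofReal ‖v - u‖⁻¹ := by
  obtain ⟨u, hu⟩ := exists_Sw hP ht ht1 x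
  have h := Qp_cold (c := c) (g := fun y => om2 y * Dm P t x y) (om2 := om2) (om := fun _ => om)
    (A := Cd P.Y) (L := L) hα u R v hcm hc
    (fun y => by
      calc om2 y * Dm P t x y ≤ om2 y * (Cd P.Y * Sw u y) := mul_le_mul_right (hu y) _
        _ = _ := by ring) hom
  rw [card_ix, newton_shift] at h
  exact h

/-- common last step -/
theorem cold_fin {Y g G R : ℝ} {L om N D I Q Q' : ℝ≥0∞}
    (hL : L ≤ ENNReal.ofReal (Real.exp (1 + G * R ^ 2)))
    (hQ : Q ≤ 2 * Cpl (g / 4) (Np Y * 2) * Cd Y * L * om * I) (hQ' : Q' = Q) (hI : I ≤ N * D) :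
    Q + Q' ≤ ENNReal.ofReal (CC Y g G R) * N * (om * D) := by
  rw [hQ', ofReal_CC]
  unfold CCe
  calc Q + Q = 2 * Q := by ring
    _ ≤ 2 * (2 * Cpl (g / 4) (Np Y * 2) * Cd Y * ENNReal.ofReal (Real.exp (1 + G * R ^ 2)) * om *
        (N * D)) := by
        refine mul_le_mul_right (hQ.trans ?_) _
        gcongr
    _ = _ := by ring

/-- `cold × Z + Z × cold → Z` -/
theorem Qp_cold_Z (hP : ParD P) (ht : 0 ≤ t) (ht1 : t ≤ 1) {g R : ℝ} (hg : 1 / 50 ≤ g)
    {c : R3 → ℝ≥0∞} (hcm : Measurable c) (hc : ∀ y, R < ‖y‖ → c y = 0) (x : P2) (v : R3)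
    {N : ℝ≥0∞} (hN : ∫⁻ u, c u * ENNReal.ofReal ‖v - u‖⁻¹ ≤ N * Dm P t x v) :
    Qp c (Zw P g t x) v + Qp (Zw P g t x) c v ≤
      ENNReal.ofReal (CC P.Y g g R) * N * Zw P g t x v := by
  have hs : 0 ≤ √t := Real.sqrt_nonneg t
  have h := Qp_cold_Dm hP ht ht1 x (α := g / 4) (by linarith) hcm hc
    (om2 := fun y => ENNReal.ofReal (gau g t y)) (om := ENNReal.ofReal (gau g t v))
    (L := ENNReal.ofReal (Real.exp ((g - √t / 100) * R ^ 2))) v (by
      intro vs w hw hR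
      simp only [gau_eq_ga]
      have h3 := half_le hg ht1
      refine (ga_cold_post (g := g - √t / 100) (by linarith) hw hR).trans ?_
      exact mul_le_mul_right (ga_anti (by linarith) vs) _)
  refine cold_fin (L := ENNReal.ofReal (Real.exp ((g - √t / 100) * R ^ 2))) ?_ h
    (Qp_comm (measurable_Zw_v hP g ht x) hcm v) hN
  apply ENNReal.ofReal_le_ofReal
  apply Real.exp_le_exp.2
  nlinarith [mul_nonneg hs (sq_nonneg R)]

/-- `cold × B2 + B2 × cold → B2` -/
theorem Qp_cold_B2 (hP : ParD P) (ht : 0 ≤ t) (ht1 : t ≤ 1) {g1 g2 b R : ℝ} (hg1 : 1 / 50 ≤ g1)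
    (hg2 : 0 ≤ g2) {c : R3 → ℝ≥0∞} (hcm : Measurable c) (hc : ∀ y, R < ‖y‖ → c y = 0) (x : P2)
    (v : R3) {N : ℝ≥0∞} (hN : ∫⁻ u, c u * ENNReal.ofReal ‖v - u‖⁻¹ ≤ N * Dm P t x v) :
    Qp c (B2 P g1 g2 b t x) v + Qp (B2 P g1 g2 b t x) c v ≤
      ENNReal.ofReal (CC P.Y g1 (g1 + g2) R) * N * B2 P g1 g2 b t x v := by
  have hs : 0 ≤ √t := Real.sqrt_nonneg t
  have hζ : 0 ≤ distG x / t := div_nonneg (distG_nonneg x) ht
  have h := Qp_cold_Dm hP ht ht1 x (α := g1 / 4) (by linarith) hcm hc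
    (om2 := fun y => ENNReal.ofReal (t ^ b) * omE (g1 - √t / 100) g2 (distG x / t) y)
    (om := ENNReal.ofReal (t ^ b) * omE (g1 - √t / 100) g2 (distG x / t) v)
    (L := ENNReal.ofReal (Real.exp ((g1 - √t / 100 + g2) * R ^ 2))) v (by
      intro vs w hw hR
      have h3 := half_le hg1 ht1
      calc _ ≤ ENNReal.ofReal (t ^ b) * (ENNReal.ofReal (Real.exp ((g1 - √t / 100 + g2) * R ^ 2)) *
            omE (g1 - √t / 100) g2 (distG x / t) v * ga (g1 - √t / 100) vs) :=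
            mul_le_mul_right (omE_cold_post (g1 := g1 - √t / 100) (by linarith) hg2 hζ hw hR) _
        _ ≤ ENNReal.ofReal (t ^ b) * (ENNReal.ofReal (Real.exp ((g1 - √t / 100 + g2) * R ^ 2)) *
            omE (g1 - √t / 100) g2 (distG x / t) v * ga (g1 / 4) vs) :=
            mul_le_mul_right (mul_le_mul_right (ga_anti (by linarith) vs) _) _
        _ = _ := by ring)
  have e : B2 P g1 g2 b t x = fun y =>
      (ENNReal.ofReal (t ^ b) * omE (g1 - √t / 100) g2 (distG x / t) y) * Dm P t x y := by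
    funext y; exact B2_eq_omE P g1 g2 b t x y
  rw [← e] at h
  rw [B2_eq_omE P g1 g2 b t x v]
  refine cold_fin (L := ENNReal.ofReal (Real.exp ((g1 - √t / 100 + g2) * R ^ 2))) ?_ h
    (Qp_comm (measurable_B2_v hP g1 g2 b ht x) hcm v) hN
  apply ENNReal.ofReal_le_ofReal
  apply Real.exp_le_exp.2
  nlinarith [mul_nonneg hs (sq_nonneg R)]

/-- `cold × B1 + B1 × cold → B1` -/
theorem Qp_cold_B1 (hP : ParD P) (ht : 0 ≤ t) (ht1 : t ≤ 1) {Lam rh g b R : ℝ} (hg : 1 / 50 ≤ g)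
    (hrh : 0 < rh) (hb : 1 ≤ b) (hL : 8 * b * (b + 1) ≤ g * Lam)
    {c : R3 → ℝ≥0∞} (hcm : Measurable c) (hc : ∀ y, R < ‖y‖ → c y = 0) (x : P2)
    (v : R3) {N : ℝ≥0∞} (hN : ∫⁻ u, c u * ENNReal.ofReal ‖v - u‖⁻¹ ≤ N * Dm P t x v) :
    Qp c (B1 P Lam rh g b t x) v + Qp (B1 P Lam rh g b t x) c v ≤
      ENNReal.ofReal (CC P.Y g g R) * N * B1 P Lam rh g b t x v := by
  have hs : 0 ≤ √t := Real.sqrt_nonneg t
  have hL0 : 0 < Lam := by
    by_contra hc
    push Not at hc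
    have h1 : g * Lam ≤ 0 := mul_nonpos_of_nonneg_of_nonpos (by linarith) hc
    have h2 : 0 < 8 * b * (b + 1) := by positivity
    linarith
  have hrat : b * (b + 1) / Lam ≤ g / 8 := by
    rw [div_le_div_iff₀ hL0 (by norm_num)]
    linarith
  have h := Qp_cold_Dm hP ht ht1 x (α := g / 4) (by linarith) hcm hc
    (om2 := fun y => omB Lam rh g b t x y) (om := omB Lam rh g b t x v)
    (L := ENNReal.ofReal (Real.exp (1 + (g - √t / 100) * R ^ 2))) v (by
      intro vs w hw hR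
      unfold omB ga
      have hpn := post_norm_sq hw v vs
      have h1 := K.Th_coll (Lam := Lam) (b := b) (ρ := rh ^ 2) (s := t) hL0 hb (by positivity) ht x
        v vs (postVelStar v vs w) (by nlinarith [sq_nonneg ‖postVel v vs w‖])
      have hT0 : 0 ≤ (min 1 (Th Lam t x v / rh ^ 2)) ^ b :=
        Real.rpow_nonneg (K.minTh_nonneg hL0.le ht x v) _
      rw [← ENNReal.ofReal_mul (by positivity), ← ENNReal.ofReal_mul
        (mul_nonneg (by positivity) (mul_nonneg hT0 (K.gau_pos _ _ _).le))]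
      apply ENNReal.ofReal_le_ofReal
      unfold gau
      have hR2 : ‖postVel v vs w‖ ^ 2 ≤ R ^ 2 := by gcongr
      have h3 := half_le hg ht1
      have hg' : 0 ≤ g - √t / 100 := by linarith
      have hsum : ‖postVelStar v vs w‖ ^ 2 = ‖v‖ ^ 2 + ‖vs‖ ^ 2 - ‖postVel v vs w‖ ^ 2 := by
        linarith
      have h4 : b * (b + 1) / Lam * t ≤ g / 8 := by
        calc b * (b + 1) / Lam * t ≤ b * (b + 1) / Lam * 1 := by gcongr
          _ ≤ g / 8 := by rw [mul_one]; exact hrat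
      calc (min 1 (Th Lam t x (postVelStar v vs w) / rh ^ 2)) ^ b *
            Real.exp (-(g - √t / 100) * ‖postVelStar v vs w‖ ^ 2)
          ≤ (Real.exp (1 + b * (b + 1) / Lam * t * ‖vs‖ ^ 2) *
            (min 1 (Th Lam t x v / rh ^ 2)) ^ b) *
            Real.exp (-(g - √t / 100) * ‖postVelStar v vs w‖ ^ 2) :=
            mul_le_mul_of_nonneg_right h1 (Real.exp_pos _).le
        _ = (min 1 (Th Lam t x v / rh ^ 2)) ^ b *
            (Real.exp (1 + b * (b + 1) / Lam * t * ‖vs‖ ^ 2) *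
            Real.exp (-(g - √t / 100) * ‖postVelStar v vs w‖ ^ 2)) := by ring
        _ ≤ (min 1 (Th Lam t x v / rh ^ 2)) ^ b *
            (Real.exp (1 + (g - √t / 100) * R ^ 2) * Real.exp (-(g - √t / 100) * ‖v‖ ^ 2) *
              Real.exp (-(g / 4) * ‖vs‖ ^ 2)) := by
            apply mul_le_mul_of_nonneg_left _ hT0
            rw [← Real.exp_add, ← Real.exp_add, ← Real.exp_add]
            apply Real.exp_le_exp.2
            have h5 := mul_le_mul_of_nonneg_right h4 (sq_nonneg ‖vs‖)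
            have h6 := mul_le_mul_of_nonneg_right h3 (sq_nonneg ‖vs‖)
            have h7 := mul_le_mul_of_nonneg_left hR2 hg'
            rw [hsum]
            nlinarith [sq_nonneg ‖vs‖]
        _ = _ := by ring)
  rw [B1_eq_omB P Lam rh g b t x v]
  refine cold_fin (L := ENNReal.ofReal (Real.exp (1 + (g - √t / 100) * R ^ 2))) ?_ h
    (Qp_comm (measurable_B1_v hP Lam rh g b ht x) hcm v) hN
  apply ENNReal.ofReal_le_ofReal
  apply Real.exp_le_exp.2
  nlinarith [mul_nonneg hs (sq_nonneg R)]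

/-! ### losses of a cold partner, fast velocities -/

theorem Lc_cold {c : R3 → ℝ≥0∞} {R : ℝ} (hc : ∀ y, R < ‖y‖ → c y = 0) (v : R3) :
    Lc c v ≤ ENNReal.ofReal (2 * π * (R + ‖v‖)) * ∫⁻ u, c u := by
  rw [K2.Lc_eq, ← lintegral_const_mul' _ _ ENNReal.ofReal_ne_top]
  refine lintegral_mono fun u => ?_
  dsimp only
  by_cases hu : ‖u‖ ≤ R
  · gcongr
    have := norm_sub_le v u
    linarith
  · rw [hc u (not_le.1 hu), mul_zero]
    exact zero_le


end Crest.Agent.R68.K4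
end
end

-- ▼ part R68/IKInp

/-!
# R68 / IKInp (helper819): the hypotheses `N.KInp` of Part N
-/

set_option autoImplicit false
open MeasureTheory Set Filter
open scoped ENNReal Topology Real
open Crest.AnalysisR.VecCalc3 Crest.AnalysisR.PDE.Boltzmann

noncomputable section

namespace Crest.Agent.R68.KC

open Crest.Agent.R68.C (newt rho)
open Crest.Agent.R68.DPole (ParD)
open Crest.Agent.R68.N (tx Zg EE ev ez2 KInp)
open Crest.Agent.R68.K4 (CQ CL CC CQ_nonneg CL_nonneg CC_nonneg)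

variable {P : Par}

/-- relation between the two sets of standing hypotheses -/
theorem ParD_of_Ok (h : P.Ok) : ParD P where
  Y := h.Y0
  c := h.c0
  c1 := h.c1
  dlc := by
    have h1 := h.kap1
    unfold Par.kap at h1
    rwa [one_le_div (Fuel.Ok.dlp h)] at h1
  j0 := le_trans (by norm_num) h.j0

/-- the warm majorant has the additional factor `(t+|x|)^q` -/
structure WSq (P : Par) (T q : ℝ) : Prop where
  mass : ∀ t ∈ Ioc 0 T, ∀ x, (∫⁻ v, warm P t x v) ≤ tx q t x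
  newt : ∀ t ∈ Ioc 0 T, ∀ x v,
    (∫⁻ v', warm P t x v' / ENNReal.ofReal ‖v - v'‖) ≤ tx q t x * Dm P t x v

/-- the common constant -/
def CKi (P : Par) (g g1 g2 : ℝ) : ℝ :=
  CC P.Y g1 (g1 + g2) (P.Y + 5) * (2 * CN P) + CC P.Y g g (P.Y + 5) * (2 * CN P) +
    2 * π * (P.Y + 5) * (2 * Cm P) + 2 * π * (P.Y + 5) * (2 * Cq P) + CQ P.Y g1 + CL P.Y g1 +
    CL P.Y g + CC P.Y g1 (g1 + g2) (P.Y + 5) + 2 * π * (P.Y + 5)

theorem Lc_cold' {c : R3 → ℝ≥0∞} {R : ℝ} (hR : 1 ≤ R) (hc : ∀ y, R < ‖y‖ → c y = 0) (v : R3) :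
    Lc c v ≤ ENNReal.ofReal (2 * π * R) * ev v * ∫⁻ u, c u := by
  refine (K4.Lc_cold hc v).trans (mul_le_mul_left ?_ _)
  unfold ev
  rw [K4.one_add_ofReal, ← ENNReal.ofReal_mul (by positivity)]
  apply ENNReal.ofReal_le_ofReal
  have hv := norm_nonneg v
  have : R + ‖v‖ ≤ R * (1 + ‖v‖) := by nlinarith
  have h2 := mul_le_mul_of_nonneg_left this (by positivity : 0 ≤ 2 * π)
  linarith

theorem ev_mul (a : ℝ) (ha : 0 ≤ a) (v : R3) :
    ENNReal.ofReal (a * (1 + ‖v‖)) = ENNReal.ofReal a * ev v := by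
  unfold ev
  rw [K4.one_add_ofReal, ← ENNReal.ofReal_mul ha]

/-- **`KInp`** for the majorant `2 coldS`. -/
theorem kInp (h : P.Ok) (hY : 1 ≤ P.Y) {T q : ℝ} (hT1 : T ≤ 1) (hW : WSz P T) (hWq : WSq P T q)
    (hWm : ∀ t x, Measurable (warm P t x)) {g g1 g2 : ℝ} (hg1 : 1 / 50 ≤ g1) (hg2 : 0 ≤ g2)
    (hg : g1 + g2 ≤ g) :
    KInp P T (fun t x v => 2 * coldS P t x v) (warm P) q g g1 g2
      (ENNReal.ofReal (CKi P g g1 g2)) := by
  have hP := ParD_of_Ok h
  have hgg : 1 / 50 ≤ g := by linarith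
  have hCN := (CN_pos h).le
  have hCm := (Cm_pos h).le
  have hCq := Cq_nonneg h
  have e1 := CC_nonneg P.Y g1 (g1 + g2) (P.Y + 5)
  have e2 := CC_nonneg P.Y g g (P.Y + 5)
  have e3 := CQ_nonneg P.Y g1
  have e4 := CL_nonneg P.Y g1
  have e5 := CL_nonneg P.Y g
  have hR : 1 ≤ P.Y + 5 := by linarith
  have hR0 : 0 ≤ P.Y + 5 := by linarith
  have hπ := Real.pi_pos
  have p1 : 0 ≤ CC P.Y g1 (g1 + g2) (P.Y + 5) * (2 * CN P) := by positivity
  have p2 : 0 ≤ CC P.Y g g (P.Y + 5) * (2 * CN P) := by positivity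
  have p3 : 0 ≤ 2 * π * (P.Y + 5) * (2 * Cm P) := by positivity
  have p4 : 0 ≤ 2 * π * (P.Y + 5) * (2 * Cq P) := by positivity
  have p5 : 0 ≤ 2 * π * (P.Y + 5) := by positivity
  -- facts on `coldS`
  have hSm : ∀ t x, Measurable (fun v => 2 * coldS P t x v) := fun t x =>
    ((measurable_phiE h t x).add (hWm t x)).const_mul 2
  have hS0 : ∀ t ∈ Ioc 0 T, ∀ x v, P.Y + 5 < ‖v‖ → 2 * coldS P t x v = 0 := fun t ht x v hv => by
    rw [coldS_supp h hW ht.1.le ht.2 hv, mul_zero]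
  have hW0 : ∀ t ∈ Ioc 0 T, ∀ x v, P.Y + 5 < ‖v‖ → warm P t x v = 0 := fun t ht x v hv =>
    warm_supp hW ht.1.le ht.2 (by linarith)
  have hSN : ∀ t ∈ Ioc 0 T, ∀ x v, ∫⁻ u, 2 * coldS P t x u * ENNReal.ofReal ‖v - u‖⁻¹ ≤
      ENNReal.ofReal (2 * CN P / t) * Dm P t x v := fun t ht x v => by
    have h1 : ∫⁻ u, 2 * coldS P t x u * ENNReal.ofReal ‖v - u‖⁻¹ = 2 * newt (coldS P t x) v := by
      unfold C.newt
      rw [← lintegral_const_mul' _ _ (by norm_num)]
      exact lintegral_congr fun u => mul_assoc _ _ _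
    rw [h1]
    calc 2 * newt (coldS P t x) v ≤ ENNReal.ofReal 2 * (ENNReal.ofReal (CN P / t) * Dm P t x v) := by
          rw [show ENNReal.ofReal 2 = 2 by norm_num]
          exact mul_le_mul_right (newt_coldS_le h hT1 hW ht.1 ht.2 x v) _
      _ = _ := by
          rw [← mul_assoc, ← ENNReal.ofReal_mul (by norm_num), mul_div_assoc]
  have hWN : ∀ t ∈ Ioc 0 T, ∀ x v, ∫⁻ u, warm P t x u * ENNReal.ofReal ‖v - u‖⁻¹ ≤
      tx q t x * Dm P t x v := fun t ht x v => by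
    refine le_trans ?_ (hWq.newt t ht x v)
    refine lintegral_mono fun u => ?_
    rw [ENNReal.div_eq_inv_mul, mul_comm]
    exact mul_le_mul_left (ofReal_inv_le _) _
  have hSM : ∀ t ∈ Ioc 0 T, ∀ x, ∫⁻ u, 2 * coldS P t x u ≤ ENNReal.ofReal (2 * Cm P / t) :=
    fun t ht x => by
    rw [lintegral_const_mul' _ _ (by norm_num)]
    calc 2 * ∫⁻ u, coldS P t x u ≤ ENNReal.ofReal 2 * ENNReal.ofReal (Cm P / t) := by
          rw [show ENNReal.ofReal 2 = 2 by norm_num]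
          exact mul_le_mul_right (mass_coldS_le h hT1 hW ht.1 ht.2 x) _
      _ = _ := by rw [← ENNReal.ofReal_mul (by norm_num), mul_div_assoc]
  have hmono : ∀ {a : ℝ} {X : ℝ≥0∞}, a ≤ CKi P g g1 g2 →
      ENNReal.ofReal a * X ≤ ENNReal.ofReal (CKi P g g1 g2) * X := fun ha =>
    mul_le_mul_left (ENNReal.ofReal_le_ofReal ha) _
  refine ⟨ENNReal.ofReal_ne_top, ?_, ?_, ?_, ?_, ?_, ?_, ?_, ?_, ?_⟩
  · -- qME
    intro t ht x v
    have ht1 : t ≤ 1 := ht.2.trans hT1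
    have h1 := K4.Qp_cold_B2 (b := 0) hP ht.1.le ht1 hg1 hg2 (hSm t x) (hS0 t ht x) x v (hSN t ht x v)
    refine le_self_add.trans (h1.trans ?_)
    unfold EE
    rw [mul_assoc, mul_assoc]
    calc ENNReal.ofReal (CC P.Y g1 (g1 + g2) (P.Y + 5)) *
          (ENNReal.ofReal (2 * CN P / t) * B2 P g1 g2 0 t x v)
        = ENNReal.ofReal (CC P.Y g1 (g1 + g2) (P.Y + 5) * (2 * CN P)) *
          (ENNReal.ofReal (1 / t) * B2 P g1 g2 0 t x v) := by
          have ht0 := ht.1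
          rw [← mul_assoc, ← mul_assoc, ← ENNReal.ofReal_mul e1, ← ENNReal.ofReal_mul p1]
          congr 2
          ring
      _ ≤ _ := hmono (by unfold CKi; linarith)
  · -- qMZ
    intro t ht x v
    have ht1 : t ≤ 1 := ht.2.trans hT1
    have h1 := K4.Qp_cold_Z hP ht.1.le ht1 hgg (hSm t x) (hS0 t ht x) x v (hSN t ht x v)
    refine le_self_add.trans (h1.trans ?_)
    change _ ≤ ENNReal.ofReal (CKi P g g1 g2) * ENNReal.ofReal (1 / t) * K4.Zw P g t x v
    rw [mul_assoc, mul_assoc]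
    calc ENNReal.ofReal (CC P.Y g g (P.Y + 5)) *
          (ENNReal.ofReal (2 * CN P / t) * K4.Zw P g t x v)
        = ENNReal.ofReal (CC P.Y g g (P.Y + 5) * (2 * CN P)) *
          (ENNReal.ofReal (1 / t) * K4.Zw P g t x v) := by
          have ht0 := ht.1
          rw [← mul_assoc, ← mul_assoc, ← ENNReal.ofReal_mul e2, ← ENNReal.ofReal_mul p2]
          congr 2
          ring
      _ ≤ _ := hmono (by unfold CKi; linarith)
  · -- lM
    intro t ht x v
    have ht0 := ht.1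
    have h1 := Lc_cold' hR (hS0 t ht x) v
    refine h1.trans ?_
    calc ENNReal.ofReal (2 * π * (P.Y + 5)) * ev v * ∫⁻ u, 2 * coldS P t x u
        ≤ ENNReal.ofReal (2 * π * (P.Y + 5)) * ev v * ENNReal.ofReal (2 * Cm P / t) :=
          mul_le_mul_right (hSM t ht x) _
      _ = ENNReal.ofReal (2 * π * (P.Y + 5)) * ENNReal.ofReal (2 * Cm P / t) * ev v := by ring
      _ = ENNReal.ofReal (2 * π * (P.Y + 5) * (2 * Cm P)) * (ENNReal.ofReal (1 / t) * ev v) := by
          rw [← mul_assoc, ← ENNReal.ofReal_mul p5, ← ENNReal.ofReal_mul p3]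
          congr 2
          ring
      _ ≤ ENNReal.ofReal (CKi P g g1 g2) * (ENNReal.ofReal (1 / t) * ev v) :=
          hmono (by unfold CKi; linarith)
      _ = _ := by ring
  · -- lM2
    intro t ht x v
    have h1 := Lc_cold' hR (hS0 t ht x) v
    have h2 := sq_mul_mass_coldS h hY hT1 hW ht.1 ht.2 x
    rw [lintegral_const_mul' _ _ (by norm_num)] at h1
    calc ENNReal.ofReal ((t + distG x) ^ 2) * Lc (fun v => 2 * coldS P t x v) v
        ≤ ENNReal.ofReal ((t + distG x) ^ 2) *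
          (ENNReal.ofReal (2 * π * (P.Y + 5)) * ev v * (2 * ∫⁻ u, coldS P t x u)) :=
          mul_le_mul_right h1 _
      _ = ENNReal.ofReal (2 * π * (P.Y + 5)) * 2 *
          (ENNReal.ofReal ((t + distG x) ^ 2) * ∫⁻ u, coldS P t x u) * ev v := by ring
      _ ≤ ENNReal.ofReal (2 * π * (P.Y + 5)) * 2 * ENNReal.ofReal (Cq P) * ev v := by gcongr
      _ = ENNReal.ofReal (2 * π * (P.Y + 5) * (2 * Cq P)) * ev v := by
          rw [show (2 : ℝ≥0∞) = ENNReal.ofReal 2 by norm_num, ← ENNReal.ofReal_mul p5,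
            ← ENNReal.ofReal_mul (by positivity)]
          congr 2
          ring
      _ ≤ _ := hmono (by unfold CKi; linarith)
  · -- qZE
    intro t ht x v
    have ht1 : t ≤ 1 := ht.2.trans hT1
    have h1 := K4.Qp_Z_B2 (b := 0) hP ht.1.le ht1 hg1 hg2 hg x v
    refine h1.trans ?_
    rw [ev_mul _ e3]
    unfold EE
    rw [mul_assoc, mul_assoc]
    exact hmono (by unfold CKi; linarith)
  · -- lE
    intro t ht x v
    have ht1 : t ≤ 1 := ht.2.trans hT1
    have h1 := K4.Lc_B2 (b := 0) hP ht.1.le ht1 hg1 hg2 x v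
    refine h1.trans ?_
    rw [ev_mul _ e4, Real.rpow_zero, ENNReal.ofReal_one, one_mul, mul_assoc, mul_assoc]
    exact hmono (by unfold CKi; linarith)
  · -- lZ
    intro t ht x v
    have ht1 : t ≤ 1 := ht.2.trans hT1
    have h1 := K4.Lc_Z hP ht.1.le ht1 hgg x v
    refine h1.trans ?_
    rw [ev_mul _ e5]
    exact hmono (by unfold CKi; linarith)
  · -- qWE
    intro t ht x v
    have ht1 : t ≤ 1 := ht.2.trans hT1
    have h1 := K4.Qp_cold_B2 (b := 0) hP ht.1.le ht1 hg1 hg2 (hWm t x) (hW0 t ht x) x v (hWN t ht x v)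
    refine le_self_add.trans (h1.trans ?_)
    unfold EE
    rw [mul_assoc, mul_assoc]
    exact hmono (by unfold CKi; linarith)
  · -- lW
    intro t ht x v
    have h1 := Lc_cold' hR (hW0 t ht x) v
    refine h1.trans ?_
    calc ENNReal.ofReal (2 * π * (P.Y + 5)) * ev v * ∫⁻ u, warm P t x u
        ≤ ENNReal.ofReal (2 * π * (P.Y + 5)) * ev v * tx q t x :=
          mul_le_mul_right (hWq.mass t ht x) _
      _ = ENNReal.ofReal (2 * π * (P.Y + 5)) * (tx q t x * ev v) := by ring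
      _ ≤ ENNReal.ofReal (CKi P g g1 g2) * (tx q t x * ev v) := hmono (by unfold CKi; linarith)
      _ = _ := by ring

end Crest.Agent.R68.KC
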