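import Crest.Agent.R68.K2b
import Crest.Agent.R68.Carl4
import Crest.Agent.R68.Defs
import Crest.Agent.R68.ZDefs
import Crest.Agent.R68.A2
import Crest.Agent.R68.FCell
import Crest.Agent.R68.FSum
import Crest.Agent.R68.CSize1

-- ▼ part R68/IntLg
section

/-!
Row 68, PART I (helper858), module 3: `lg a = log (1 + a)` on `[0,∞]`.
-/

set_option autoImplicit false
open MeasureTheory Set Filter Metric
open scoped ENNReal Topology Real
open Crest.AnalysisR.VecCalc3 Crest.AnalysisR.PDE.Boltzmann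

noncomputable section

namespace Crest.Agent.R68.I

open scoped Classical in
/-- `log (1 + a)` on `[0,∞]` -/
def lg (a : ℝ≥0∞) : ℝ≥0∞ := if a = ⊤ then ⊤ else ENNReal.ofReal (Real.log (1 + a.toReal))

@[simp] lemma lg_top : lg ⊤ = ⊤ := by simp [lg]

@[simp] lemma lg_zero : lg 0 = 0 := by simp [lg]

lemma lg_ofReal {x : ℝ} (hx : 0 ≤ x) : lg (ENNReal.ofReal x) = ENNReal.ofReal (Real.log (1 + x)) := by
  simp [lg, ENNReal.toReal_ofReal hx]

lemma measurable_lg : Measurable lg := by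
  unfold lg
  refine Measurable.ite (measurableSet_singleton _) measurable_const ?_
  exact (Real.measurable_log.comp (measurable_const.add ENNReal.measurable_toReal)).ennreal_ofReal

lemma lg_mono {a b : ℝ≥0∞} (h : a ≤ b) : lg a ≤ lg b := by
  by_cases hb : b = ⊤
  · subst hb; simp
  · have ha : a ≠ ⊤ := ne_top_of_le_ne_top hb h
    unfold lg
    rw [if_neg ha, if_neg hb]
    apply ENNReal.ofReal_le_ofReal
    apply Real.log_le_log
    · have := ENNReal.toReal_nonneg (a := a); linarith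
    · have := (ENNReal.toReal_le_toReal ha hb).2 h; linarith

lemma lg_add_le (a b : ℝ≥0∞) : lg (a + b) ≤ lg a + lg b := by
  by_cases ha : a = ⊤
  · subst ha; simp
  by_cases hb : b = ⊤
  · subst hb; simp
  unfold lg
  rw [if_neg (ENNReal.add_ne_top.2 ⟨ha, hb⟩), if_neg ha, if_neg hb, ENNReal.toReal_add ha hb]
  have h1 := ENNReal.toReal_nonneg (a := a)
  have h2 := ENNReal.toReal_nonneg (a := b)
  rw [← ENNReal.ofReal_add (Real.log_nonneg (by linarith)) (Real.log_nonneg (by linarith)),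
    ← Real.log_mul (by linarith) (by linarith)]
  apply ENNReal.ofReal_le_ofReal
  apply Real.log_le_log (by linarith)
  nlinarith

lemma lg_mul_le (a b : ℝ≥0∞) : lg (a * b) ≤ lg a + lg b := by
  by_cases ha : a = ⊤
  · subst ha; simp
  by_cases hb : b = ⊤
  · subst hb; simp
  unfold lg
  rw [if_neg (ENNReal.mul_ne_top ha hb), if_neg ha, if_neg hb, ENNReal.toReal_mul]
  have h1 := ENNReal.toReal_nonneg (a := a)
  have h2 := ENNReal.toReal_nonneg (a := b)
  rw [← ENNReal.ofReal_add (Real.log_nonneg (by linarith)) (Real.log_nonneg (by linarith)),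
    ← Real.log_mul (by linarith) (by linarith)]
  apply ENNReal.ofReal_le_ofReal
  have h3 := mul_nonneg h1 h2
  apply Real.log_le_log (by linarith)
  nlinarith

lemma lg_le_self (a : ℝ≥0∞) : lg a ≤ a := by
  by_cases ha : a = ⊤
  · subst ha; simp
  unfold lg
  rw [if_neg ha]
  conv_rhs => rw [← ENNReal.ofReal_toReal ha]
  apply ENNReal.ofReal_le_ofReal
  have h1 := ENNReal.toReal_nonneg (a := a)
  have := Real.log_le_sub_one_of_pos (show 0 < 1 + a.toReal by linarith)
  linarith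

lemma lg_ne_top {a : ℝ≥0∞} (ha : a ≠ ⊤) : lg a ≠ ⊤ := ne_top_of_le_ne_top ha (lg_le_self a)


lemma add_mul_lg_le (a b : ℝ≥0∞) : (a + b) * lg (a + b) ≤ 2 * (a * lg a) + 2 * (b * lg b) := by
  calc (a + b) * lg (a + b) ≤ (a + b) * (lg a + lg b) := by gcongr; exact lg_add_le a b
    _ = a * lg a + b * lg b + a * lg b + b * lg a := by ring
    _ ≤ a * lg a + b * lg b + a * lg b + b * lg a := le_rfl
    _ ≤ 2 * (a * lg a) + 2 * (b * lg b) := by
        have h : a * lg b + b * lg a ≤ a * lg a + b * lg b := by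
          by_cases ha : a = ⊤
          · subst ha
            simp only [lg_top]
            have : (⊤ : ℝ≥0∞) * ⊤ + b * lg b = ⊤ := by simp
            rw [this]; exact le_top
          by_cases hb : b = ⊤
          · subst hb
            simp only [lg_top]
            have : a * lg a + (⊤ : ℝ≥0∞) * ⊤ = ⊤ := by simp
            rw [this]; exact le_top
          have hla := lg_ne_top ha
          have hlb := lg_ne_top hb
          rw [← ENNReal.toReal_le_toReal (by finiteness) (by finiteness),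
            ENNReal.toReal_add (by finiteness) (by finiteness),
            ENNReal.toReal_add (by finiteness) (by finiteness)]
          simp only [ENNReal.toReal_mul]
          rcases le_total a b with h | h
          · have h1 := (ENNReal.toReal_le_toReal ha hb).2 h
            have h2 := (ENNReal.toReal_le_toReal hla hlb).2 (lg_mono h)
            nlinarith
          · have h1 := (ENNReal.toReal_le_toReal hb ha).2 h
            have h2 := (ENNReal.toReal_le_toReal hlb hla).2 (lg_mono h)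
            nlinarith
        calc a * lg a + b * lg b + a * lg b + b * lg a
            = (a * lg a + b * lg b) + (a * lg b + b * lg a) := by ring
          _ ≤ (a * lg a + b * lg b) + (a * lg a + b * lg b) := by gcongr
          _ = _ := by ring

/-- `log (1 + x) ≤ x ^ κ / κ` -/
lemma log_one_add_le_rpow {x κ : ℝ} (hx : 0 ≤ x) (hκ : 0 < κ) (hκ1 : κ ≤ 1) :
    Real.log (1 + x) ≤ x ^ κ / κ := by
  rw [le_div_iff₀ hκ, mul_comm, ← Real.log_rpow (by linarith)]
  have h1 : (1 + x) ^ κ ≤ 1 + x ^ κ := by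
    obtain ⟨y, rfl⟩ : ∃ y : NNReal, (y : ℝ) = x := ⟨⟨x, hx⟩, rfl⟩
    have h2 := NNReal.rpow_add_le_add_rpow (1 : NNReal) y hκ.le hκ1
    rw [NNReal.one_rpow] at h2
    exact_mod_cast h2
  calc Real.log ((1 + x) ^ κ) ≤ Real.log (1 + x ^ κ) :=
        Real.log_le_log (by positivity) h1
    _ ≤ x ^ κ := by
        have := Real.log_le_sub_one_of_pos (show 0 < 1 + x ^ κ by positivity)
        linarith

lemma lg_le_rpow (a : ℝ≥0∞) {κ : ℝ} (hκ : 0 < κ) (hκ1 : κ ≤ 1) :
    lg a ≤ ENNReal.ofReal (1 / κ) * a ^ κ := by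
  by_cases ha : a = ⊤
  · subst ha
    rw [ENNReal.top_rpow_of_pos hκ, ENNReal.mul_top (by positivity)]
    exact le_top
  have h1 := ENNReal.toReal_nonneg (a := a)
  have h2 : a ^ κ = ENNReal.ofReal (a.toReal ^ κ) := by
    conv_lhs => rw [← ENNReal.ofReal_toReal ha]
    rw [ENNReal.ofReal_rpow_of_nonneg h1 hκ.le]
  unfold lg
  rw [if_neg ha, h2, ← ENNReal.ofReal_mul (by positivity)]
  apply ENNReal.ofReal_le_ofReal
  refine (log_one_add_le_rpow h1 hκ hκ1).trans (le_of_eq ?_)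
  ring

open Crest.Agent.R68.K2 in
/-- `lg (|z|^{-3/2}) ≤ (3/2) |z|^{-1}` -/
lemma lg_pk_le (x : ℝ) : lg (pk x) ≤ ENNReal.ofReal (3 / 2) * ENNReal.ofReal x ^ (-1 : ℝ) := by
  have h := lg_le_rpow (pk x) (κ := 2 / 3) (by norm_num) (by norm_num)
  have h2 : pk x ^ (2 / 3 : ℝ) = ENNReal.ofReal x ^ (-1 : ℝ) := by
    unfold pk
    rw [← ENNReal.rpow_mul]; norm_num
  rw [h2] at h
  refine h.trans (le_of_eq ?_)
  norm_num

end Crest.Agent.R68.I
end
end

-- ▼ part R68/IntA
section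

/-!
Row 68, PART I (helper858), module 4: velocity integrals (moments with poles, potential of a
sphere, gain against a pole).
-/

set_option autoImplicit false
open MeasureTheory Set Filter Metric
open scoped ENNReal Topology Real
open Crest.AnalysisR.VecCalc3 Crest.AnalysisR.PDE.Boltzmann

noncomputable section

namespace Crest.Agent.R68.I

open Crest.Agent.R68.K2

/-- `1 + |v|` -/
def qv (v : R3) : ℝ≥0∞ := 1 + ENNReal.ofReal ‖v‖

/-- `e^{-|v|}` -/
def em (v : R3) : ℝ≥0∞ := ENNReal.ofReal (Real.exp (-‖v‖))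

@[fun_prop]
lemma measurable_qv : Measurable qv := by unfold qv; fun_prop

@[fun_prop]
lemma measurable_em : Measurable em := by unfold em; fun_prop

lemma qv_eq (v : R3) : qv v = ENNReal.ofReal (1 + ‖v‖) := by
  unfold qv
  rw [ENNReal.ofReal_add zero_le_one (norm_nonneg _), ENNReal.ofReal_one]

lemma one_le_qv (v : R3) : 1 ≤ qv v := le_self_add

lemma qv_ne_top (v : R3) : qv v ≠ ⊤ := by rw [qv_eq]; exact ENNReal.ofReal_ne_top

lemma pow_le_factorial_exp (k : ℕ) {x : ℝ} (hx : 0 ≤ x) : x ^ k ≤ k.factorial * Real.exp x := by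
  have h := Real.pow_div_factorial_le_exp x hx k
  rwa [div_le_iff₀ (by positivity), mul_comm] at h

lemma qv_pow_em_le (k : ℕ) (v : R3) : qv v ^ k * em v ≤ ENNReal.ofReal (Real.exp 1 * k.factorial) := by
  rw [qv_eq, em, ← ENNReal.ofReal_pow (by positivity), ← ENNReal.ofReal_mul (by positivity)]
  apply ENNReal.ofReal_le_ofReal
  have h := pow_le_factorial_exp k (x := 1 + ‖v‖) (by positivity)
  calc (1 + ‖v‖) ^ k * Real.exp (-‖v‖) ≤ (k.factorial * Real.exp (1 + ‖v‖)) * Real.exp (-‖v‖) := by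
        gcongr
    _ = Real.exp 1 * k.factorial := by
        rw [Real.exp_add, Real.exp_neg]
        field_simp

/-- `∫ (1+|v|)^k e^{-|v|}` -/
def JJ (k : ℕ) : ℝ≥0∞ := ∫⁻ v, qv v ^ k * em v

lemma JJ_lt_top (k : ℕ) : JJ k < ⊤ := by
  have h1 : (∫⁻ x : R3, ENNReal.ofReal ((1 + ‖x‖) ^ (-(4 : ℝ)))) < ⊤ :=
    finite_integral_one_add_norm (by simp; norm_num)
  have h2 : ∀ v : R3, qv v ^ k * em v ≤ ENNReal.ofReal (Real.exp 1 * (k + 4).factorial) *
      ENNReal.ofReal ((1 + ‖v‖) ^ (-(4 : ℝ))) := by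
    intro v
    have h3 := qv_pow_em_le (k + 4) v
    have h4 : (0 : ℝ) < 1 + ‖v‖ := by positivity
    have h5 : ENNReal.ofReal ((1 + ‖v‖) ^ (-(4 : ℝ))) = (qv v ^ 4)⁻¹ := by
      rw [Real.rpow_neg h4.le, ENNReal.ofReal_inv_of_pos (by positivity), qv_eq,
        ← ENNReal.ofReal_pow h4.le]
      norm_cast
    rw [h5]
    have h6 : qv v ^ 4 ≠ 0 := pow_ne_zero _ (zero_lt_one.trans_le (one_le_qv v)).ne'
    have h7 : qv v ^ 4 ≠ ⊤ := ENNReal.pow_ne_top (qv_ne_top v)
    calc qv v ^ k * em v = (qv v ^ (k + 4) * em v) * (qv v ^ 4)⁻¹ := by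
          rw [pow_add, mul_assoc, mul_assoc, mul_comm (em v), ← mul_assoc (qv v ^ 4),
            ENNReal.mul_inv_cancel h6 h7, one_mul]
      _ ≤ _ := by gcongr
  unfold JJ
  refine (lintegral_mono h2).trans_lt ?_
  rw [lintegral_const_mul' _ _ ENNReal.ofReal_ne_top]
  exact ENNReal.mul_lt_top ENNReal.ofReal_lt_top h1

/-! ### poles -/

/-- `|v-u|^{-a}` -/
def pa (a : ℝ) (u v : R3) : ℝ≥0∞ := ENNReal.ofReal ‖v - u‖ ^ (-a)

@[fun_prop]
lemma measurable_pa (a : ℝ) (u : R3) : Measurable (pa a u) := by unfold pa; fun_prop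

lemma pa_le_one {a : ℝ} (ha : 0 ≤ a) {u v : R3} (h : 1 ≤ ‖v - u‖) : pa a u v ≤ 1 := by
  unfold pa
  rw [ENNReal.rpow_neg]
  apply ENNReal.inv_le_one.2
  calc (1 : ℝ≥0∞) = 1 ^ a := (ENNReal.one_rpow a).symm
    _ ≤ _ := by
        apply ENNReal.rpow_le_rpow _ ha
        rwa [ENNReal.one_le_ofReal]

lemma pk_eq_pa (u v : R3) : pk ‖v - u‖ = pa (3 / 2) u v := rfl

/-- powers of `y = |v-u|^{-1/2}` -/
lemma pa_eq_pow (n : ℕ) (u v : R3) : pa (n / 2) u v = pa (1 / 2) u v ^ n := by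
  unfold pa
  rw [← ENNReal.rpow_natCast, ← ENNReal.rpow_mul]
  congr 1
  ring

lemma sq_le_add (y : ℝ≥0∞) : y ^ 2 ≤ 1 + y ^ 5 := by
  rcases le_total y 1 with h | h
  · exact (pow_le_one₀ zero_le h).trans le_self_add
  · exact (pow_le_pow_right₀ h (by norm_num)).trans le_add_self

lemma cube_le_add (y : ℝ≥0∞) : y ^ 3 ≤ 1 + y ^ 5 := by
  rcases le_total y 1 with h | h
  · exact (pow_le_one₀ zero_le h).trans le_self_add
  · exact (pow_le_pow_right₀ h (by norm_num)).trans le_add_self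

lemma mix_le_add (y z : ℝ≥0∞) : y ^ 3 * z ^ 2 ≤ y ^ 5 + z ^ 5 := by
  rcases le_total y z with h | h
  · calc y ^ 3 * z ^ 2 ≤ z ^ 3 * z ^ 2 := by gcongr
      _ = z ^ 5 := by ring
      _ ≤ _ := le_add_self
  · calc y ^ 3 * z ^ 2 ≤ y ^ 3 * y ^ 2 := by gcongr
      _ = y ^ 5 := by ring
      _ ≤ _ := le_self_add

/-- `(1 + Σ r_i^{-3/2}) (1 + Σ r_j^{-1}) ≤ (2+2m)(1 + Σ r_i^{-5/2})` -/
lemma Sw_mul_le {ι : Type} [Fintype ι] (u : ι → R3) (v : R3) :
    Sw u v * (1 + ∑ i, pa 1 (u i) v) ≤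
      (2 + 2 * Fintype.card ι) * (1 + ∑ i, pa (5 / 2) (u i) v) := by
  set y : ι → ℝ≥0∞ := fun i => pa (1 / 2) (u i) v with hy
  have e1 : ∀ i, pa 1 (u i) v = y i ^ 2 := fun i => by
    have := pa_eq_pow 2 (u i) v; norm_num at this; exact this
  have e2 : ∀ i, pk ‖v - u i‖ = y i ^ 3 := fun i => by
    rw [pk_eq_pa]; have := pa_eq_pow 3 (u i) v; norm_num at this; exact this
  have e3 : ∀ i, pa (5 / 2) (u i) v = y i ^ 5 := fun i => by
    have := pa_eq_pow 5 (u i) v; norm_num at this; exact this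
  unfold Sw
  simp_rw [e1, e2, e3]
  set m : ℝ≥0∞ := (Fintype.card ι : ℝ≥0∞) with hm
  set S5 : ℝ≥0∞ := ∑ i, y i ^ 5 with hS5
  have h2 : ∑ i, y i ^ 2 ≤ m + S5 := by
    calc ∑ i, y i ^ 2 ≤ ∑ i, (1 + y i ^ 5) := Finset.sum_le_sum fun i _ => sq_le_add _
      _ = m + S5 := by
        rw [Finset.sum_add_distrib, Finset.sum_const, Finset.card_univ, nsmul_eq_mul, mul_one]
  have h3 : ∑ i, y i ^ 3 ≤ m + S5 := by
    calc ∑ i, y i ^ 3 ≤ ∑ i, (1 + y i ^ 5) := Finset.sum_le_sum fun i _ => cube_le_add _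
      _ = m + S5 := by
        rw [Finset.sum_add_distrib, Finset.sum_const, Finset.card_univ, nsmul_eq_mul, mul_one]
  have h4 : (∑ i, y i ^ 3) * ∑ j, y j ^ 2 ≤ 2 * m * S5 := by
    rw [Finset.sum_mul_sum]
    calc ∑ i, ∑ j, y i ^ 3 * y j ^ 2 ≤ ∑ i, ∑ j, (y i ^ 5 + y j ^ 5) :=
          Finset.sum_le_sum fun i _ => Finset.sum_le_sum fun j _ => mix_le_add _ _
      _ = 2 * m * S5 := by
        simp_rw [Finset.sum_add_distrib, Finset.sum_const, Finset.card_univ, nsmul_eq_mul]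
        rw [← Finset.mul_sum]
        ring
  calc (1 + ∑ i, y i ^ 3) * (1 + ∑ j, y j ^ 2)
      = 1 + ∑ i, y i ^ 3 + ∑ j, y j ^ 2 + (∑ i, y i ^ 3) * ∑ j, y j ^ 2 := by ring
    _ ≤ 1 + (m + S5) + (m + S5) + 2 * m * S5 := by gcongr
    _ ≤ 1 + (m + S5) + (m + S5) + 2 * m * S5 + 1 := le_self_add
    _ = (2 + 2 * m) * (1 + S5) := by ring

/-- moments with poles -/
theorem lint_poles (k : ℕ) : ∃ C : ℝ≥0∞, C < ⊤ ∧ ∀ {ι : Type} [Fintype ι] (u : ι → R3),
    ∫⁻ v, qv v ^ k * em v * (1 + ∑ i, pa (5 / 2) (u i) v) ≤ C * (1 + Fintype.card ι) := by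
  refine ⟨JJ k + ENNReal.ofReal (Real.exp 1 * k.factorial) * ENNReal.ofReal (8 * π),
    ENNReal.add_lt_top.2 ⟨JJ_lt_top k, ENNReal.mul_lt_top ENNReal.ofReal_lt_top
      ENNReal.ofReal_lt_top⟩, ?_⟩
  intro ι _ u
  set B : R3 → ℝ≥0∞ := (ball (0 : R3) 1).indicator (fun z => ENNReal.ofReal ‖z‖ ^ (-(5 / 2) : ℝ))
    with hB
  have hBm : Measurable B := Measurable.indicator (by fun_prop) measurableSet_ball
  have hle : ∀ i v, pa (5 / 2) (u i) v ≤ 1 + B (v - u i) := by
    intro i v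
    by_cases hv : v - u i ∈ ball (0 : R3) 1
    · rw [hB, indicator_of_mem hv]
      exact le_add_self
    · have : 1 ≤ ‖v - u i‖ := not_lt.1 fun h => hv (mem_ball_zero_iff.2 h)
      exact (pa_le_one (by norm_num) this).trans le_self_add
  set C0 : ℝ≥0∞ := ENNReal.ofReal (Real.exp 1 * k.factorial) with hC0
  have hwm : Measurable fun v => qv v ^ k * em v := by fun_prop
  calc ∫⁻ v, qv v ^ k * em v * (1 + ∑ i, pa (5 / 2) (u i) v)
      ≤ ∫⁻ v, ((1 + Fintype.card ι) * (qv v ^ k * em v) + C0 * ∑ i, B (v - u i)) := by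
        refine lintegral_mono fun v => ?_
        calc qv v ^ k * em v * (1 + ∑ i, pa (5 / 2) (u i) v)
            ≤ qv v ^ k * em v * (1 + ∑ i, (1 + B (v - u i))) := by
              gcongr with i _; exact hle i v
          _ = (1 + Fintype.card ι) * (qv v ^ k * em v) +
              (qv v ^ k * em v) * ∑ i, B (v - u i) := by
              rw [Finset.sum_add_distrib, Finset.sum_const, Finset.card_univ, nsmul_eq_mul, mul_one]
              ring
          _ ≤ _ := by gcongr; exact qv_pow_em_le k v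
    _ = (1 + Fintype.card ι) * JJ k + C0 * ∑ i : ι, ENNReal.ofReal (8 * π) := by
        rw [lintegral_add_left (hwm.const_mul _), lintegral_const_mul _ hwm, JJ,
          lintegral_const_mul]
        · congr 2
          rw [lintegral_finsetSum]
          · refine Finset.sum_congr rfl fun i _ => ?_
            rw [lintegral_sub_right_eq_self (fun v => B v) (u i), lintegral_ball_52]
          · intro i _
            exact hBm.comp (by fun_prop)
        · exact Finset.measurable_sum _ fun i _ => hBm.comp (by fun_prop)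
    _ = (1 + Fintype.card ι) * JJ k + C0 * (Fintype.card ι * ENNReal.ofReal (8 * π)) := by
        rw [Finset.sum_const, Finset.card_univ, nsmul_eq_mul]
    _ ≤ (1 + Fintype.card ι) * JJ k + C0 * ((1 + Fintype.card ι) * ENNReal.ofReal (8 * π)) := by
        gcongr; exact le_add_self
    _ = _ := by ring

/-! ### potential of a sphere -/

lemma lintegral_rpow_Ioo' {s b : ℝ} (hs : -1 < s) (hb : 0 ≤ b) :
    ∫⁻ r in Ioo (0 : ℝ) b, ENNReal.ofReal (r ^ s) = ENNReal.ofReal (b ^ (s + 1) / (s + 1)) := by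
  have h1 : IntervalIntegrable (fun r : ℝ => r ^ s) volume 0 b :=
    intervalIntegral.intervalIntegrable_rpow' hs
  have h2 : ∫ r in (0 : ℝ)..b, r ^ s = b ^ (s + 1) / (s + 1) := by
    rw [integral_rpow (Or.inl hs), Real.zero_rpow (by linarith)]
    ring
  rw [← h2, intervalIntegral.integral_of_le hb, integral_Ioc_eq_integral_Ioo,
    ofReal_integral_eq_lintegral_ofReal]
  · exact (h1.1).mono_set Ioo_subset_Ioc_self
  · filter_upwards [ae_restrict_mem measurableSet_Ioo] with r hr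
    exact Real.rpow_nonneg hr.1.le s

lemma lint_arc : ∫⁻ t in Ioo (-1 : ℝ) 1, ENNReal.ofReal (√(1 - t ^ 2)) ^ (-1 : ℝ) ≤
    ENNReal.ofReal (4 * √2) := by
  have h0 : ∀ t ∈ Ioo (-1 : ℝ) 1, ENNReal.ofReal (√(1 - t ^ 2)) ^ (-1 : ℝ) ≤
      ENNReal.ofReal ((1 - t) ^ (-(1 / 2) : ℝ)) + ENNReal.ofReal ((t + 1) ^ (-(1 / 2) : ℝ)) := by
    intro t ht
    have h1 : 0 < 1 - t := by linarith [ht.2]
    have h2 : 0 < t + 1 := by linarith [ht.1]
    have h3 : 0 < 1 - t ^ 2 := by nlinarith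
    rw [ENNReal.ofReal_rpow_of_pos (Real.sqrt_pos.2 h3), Real.sqrt_eq_rpow, ← Real.rpow_mul h3.le]
    rw [show (1 / 2 : ℝ) * -1 = -(1 / 2) by norm_num]
    rcases le_total t 0 with h | h
    · refine le_trans ?_ le_add_self
      apply ENNReal.ofReal_le_ofReal
      apply Real.rpow_le_rpow_of_nonpos h2 (by nlinarith) (by norm_num)
    · refine le_trans ?_ le_self_add
      apply ENNReal.ofReal_le_ofReal
      apply Real.rpow_le_rpow_of_nonpos h1 (by nlinarith) (by norm_num)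
  calc _ ≤ ∫⁻ t in Ioo (-1 : ℝ) 1, (ENNReal.ofReal ((1 - t) ^ (-(1 / 2) : ℝ)) +
        ENNReal.ofReal ((t + 1) ^ (-(1 / 2) : ℝ))) := setLIntegral_mono' measurableSet_Ioo h0
    _ = (∫⁻ t in Ioo (-1 : ℝ) 1, ENNReal.ofReal ((1 - t) ^ (-(1 / 2) : ℝ))) +
        ∫⁻ t in Ioo (-1 : ℝ) 1, ENNReal.ofReal ((t + 1) ^ (-(1 / 2) : ℝ)) := by
        rw [lintegral_add_left (by fun_prop)]
    _ = ENNReal.ofReal (2 * √2) + ENNReal.ofReal (2 * √2) := by
        have hI : ∫⁻ r in Ioo (0 : ℝ) 2, ENNReal.ofReal (r ^ (-(1 / 2) : ℝ)) =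
            ENNReal.ofReal (2 * √2) := by
          rw [lintegral_rpow_Ioo' (by norm_num) (by norm_num)]
          congr 1
          rw [Real.sqrt_eq_rpow]; norm_num; ring
        congr 1
        · rw [← hI]
          have := (Measure.measurePreserving_sub_left (volume : Measure ℝ) 1).setLIntegral_comp_preimage_emb
            (MeasurableEquiv.subLeft (1 : ℝ)).measurableEmbedding
            (fun r => ENNReal.ofReal (r ^ (-(1 / 2) : ℝ))) (Ioo 0 2)
          rw [← this]
          congr 2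
          ext t
          simp only [mem_preimage, mem_Ioo]
          constructor <;> rintro ⟨h1, h2⟩ <;> constructor <;> linarith
        · rw [← hI]
          have := (measurePreserving_add_right (volume : Measure ℝ) 1).setLIntegral_comp_preimage_emb
            (measurableEmbedding_addRight 1)
            (fun r => ENNReal.ofReal (r ^ (-(1 / 2) : ℝ))) (Ioo 0 2)
          rw [← this]
          congr 2
          ext t
          simp only [mem_preimage, mem_Ioo]
          constructor <;> rintro ⟨h1, h2⟩ <;> constructor <;> linarith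
    _ = _ := by rw [← ENNReal.ofReal_add (by positivity) (by positivity)]; congr 1; ring

end Crest.Agent.R68.I
end
end

-- ▼ part R68/IntB
section

/-!
Row 68, PART I (helper858), module 5: gain against a pole, profile bound.
-/

set_option autoImplicit false
open MeasureTheory Set Filter Metric
open scoped ENNReal Topology Real
open Crest.AnalysisR.VecCalc3 Crest.AnalysisR.PDE.Boltzmann

noncomputable section

namespace Crest.Agent.R68.I

open Crest.Agent.R68.K2

/-- constant of the sphere potential -/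
def Csph : ℝ≥0∞ := ENNReal.ofReal (2 * π) * ENNReal.ofReal (4 * √2)

lemma Csph_lt_top : Csph < ⊤ := ENNReal.mul_lt_top ENNReal.ofReal_lt_top ENNReal.ofReal_lt_top

lemma sphere_potential {ρ : ℝ} (hρ : 0 ≤ ρ) (a : R3) :
    ENNReal.ofReal ρ * ∫⁻ s, ENNReal.ofReal ‖a + ρ • s‖ ^ (-1 : ℝ) ∂sphereMeasure ≤ Csph := by
  rcases hρ.eq_or_lt with h0 | h0
  · rw [← h0]; simp
  obtain ⟨e, he, hae⟩ : ∃ e : R3, ‖e‖ = 1 ∧ a = ‖a‖ • e := by
    by_cases ha : a = 0
    · exact ⟨ez, norm_ez, by rw [ha]; simp⟩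
    · refine ⟨‖a‖⁻¹ • a, ?_, ?_⟩
      · rw [norm_smul, norm_inv, norm_norm, inv_mul_cancel₀ (norm_ne_zero_iff.2 ha)]
      · rw [smul_smul, mul_inv_cancel₀ (norm_ne_zero_iff.2 ha), one_smul]
  set f : ℝ → ℝ≥0∞ := fun t => ENNReal.ofReal (√(1 - t ^ 2)) ^ (-1 : ℝ) with hf
  have hfm : Measurable f := by rw [hf]; fun_prop
  have h1 : ∀ᵐ s ∂sphereMeasure, ENNReal.ofReal ‖a + ρ • s‖ ^ (-1 : ℝ) ≤
      (ENNReal.ofReal ρ)⁻¹ * f (inner ℝ e s) := by
    filter_upwards [ae_sphereMeasure] with s hs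
    have h2 : ρ * √(1 - (inner ℝ e s : ℝ) ^ 2) ≤ ‖a + ρ • s‖ := by
      apply le_of_sq_le_sq _ (norm_nonneg _)
      have h3 : (inner ℝ e s : ℝ) ^ 2 ≤ 1 := by
        have := abs_real_inner_le_norm e s
        rw [he, hs, mul_one] at this
        rw [← sq_abs]
        exact pow_le_one₀ (abs_nonneg _) this
      rw [mul_pow, Real.sq_sqrt (by linarith), norm_add_sq_real, norm_smul, hs, mul_one,
        inner_smul_right, Real.norm_of_nonneg h0.le]
      have h4 : (inner ℝ a s : ℝ) = ‖a‖ * inner ℝ e s := by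
        conv_lhs => rw [hae]
        rw [real_inner_smul_left]
      rw [h4]
      nlinarith [sq_nonneg (‖a‖ + ρ * (inner ℝ e s : ℝ))]
    have h5 : (ENNReal.ofReal ρ)⁻¹ = ENNReal.ofReal ρ ^ (-1 : ℝ) := (ENNReal.rpow_neg_one _).symm
    rw [h5, hf]
    simp only
    rw [← ENNReal.mul_rpow_of_ne_top ENNReal.ofReal_ne_top ENNReal.ofReal_ne_top,
      ← ENNReal.ofReal_mul h0.le, ENNReal.rpow_neg_one, ENNReal.rpow_neg_one]
    exact ENNReal.inv_le_inv.2 (ENNReal.ofReal_le_ofReal h2)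
  calc _ ≤ ENNReal.ofReal ρ * ∫⁻ s, (ENNReal.ofReal ρ)⁻¹ * f (inner ℝ e s) ∂sphereMeasure := by
        exact mul_le_mul' le_rfl (lintegral_mono_ae h1)
    _ = ENNReal.ofReal ρ * ((ENNReal.ofReal ρ)⁻¹ * ∫⁻ s, f (inner ℝ e s) ∂sphereMeasure) := by
        have hfm2 : Measurable fun s : R3 => f (inner ℝ e s) := hfm.comp (by fun_prop)
        rw [lintegral_const_mul _ hfm2]
    _ = ∫⁻ s, f (inner ℝ e s) ∂sphereMeasure := by
        rw [← mul_assoc, ENNReal.mul_inv_cancel (by simpa using h0) ENNReal.ofReal_ne_top, one_mul]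
    _ = ENNReal.ofReal (2 * π) * ∫⁻ t in Ioo (-1 : ℝ) 1, f t := lintegral_sphere_inner he hfm
    _ ≤ Csph := by
        unfold Csph
        gcongr
        exact lint_arc

lemma measurable_Qp' {f g : R3 → ℝ≥0∞} (hf : Measurable f) (hg : Measurable g) :
    Measurable (Qp f g) := R68.measurable_Qp hf hg

lemma measurable_Lc' {g : R3 → ℝ≥0∞} (hg : Measurable g) : Measurable (Lc g) := by
  have : Lc g = fun v => ENNReal.ofReal (2 * π) * ∫⁻ vs, ENNReal.ofReal ‖v - vs‖ * g vs := by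
    funext v; exact R68.Lc_eq hg v
  rw [this]
  refine Measurable.const_mul ?_ _
  exact Measurable.lintegral_prod_right' (f := fun p : R3 × R3 => ENNReal.ofReal ‖p.1 - p.2‖ * g p.2)
    (by fun_prop)

/-- gain against a pole -/
lemma lint_gain_pole {g : R3 → ℝ≥0∞} (hg : Measurable g) (u : R3) :
    ∫⁻ v, pa 1 u v * Qp g g v ≤ Csph * (∫⁻ v, g v) ^ 2 := by
  rw [lintegral_mul_Qp_sigma (measurable_pa 1 u) hg hg]
  calc _ ≤ ∫⁻ v, ∫⁻ vs, g v * g vs * Csph := by
        refine lintegral_mono fun v => lintegral_mono fun vs => ?_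
        refine mul_le_mul' le_rfl ?_
        have h := sphere_potential (ρ := ‖v - vs‖ / 2) (by positivity) ((1 / 2 : ℝ) • (v + vs) - u)
        refine le_trans (le_of_eq ?_) h
        congr 1
        refine lintegral_congr fun s => ?_
        unfold pa
        congr 3
        abel
    _ = Csph * (∫⁻ v, g v) ^ 2 := by
        have h1 : ∀ v, ∫⁻ vs, g v * g vs * Csph = g v * (∫⁻ vs, g vs) * Csph := by
          intro v
          rw [lintegral_mul_const _ (hg.const_mul _), lintegral_const_mul _ hg]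
        simp_rw [h1]
        rw [lintegral_mul_const _ (hg.mul_const _), lintegral_mul_const _ hg]
        ring

/-! ### moments -/

lemma Lc_le_qv {g : R3 → ℝ≥0∞} (hg : Measurable g) (v : R3) :
    Lc g v ≤ ENNReal.ofReal (2 * π) * (qv v * ∫⁻ vs, qv vs * g vs) := by
  rw [R68.Lc_eq hg]
  gcongr
  rw [← lintegral_const_mul _ (by fun_prop)]
  refine lintegral_mono fun vs => ?_
  have : ENNReal.ofReal ‖v - vs‖ ≤ qv v * qv vs := by
    rw [qv_eq, qv_eq, ← ENNReal.ofReal_mul (by positivity)]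
    apply ENNReal.ofReal_le_ofReal
    have := norm_sub_le v vs
    nlinarith [norm_nonneg v, norm_nonneg vs]
  calc _ ≤ qv v * qv vs * g vs := by gcongr
    _ = _ := by ring

/-- the weight `(1+|v|²)^{k/2}` -/
def wk (k : ℕ) (v : R3) : ℝ≥0∞ := ENNReal.ofReal ((1 + ‖v‖ ^ 2) ^ (k / 2 : ℝ))

@[fun_prop]
lemma measurable_wk (k : ℕ) : Measurable (wk k) := by unfold wk; fun_prop

lemma wk_le_qv (k : ℕ) (v : R3) : wk k v ≤ qv v ^ k := by
  unfold wk
  rw [qv_eq, ← ENNReal.ofReal_pow (by positivity)]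
  apply ENNReal.ofReal_le_ofReal
  have h0 : 0 ≤ 1 + ‖v‖ := by positivity
  have h1 : (1 + ‖v‖ ^ 2) ≤ (1 + ‖v‖) ^ 2 := by nlinarith [norm_nonneg v]
  calc (1 + ‖v‖ ^ 2) ^ (k / 2 : ℝ) ≤ ((1 + ‖v‖) ^ 2) ^ (k / 2 : ℝ) :=
        Real.rpow_le_rpow (by positivity) h1 (by positivity)
    _ = (1 + ‖v‖) ^ k := by
        rw [← Real.rpow_natCast, ← Real.rpow_mul h0, ← Real.rpow_natCast]
        congr 1
        push_cast; ring

/-- weight after a collision -/
lemma wk_post_le (k : ℕ) {v vs w : R3} (hw : ‖w‖ = 1) :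
    wk k (postVel v vs w) ≤ qv v ^ k * qv vs ^ k := by
  unfold wk
  rw [qv_eq, qv_eq, ← mul_pow, ← ENNReal.ofReal_mul (by positivity),
    ← ENNReal.ofReal_pow (by positivity)]
  apply ENNReal.ofReal_le_ofReal
  have h0 : 0 ≤ (1 + ‖v‖) * (1 + ‖vs‖) := by positivity
  have h1 : 1 + ‖postVel v vs w‖ ^ 2 ≤ ((1 + ‖v‖) * (1 + ‖vs‖)) ^ 2 := by
    have h := post_norm_sq hw v vs
    have h2 : ‖postVel v vs w‖ ^ 2 ≤ ‖v‖ ^ 2 + ‖vs‖ ^ 2 := by
      have := sq_nonneg ‖postVelStar v vs w‖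
      linarith
    have h3 : 0 ≤ ‖v‖ := norm_nonneg _
    have h4 : 0 ≤ ‖vs‖ := norm_nonneg _
    have h5 : (0:ℝ) ≤ ‖v‖ * ‖vs‖ := mul_nonneg h3 h4
    nlinarith [mul_nonneg h5 h3, mul_nonneg h5 h4, mul_nonneg h5 h5]
  calc (1 + ‖postVel v vs w‖ ^ 2) ^ (k / 2 : ℝ) ≤ (((1 + ‖v‖) * (1 + ‖vs‖)) ^ 2) ^ (k / 2 : ℝ) :=
        Real.rpow_le_rpow (by positivity) h1 (by positivity)
    _ = ((1 + ‖v‖) * (1 + ‖vs‖)) ^ k := by
        rw [← Real.rpow_natCast, ← Real.rpow_mul h0, ← Real.rpow_natCast]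
        congr 1
        push_cast; ring

lemma lint_wk_gain (k : ℕ) {g : R3 → ℝ≥0∞} (hg : Measurable g) :
    ∫⁻ v, wk k v * Qp g g v ≤ ENNReal.ofReal (2 * π) * (∫⁻ v, qv v ^ (k + 1) * g v) ^ 2 := by
  rw [lintegral_mul_Qp (measurable_wk k) hg hg]
  have hb : ∀ v vs : R3, ∫⁻ w, ENNReal.ofReal |inner ℝ (v - vs) w| * wk k (postVel v vs w)
      ∂sphereMeasure ≤ ENNReal.ofReal (2 * π) * (qv v ^ (k + 1) * qv vs ^ (k + 1)) := by
    intro v vs
    calc _ ≤ ∫⁻ w, ENNReal.ofReal |inner ℝ (v - vs) w| * (qv v ^ k * qv vs ^ k) ∂sphereMeasure := by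
          refine lintegral_mono_ae ?_
          filter_upwards [ae_sphereMeasure] with w hw
          gcongr
          exact wk_post_le k hw
      _ = ENNReal.ofReal (2 * π * ‖v - vs‖) * (qv v ^ k * qv vs ^ k) := lintegral_abs_inner_mul _ _
      _ ≤ ENNReal.ofReal (2 * π) * (qv v * qv vs) * (qv v ^ k * qv vs ^ k) := by
          gcongr
          rw [ENNReal.ofReal_mul (by positivity)]
          gcongr
          rw [qv_eq, qv_eq, ← ENNReal.ofReal_mul (by positivity)]
          apply ENNReal.ofReal_le_ofReal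
          have := norm_sub_le v vs
          nlinarith [norm_nonneg v, norm_nonneg vs]
      _ = _ := by ring
  calc _ ≤ ∫⁻ v, ∫⁻ vs, g v * g vs * (ENNReal.ofReal (2 * π) * (qv v ^ (k + 1) * qv vs ^ (k + 1))) :=
        lintegral_mono fun v => lintegral_mono fun vs => by gcongr; exact hb v vs
    _ = ∫⁻ v, ∫⁻ vs, ENNReal.ofReal (2 * π) * (qv v ^ (k + 1) * g v) * (qv vs ^ (k + 1) * g vs) := by
        refine lintegral_congr fun v => lintegral_congr fun vs => ?_
        ring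
    _ = _ := by
        have h1 : ∀ v, ∫⁻ vs, ENNReal.ofReal (2 * π) * (qv v ^ (k + 1) * g v) *
            (qv vs ^ (k + 1) * g vs) = ENNReal.ofReal (2 * π) * (qv v ^ (k + 1) * g v) *
              ∫⁻ vs, qv vs ^ (k + 1) * g vs := fun v => lintegral_const_mul _ (by fun_prop)
        simp_rw [h1]
        rw [lintegral_mul_const _ (by fun_prop), lintegral_const_mul _ (by fun_prop)]
        ring

lemma lint_wk_loss (k : ℕ) {g : R3 → ℝ≥0∞} (hg : Measurable g) :
    ∫⁻ v, wk k v * (g v * Lc g v) ≤ ENNReal.ofReal (2 * π) * (∫⁻ v, qv v ^ (k + 1) * g v) ^ 2 := by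
  have h0 : ∫⁻ vs, qv vs * g vs ≤ ∫⁻ v, qv v ^ (k + 1) * g v := by
    refine lintegral_mono fun v => ?_
    gcongr
    calc qv v = 1 * qv v := (one_mul _).symm
      _ ≤ qv v ^ k * qv v := by gcongr; exact one_le_pow₀ (one_le_qv v)
      _ = qv v ^ (k + 1) := (pow_succ _ _).symm
  calc _ ≤ ∫⁻ v, ENNReal.ofReal (2 * π) * (∫⁻ v, qv v ^ (k + 1) * g v) * (qv v ^ (k + 1) * g v) := by
        refine lintegral_mono fun v => ?_
        calc wk k v * (g v * Lc g v) ≤ qv v ^ k * (g v * (ENNReal.ofReal (2 * π) *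
              (qv v * ∫⁻ vs, qv vs * g vs))) := by
              gcongr
              · exact wk_le_qv k v
              · exact Lc_le_qv hg v
          _ ≤ qv v ^ k * (g v * (ENNReal.ofReal (2 * π) *
              (qv v * ∫⁻ v, qv v ^ (k + 1) * g v))) := by gcongr
          _ = _ := by ring
    _ = _ := by
        rw [lintegral_const_mul _ (by fun_prop)]
        ring

end Crest.Agent.R68.I
end
end

-- ▼ part R68/IntC
section

/-!
Row 68, PART I (helper858), module 6: the profile bound (weights `(1+|v|²)^{k/2} + log(1+g)`).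
-/

set_option autoImplicit false
open MeasureTheory Set Filter Metric
open scoped ENNReal Topology Real
open Crest.AnalysisR.VecCalc3 Crest.AnalysisR.PDE.Boltzmann

noncomputable section

namespace Crest.Agent.R68.I

open Crest.Agent.R68.K2

lemma em_le_one (v : R3) : em v ≤ 1 := by
  unfold em
  rw [ENNReal.ofReal_le_one, Real.exp_le_one_iff]
  simp

lemma lg_Sw_le {ι : Type} [Fintype ι] (u : ι → R3) (v : R3) :
    lg (Sw u v) ≤ ENNReal.ofReal (3 / 2) * (1 + ∑ i, pa 1 (u i) v) := by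
  unfold Sw
  refine (lg_add_le _ _).trans ?_
  have h1 : lg (∑ i, pk ‖v - u i‖) ≤ ∑ i, lg (pk ‖v - u i‖) := by
    classical
    induction (Finset.univ : Finset ι) using Finset.induction_on with
    | empty => simp
    | insert a s ha ih =>
      rw [Finset.sum_insert ha, Finset.sum_insert ha]
      exact (lg_add_le _ _).trans (by gcongr)
  have h2 : lg 1 ≤ ENNReal.ofReal (3 / 2) := by
    refine (lg_le_self 1).trans ?_
    rw [ENNReal.one_le_ofReal]; norm_num
  calc lg 1 + lg (∑ i, pk ‖v - u i‖) ≤ ENNReal.ofReal (3 / 2) +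
        ∑ i, ENNReal.ofReal (3 / 2) * pa 1 (u i) v := by
        gcongr
        refine h1.trans (Finset.sum_le_sum fun i _ => ?_)
        exact lg_pk_le _
    _ = _ := by rw [← Finset.mul_sum]; ring

lemma lg_h_le {ι : Type} [Fintype ι] (u : ι → R3) {A : ℝ≥0∞} {a : ℝ≥0∞} {v : R3}
    (h : a ≤ A * (Sw u v * em v)) :
    lg a ≤ (A + ENNReal.ofReal (3 / 2)) * (1 + ∑ i, pa 1 (u i) v) := by
  calc lg a ≤ lg (A * (Sw u v * em v)) := lg_mono h
    _ ≤ lg (A * Sw u v) := by
        apply lg_mono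
        gcongr
        calc Sw u v * em v ≤ Sw u v * 1 := by gcongr; exact em_le_one v
          _ = _ := mul_one _
    _ ≤ lg A + lg (Sw u v) := lg_mul_le _ _
    _ ≤ A * 1 + ENNReal.ofReal (3 / 2) * (1 + ∑ i, pa 1 (u i) v) := by
        gcongr
        · rw [mul_one]; exact lg_le_self A
        · exact lg_Sw_le u v
    _ ≤ A * (1 + ∑ i, pa 1 (u i) v) + ENNReal.ofReal (3 / 2) * (1 + ∑ i, pa 1 (u i) v) := by
        gcongr; exact le_self_add
    _ = _ := by ring

/-- **profile bound** -/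
theorem profile_bound (R : ℝ) (hR : 0 ≤ R) {A : ℝ≥0∞} (hA : A ≠ ⊤) (k M : ℕ) :
    ∃ C : ℝ≥0∞, C < ⊤ ∧ ∀ {ι : Type} [Fintype ι], Fintype.card ι ≤ M → ∀ (u : ι → R3)
      {c h g : R3 → ℝ≥0∞}, Measurable c → Measurable h → Measurable g →
      (∀ v, c v ≠ 0 → ‖v‖ ≤ R) → (∀ v, h v ≤ A * (Sw u v * em v)) →
      ∀ {Ψ n : ℝ≥0∞}, (∀ v, lg (c v) ≤ Ψ) → (∫⁻ v, c v ≤ n) → (∀ v, g v ≤ c v + h v) →
      ∫⁻ v, (wk k v + lg (g v)) * (Qp g g v + g v * Lc g v) ≤ C * ((1 + Ψ) * (1 + n) ^ 2) := by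
  choose J hJ hJ' using fun j => lint_poles j
  set A' : ℝ≥0∞ := A + ENNReal.ofReal (3 / 2) with hA'
  have hA't : A' ≠ ⊤ := by rw [hA']; finiteness
  -- moment constants
  set K : ℕ → ℝ≥0∞ := fun j => ENNReal.ofReal (1 + R) ^ j + A * ((2 + 2 * M) * (J j * (1 + M)))
    with hK
  have hKt : ∀ j, K j < ⊤ := by
    intro j
    rw [hK]
    refine ENNReal.add_lt_top.2 ⟨ENNReal.pow_lt_top ENNReal.ofReal_lt_top,
      ENNReal.mul_lt_top hA.lt_top (ENNReal.mul_lt_top (by finiteness)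
        (ENNReal.mul_lt_top (hJ j) (by finiteness)))⟩
  set D : ℝ≥0∞ := 2 * ENNReal.ofReal (1 + R) + 2 * (A * (A' * ((2 + 2 * M) * (J 1 * (1 + M)))))
    with hD
  have hDt : D < ⊤ := by
    rw [hD]
    refine ENNReal.add_lt_top.2 ⟨by finiteness, ENNReal.mul_lt_top (by finiteness)
      (ENNReal.mul_lt_top hA.lt_top (ENNReal.mul_lt_top hA't.lt_top
        (ENNReal.mul_lt_top (by finiteness) (ENNReal.mul_lt_top (hJ 1) (by finiteness)))))⟩
  set P2 : ℝ≥0∞ := ENNReal.ofReal (2 * π) with hP2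
  have hP2t : P2 < ⊤ := ENNReal.ofReal_lt_top
  refine ⟨P2 * K (k + 1) ^ 2 + P2 * K (k + 1) ^ 2 + ((1 + A') * (P2 * K 1 ^ 2) +
    A' * (M * (Csph * K 0 ^ 2))) + P2 * (K 1 * D), ?_, ?_⟩
  · have h1 := (hKt (k + 1)).ne
    have h2 := (hKt 1).ne
    have h3 := (hKt 0).ne
    have h4 := Csph_lt_top.ne
    have h5 := hDt.ne
    have h6 := hP2t.ne
    have a1 : P2 * K (k + 1) ^ 2 ≠ ⊤ := ENNReal.mul_ne_top h6 (ENNReal.pow_ne_top h1)
    have a2 : (1 + A') * (P2 * K 1 ^ 2) ≠ ⊤ := ENNReal.mul_ne_top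
      (ENNReal.add_ne_top.2 ⟨ENNReal.one_ne_top, hA't⟩)
      (ENNReal.mul_ne_top h6 (ENNReal.pow_ne_top h2))
    have a3 : A' * (M * (Csph * K 0 ^ 2)) ≠ ⊤ := ENNReal.mul_ne_top hA't
      (ENNReal.mul_ne_top (ENNReal.natCast_ne_top M) (ENNReal.mul_ne_top h4 (ENNReal.pow_ne_top h3)))
    have a4 : P2 * (K 1 * D) ≠ ⊤ := ENNReal.mul_ne_top h6 (ENNReal.mul_ne_top h2 h5)
    exact lt_top_iff_ne_top.2 (ENNReal.add_ne_top.2 ⟨ENNReal.add_ne_top.2
      ⟨ENNReal.add_ne_top.2 ⟨a1, a1⟩, ENNReal.add_ne_top.2 ⟨a2, a3⟩⟩, a4⟩)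
  intro ι _ hcard u c h g hcm hhm hgm hc hh Ψ n hΨ hn hg
  have hcard' : (Fintype.card ι : ℝ≥0∞) ≤ M := by exact_mod_cast hcard
  -- moments
  have hcq : ∀ j v, qv v ^ j * c v ≤ ENNReal.ofReal (1 + R) ^ j * c v := by
    intro j v
    by_cases hv : c v = 0
    · simp [hv]
    · gcongr
      rw [qv_eq]
      apply ENNReal.ofReal_le_ofReal
      linarith [hc v hv]
  have hSw1 : ∀ v, Sw u v ≤ (2 + 2 * M) * (1 + ∑ i, pa (5 / 2) (u i) v) := by
    intro v
    calc Sw u v = Sw u v * 1 := (mul_one _).symm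
      _ ≤ Sw u v * (1 + ∑ i, pa 1 (u i) v) := by gcongr; exact le_self_add
      _ ≤ _ := Sw_mul_le u v
      _ ≤ _ := by gcongr
  have mom : ∀ j, ∫⁻ v, qv v ^ j * g v ≤ K j * (1 + n) := by
    intro j
    calc ∫⁻ v, qv v ^ j * g v ≤ ∫⁻ v, (ENNReal.ofReal (1 + R) ^ j * c v +
          A * ((2 + 2 * M) * (qv v ^ j * em v * (1 + ∑ i, pa (5 / 2) (u i) v)))) := by
          refine lintegral_mono fun v => ?_
          calc qv v ^ j * g v ≤ qv v ^ j * (c v + h v) := by gcongr; exact hg v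
            _ = qv v ^ j * c v + qv v ^ j * h v := mul_add _ _ _
            _ ≤ ENNReal.ofReal (1 + R) ^ j * c v + qv v ^ j * (A * (((2 + 2 * M) *
                (1 + ∑ i, pa (5 / 2) (u i) v)) * em v)) := by
                refine add_le_add (hcq j v) ?_
                gcongr
                exact (hh v).trans (by gcongr; exact hSw1 v)
            _ = _ := by ring
      _ = ENNReal.ofReal (1 + R) ^ j * (∫⁻ v, c v) +
          A * ((2 + 2 * M) * ∫⁻ v, qv v ^ j * em v * (1 + ∑ i, pa (5 / 2) (u i) v)) := by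
          rw [lintegral_add_left (by fun_prop), lintegral_const_mul _ hcm,
            lintegral_const_mul' _ _ hA, lintegral_const_mul' _ _ (by finiteness)]
      _ ≤ ENNReal.ofReal (1 + R) ^ j * n + A * ((2 + 2 * M) * (J j * (1 + M))) := by
          gcongr
          exact (hJ' j u).trans (by gcongr)
      _ ≤ ENNReal.ofReal (1 + R) ^ j * (1 + n) + A * ((2 + 2 * M) * (J j * (1 + M))) * (1 + n) := by
          refine add_le_add ?_ (le_mul_of_one_le_right zero_le le_self_add)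
          gcongr
          exact le_add_self
      _ = _ := by rw [hK]; ring
  have hlgg : ∀ v, lg (g v) ≤ Ψ + A' * (1 + ∑ i, pa 1 (u i) v) := by
    intro v
    calc lg (g v) ≤ lg (c v + h v) := lg_mono (hg v)
      _ ≤ lg (c v) + lg (h v) := lg_add_le _ _
      _ ≤ _ := by gcongr; exacts [hΨ v, lg_h_le u (hh v)]
  have mQ := measurable_Qp' hgm hgm
  have mL := measurable_Lc' hgm
  -- total gain
  have hgain0 : ∫⁻ v, Qp g g v ≤ P2 * (K 1 * (1 + n)) ^ 2 := by
    have h1 := lint_wk_gain 0 hgm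
    have h2 : ∀ v, wk 0 v = 1 := by intro v; simp [wk]
    simp only [h2, one_mul, zero_add] at h1
    refine h1.trans ?_
    gcongr
    exact mom 1
  have hg0 : ∫⁻ v, g v ≤ K 0 * (1 + n) := by
    have := mom 0
    simpa using this
  -- four terms
  have T1 : ∫⁻ v, wk k v * Qp g g v ≤ P2 * (K (k + 1) * (1 + n)) ^ 2 :=
    (lint_wk_gain k hgm).trans (by gcongr; exact mom (k + 1))
  have T2 : ∫⁻ v, wk k v * (g v * Lc g v) ≤ P2 * (K (k + 1) * (1 + n)) ^ 2 :=
    (lint_wk_loss k hgm).trans (by gcongr; exact mom (k + 1))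
  have T3 : ∫⁻ v, lg (g v) * Qp g g v ≤ (Ψ + A') * (P2 * (K 1 * (1 + n)) ^ 2) +
      A' * (M * (Csph * (K 0 * (1 + n)) ^ 2)) := by
    calc ∫⁻ v, lg (g v) * Qp g g v ≤ ∫⁻ v, ((Ψ + A') * Qp g g v +
          A' * ∑ i, pa 1 (u i) v * Qp g g v) := by
          refine lintegral_mono fun v => ?_
          calc lg (g v) * Qp g g v ≤ (Ψ + A' * (1 + ∑ i, pa 1 (u i) v)) * Qp g g v := by
                gcongr; exact hlgg v
            _ = _ := by rw [← Finset.sum_mul]; ring
      _ = (Ψ + A') * (∫⁻ v, Qp g g v) + A' * ∑ i, ∫⁻ v, pa 1 (u i) v * Qp g g v := by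
          rw [lintegral_add_left (by fun_prop), lintegral_const_mul _ mQ, lintegral_const_mul' _ _ hA't,
            lintegral_finsetSum]
          intro i _
          fun_prop
      _ ≤ (Ψ + A') * (P2 * (K 1 * (1 + n)) ^ 2) + A' * ∑ _i : ι, Csph * (K 0 * (1 + n)) ^ 2 := by
          gcongr with i _
          exact (lint_gain_pole hgm (u i)).trans (by gcongr)
      _ ≤ _ := by
          rw [Finset.sum_const, Finset.card_univ, nsmul_eq_mul]
          gcongr
  have T4 : ∫⁻ v, lg (g v) * (g v * Lc g v) ≤ P2 * (K 1 * (1 + n)) * (D * ((1 + Ψ) * (1 + n))) := by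
    have e1 : ∀ v, lg (g v) * (g v * Lc g v) ≤ P2 * (K 1 * (1 + n)) * (qv v * (g v * lg (g v))) := by
      intro v
      calc lg (g v) * (g v * Lc g v) ≤ lg (g v) * (g v * (P2 * (qv v * ∫⁻ vs, qv vs * g vs))) := by
            gcongr; exact Lc_le_qv hgm v
        _ ≤ lg (g v) * (g v * (P2 * (qv v * (K 1 * (1 + n))))) := by
            gcongr
            have := mom 1
            simpa using this
        _ = _ := by ring
    have e2 : ∀ v, qv v * (g v * lg (g v)) ≤ 2 * (ENNReal.ofReal (1 + R) * (Ψ * c v)) +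
        2 * (A * (A' * ((2 + 2 * M) * (qv v ^ 1 * em v * (1 + ∑ i, pa (5 / 2) (u i) v))))) := by
      intro v
      calc qv v * (g v * lg (g v)) ≤ qv v * ((c v + h v) * lg (c v + h v)) := by
            gcongr
            · exact hg v
            · exact lg_mono (hg v)
        _ ≤ qv v * (2 * (c v * lg (c v)) + 2 * (h v * lg (h v))) := by
            gcongr; exact add_mul_lg_le _ _
        _ = 2 * ((qv v ^ 1 * c v) * lg (c v)) + 2 * (qv v * (h v * lg (h v))) := by ring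
        _ ≤ 2 * ((ENNReal.ofReal (1 + R) ^ 1 * c v) * Ψ) + 2 * (qv v * ((A * (Sw u v * em v)) *
            (A' * (1 + ∑ i, pa 1 (u i) v)))) := by
            refine add_le_add (mul_le_mul' le_rfl (mul_le_mul' (hcq 1 v) (hΨ v)))
              (mul_le_mul' le_rfl (mul_le_mul' le_rfl (mul_le_mul' (hh v) (lg_h_le u (hh v)))))
        _ = 2 * (ENNReal.ofReal (1 + R) * (Ψ * c v)) + 2 * (A * (A' * (qv v * em v *
            (Sw u v * (1 + ∑ i, pa 1 (u i) v))))) := by ring
        _ ≤ 2 * (ENNReal.ofReal (1 + R) * (Ψ * c v)) + 2 * (A * (A' * (qv v * em v *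
            ((2 + 2 * M) * (1 + ∑ i, pa (5 / 2) (u i) v))))) := by
            refine add_le_add le_rfl (mul_le_mul' le_rfl (mul_le_mul' le_rfl (mul_le_mul' le_rfl
              (mul_le_mul' le_rfl ?_))))
            exact (Sw_mul_le u v).trans (by gcongr)
        _ = _ := by ring
    have hlgm : Measurable fun v => lg (g v) := measurable_lg.comp hgm
    calc _ ≤ ∫⁻ v, P2 * (K 1 * (1 + n)) * (2 * (ENNReal.ofReal (1 + R) * (Ψ * c v)) +
        2 * (A * (A' * ((2 + 2 * M) * (qv v ^ 1 * em v * (1 + ∑ i, pa (5 / 2) (u i) v)))))) :=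
          lintegral_mono fun v => (e1 v).trans (by gcongr; exact e2 v)
      _ = P2 * (K 1 * (1 + n)) * (2 * (ENNReal.ofReal (1 + R) * (Ψ * ∫⁻ v, c v)) +
          2 * (A * (A' * ((2 + 2 * M) * ∫⁻ v, qv v ^ 1 * em v * (1 + ∑ i, pa (5 / 2) (u i) v))))) := by
          rw [lintegral_const_mul _ (by fun_prop), lintegral_add_left (by fun_prop),
            lintegral_const_mul _ (by fun_prop), lintegral_const_mul _ (by fun_prop),
            lintegral_const_mul _ (by fun_prop), lintegral_const_mul _ (by fun_prop),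
            lintegral_const_mul _ (by fun_prop), lintegral_const_mul _ (by fun_prop),
            lintegral_const_mul _ (by fun_prop)]
      _ ≤ P2 * (K 1 * (1 + n)) * (2 * (ENNReal.ofReal (1 + R) * (Ψ * n)) +
          2 * (A * (A' * ((2 + 2 * M) * (J 1 * (1 + M)))))) := by
          gcongr
          exact (hJ' 1 u).trans (by gcongr)
      _ ≤ P2 * (K 1 * (1 + n)) * (2 * (ENNReal.ofReal (1 + R) * ((1 + Ψ) * (1 + n))) +
          2 * (A * (A' * ((2 + 2 * M) * (J 1 * (1 + M))))) * ((1 + Ψ) * (1 + n))) := by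
          refine mul_le_mul' le_rfl (add_le_add ?_ (le_mul_of_one_le_right zero_le ?_))
          · gcongr <;> exact le_add_self
          · calc (1 : ℝ≥0∞) = 1 * 1 := (one_mul 1).symm
              _ ≤ _ := by gcongr <;> exact le_self_add
      _ = _ := by rw [hD]; ring
  have hlgm : Measurable fun v => lg (g v) := measurable_lg.comp hgm
  calc ∫⁻ v, (wk k v + lg (g v)) * (Qp g g v + g v * Lc g v)
      = (∫⁻ v, wk k v * Qp g g v) + (∫⁻ v, wk k v * (g v * Lc g v)) +
        (∫⁻ v, lg (g v) * Qp g g v) + ∫⁻ v, lg (g v) * (g v * Lc g v) := by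
        rw [← lintegral_add_left (by fun_prop), ← lintegral_add_left (by fun_prop),
          ← lintegral_add_left (by fun_prop)]
        refine lintegral_congr fun v => ?_
        ring
    _ ≤ P2 * (K (k + 1) * (1 + n)) ^ 2 + P2 * (K (k + 1) * (1 + n)) ^ 2 +
        ((Ψ + A') * (P2 * (K 1 * (1 + n)) ^ 2) + A' * (M * (Csph * (K 0 * (1 + n)) ^ 2))) +
        P2 * (K 1 * (1 + n)) * (D * ((1 + Ψ) * (1 + n))) := by gcongr
    _ ≤ P2 * K (k + 1) ^ 2 * ((1 + Ψ) * (1 + n) ^ 2) + P2 * K (k + 1) ^ 2 * ((1 + Ψ) * (1 + n) ^ 2) +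
        ((1 + A') * (P2 * K 1 ^ 2) * ((1 + Ψ) * (1 + n) ^ 2) +
          A' * (M * (Csph * K 0 ^ 2)) * ((1 + Ψ) * (1 + n) ^ 2)) +
        P2 * (K 1 * D) * ((1 + Ψ) * (1 + n) ^ 2) := by
        have hone : (1 : ℝ≥0∞) ≤ 1 + Ψ := le_self_add
        have b1 : ∀ X : ℝ≥0∞, X * (1 + n) ^ 2 ≤ X * ((1 + Ψ) * (1 + n) ^ 2) := by
          intro X
          calc X * (1 + n) ^ 2 = X * (1 * (1 + n) ^ 2) := by ring
            _ ≤ _ := by gcongr
        have b2 : Ψ + A' ≤ (1 + A') * (1 + Ψ) := by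
          calc Ψ + A' ≤ Ψ + A' + (1 + A' * Ψ) := le_self_add
            _ = _ := by ring
        gcongr ?_ + ?_ + (?_ + ?_) + ?_
        · rw [mul_pow, ← mul_assoc]; exact b1 _
        · rw [mul_pow, ← mul_assoc]; exact b1 _
        · calc (Ψ + A') * (P2 * (K 1 * (1 + n)) ^ 2) ≤ ((1 + A') * (1 + Ψ)) *
                (P2 * (K 1 * (1 + n)) ^ 2) := by gcongr
            _ = _ := by ring
        · calc A' * (M * (Csph * (K 0 * (1 + n)) ^ 2)) = A' * (M * (Csph * K 0 ^ 2)) * (1 + n) ^ 2 := by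
                ring
            _ ≤ _ := b1 _
        · apply le_of_eq; ring
    _ = _ := by ring

end Crest.Agent.R68.I
end
end

-- ▼ part R68/IntD
section

/-!
Row 68, PART I (helper858), module 7: from profile bounds to the space-time integral `MildG.int`.
-/

set_option autoImplicit false
open MeasureTheory Set Filter Metric
open scoped ENNReal Topology Real
open Crest.AnalysisR.VecCalc3 Crest.AnalysisR.PDE.Boltzmann

noncomputable section

namespace Crest.Agent.R68.I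

open Crest.Agent.R68.K2 Crest.Agent.R68.A

/-- `a b² ≤ a⁹ + b^{9/4}` -/
lemma mul_sq_le (a b : ℝ≥0∞) : a * b ^ 2 ≤ a ^ (9 : ℝ) + b ^ (9 / 4 : ℝ) := by
  by_cases hb0 : b = 0
  · subst hb0; simp
  by_cases ha0 : a = 0
  · subst ha0; simp
  rcases le_total a (b ^ (1 / 4 : ℝ)) with h | h
  · refine le_trans ?_ le_add_self
    calc a * b ^ 2 ≤ b ^ (1 / 4 : ℝ) * b ^ (2 : ℝ) := by
          gcongr
          norm_cast
      _ = b ^ (9 / 4 : ℝ) := by
          rw [← ENNReal.rpow_add_of_nonneg _ _ (by norm_num) (by norm_num)]; norm_num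
  · refine le_trans ?_ le_self_add
    have h2 : b ≤ a ^ (4 : ℝ) := by
      calc b = (b ^ (1 / 4 : ℝ)) ^ (4 : ℝ) := by rw [← ENNReal.rpow_mul]; norm_num
        _ ≤ _ := ENNReal.rpow_le_rpow h (by norm_num)
    calc a * b ^ 2 ≤ a ^ (1 : ℝ) * (a ^ (4 : ℝ)) ^ (2 : ℝ) := by
          rw [ENNReal.rpow_one]
          gcongr
          calc b ^ 2 = b ^ (2 : ℝ) := by norm_cast
            _ ≤ _ := ENNReal.rpow_le_rpow h2 (by norm_num)
      _ = a ^ (9 : ℝ) := by
          rw [← ENNReal.rpow_mul, ← ENNReal.rpow_add_of_nonneg _ _ (by norm_num) (by norm_num)]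
          norm_num

/-- space-time weight of the integral -/
lemma int_integrand_eq {G : ℝ → P2 → R3 → ℝ} {t : ℝ} {x : P2} {v : R3} (k : ℕ)
    (h0 : 0 ≤ G t x v) :
    ENNReal.ofReal ((1 + ‖v‖ ^ 2) ^ (k / 2 : ℝ) + Real.log (1 + G t x v)) *
      (gainG G t x v + lossG G t x v) =
    (wk k v + lg (ENNReal.ofReal (G t x v))) *
      (Qp (fun z => ENNReal.ofReal (G t x z)) (fun z => ENNReal.ofReal (G t x z)) v +
        ENNReal.ofReal (G t x v) * Lc (fun z => ENNReal.ofReal (G t x z)) v) := by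
  rw [ENNReal.ofReal_add (by positivity) (Real.log_nonneg (by linarith)), lg_ofReal h0]
  rfl

theorem int_of_profile {G : ℝ → P2 → R3 → ℝ}
    (hG : Measurable (fun p : ℝ × P2 × R3 => G p.1 p.2.1 p.2.2))
    (hG0 : ∀ t x v, 0 ≤ t → 0 ≤ G t x v) {T : ℝ} (k : ℕ) {M : ℕ} {R : ℝ} (hR : 0 ≤ R) {A : ℝ≥0∞}
    (hA : A ≠ ⊤) {c h : ℝ → P2 → R3 → ℝ≥0∞} {Ψ n : ℝ → P2 → ℝ≥0∞}
    (hcm : ∀ t ∈ Ioo 0 T, ∀ x, Measurable (c t x)) (hhm : ∀ t ∈ Ioo 0 T, ∀ x, Measurable (h t x))
    (hc : ∀ t ∈ Ioo 0 T, ∀ x v, c t x v ≠ 0 → ‖v‖ ≤ R)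
    (hh : ∀ t ∈ Ioo 0 T, ∀ x, ∃ (ι : Type) (_ : Fintype ι) (u : ι → R3), Fintype.card ι ≤ M ∧
      ∀ v, h t x v ≤ A * (Sw u v * em v))
    (hΨ : ∀ t ∈ Ioo 0 T, ∀ x v, lg (c t x v) ≤ Ψ t x)
    (hn : ∀ t ∈ Ioo 0 T, ∀ x, ∫⁻ v, c t x v ≤ n t x)
    (hGle : ∀ t ∈ Ioo 0 T, ∀ x v, ENNReal.ofReal (G t x v) ≤ c t x v + h t x v)
    (hfin : ∫⁻ t in Ioo 0 T, ∫⁻ x in cellG, (1 + Ψ t x) * (1 + n t x) ^ 2 < ⊤) :
    (∫⁻ p in Ioo 0 T ×ˢ (cellG ×ˢ (Set.univ : Set R3)),
      ENNReal.ofReal ((1 + ‖p.2.2‖ ^ 2) ^ (k / 2 : ℝ) + Real.log (1 + G p.1 p.2.1 p.2.2)) *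
        (gainG G p.1 p.2.1 p.2.2 + lossG G p.1 p.2.1 p.2.2)) < ⊤ := by
  obtain ⟨C, hC, hprof⟩ := profile_bound R hR hA k M
  set F : ℝ → P2 → R3 → ℝ≥0∞ := fun t x v => (wk k v + lg (ENNReal.ofReal (G t x v))) *
      (Qp (fun z => ENNReal.ofReal (G t x z)) (fun z => ENNReal.ofReal (G t x z)) v +
        ENNReal.ofReal (G t x v) * Lc (fun z => ENNReal.ofReal (G t x z)) v) with hF
  have hGe : Meas3 (fun t x v => ENNReal.ofReal (G t x v)) := ENNReal.measurable_ofReal.comp hG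
  have hFm : Measurable (fun p : ℝ × P2 × R3 => F p.1 p.2.1 p.2.2) := by
    have h1 : Measurable (fun p : ℝ × P2 × R3 => wk k p.2.2) := by fun_prop
    have h2 : Measurable (fun p : ℝ × P2 × R3 => lg (ENNReal.ofReal (G p.1 p.2.1 p.2.2))) :=
      measurable_lg.comp hGe
    exact (h1.add h2).mul (Measurable.add (meas3_Qp hGe hGe) (Measurable.mul hGe (meas3_Lc hGe)))
  have e1 : (∫⁻ p in Ioo 0 T ×ˢ (cellG ×ˢ (Set.univ : Set R3)),
      ENNReal.ofReal ((1 + ‖p.2.2‖ ^ 2) ^ (k / 2 : ℝ) + Real.log (1 + G p.1 p.2.1 p.2.2)) *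
        (gainG G p.1 p.2.1 p.2.2 + lossG G p.1 p.2.1 p.2.2)) =
      ∫⁻ p in Ioo 0 T ×ˢ (cellG ×ˢ (Set.univ : Set R3)), F p.1 p.2.1 p.2.2 := by
    refine setLIntegral_congr_fun (measurableSet_Ioo.prod
      (measurableSet_cellG.prod MeasurableSet.univ)) fun p hp => ?_
    exact int_integrand_eq k (hG0 _ _ _ hp.1.1.le)
  rw [e1]
  have e2 : ∫⁻ p in Ioo 0 T ×ˢ (cellG ×ˢ (Set.univ : Set R3)), F p.1 p.2.1 p.2.2 =
      ∫⁻ t in Ioo 0 T, ∫⁻ x in cellG, ∫⁻ v, F t x v := by
    rw [show (volume : Measure (ℝ × P2 × R3)) = volume.prod (volume.prod volume) from rfl,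
      ← Measure.prod_restrict, ← Measure.prod_restrict, Measure.restrict_univ,
      lintegral_prod _ hFm.aemeasurable]
    refine lintegral_congr fun t => ?_
    rw [lintegral_prod]
    exact (hFm.comp (f := fun q : P2 × R3 => (t, q.1, q.2)) (by fun_prop)).aemeasurable
  rw [e2]
  refine lt_of_le_of_lt ?_ (ENNReal.mul_lt_top hC hfin)
  rw [← lintegral_const_mul' _ _ hC.ne]
  refine setLIntegral_mono' measurableSet_Ioo fun t ht => ?_
  rw [← lintegral_const_mul' _ _ hC.ne]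
  refine lintegral_mono fun x => ?_
  obtain ⟨ι, _, u, hcard, hu⟩ := hh t ht x
  have hgm : Measurable fun z => ENNReal.ofReal (G t x z) := hGe.slice t x
  exact hprof hcard u (hcm t ht x) (hhm t ht x) hgm (hc t ht x) hu (hΨ t ht x) (hn t ht x)
    (hGle t ht x)

end Crest.Agent.R68.I
end
end

-- ▼ part R68/IntE

/-!
Row 68, PART I (helper858), module 8: lattice/lane sums.
-/

set_option autoImplicit false
open MeasureTheory Set Filter Metric
open scoped ENNReal Topology Real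
open Crest.AnalysisR.VecCalc3 Crest.AnalysisR.PDE.Boltzmann

noncomputable section

namespace Crest.Agent.R68.I

open Crest.Agent.R68.Fuel

variable {P : Par}

/-! ### lanes -/

lemma bj_pos (j : ℕ) : 0 < bj j := by unfold bj; positivity

lemma bj_le_one (j : ℕ) : bj j ≤ 1 := Fuel.inv_le_one' j

/-- length of a lane -/
lemma volume_laneE_le {j : ℕ} (hj : 1 ≤ j) : volume (laneE j) ≤ ENNReal.ofReal (5 * bj j ^ (3 / 2 : ℝ)) := by
  have hjr : (1 : ℝ) ≤ j := by exact_mod_cast hj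
  set n : ℝ := 2 * (j : ℝ) + 1 with hn
  have hn3 : 3 ≤ n := by rw [hn]; linarith
  set b : ℝ := √(1 / (2 * (j : ℝ) + 399 / 200)) with hb
  set B : ℝ := √(1 / (2 * (j : ℝ) + 1 / 200)) with hB
  have hb2 : b ^ 2 = 1 / (2 * (j : ℝ) + 399 / 200) := Real.sq_sqrt (by positivity)
  have hB2 : B ^ 2 = 1 / (2 * (j : ℝ) + 1 / 200) := Real.sq_sqrt (by positivity)
  have hb0 : 0 < b := Real.sqrt_pos.2 (by positivity)
  have hB0 : 0 < B := Real.sqrt_pos.2 (by positivity)
  have hsub : laneE j ⊆ Ioo b B ∪ Ioo (-B) (-b) := by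
    rintro a ⟨ha0, h1, h2⟩
    have ha2 : 0 < a ^ 2 := by positivity
    have h3 : |a| < B := by
      apply abs_lt_of_sq_lt_sq _ hB0.le
      rw [hB2, lt_div_iff₀ (by positivity)]
      rw [lt_div_iff₀ ha2] at h1
      linarith
    have h4 : b < |a| := by
      apply lt_of_pow_lt_pow_left₀ 2 (abs_nonneg a)
      rw [hb2, sq_abs, div_lt_iff₀ (by positivity)]
      rw [div_lt_iff₀ ha2] at h2
      linarith
    rcases le_total 0 a with h | h
    · rw [abs_of_nonneg h] at h3 h4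
      exact Or.inl ⟨h4, h3⟩
    · rw [abs_of_nonpos h] at h3 h4
      exact Or.inr ⟨by linarith, by linarith⟩
  have hlen : 2 * (B - b) ≤ 5 * bj j ^ (3 / 2 : ℝ) := by
    have h1 : (B - b) * (B + b) ≤ 5 / 2 / n ^ 2 := by
      have : (B - b) * (B + b) = B ^ 2 - b ^ 2 := by ring
      rw [this, hB2, hb2, show 2 * (j : ℝ) + 399 / 200 = n + 199 / 200 by rw [hn]; ring,
        show 2 * (j : ℝ) + 1 / 200 = n - 199 / 200 by rw [hn]; ring,
        div_sub_div _ _ (by linarith) (by linarith), div_le_div_iff₀ (by nlinarith) (by positivity)]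
      nlinarith
    have hs : 0 < √n := Real.sqrt_pos.2 (by linarith)
    have hs2 : √n ^ 2 = n := Real.sq_sqrt (by linarith)
    have h2 : 1 / (2 * √n) ≤ b := by
      rw [hb]
      apply Real.le_sqrt_of_sq_le
      rw [div_pow, one_pow, mul_pow, hs2]
      apply one_div_le_one_div_of_le (by positivity)
      rw [hn]; linarith
    have h3 : 1 / √n ≤ B + b := by
      have hbB : b ≤ B := Real.sqrt_le_sqrt (by
        apply one_div_le_one_div_of_le (by positivity); linarith)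
      have : 1 / √n = 1 / (2 * √n) + 1 / (2 * √n) := by field_simp; ring
      rw [this]; linarith
    have h4 : B - b ≤ 5 / 2 / n ^ 2 * √n := by
      have hbB : 0 ≤ B - b := sub_nonneg.2 (Real.sqrt_le_sqrt (by
        apply one_div_le_one_div_of_le (by positivity); linarith))
      have h5 : (B - b) * (1 / √n) ≤ 5 / 2 / n ^ 2 := (mul_le_mul_of_nonneg_left h3 hbB).trans h1
      have h6 : (B - b) = (B - b) * (1 / √n) * √n := by field_simp
      rw [h6]
      gcongr
    have h7 : bj j ^ (3 / 2 : ℝ) = √n / n ^ 2 := by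
      have hn0 : 0 < n := by linarith
      unfold bj
      rw [← hn, one_div, Real.inv_rpow hn0.le, Real.sqrt_eq_rpow, ← Real.rpow_natCast,
        ← Real.rpow_sub hn0, ← Real.rpow_neg hn0.le]
      norm_num
    rw [h7]
    calc 2 * (B - b) ≤ 2 * (5 / 2 / n ^ 2 * √n) := by linarith
      _ = 5 * (√n / n ^ 2) := by ring
  calc volume (laneE j) ≤ volume (Ioo b B ∪ Ioo (-B) (-b)) := measure_mono hsub
    _ ≤ volume (Ioo b B) + volume (Ioo (-B) (-b)) := measure_union_le _ _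
    _ = ENNReal.ofReal (2 * (B - b)) := by
        rw [Real.volume_Ioo, Real.volume_Ioo, show -b - -B = B - b by ring, ← ENNReal.ofReal_add]
        · congr 1; ring
        · exact sub_nonneg.2 (Real.sqrt_le_sqrt (by
            apply one_div_le_one_div_of_le (by positivity); linarith))
        · exact sub_nonneg.2 (Real.sqrt_le_sqrt (by
            apply one_div_le_one_div_of_le (by positivity); linarith))
    _ ≤ _ := ENNReal.ofReal_le_ofReal hlen

lemma tsum_bj_lt_top {s : ℝ} (hs : 1 < s) : ∑' j : ℕ, ENNReal.ofReal (bj j ^ s) < ⊤ := by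
  have h1 : Summable fun n : ℕ => 1 / ((n : ℝ) + 1) ^ s := by
    have := (Real.summable_one_div_nat_rpow (p := s)).2 hs
    have h2 := (summable_nat_add_iff 1).2 this
    simpa using h2
  have h2 : Summable fun j : ℕ => bj j ^ s := by
    refine Summable.of_nonneg_of_le (fun j => Real.rpow_nonneg (bj_pos j).le s) (fun j => ?_) h1
    have hj : (0 : ℝ) ≤ j := Nat.cast_nonneg j
    unfold bj
    rw [Real.div_rpow zero_le_one (by positivity), Real.one_rpow]
    apply one_div_le_one_div_of_le (by positivity)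
    apply Real.rpow_le_rpow (by positivity) (by linarith) (by linarith)
  exact h2.tsum_ofReal_lt_top

/-! ### zones -/

/-- spatial zone of lane `j` (one image) -/
def zx (P : Par) (j : ℕ) (t : ℝ) (y : P2) : Prop :=
  P.j0 ≤ j ∧ lab P t y ∈ laneE j ∧ |y.2| ≤ 2 * P.Y * (t + rr (lab P t y))

lemma measurable_lab (P : Par) : Measurable fun p : ℝ × P2 => lab P p.1 p.2 := by
  unfold lab; fun_prop

lemma measurableSet_zx (P : Par) (j : ℕ) : MeasurableSet {p : ℝ × P2 | zx P j p.1 p.2} := by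
  have h1 : {p : ℝ × P2 | zx P j p.1 p.2} = {_p : ℝ × P2 | P.j0 ≤ j} ∩
      ((fun p : ℝ × P2 => lab P p.1 p.2) ⁻¹' laneE j ∩
      {p : ℝ × P2 | |p.2.2| ≤ 2 * P.Y * (p.1 + rr (lab P p.1 p.2))}) := by
    ext p; rfl
  rw [h1]
  refine (MeasurableSet.const _).inter ((measurable_lab P (measurableSet_laneE j)).inter
    (measurableSet_le (by fun_prop) ?_))
  exact measurable_const.mul (measurable_fst.add (measurable_rr.comp (measurable_lab P)))

lemma laneE_rr {j : ℕ} (hj : 1 ≤ j) {a : ℝ} (ha : a ∈ laneE j) : rr a ≤ 2 * bj j := by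
  have h1 := laneE_upper ha
  have h2 : (1 : ℝ) ≤ j := by exact_mod_cast hj
  unfold rr bj
  rw [mul_one_div, le_div_iff₀ (by positivity)]
  nlinarith [sq_nonneg a]

/-- the area of a zone -/
lemma volume_zx_le (h : P.Ok) (j : ℕ) {t : ℝ} (ht : 0 ≤ t) :
    volume {y : P2 | zx P j t y} ≤
      ENNReal.ofReal (8 * P.Y * (t + bj j)) * (ENNReal.ofReal (1 + P.kap * t) *
        ENNReal.ofReal (5 * bj j ^ (3 / 2 : ℝ))) := by
  by_cases hj : P.j0 ≤ j
  swap
  · have : {y : P2 | zx P j t y} = ∅ := by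
      ext y; simp only [mem_ofPred_eq, mem_empty_iff_false, iff_false]
      exact fun hy => hj hy.1
    rw [this]; simp
  have hj1 : 1 ≤ j := (Ok.j1 h).trans hj
  have hY := h.Y0
  have hm : MeasurableSet {y : P2 | zx P j t y} := by
    have : Measurable fun y : P2 => (t, y) := by fun_prop
    exact this (measurableSet_zx P j)
  have hd := Ok.dlp h
  have hc := h.c0
  have hlab : ∀ y : P2, lab P t y = P.dl / (P.dl + P.c * t) * y.1 := fun y => by
    unfold lab; ring
  set q : ℝ := P.dl / (P.dl + P.c * t) with hq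
  have hq0 : 0 < q := by positivity
  have hqi : q⁻¹ = 1 + P.kap * t := by
    rw [hq, Par.kap, inv_div]; field_simp
  rw [show (volume : Measure P2) = (volume : Measure ℝ).prod volume from rfl,
    Measure.prod_apply hm]
  have hsec : ∀ y1 : ℝ, volume (Prod.mk y1 ⁻¹' {y : P2 | zx P j t y}) ≤
      ((fun y1 : ℝ => q * y1) ⁻¹' laneE j).indicator
        (fun _ => ENNReal.ofReal (8 * P.Y * (t + bj j))) y1 := by
    intro y1
    by_cases hy : q * y1 ∈ laneE j
    · rw [indicator_of_mem (show y1 ∈ (fun y1 : ℝ => q * y1) ⁻¹' laneE j from hy)]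
      have hr := laneE_rr hj1 hy
      have hsub : Prod.mk y1 ⁻¹' {y : P2 | zx P j t y} ⊆
          Icc (-(4 * P.Y * (t + bj j))) (4 * P.Y * (t + bj j)) := by
        intro y2 hy2
        have h3 := hy2.2.2
        rw [hlab] at h3
        simp only at h3
        rw [mem_Icc, ← abs_le]
        refine h3.trans ?_
        have hb := bj_pos j
        have : t + rr (q * y1) ≤ 2 * (t + bj j) := by linarith
        nlinarith
      refine (measure_mono hsub).trans ?_
      rw [Real.volume_Icc]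
      apply ENNReal.ofReal_le_ofReal
      linarith
    · rw [indicator_of_notMem (show y1 ∉ (fun y1 : ℝ => q * y1) ⁻¹' laneE j from hy)]
      have : Prod.mk y1 ⁻¹' {y : P2 | zx P j t y} = ∅ := by
        ext y2
        simp only [mem_preimage, mem_ofPred_eq, mem_empty_iff_false, iff_false]
        intro h3
        apply hy
        have h4 := h3.2.1
        rwa [hlab] at h4
      rw [this]; simp
  refine (lintegral_mono hsec).trans ?_
  rw [lintegral_indicator ((measurable_const_mul q) (measurableSet_laneE j)), setLIntegral_const]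
  gcongr
  rw [Real.volume_preimage_mul_left hq0.ne', abs_of_pos (inv_pos.2 hq0), hqi]
  gcongr
  exact volume_laneE_le hj1

/-! ### overlap -/

/-- bound for the position in a zone -/
lemma norm_le_of_zx (h : P.Ok) {j : ℕ} {t T : ℝ} (ht : 0 ≤ t) (htT : t ≤ T) {y : P2}
    (hz : zx P j t y) : ‖y‖ ≤ (1 + P.kap * T) + 2 * P.Y * (T + 1) := by
  obtain ⟨hj, hl, h2⟩ := hz
  have hj1 : 1 ≤ j := (Ok.j1 h).trans hj
  have hd := Ok.dlp h
  have hd20 := Ok.dl20 h
  have hY := h.Y0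
  have hk := Ok.kap0 h
  have h3 := laneE_lt_dl (Ok.j1 h) hj hl
  have hlab : y.1 = (1 + P.kap * t) * lab P t y := by
    have hc := h.c0
    unfold lab Par.kap
    field_simp
  have hrr : rr (lab P t y) ≤ 1 := by
    unfold rr
    rw [← sq_abs]
    have := abs_nonneg (lab P t y)
    nlinarith
  rw [Prod.norm_def, max_le_iff, Real.norm_eq_abs, Real.norm_eq_abs]
  have hkt : P.kap * t ≤ P.kap * T := by gcongr
  have hkt0 : 0 ≤ P.kap * t := by positivity
  constructor
  · rw [hlab, abs_mul, abs_of_nonneg (by positivity)]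
    have h4 : |lab P t y| ≤ 1 := by linarith
    have h5 : (1 + P.kap * t) * |lab P t y| ≤ (1 + P.kap * t) * 1 := by gcongr
    have h6 : 0 ≤ 2 * P.Y * (T + 1) := by have := ht.trans htT; positivity
    linarith
  · have h7 : 2 * P.Y * (t + rr (lab P t y)) ≤ 2 * P.Y * (T + 1) := by gcongr
    linarith

/-- at each point at most `M` pairs (image, lane) -/
lemma exists_overlap (h : P.Ok) (T : ℝ) : ∃ M : ℕ, ∀ t ∈ Ioo 0 T, ∀ x : P2,
    ∃ S : Finset ((ℤ × ℤ) × ℕ), S.card ≤ M ∧ ∀ i, zx P i.2 t (x + latt i.1) → i ∈ S := by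
  classical
  rcases le_or_gt T 0 with hT | hT
  · exact ⟨0, fun t ht => by linarith [ht.1, ht.2]⟩
  set L : ℝ := (1 + P.kap * T) + 2 * P.Y * (T + 1) with hL
  have hL0 : 0 ≤ L := by
    have := Ok.kap0 h
    have := h.Y0
    positivity
  obtain ⟨M, hM⟩ := exists_nat_ge ((3 * L + 1) ^ 2)
  refine ⟨M, fun t ht x => ?_⟩
  set K := (finite_latt_near x L).toFinset with hK
  set f : ℤ × ℤ → (ℤ × ℤ) × ℕ := fun k =>
    (k, if h : ∃ j, zx P j t (x + latt k) then h.choose else 0) with hf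
  refine ⟨K.image f, ?_, ?_⟩
  · have h1 := ncard_latt_near x hL0
    rw [Set.ncard_eq_toFinset_card _ (finite_latt_near x L)] at h1
    have h2 : ((K.image f).card : ℝ) ≤ M := by
      calc ((K.image f).card : ℝ) ≤ K.card := by exact_mod_cast Finset.card_image_le
        _ ≤ (3 * L + 1) ^ 2 := h1
        _ ≤ M := hM
    exact_mod_cast h2
  · rintro ⟨k, j⟩ hz
    rw [Finset.mem_image]
    refine ⟨k, ?_, ?_⟩
    · rw [hK, Set.Finite.mem_toFinset, mem_ofPred_eq]
      exact norm_le_of_zx h ht.1.le ht.2.le hz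
    · rw [hf]
      simp only [Prod.mk.injEq, true_and]
      have hex : ∃ j, zx P j t (x + latt k) := ⟨j, hz⟩
      rw [dif_pos hex]
      exact laneE_unique hex.choose_spec.2.1 hz.2.1

/-! ### sums over images and lanes -/

open scoped Classical in
/-- `Σ_{k,j} 1_{zone j}(x + latt k) w_j(t)` -/
def sumW (P : Par) (w : ℕ → ℝ → ℝ≥0∞) (t : ℝ) (x : P2) : ℝ≥0∞ :=
  ∑' i : (ℤ × ℤ) × ℕ, if zx P i.2 t (x + latt i.1) then w i.2 t else 0

lemma tsum_rpow_le {ι : Type} {f : ι → ℝ≥0∞} {S : Finset ι} (hS : ∀ i, f i ≠ 0 → i ∈ S) {M : ℕ}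
    (hM : S.card ≤ M) {p : ℝ} (hp : 0 < p) : (∑' i, f i) ^ p ≤ (M : ℝ≥0∞) ^ p * ∑' i, f i ^ p := by
  rw [tsum_eq_sum (s := S) (fun i hi => by by_contra h; exact hi (hS i h))]
  by_cases hne : S.Nonempty
  · obtain ⟨i0, hi0, hmax⟩ := S.exists_max_image f hne
    have h1 : ∑ i ∈ S, f i ≤ M * f i0 := by
      calc ∑ i ∈ S, f i ≤ ∑ _i ∈ S, f i0 := Finset.sum_le_sum fun i hi => hmax i hi
        _ = S.card * f i0 := by rw [Finset.sum_const, nsmul_eq_mul]
        _ ≤ M * f i0 := by gcongr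
    calc (∑ i ∈ S, f i) ^ p ≤ (M * f i0) ^ p := ENNReal.rpow_le_rpow h1 hp.le
      _ = (M : ℝ≥0∞) ^ p * f i0 ^ p := ENNReal.mul_rpow_of_nonneg _ _ hp.le
      _ ≤ _ := by
          gcongr
          exact ENNReal.le_tsum i0
  · rw [Finset.not_nonempty_iff_eq_empty.1 hne, Finset.sum_empty, ENNReal.zero_rpow_of_pos hp]
    exact bot_le

lemma sumW_rpow_le (w : ℕ → ℝ → ℝ≥0∞) {t : ℝ} {x : P2} {S : Finset ((ℤ × ℤ) × ℕ)} {M : ℕ}
    (hM : S.card ≤ M) (hS : ∀ i, zx P i.2 t (x + latt i.1) → i ∈ S) {p : ℝ} (hp : 0 < p) :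
    (sumW P w t x) ^ p ≤ (M : ℝ≥0∞) ^ p * sumW P (fun j t => w j t ^ p) t x := by
  classical
  unfold sumW
  refine (tsum_rpow_le (S := S) (fun i hi => ?_) hM hp).trans (le_of_eq ?_)
  · apply hS
    by_contra h
    rw [if_neg h] at hi
    exact hi rfl
  · congr 1
    refine tsum_congr fun i => ?_
    split_ifs
    · rfl
    · exact ENNReal.zero_rpow_of_pos hp

lemma measurable_sumW_term {w : ℝ → ℝ≥0∞} (hw : Measurable w) (i : (ℤ × ℤ) × ℕ) :
    Measurable fun p : ℝ × P2 => open scoped Classical in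
      if zx P i.2 p.1 (p.2 + latt i.1) then w p.1 else 0 := by
  classical
  refine Measurable.ite ?_ (hw.comp measurable_fst) measurable_const
  have : Measurable fun p : ℝ × P2 => (p.1, p.2 + latt i.1) := by fun_prop
  exact this (measurableSet_zx P i.2)

lemma measurable_sumW {w : ℕ → ℝ → ℝ≥0∞} (hw : ∀ j, Measurable (w j)) :
    Measurable fun p : ℝ × P2 => sumW P w p.1 p.2 := by
  unfold sumW
  exact Measurable.tsum fun i => measurable_sumW_term (hw i.2) i

lemma lint_sumW {w : ℕ → ℝ → ℝ≥0∞} (t : ℝ) :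
    ∫⁻ x in cellG, sumW P w t x = ∑' j, w j t * volume {y : P2 | zx P j t y} := by
  classical
  have hm : ∀ j, MeasurableSet {y : P2 | zx P j t y} := fun j => by
    have : Measurable fun y : P2 => (t, y) := by fun_prop
    exact this (measurableSet_zx P j)
  have h1 : ∀ x, sumW P w t x = ∑' j : ℕ, ∑' k : ℤ × ℤ,
      ({y : P2 | zx P j t y}.indicator (fun _ => w j t)) (x + latt k) := by
    intro x
    unfold sumW
    rw [ENNReal.tsum_prod', ENNReal.tsum_comm]
    refine tsum_congr fun j => tsum_congr fun k => ?_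
    rfl
  simp_rw [h1]
  rw [lintegral_tsum]
  · refine tsum_congr fun j => ?_
    rw [lintegral_cellG_tsum (measurable_const.indicator (hm j)), lintegral_indicator (hm j),
      setLIntegral_const]
  · intro j
    refine Measurable.aemeasurable (Measurable.tsum fun k => ?_)
    exact (measurable_const.indicator (hm j)).comp (by fun_prop)

end Crest.Agent.R68.I
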