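import Mathlib
import Crest.Agent.R68.WDefs

-- ▼ part R68/WB0
section

/-!
R68 / WB0: a superexponential time weight absorbing all rates (helper475, part W).
-/

set_option autoImplicit false
open MeasureTheory Set
open scoped ENNReal

namespace Crest.Agent.R68.W

/-- existence of the time weight -/
theorem exists_time_weight (T1 lam : ℝ) (hlam : 0 ≤ lam) {b : ℝ → ℝ} (hb : Continuous b)
    (hb0 : ∀ t, 0 ≤ b t) {a : ℝ} (ha : 0 ≤ a) :
    ∃ kap : ℝ → ℝ, Continuous kap ∧ (∀ t, T1 ≤ t → 1 ≤ kap t) ∧ MonotoneOn kap (Ici T1) ∧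
      (∀ t, T1 ≤ t → Real.exp (lam * (t - T1)) * (a + 1 + ∫ s in T1..t, b s) ≤ kap t) ∧
      ∀ t, T1 ≤ t → (∫ s in T1..t, b s * kap s) *
        (Real.exp (lam * (t - T1)) * (a + 1 + ∫ s in T1..t, b s)) ≤ kap t / 2 := by
  set g : ℝ → ℝ := fun t => Real.exp (lam * (t - T1)) * (a + 1 + ∫ s in T1..t, b s) with hg
  have hIc : Continuous fun t => ∫ s in T1..t, b s :=
    continuous_iff_continuousAt.2 fun t =>
      (intervalIntegral.integral_hasDerivAt_right (hb.intervalIntegrable _ _)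
        hb.stronglyMeasurable.stronglyMeasurableAtFilter hb.continuousAt).continuousAt
  have hgc : Continuous g := by
    rw [hg]; fun_prop
  have hI0 : ∀ t, T1 ≤ t → 0 ≤ ∫ s in T1..t, b s := fun t ht =>
    intervalIntegral.integral_nonneg ht fun s _ => hb0 s
  have hImono : MonotoneOn (fun t => ∫ s in T1..t, b s) (Ici T1) := by
    intro t ht t' ht' htt
    have : (∫ s in T1..t', b s) = (∫ s in T1..t, b s) + ∫ s in t..t', b s :=
      (intervalIntegral.integral_add_adjacent_intervals (hb.intervalIntegrable _ _)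
        (hb.intervalIntegrable _ _)).symm
    simp only
    rw [this]
    have h : 0 ≤ ∫ s in t..t', b s := intervalIntegral.integral_nonneg htt fun s _ => hb0 s
    linarith
  have hemono : ∀ t t', t ≤ t' → Real.exp (lam * (t - T1)) ≤ Real.exp (lam * (t' - T1)) := by
    intro t t' h
    apply Real.exp_le_exp.2
    exact mul_le_mul_of_nonneg_left (by linarith) hlam
  have hgmono : MonotoneOn g (Ici T1) := by
    intro t ht t' ht' htt
    have h1 := hImono ht ht' htt
    have h0 := hI0 t ht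
    simp only [hg] at h1 ⊢
    exact mul_le_mul (hemono t t' htt) (by linarith) (by linarith) (Real.exp_pos _).le
  have hg1 : ∀ t, T1 ≤ t → 1 ≤ g t := by
    intro t ht
    have h0 := hI0 t ht
    have h1 : 1 ≤ Real.exp (lam * (t - T1)) := Real.one_le_exp (mul_nonneg hlam (by linarith))
    have h2 : (1 : ℝ) ≤ a + 1 + ∫ s in T1..t, b s := by linarith
    simp only [hg]
    nlinarith
  have hbg : Continuous fun s => b s * g s := hb.mul hgc
  set J : ℝ → ℝ := fun t => ∫ s in T1..t, b s * g s with hJ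
  have hJd : ∀ t, HasDerivAt J (b t * g t) t := fun t =>
    intervalIntegral.integral_hasDerivAt_right (hbg.intervalIntegrable _ _)
      hbg.stronglyMeasurable.stronglyMeasurableAtFilter hbg.continuousAt
  have hJc : Continuous J := continuous_iff_continuousAt.2 fun t => (hJd t).continuousAt
  have hJ0 : ∀ t, T1 ≤ t → 0 ≤ J t := fun t ht =>
    intervalIntegral.integral_nonneg ht fun s hs => mul_nonneg (hb0 s)
      (zero_le_one.trans (hg1 s hs.1))
  have hJmono : MonotoneOn J (Ici T1) := by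
    intro t ht t' ht' htt
    have : J t' = J t + ∫ s in t..t', b s * g s :=
      (intervalIntegral.integral_add_adjacent_intervals (hbg.intervalIntegrable _ _)
        (hbg.intervalIntegrable _ _)).symm
    rw [this]
    have h : 0 ≤ ∫ s in t..t', b s * g s :=
      intervalIntegral.integral_nonneg htt fun s hs => mul_nonneg (hb0 s)
        (zero_le_one.trans (hg1 s (le_trans ht hs.1)))
    linarith
  set kap : ℝ → ℝ := fun t => g t * Real.exp (2 * J t) with hkap
  have hE1 : ∀ t, T1 ≤ t → 1 ≤ Real.exp (2 * J t) := fun t ht =>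
    Real.one_le_exp (by have := hJ0 t ht; positivity)
  have hkg : ∀ t, T1 ≤ t → g t ≤ kap t := by
    intro t ht
    simp only [hkap]
    nlinarith [hE1 t ht, hg1 t ht]
  have hint : ∀ t, ∫ s in T1..t, b s * kap s = (Real.exp (2 * J t) - 1) / 2 := by
    intro t
    have hd : ∀ s ∈ uIcc T1 t, HasDerivAt (fun s => Real.exp (2 * J s) / 2) (b s * kap s) s := by
      intro s _
      have h1 := (((hJd s).const_mul 2).exp).div_const 2
      refine h1.congr_deriv ?_
      show _ = b s * (g s * Real.exp (2 * J s))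
      ring
    rw [intervalIntegral.integral_eq_sub_of_hasDerivAt hd]
    · have : J T1 = 0 := by simp [hJ]
      rw [this]; simp; ring
    · apply Continuous.intervalIntegrable
      exact hb.mul (hgc.mul (by fun_prop))
  refine ⟨kap, hgc.mul (by fun_prop), fun t ht => (hg1 t ht).trans (hkg t ht), ?_,
    fun t ht => hkg t ht, fun t ht => ?_⟩
  · intro t ht t' ht' htt
    show g t * Real.exp (2 * J t) ≤ g t' * Real.exp (2 * J t')
    refine mul_le_mul (hgmono ht ht' htt) (Real.exp_le_exp.2 ?_) (Real.exp_pos _).le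
      (zero_le_one.trans (hg1 t' ht'))
    have := hJmono ht ht' htt
    linarith
  · rw [hint t]
    show (Real.exp (2 * J t) - 1) / 2 * g t ≤ g t * Real.exp (2 * J t) / 2
    nlinarith [hg1 t ht]

end Crest.Agent.R68.W
end

-- ▼ part R68/WFix
section

/-!
Row 68 (copy of the first version of DFix by helper813, used by part W): abstract fixed point theorems.

* `wfix` : Picard iteration with a pointwise weight, almost-everywhere semantics
  (take `μ = Measure.count` or any measure for which a.e. means everywhere if wanted).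
* `SNorm`, `SNorm.fixedPoint` : the same for a countably subadditive norm.
-/

set_option autoImplicit false
open MeasureTheory Filter
open scoped ENNReal NNReal Topology

namespace Crest.Agent.R68.WF

variable {Ω : Type*} [MeasurableSpace Ω] {μ : Measure Ω}

/-- a countably subadditive norm on nonnegative measurable functions, with a.e. semantics -/
structure SNorm (μ : Measure Ω) (N : (Ω → ℝ≥0∞) → ℝ≥0∞) : Prop where
  mono : ∀ f g : Ω → ℝ≥0∞, f ≤ᵐ[μ] g → N f ≤ N g
  tsum_le : ∀ f : ℕ → Ω → ℝ≥0∞, (∀ n, Measurable (f n)) →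
    N (fun x => ∑' n, f n x) ≤ ∑' n, N (f n)
  lt_top : ∀ f : Ω → ℝ≥0∞, Measurable f → N f < ⊤ → ∀ᵐ x ∂μ, f x < ⊤
  zero : ∀ f : Ω → ℝ≥0∞, Measurable f → N f = 0 → f =ᵐ[μ] 0
  map_zero : N (fun _ => 0) = 0

namespace SNorm

variable {N : (Ω → ℝ≥0∞) → ℝ≥0∞}

theorem add_le (hN : SNorm μ N) {f g : Ω → ℝ≥0∞} (hf : Measurable f) (hg : Measurable g) :
    N (fun x => f x + g x) ≤ N f + N g := by
  have h := hN.tsum_le (fun n => if n = 0 then f else if n = 1 then g else fun _ => 0) (by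
    intro n
    by_cases h0 : n = 0
    · simp [h0, hf]
    · by_cases h1 : n = 1
      · simp [h1, hg]
      · simp [h0, h1])
  have h1 : (fun x => ∑' n : ℕ, (if n = 0 then f else if n = 1 then g else fun _ => 0) x)
      = fun x => f x + g x := by
    funext x
    rw [tsum_eq_sum (s := Finset.range 2)]
    · simp [Finset.sum_range_succ]
    · intro b hb
      simp only [Finset.mem_range, not_lt] at hb
      have h0 : b ≠ 0 := by omega
      have h1 : b ≠ 1 := by omega
      simp [h0, h1]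
  rw [h1] at h
  refine h.trans (le_of_eq ?_)
  rw [tsum_eq_sum (s := Finset.range 2)]
  · simp [Finset.sum_range_succ]
  · intro b hb
    simp only [Finset.mem_range, not_lt] at hb
    have h0 : b ≠ 0 := by omega
    have h1 : b ≠ 1 := by omega
    simp [h0, h1, hN.map_zero]

/-- Picard iteration in a countably subadditive norm. -/
theorem fixedPoint (hN : SNorm μ N) {S : Set (Ω → ℝ)} (hSm : ∀ u ∈ S, Measurable u)
    (hclosed : ∀ u : ℕ → Ω → ℝ, (∀ n, u n ∈ S) → ∀ v : Ω → ℝ, Measurable v →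
      (∀ᵐ x ∂μ, Tendsto (fun n => u n x) atTop (𝓝 (v x))) →
      Tendsto (fun n => N (fun x => ‖u n x - v x‖ₑ)) atTop (𝓝 0) → v ∈ S)
    {Ψ : (Ω → ℝ) → (Ω → ℝ)} (hΨ : ∀ u ∈ S, Ψ u ∈ S) {θ : ℝ≥0} (hθ : θ < 1)
    (hlip : ∀ u ∈ S, ∀ v ∈ S, N (fun x => ‖u x - v x‖ₑ) < ⊤ →
      N (fun x => ‖Ψ u x - Ψ v x‖ₑ) ≤ θ * N (fun x => ‖u x - v x‖ₑ))
    {u0 : Ω → ℝ} (h0 : u0 ∈ S) (hfin : N (fun x => ‖Ψ u0 x - u0 x‖ₑ) < ⊤) :
    ∃ u ∈ S, Ψ u =ᵐ[μ] u ∧
      N (fun x => ‖u x - u0 x‖ₑ) ≤ (1 - (θ : ℝ≥0∞))⁻¹ * N (fun x => ‖Ψ u0 x - u0 x‖ₑ) := by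
  classical
  set c := N (fun x => ‖Ψ u0 x - u0 x‖ₑ) with hc
  let u : ℕ → Ω → ℝ := fun n => Ψ^[n] u0
  have huS : ∀ n, u n ∈ S := by
    intro n
    induction n with
    | zero => exact h0
    | succ n ih =>
      simp only [u, Function.iterate_succ_apply'] at ih ⊢
      exact hΨ _ ih
  have hum : ∀ n, Measurable (u n) := fun n => hSm _ (huS n)
  have hsucc : ∀ n, u (n + 1) = Ψ (u n) := fun n => by
    simp only [u, Function.iterate_succ_apply']
  have hd : ∀ n, N (fun x => ‖u (n + 1) x - u n x‖ₑ) ≤ (θ : ℝ≥0∞) ^ n * c := by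
    intro n
    induction n with
    | zero => simp [u, hc]
    | succ n ih =>
      have h1 := hlip (u (n + 1)) (huS _) (u n) (huS n)
        (lt_of_le_of_lt ih (ENNReal.mul_lt_top (ENNReal.pow_lt_top ENNReal.coe_lt_top) hfin))
      rw [hsucc (n + 1), hsucc n] at *
      refine h1.trans ?_
      rw [pow_succ', mul_assoc]
      gcongr
  have hθ1 : (θ : ℝ≥0∞) < 1 := by exact_mod_cast hθ
  have hgeo : ∀ m : ℕ, ∑' n : ℕ, (θ : ℝ≥0∞) ^ (n + m) * c = (θ : ℝ≥0∞) ^ m * ((1 - (θ : ℝ≥0∞))⁻¹ * c) := by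
    intro m
    have : ∀ n : ℕ, (θ : ℝ≥0∞) ^ (n + m) * c = (θ : ℝ≥0∞) ^ n * ((θ : ℝ≥0∞) ^ m * c) := by
      intro n; rw [pow_add]; ring
    simp_rw [this]
    rw [ENNReal.tsum_mul_right, ENNReal.tsum_geometric]
    ring
  -- the dominating function
  let dd : ℕ → Ω → ℝ≥0∞ := fun n x => ‖u (n + 1) x - u n x‖ₑ
  have hddm : ∀ n, Measurable (dd n) := fun n => ((hum (n + 1)).sub (hum n)).enorm
  have htail : ∀ m, N (fun x => ∑' n, dd (n + m) x) ≤ (θ : ℝ≥0∞) ^ m * ((1 - (θ : ℝ≥0∞))⁻¹ * c) := by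
    intro m
    refine (hN.tsum_le (fun n => dd (n + m)) (fun n => hddm _)).trans ?_
    rw [← hgeo m]
    exact ENNReal.tsum_le_tsum fun n => hd (n + m)
  have hcfin : (1 - (θ : ℝ≥0∞))⁻¹ * c < ⊤ := by
    refine ENNReal.mul_lt_top ?_ hfin
    rw [ENNReal.inv_lt_top]
    exact tsub_pos_of_lt hθ1
  have hsumfin : ∀ᵐ x ∂μ, ∑' n, dd n x < ⊤ := by
    have h1 := htail 0
    simp only [add_zero, pow_zero, one_mul] at h1
    exact hN.lt_top _ (Measurable.tsum hddm) (lt_of_le_of_lt h1 hcfin)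
  -- the limit
  let v : Ω → ℝ := fun x => if ∑' n, dd n x < ⊤ then limUnder atTop (fun n => u n x) else 0
  have hconv : ∀ x, ∑' n, dd n x < ⊤ → Tendsto (fun n => u n x) atTop (𝓝 (v x)) := by
    intro x hx
    have hcs : CauchySeq (fun n => u n x) := by
      refine cauchySeq_of_edist_le_of_tsum_ne_top (fun n => dd n x) ?_ hx.ne
      intro n
      rw [edist_comm, edist_eq_enorm_sub]
    have : v x = limUnder atTop (fun n => u n x) := by simp [v, hx]
    rw [this]
    exact hcs.tendsto_limUnder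
  have hset : MeasurableSet {x | ∑' n, dd n x < ⊤} :=
    measurableSet_lt (Measurable.tsum hddm) measurable_const
  have hvm : Measurable v := by
    -- v is the pointwise limit of indicator-truncated u n
    refine measurable_of_tendsto_metrizable
      (f := fun n x => if ∑' n, dd n x < ⊤ then u n x else 0) (fun n => ?_) ?_
    · exact Measurable.ite hset (hum n) measurable_const
    · rw [tendsto_pi_nhds]
      intro x
      by_cases hx : ∑' n, dd n x < ⊤
      · simp only [hx, if_true]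
        exact hconv x hx
      · simp only [hx, if_false, v]
        exact tendsto_const_nhds
  have hbound : ∀ m, ∀ x, ∑' n, dd n x < ⊤ → ‖u m x - v x‖ₑ ≤ ∑' n, dd (n + m) x := by
    intro m x hx
    have h1 : ∀ k, ‖u m x - u (k + m) x‖ₑ ≤ ∑' n, dd (n + m) x := by
      intro k
      have h2 : ‖u m x - u (k + m) x‖ₑ ≤ ∑ n ∈ Finset.range k, dd (n + m) x := by
        induction k with
        | zero => simp
        | succ k ih =>
          rw [Finset.sum_range_succ]
          have h3 : u m x - u (k + 1 + m) x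
              = (u m x - u (k + m) x) - (u (k + m + 1) x - u (k + m) x) := by
            have : k + 1 + m = k + m + 1 := by omega
            rw [this]; ring
          rw [h3]
          exact (enorm_sub_le).trans (add_le_add ih le_rfl)
      exact h2.trans (ENNReal.sum_le_tsum _)
    have h4 : Tendsto (fun k => ‖u m x - u (k + m) x‖ₑ) atTop (𝓝 ‖u m x - v x‖ₑ) := by
      have h5 := (tendsto_add_atTop_iff_nat m).2 (hconv x hx)
      exact (tendsto_const_nhds.sub h5).enorm
    exact le_of_tendsto' h4 h1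
  have hNb : ∀ m, N (fun x => ‖u m x - v x‖ₑ) ≤ (θ : ℝ≥0∞) ^ m * ((1 - (θ : ℝ≥0∞))⁻¹ * c) := by
    intro m
    refine le_trans (hN.mono _ _ ?_) (htail m)
    filter_upwards [hsumfin] with x hx
    exact hbound m x hx
  have hlim0 : Tendsto (fun m : ℕ => (θ : ℝ≥0∞) ^ m * ((1 - (θ : ℝ≥0∞))⁻¹ * c)) atTop (𝓝 0) := by
    have h1 : Tendsto (fun m : ℕ => (θ : ℝ≥0∞) ^ m) atTop (𝓝 0) :=
      ENNReal.tendsto_pow_atTop_nhds_zero_of_lt_one hθ1
    have h2 := ENNReal.Tendsto.mul_const (b := (1 - (θ : ℝ≥0∞))⁻¹ * c) h1 (Or.inr hcfin.ne)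
    simpa using h2
  have hNlim : Tendsto (fun n => N (fun x => ‖u n x - v x‖ₑ)) atTop (𝓝 0) :=
    tendsto_of_tendsto_of_tendsto_of_le_of_le tendsto_const_nhds hlim0 (fun _ => zero_le) hNb
  have hvS : v ∈ S := by
    refine hclosed u huS v hvm ?_ hNlim
    filter_upwards [hsumfin] with x hx
    exact hconv x hx
  refine ⟨v, hvS, ?_, ?_⟩
  · -- Ψ v = v
    have hle : ∀ m : ℕ, N (fun x => ‖Ψ v x - v x‖ₑ) ≤
        (θ : ℝ≥0∞) * N (fun x => ‖u m x - v x‖ₑ) + N (fun x => ‖u (m + 1) x - v x‖ₑ) := by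
      intro m
      have hΨv := hSm _ (hΨ v hvS)
      calc N (fun x => ‖Ψ v x - v x‖ₑ)
          ≤ N (fun x => ‖Ψ (u m) x - Ψ v x‖ₑ + ‖u (m + 1) x - v x‖ₑ) := by
            refine hN.mono _ _ (Eventually.of_forall fun x => ?_)
            have h3 : Ψ v x - v x = (u (m + 1) x - v x) - (Ψ (u m) x - Ψ v x) := by
              rw [hsucc m]; ring
            simp only
            rw [h3, add_comm (‖Ψ (u m) x - Ψ v x‖ₑ)]
            exact enorm_sub_le
        _ ≤ N (fun x => ‖Ψ (u m) x - Ψ v x‖ₑ) + N (fun x => ‖u (m + 1) x - v x‖ₑ) := by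
            refine hN.add_le ?_ ?_
            · exact ((hSm _ (hΨ _ (huS m))).sub hΨv).enorm
            · exact ((hum (m + 1)).sub hvm).enorm
        _ ≤ _ := by
            gcongr
            refine hlip _ (huS m) _ hvS (lt_of_le_of_lt (hNb m) ?_)
            exact ENNReal.mul_lt_top (ENNReal.pow_lt_top ENNReal.coe_lt_top) hcfin
    have hlim : Tendsto (fun m : ℕ => (θ : ℝ≥0∞) * N (fun x => ‖u m x - v x‖ₑ)
        + N (fun x => ‖u (m + 1) x - v x‖ₑ)) atTop (𝓝 0) := by
      have h1 := ENNReal.Tendsto.const_mul (a := (θ : ℝ≥0∞)) hNlim (Or.inr ENNReal.coe_ne_top)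
      have h2 := (tendsto_add_atTop_iff_nat 1).2 hNlim
      have h3 := h1.add h2
      simpa using h3
    have hz : N (fun x => ‖Ψ v x - v x‖ₑ) = 0 :=
      le_antisymm (ge_of_tendsto' hlim hle) zero_le
    have hz2 := hN.zero _ ((hSm _ (hΨ v hvS)).sub hvm).enorm hz
    filter_upwards [hz2] with x hx
    simp only [Pi.zero_apply, enorm_eq_zero, Pi.sub_apply] at hx
    linarith
  · have h1 := hNb 0
    simp only [pow_zero, one_mul] at h1
    refine le_trans (le_of_eq ?_) h1
    congr 1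
    funext x
    simp only [u, Function.iterate_zero, id_eq]
    rw [← enorm_neg]
    congr 1
    ring


/-- weighted essential sup as an `SNorm` -/
theorem ess {W : Ω → ℝ≥0∞} (hWt : ∀ᵐ x ∂μ, W x < ⊤) : SNorm μ (fun f => essSup (fun x => f x / W x) μ) where
  mono f g h := by
    refine essSup_mono_ae ?_
    filter_upwards [h] with x hx
    exact ENNReal.div_le_div_right hx _
  tsum_le f hf := by
    refine essSup_le_of_ae_le _ ?_
    have h : ∀ᵐ x ∂μ, ∀ n, f n x / W x ≤ essSup (fun x => f n x / W x) μ :=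
      ae_all_iff.2 fun n => ENNReal.ae_le_essSup _
    filter_upwards [h] with x hx
    simp only [div_eq_mul_inv] at hx ⊢
    rw [← ENNReal.tsum_mul_right]
    exact ENNReal.tsum_le_tsum hx
  lt_top f hf h := by
    have h1 := ENNReal.ae_le_essSup (μ := μ) (fun x => f x / W x)
    filter_upwards [h1, hWt] with x hx hx2
    have h3 : f x / W x < ⊤ := lt_of_le_of_lt hx h
    by_contra hcon
    have h4 : f x = ⊤ := by simpa using hcon
    rw [h4, ENNReal.top_div_of_ne_top hx2.ne] at h3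
    exact lt_irrefl _ h3
  zero f hf h := by
    have h1 := ENNReal.ae_le_essSup (μ := μ) (fun x => f x / W x)
    filter_upwards [h1, hWt] with x hx hx2
    rw [h] at hx
    have h3 : f x / W x = 0 := le_antisymm hx zero_le
    rw [ENNReal.div_eq_zero_iff] at h3
    rcases h3 with h3 | h3
    · exact h3
    · exact absurd h3 hx2.ne
  map_zero := by
    refine le_antisymm (essSup_le_of_ae_le _ ?_) zero_le
    exact Eventually.of_forall fun x => by simp

theorem essSup_div_le_iff {W f : Ω → ℝ≥0∞} (hWt : ∀ᵐ x ∂μ, W x < ⊤) {c : ℝ≥0∞} (hc : c < ⊤) :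
    essSup (fun x => f x / W x) μ ≤ c ↔ ∀ᵐ x ∂μ, f x ≤ c * W x := by
  constructor
  · intro h
    have h1 := ENNReal.ae_le_essSup (μ := μ) (fun x => f x / W x)
    filter_upwards [h1, hWt] with x hx hx2
    have h3 := hx.trans h
    rw [ENNReal.div_le_iff_le_mul (Or.inr hc.ne) (Or.inl hx2.ne)] at h3
    exact h3
  · intro h
    refine essSup_le_of_ae_le _ ?_
    filter_upwards [h, hWt] with x hx hx2
    show f x / W x ≤ c
    rw [ENNReal.div_le_iff_le_mul (Or.inr hc.ne) (Or.inl hx2.ne)]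
    exact hx

end SNorm

/-- Picard iteration with a pointwise weight `W`, almost-everywhere semantics. -/
theorem wfix {W : Ω → ℝ≥0∞} (hWt : ∀ᵐ x ∂μ, W x < ⊤) {S : Set (Ω → ℝ)}
    (hSm : ∀ u ∈ S, Measurable u)
    (hclosed : ∀ u : ℕ → Ω → ℝ, (∀ n, u n ∈ S) → ∀ v : Ω → ℝ, Measurable v →
      (∀ᵐ x ∂μ, Tendsto (fun n => u n x) atTop (𝓝 (v x))) →
      (∃ c : ℕ → ℝ≥0∞, Tendsto c atTop (𝓝 0) ∧ ∀ n, ∀ᵐ x ∂μ, ‖u n x - v x‖ₑ ≤ c n * W x) → v ∈ S)
    {Ψ : (Ω → ℝ) → (Ω → ℝ)} (hΨ : ∀ u ∈ S, Ψ u ∈ S) {θ : ℝ≥0} (hθ : θ < 1)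
    (hlip : ∀ u ∈ S, ∀ v ∈ S, ∀ c : ℝ≥0∞, c < ⊤ → (∀ᵐ x ∂μ, ‖u x - v x‖ₑ ≤ c * W x) →
      ∀ᵐ x ∂μ, ‖Ψ u x - Ψ v x‖ₑ ≤ θ * c * W x)
    {u0 : Ω → ℝ} (h0 : u0 ∈ S) {C : ℝ≥0∞} (hC : C < ⊤)
    (hfin : ∀ᵐ x ∂μ, ‖Ψ u0 x - u0 x‖ₑ ≤ C * W x) :
    ∃ u ∈ S, Ψ u =ᵐ[μ] u ∧ ∀ᵐ x ∂μ, ‖u x - u0 x‖ₑ ≤ (1 - (θ : ℝ≥0∞))⁻¹ * C * W x := by
  have hN := SNorm.ess (μ := μ) hWt
  have hθ1 : (θ : ℝ≥0∞) < 1 := by exact_mod_cast hθ
  have hinv : (1 - (θ : ℝ≥0∞))⁻¹ < ⊤ := by
    rw [ENNReal.inv_lt_top]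
    exact tsub_pos_of_lt hθ1
  have hfin' := (SNorm.essSup_div_le_iff hWt hC).2 hfin
  have hcl : ∀ u : ℕ → Ω → ℝ, (∀ n, u n ∈ S) → ∀ v : Ω → ℝ, Measurable v →
      (∀ᵐ x ∂μ, Tendsto (fun n => u n x) atTop (𝓝 (v x))) →
      Tendsto (fun n => essSup (fun x => ‖u n x - v x‖ₑ / W x) μ) atTop (𝓝 0) → v ∈ S := by
    intro u huS v hv hlim hNlim
    have hev : ∀ᶠ n in atTop, essSup (fun x => ‖u n x - v x‖ₑ / W x) μ < ⊤ :=
      hNlim.eventually (gt_mem_nhds (by simp))
    obtain ⟨m, hm⟩ := eventually_atTop.1 hev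
    refine hclosed (fun n => u (n + m)) (fun n => huS _) v hv ?_
      ⟨fun n => essSup (fun x => ‖u (n + m) x - v x‖ₑ / W x) μ,
        (tendsto_add_atTop_iff_nat m).2 hNlim,
        fun n => (SNorm.essSup_div_le_iff hWt (hm _ (Nat.le_add_left _ _))).1 le_rfl⟩
    filter_upwards [hlim] with x hx
    exact (tendsto_add_atTop_iff_nat m).2 hx
  have hlip' : ∀ u ∈ S, ∀ v ∈ S, essSup (fun x => ‖u x - v x‖ₑ / W x) μ < ⊤ →
      essSup (fun x => ‖Ψ u x - Ψ v x‖ₑ / W x) μ ≤
        θ * essSup (fun x => ‖u x - v x‖ₑ / W x) μ := by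
    intro u hu v hv hfinuv
    have h3 := (SNorm.essSup_div_le_iff hWt hfinuv).1 le_rfl
    have h4 := hlip u hu v hv _ hfinuv h3
    exact (SNorm.essSup_div_le_iff hWt (ENNReal.mul_lt_top ENNReal.coe_lt_top hfinuv)).2 h4
  obtain ⟨u, huS, h1, h2⟩ := hN.fixedPoint hSm hcl hΨ hθ hlip' h0 (lt_of_le_of_lt hfin' hC)
  refine ⟨u, huS, h1, ?_⟩
  have h3 := h2.trans (mul_le_mul_right hfin' _)
  exact (SNorm.essSup_div_le_iff hWt (ENNReal.mul_lt_top hinv hC)).1 h3

end Crest.Agent.R68.WF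
end

-- ▼ part R68/WB1

/-!
R68 / WB1: the damped Duhamel fixed point, global in time (helper475, part W).
-/

set_option autoImplicit false
open MeasureTheory Set
open scoped ENNReal NNReal
open Crest.AnalysisR.VecCalc3 Crest.AnalysisR.PDE.Boltzmann

noncomputable section

namespace Crest.Agent.R68.W

/-! ### damping factors -/

theorem dmp_le_add {L L' : Om → ℝ≥0∞} {z : Om} {s : ℝ} {δ : ℝ≥0∞} (hL : opt L z s ≠ ⊤)
    (h : opt L' z s ≤ opt L z s + δ) : dmp L z s ≤ dmp L' z s + δ := by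
  by_cases hδ : δ = ⊤
  · simp [hδ]
  have hL' : opt L' z s ≠ ⊤ := ne_top_of_le_ne_top (ENNReal.add_ne_top.2 ⟨hL, hδ⟩) h
  have h1 : (opt L' z s).toReal ≤ (opt L z s).toReal + δ.toReal := by
    rw [← ENNReal.toReal_add hL hδ]
    exact ENNReal.toReal_mono (ENNReal.add_ne_top.2 ⟨hL, hδ⟩) h
  unfold dmp
  rw [← ENNReal.ofReal_toReal hδ, ← ENNReal.ofReal_add (Real.exp_pos _).le ENNReal.toReal_nonneg]
  apply ENNReal.ofReal_le_ofReal
  set a := (opt L z s).toReal with ha
  set b := (opt L' z s).toReal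
  set d := δ.toReal
  have ha0 : 0 ≤ a := ENNReal.toReal_nonneg
  have hd0 : 0 ≤ d := ENNReal.toReal_nonneg
  have h2 : Real.exp (-a) * Real.exp (-d) ≤ Real.exp (-b) := by
    rw [← Real.exp_add]; apply Real.exp_le_exp.2; linarith
  have h3 : 1 - d ≤ Real.exp (-d) := by
    have := Real.add_one_le_exp (-d); linarith
  have h4 : Real.exp (-a) ≤ 1 := by
    rw [← Real.exp_zero]; apply Real.exp_le_exp.2; linarith
  have h5 : 0 < Real.exp (-a) := Real.exp_pos _
  nlinarith

theorem measurable_opt {L : Om → ℝ≥0∞} (hL : Measurable L) :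
    Measurable fun p : Om × ℝ => opt L p.1 p.2 := by
  have h : (fun p : Om × ℝ => opt L p.1 p.2) = fun p : Om × ℝ => ∫⁻ r,
      ({q : (Om × ℝ) × ℝ | q.1.2 < q.2 ∧ q.2 < q.1.1.1}.indicator
        (fun q : (Om × ℝ) × ℝ => L (fl q.1.1 q.2))) (p, r) := by
    funext p
    unfold opt
    rw [← lintegral_indicator measurableSet_Ioo]
    rfl
  rw [h]
  have m1 : Measurable fun q : (Om × ℝ) × ℝ => q.1.2 := measurable_fst.snd
  have m2 : Measurable fun q : (Om × ℝ) × ℝ => q.2 := measurable_snd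
  have m3 : Measurable fun q : (Om × ℝ) × ℝ => q.1.1.1 := measurable_fst.fst.fst
  have m4 : Measurable fun q : (Om × ℝ) × ℝ => (q.1.1, q.2) := measurable_fst.fst.prodMk measurable_snd
  have hs : MeasurableSet {q : (Om × ℝ) × ℝ | q.1.2 < q.2 ∧ q.2 < q.1.1.1} :=
    (measurableSet_lt m1 m2).inter (measurableSet_lt m2 m3)
  have hF : Measurable fun q : (Om × ℝ) × ℝ => L (fl q.1.1 q.2) := hL.comp (measurable_fl.comp m4)
  exact Measurable.lintegral_prod_right' (hF.indicator hs)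

theorem measurable_dmp {L : Om → ℝ≥0∞} (hL : Measurable L) :
    Measurable fun p : Om × ℝ => dmp L p.1 p.2 := by
  unfold dmp
  exact (Real.measurable_exp.comp (measurable_opt hL).ennreal_toReal.neg).ennreal_ofReal

theorem measurable_dmp_fl {L P : Om → ℝ≥0∞} (hL : Measurable L) (hP : Measurable P) :
    Measurable fun p : Om × ℝ => dmp L p.1 p.2 * P (fl p.1 p.2) :=
  (measurable_dmp hL).mul (hP.comp measurable_fl)

theorem measurable_damped {T1 : ℝ} {h1 : P2 → R3 → ℝ≥0∞}
    (hh1 : Measurable fun q : P2 × R3 => h1 q.1 q.2) {L P : Om → ℝ≥0∞} (hL : Measurable L)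
    (hP : Measurable P) : Measurable (damped T1 h1 L P) := by
  have mc : Measurable fun _ : Om => T1 := measurable_const
  have m0 := (measurable_id : Measurable (fun z : Om => z)).prodMk mc
  have m1 : Measurable fun z : Om => dmp L z T1 := by
    have := (measurable_dmp hL).comp m0
    exact this
  have m2 : Measurable fun z : Om => fl z T1 := by
    have := measurable_fl.comp m0
    exact this
  have m3 : Measurable fun z : Om => h1 (fl z T1).2.1 (fl z T1).2.2 := by
    have := hh1.comp m2.snd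
    exact this
  have n1 : Measurable fun q : Om × ℝ => q.2 := measurable_snd
  have n2 : Measurable fun q : Om × ℝ => q.1.1 := measurable_fst.fst
  have hs : MeasurableSet {q : Om × ℝ | T1 < q.2 ∧ q.2 < q.1.1} :=
    (measurableSet_lt measurable_const n1).inter (measurableSet_lt n1 n2)
  have m4 : Measurable fun z : Om => ∫⁻ s in Ioo T1 z.1, dmp L z s * P (fl z s) := by
    have h : (fun z : Om => ∫⁻ s in Ioo T1 z.1, dmp L z s * P (fl z s)) = fun z : Om => ∫⁻ s,
        ({q : Om × ℝ | T1 < q.2 ∧ q.2 < q.1.1}.indicator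
          (fun q : Om × ℝ => dmp L q.1 q.2 * P (fl q.1 q.2))) (z, s) := by
      funext z
      rw [← lintegral_indicator measurableSet_Ioo]
      rfl
    rw [h]
    exact Measurable.lintegral_prod_right' ((measurable_dmp_fl hL hP).indicator hs)
  exact (m1.mul m3).add m4

/-! ### the basic estimate -/

theorem damped_le_add {T1 lam : ℝ} (hlam : 0 ≤ lam) {E : Om → ℝ≥0∞}
    {h1 : P2 → R3 → ℝ≥0∞} {A : ℝ≥0∞}
    (hh1 : ∀ x v, h1 x v ≤ A * E (T1, x, v)) {L P L' P' : Om → ℝ≥0∞}
    {z : Om} (hz : T1 ≤ z.1)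
    (hfl : ∀ s, T1 ≤ s → s ≤ z.1 → E (fl z s) ≤ ENNReal.ofReal (Real.exp (lam * (z.1 - s))) * E z)
    {b kap : ℝ → ℝ} (hb : Measurable b) (hkap : Measurable kap) {c w : ℝ≥0∞}
    (hfin : opt L z T1 ≠ ⊤)
    (hLL : ∀ s, T1 < s → s < z.1 → L' (fl z s) ≤ L (fl z s) + c * w * ENNReal.ofReal (b s * kap s))
    (hPP : ∀ s, T1 < s → s < z.1 → P (fl z s) ≤ P' (fl z s) +
      c * w * ENNReal.ofReal (b s * kap s) * E (fl z s))
    (hPb : ∀ s, T1 < s → s < z.1 → P' (fl z s) ≤ ENNReal.ofReal (b s) * E (fl z s)) :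
    damped T1 h1 L P z ≤ damped T1 h1 L' P' z + c * w * E z *
      ((∫⁻ s in Ioo T1 z.1, ENNReal.ofReal (b s * kap s)) *
        (ENNReal.ofReal (Real.exp (lam * (z.1 - T1))) *
          (A + 1 + ∫⁻ s in Ioo T1 z.1, ENNReal.ofReal (b s)))) := by
  set J := ∫⁻ s in Ioo T1 z.1, ENNReal.ofReal (b s * kap s) with hJ
  set I := ∫⁻ s in Ioo T1 z.1, ENNReal.ofReal (b s) with hI
  set e := ENNReal.ofReal (Real.exp (lam * (z.1 - T1))) with he
  -- flights stay in the class
  have hEs : ∀ s, T1 ≤ s → s ≤ z.1 → E (fl z s) ≤ e * E z := by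
    intro s h2 h3
    refine (hfl s h2 h3).trans ?_
    gcongr
    rw [he]
    apply ENNReal.ofReal_le_ofReal
    apply Real.exp_le_exp.2
    exact mul_le_mul_of_nonneg_left (by linarith) hlam
  -- damping
  have hopt : ∀ s, T1 ≤ s → opt L' z s ≤ opt L z s + c * w * J := by
    intro s hs
    unfold opt
    have hm : Measurable fun r => c * w * ENNReal.ofReal (b r * kap r) := by fun_prop
    calc ∫⁻ r in Ioo s z.1, L' (fl z r)
        ≤ ∫⁻ r in Ioo s z.1, (L (fl z r) + c * w * ENNReal.ofReal (b r * kap r)) :=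
          setLIntegral_mono' measurableSet_Ioo fun r hr => hLL r (lt_of_le_of_lt hs hr.1) hr.2
      _ = (∫⁻ r in Ioo s z.1, L (fl z r)) + ∫⁻ r in Ioo s z.1, c * w * ENNReal.ofReal (b r * kap r) :=
          lintegral_add_right _ hm
      _ ≤ _ := by
          gcongr
          rw [hJ]
          rw [← lintegral_const_mul _ (by fun_prop)]
          exact lintegral_mono_set (Ioo_subset_Ioo_left hs)
  have hfins : ∀ s, T1 ≤ s → opt L z s ≠ ⊤ := by
    intro s hs
    refine ne_top_of_le_ne_top hfin ?_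
    unfold opt
    exact lintegral_mono_set (Ioo_subset_Ioo_left hs)
  have hdmp : ∀ s, T1 ≤ s → dmp L z s ≤ dmp L' z s + c * w * J := fun s hs =>
    dmp_le_add (hfins s hs) (hopt s hs)
  -- data part
  have hdata : dmp L z T1 * h1 (fl z T1).2.1 (fl z T1).2.2 ≤
      dmp L' z T1 * h1 (fl z T1).2.1 (fl z T1).2.2 + c * w * J * (A * (e * E z)) := by
    have h3 : h1 (fl z T1).2.1 (fl z T1).2.2 ≤ A * (e * E z) := by
      refine (hh1 _ _).trans ?_
      gcongr
      exact hEs T1 le_rfl hz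
    calc dmp L z T1 * h1 (fl z T1).2.1 (fl z T1).2.2
        ≤ (dmp L' z T1 + c * w * J) * h1 (fl z T1).2.1 (fl z T1).2.2 := by
          gcongr
          exact hdmp T1 le_rfl
      _ = dmp L' z T1 * h1 (fl z T1).2.1 (fl z T1).2.2 +
          c * w * J * h1 (fl z T1).2.1 (fl z T1).2.2 := by ring
      _ ≤ _ := by gcongr
  -- source part
  have hsrc : ∫⁻ s in Ioo T1 z.1, dmp L z s * P (fl z s) ≤
      (∫⁻ s in Ioo T1 z.1, dmp L' z s * P' (fl z s)) + c * w * (e * E z) * (J * I + J) := by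
    have hpt : ∀ s ∈ Ioo T1 z.1, dmp L z s * P (fl z s) ≤ dmp L' z s * P' (fl z s) +
        c * w * (e * E z) * (J * ENNReal.ofReal (b s) + ENNReal.ofReal (b s * kap s)) := by
      intro s hs
      have hE' := hEs s hs.1.le hs.2.le
      calc dmp L z s * P (fl z s)
          ≤ dmp L z s * (P' (fl z s) + c * w * ENNReal.ofReal (b s * kap s) * E (fl z s)) := by
            gcongr
            exact hPP s hs.1 hs.2
        _ = dmp L z s * P' (fl z s) + dmp L z s * (c * w * ENNReal.ofReal (b s * kap s) * E (fl z s)) := by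
            ring
        _ ≤ (dmp L' z s + c * w * J) * P' (fl z s) +
            1 * (c * w * ENNReal.ofReal (b s * kap s) * (e * E z)) := by
            gcongr
            · exact hdmp s hs.1.le
            · exact dmp_le_one _ _ _
        _ = dmp L' z s * P' (fl z s) + (c * w * J * P' (fl z s) +
            c * w * ENNReal.ofReal (b s * kap s) * (e * E z)) := by ring
        _ ≤ dmp L' z s * P' (fl z s) + (c * w * J * (ENNReal.ofReal (b s) * (e * E z)) +
            c * w * ENNReal.ofReal (b s * kap s) * (e * E z)) := by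
            gcongr
            refine (hPb s hs.1 hs.2).trans ?_
            gcongr
        _ = _ := by ring
    calc ∫⁻ s in Ioo T1 z.1, dmp L z s * P (fl z s)
        ≤ ∫⁻ s in Ioo T1 z.1, (dmp L' z s * P' (fl z s) +
          c * w * (e * E z) * (J * ENNReal.ofReal (b s) + ENNReal.ofReal (b s * kap s))) :=
          setLIntegral_mono' measurableSet_Ioo hpt
      _ = (∫⁻ s in Ioo T1 z.1, dmp L' z s * P' (fl z s)) + ∫⁻ s in Ioo T1 z.1,
          c * w * (e * E z) * (J * ENNReal.ofReal (b s) + ENNReal.ofReal (b s * kap s)) :=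
          lintegral_add_right _ (by fun_prop)
      _ = _ := by
          congr 1
          rw [lintegral_const_mul _ (by fun_prop), lintegral_add_left (by fun_prop),
            lintegral_const_mul _ (by fun_prop)]
  unfold damped
  calc _ ≤ (dmp L' z T1 * h1 (fl z T1).2.1 (fl z T1).2.2 + c * w * J * (A * (e * E z))) +
        ((∫⁻ s in Ioo T1 z.1, dmp L' z s * P' (fl z s)) + c * w * (e * E z) * (J * I + J)) :=
        add_le_add hdata hsrc
    _ = _ := by ring

end Crest.Agent.R68.W
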