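import Mathlib
import Crest.Agent.R68.WB1
import Crest.Agent.R68.A2
import Crest.Agent.R68.WA0

-- ▼ part R68/WB2
section

/-!
R68 / WB2: the damped Duhamel fixed point, global in time (helper475, part W).
-/

set_option autoImplicit false
open MeasureTheory Set
open scoped ENNReal NNReal
open Crest.AnalysisR.VecCalc3 Crest.AnalysisR.PDE.Boltzmann

noncomputable section

namespace Crest.Agent.R68.W

theorem enorm_toReal_sub_le {a b δ : ℝ≥0∞} (ha : a ≠ ⊤) (hb : b ≠ ⊤) (h1 : a ≤ b + δ)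
    (h2 : b ≤ a + δ) : ‖a.toReal - b.toReal‖ₑ ≤ δ := by
  by_cases hδ : δ = ⊤
  · simp [hδ]
  rw [← ofReal_norm, Real.norm_eq_abs, ← ENNReal.ofReal_toReal hδ]
  apply ENNReal.ofReal_le_ofReal
  rw [abs_sub_le_iff]
  have e1 := ENNReal.toReal_mono (ENNReal.add_ne_top.2 ⟨hb, hδ⟩) h1
  have e2 := ENNReal.toReal_mono (ENNReal.add_ne_top.2 ⟨ha, hδ⟩) h2
  rw [ENNReal.toReal_add hb hδ] at e1
  rw [ENNReal.toReal_add ha hδ] at e2
  constructor <;> linarith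

theorem lint_Ioo_eq {f : ℝ → ℝ} (hf : Continuous f) {a t : ℝ} (hat : a ≤ t)
    (h0 : ∀ s, a ≤ s → s ≤ t → 0 ≤ f s) :
    ∫⁻ s in Ioo a t, ENNReal.ofReal (f s) = ENNReal.ofReal (∫ s in a..t, f s) := by
  rw [intervalIntegral.integral_of_le hat, setLIntegral_congr Ioo_ae_eq_Ioc,
    ← ofReal_integral_eq_lintegral_ofReal]
  · exact (hf.integrableOn_Icc).mono_set Ioc_subset_Icc_self
  · rw [Filter.EventuallyLE, ae_restrict_iff' measurableSet_Ioc]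
    exact ae_of_all _ fun s hs => h0 s hs.1.le hs.2

/-- hypotheses of the damped fixed point theorem -/
structure FixHyp (T1 lam A : ℝ) (E : Om → ℝ≥0∞) (h1 : P2 → R3 → ℝ≥0∞) (b : ℝ → ℝ)
    (L P : (Om → ℝ) → Om → ℝ≥0∞) : Prop where
  lam0 : 0 ≤ lam
  A0 : 0 ≤ A
  Em : Measurable E
  flE : ∀ z s, T1 ≤ s → s ≤ z.1 → E (fl z s) ≤ ENNReal.ofReal (Real.exp (lam * (z.1 - s))) * E z
  h1m : Measurable fun q : P2 × R3 => h1 q.1 q.2
  h1E : ∀ x v, h1 x v ≤ ENNReal.ofReal A * E (T1, x, v)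
  bc : Continuous b
  b0 : ∀ t, 0 ≤ b t
  Lm : ∀ u, Measurable u → Measurable (L u)
  Pm : ∀ u, Measurable u → Measurable (P u)
  Lb : ∀ u, Measurable u → ∀ z : Om, T1 ≤ z.1 → E z < ⊤ →
    L u z ≤ ENNReal.ofReal (b z.1) * ENNReal.ofReal (1 + ‖z.2.2‖)
  Pb : ∀ u, Measurable u → ∀ z : Om, T1 ≤ z.1 → E z < ⊤ → P u z ≤ ENNReal.ofReal (b z.1) * E z
  Ll : ∀ u u', Measurable u → Measurable u' → ∀ kap : ℝ → ℝ, Continuous kap →
    MonotoneOn kap (Ici T1) → (∀ t, T1 ≤ t → 1 ≤ kap t) → ∀ c : ℝ≥0∞, c < ⊤ →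
    (∀ z : Om, T1 ≤ z.1 → E z < ⊤ →
      ‖u z - u' z‖ₑ ≤ c * (ENNReal.ofReal (kap z.1) * ENNReal.ofReal (1 + ‖z.2.2‖) * E z)) →
    ∀ z : Om, T1 ≤ z.1 → E z < ⊤ →
      L u z ≤ L u' z + c * ENNReal.ofReal (1 + ‖z.2.2‖) * ENNReal.ofReal (b z.1 * kap z.1)
  Pl : ∀ u u', Measurable u → Measurable u' → ∀ kap : ℝ → ℝ, Continuous kap →
    MonotoneOn kap (Ici T1) → (∀ t, T1 ≤ t → 1 ≤ kap t) → ∀ c : ℝ≥0∞, c < ⊤ →
    (∀ z : Om, T1 ≤ z.1 → E z < ⊤ →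
      ‖u z - u' z‖ₑ ≤ c * (ENNReal.ofReal (kap z.1) * ENNReal.ofReal (1 + ‖z.2.2‖) * E z)) →
    ∀ z : Om, T1 ≤ z.1 → E z < ⊤ →
      P u z ≤ P u' z + c * ENNReal.ofReal (1 + ‖z.2.2‖) * ENNReal.ofReal (b z.1 * kap z.1) * E z

namespace FixHyp

variable {T1 lam A : ℝ} {E : Om → ℝ≥0∞} {h1 : P2 → R3 → ℝ≥0∞} {b : ℝ → ℝ}
  {L P : (Om → ℝ) → Om → ℝ≥0∞}

theorem E_fl (H : FixHyp T1 lam A E h1 b L P) {z : Om} {s : ℝ} (hE : E z < ⊤) (h2 : T1 ≤ s)
    (h3 : s ≤ z.1) : E (fl z s) < ⊤ :=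
  (H.flE z s h2 h3).trans_lt (ENNReal.mul_lt_top ENNReal.ofReal_lt_top hE)

theorem E_fl_le (H : FixHyp T1 lam A E h1 b L P) {z : Om} {s : ℝ} (h2 : T1 ≤ s)
    (h3 : s ≤ z.1) : E (fl z s) ≤ ENNReal.ofReal (Real.exp (lam * (z.1 - T1))) * E z := by
  refine (H.flE z s h2 h3).trans ?_
  refine mul_le_mul_left (ENNReal.ofReal_le_ofReal (Real.exp_le_exp.2 ?_)) _
  exact mul_le_mul_of_nonneg_left (by linarith) H.lam0

theorem opt_ne_top (H : FixHyp T1 lam A E h1 b L P) {u : Om → ℝ} (hu : Measurable u) {z : Om}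
    (hz : T1 ≤ z.1) (hE : E z < ⊤) : opt (L u) z T1 ≠ ⊤ := by
  refine ne_top_of_le_ne_top (b := (∫⁻ s in Ioo T1 z.1, ENNReal.ofReal (b s)) *
    ENNReal.ofReal (1 + ‖z.2.2‖)) ?_ ?_
  · rw [lint_Ioo_eq H.bc hz fun s _ _ => H.b0 s]
    exact ENNReal.mul_ne_top ENNReal.ofReal_ne_top ENNReal.ofReal_ne_top
  · unfold opt
    rw [← lintegral_mul_const' _ _ ENNReal.ofReal_ne_top]
    exact setLIntegral_mono' measurableSet_Ioo fun s hs =>
      H.Lb u hu (fl z s) hs.1.le (H.E_fl hE hs.1.le hs.2.le)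

theorem damped_le (H : FixHyp T1 lam A E h1 b L P) {u : Om → ℝ} (hu : Measurable u) {z : Om}
    (hz : T1 ≤ z.1) (hE : E z < ⊤) : damped T1 h1 (L u) (P u) z ≤
      ENNReal.ofReal (Real.exp (lam * (z.1 - T1)) * (A + 1 + ∫ s in T1..z.1, b s)) * E z := by
  have hI0 : 0 ≤ ∫ s in T1..z.1, b s := intervalIntegral.integral_nonneg hz fun s _ => H.b0 s
  set e := ENNReal.ofReal (Real.exp (lam * (z.1 - T1))) with he
  have h2 : dmp (L u) z T1 * h1 (fl z T1).2.1 (fl z T1).2.2 ≤ ENNReal.ofReal A * (e * E z) := by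
    calc _ ≤ 1 * (ENNReal.ofReal A * (e * E z)) := by
          gcongr
          · exact dmp_le_one _ _ _
          · exact (H.h1E _ _).trans (mul_le_mul_right (H.E_fl_le le_rfl hz) _)
      _ = _ := one_mul _
  have h3 : ∫⁻ s in Ioo T1 z.1, dmp (L u) z s * P u (fl z s) ≤
      ENNReal.ofReal (∫ s in T1..z.1, b s) * (e * E z) := by
    rw [← lint_Ioo_eq H.bc hz fun s _ _ => H.b0 s,
      ← lintegral_mul_const' _ _ (ENNReal.mul_ne_top ENNReal.ofReal_ne_top hE.ne)]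
    refine setLIntegral_mono' measurableSet_Ioo fun s hs => ?_
    calc dmp (L u) z s * P u (fl z s) ≤ 1 * (ENNReal.ofReal (b s) * (e * E z)) := by
          gcongr
          · exact dmp_le_one _ _ _
          · refine (H.Pb u hu (fl z s) hs.1.le (H.E_fl hE hs.1.le hs.2.le)).trans ?_
            exact mul_le_mul_right (H.E_fl_le hs.1.le hs.2.le) _
      _ = _ := one_mul _
  unfold damped
  calc _ ≤ ENNReal.ofReal A * (e * E z) + ENNReal.ofReal (∫ s in T1..z.1, b s) * (e * E z) :=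
        add_le_add h2 h3
    _ = e * (ENNReal.ofReal A + ENNReal.ofReal (∫ s in T1..z.1, b s)) * E z := by ring
    _ ≤ _ := by
        gcongr
        rw [← ENNReal.ofReal_add H.A0 hI0, he, ← ENNReal.ofReal_mul (Real.exp_pos _).le]
        apply ENNReal.ofReal_le_ofReal
        have := Real.exp_pos (lam * (z.1 - T1))
        nlinarith

theorem damped_ne_top (H : FixHyp T1 lam A E h1 b L P) {u : Om → ℝ} (hu : Measurable u) {z : Om}
    (hz : T1 ≤ z.1) (hE : E z < ⊤) : damped T1 h1 (L u) (P u) z ≠ ⊤ :=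
  ne_top_of_le_ne_top (ENNReal.mul_ne_top ENNReal.ofReal_ne_top hE.ne) (H.damped_le hu hz hE)

/-- the Lipschitz estimate -/
theorem lip (H : FixHyp T1 lam A E h1 b L P) {kap : ℝ → ℝ} (hkc : Continuous kap)
    (hkm : MonotoneOn kap (Ici T1)) (hk1 : ∀ t, T1 ≤ t → 1 ≤ kap t)
    (hkJ : ∀ t, T1 ≤ t → (∫ s in T1..t, b s * kap s) *
        (Real.exp (lam * (t - T1)) * (A + 1 + ∫ s in T1..t, b s)) ≤ kap t / 2)
    {u u' : Om → ℝ} (hu : Measurable u) (hu' : Measurable u') {c : ℝ≥0∞} (hc : c < ⊤)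
    (h : ∀ z : Om, T1 ≤ z.1 → E z < ⊤ →
      ‖u z - u' z‖ₑ ≤ c * (ENNReal.ofReal (kap z.1) * ENNReal.ofReal (1 + ‖z.2.2‖) * E z))
    {z : Om} (hz : T1 ≤ z.1) (hE : E z < ⊤) :
    damped T1 h1 (L u) (P u) z ≤ damped T1 h1 (L u') (P u') z +
      ((1 / 2 : ℝ≥0) : ℝ≥0∞) * c * (ENNReal.ofReal (kap z.1) * ENNReal.ofReal (1 + ‖z.2.2‖) * E z) := by
  have hI0 : 0 ≤ ∫ s in T1..z.1, b s := intervalIntegral.integral_nonneg hz fun s _ => H.b0 s
  have h' : ∀ z : Om, T1 ≤ z.1 → E z < ⊤ →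
      ‖u' z - u z‖ₑ ≤ c * (ENNReal.ofReal (kap z.1) * ENNReal.ofReal (1 + ‖z.2.2‖) * E z) := by
    intro z hz hE
    have := h z hz hE
    rwa [← enorm_neg, neg_sub] at this
  have key := damped_le_add (T1 := T1) (lam := lam) H.lam0 (E := E) (h1 := h1)
    (A := ENNReal.ofReal A) H.h1E (L := L u) (P := P u) (L' := L u') (P' := P u') (z := z) hz
    (fun s h2 h3 => H.flE z s h2 h3) H.bc.measurable hkc.measurable (c := c)
    (w := ENNReal.ofReal (1 + ‖z.2.2‖)) (H.opt_ne_top hu hz hE)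
    (fun s h2 h3 => H.Ll u' u hu' hu kap hkc hkm hk1 c hc h' (fl z s) h2.le (H.E_fl hE h2.le h3.le))
    (fun s h2 h3 => H.Pl u u' hu hu' kap hkc hkm hk1 c hc h (fl z s) h2.le (H.E_fl hE h2.le h3.le))
    (fun s h2 h3 => H.Pb u' hu' (fl z s) h2.le (H.E_fl hE h2.le h3.le))
  refine key.trans (add_le_add le_rfl ?_)
  have e1 : (∫⁻ s in Ioo T1 z.1, ENNReal.ofReal (b s * kap s)) =
      ENNReal.ofReal (∫ s in T1..z.1, b s * kap s) :=
    lint_Ioo_eq (H.bc.mul hkc) hz fun s hs _ => mul_nonneg (H.b0 s) (zero_le_one.trans (hk1 s hs))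
  have e2 : (∫⁻ s in Ioo T1 z.1, ENNReal.ofReal (b s)) = ENNReal.ofReal (∫ s in T1..z.1, b s) :=
    lint_Ioo_eq H.bc hz fun s _ _ => H.b0 s
  have hJ0 : 0 ≤ ∫ s in T1..z.1, b s * kap s :=
    intervalIntegral.integral_nonneg hz fun s hs =>
      mul_nonneg (H.b0 s) (zero_le_one.trans (hk1 s hs.1))
  have e3 : (∫⁻ s in Ioo T1 z.1, ENNReal.ofReal (b s * kap s)) *
        (ENNReal.ofReal (Real.exp (lam * (z.1 - T1))) *
          (ENNReal.ofReal A + 1 + ∫⁻ s in Ioo T1 z.1, ENNReal.ofReal (b s))) ≤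
      ((1 / 2 : ℝ≥0) : ℝ≥0∞) * ENNReal.ofReal (kap z.1) := by
    rw [e1, e2, ← ENNReal.ofReal_one, ← ENNReal.ofReal_add H.A0 zero_le_one,
      ← ENNReal.ofReal_add (by have := H.A0; positivity) hI0,
      ← ENNReal.ofReal_mul (Real.exp_pos _).le, ← ENNReal.ofReal_mul hJ0]
    have e4 : ((1 / 2 : ℝ≥0) : ℝ≥0∞) = ENNReal.ofReal (1 / 2) := by
      rw [ENNReal.ofReal]
      congr 1
      ext
      simp
    rw [e4, ← ENNReal.ofReal_mul (by norm_num)]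
    apply ENNReal.ofReal_le_ofReal
    have := hkJ z.1 hz
    linarith
  calc c * ENNReal.ofReal (1 + ‖z.2.2‖) * E z * _
      ≤ c * ENNReal.ofReal (1 + ‖z.2.2‖) * E z * (((1 / 2 : ℝ≥0) : ℝ≥0∞) * ENNReal.ofReal (kap z.1)) := by
        gcongr
    _ = _ := by ring

end FixHyp


end Crest.Agent.R68.W
end
end

-- ▼ part R68/WB4
section

/-!
R68 / WB4: the damped Duhamel fixed point in a closed class of functions, global in time
(helper475, part W).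
-/

set_option autoImplicit false
open MeasureTheory Set
open scoped ENNReal NNReal
open Crest.AnalysisR.VecCalc3 Crest.AnalysisR.PDE.Boltzmann

noncomputable section

namespace Crest.Agent.R68.W

/-- hypotheses of the damped fixed point theorem -/
structure FixHypC (T1 lam A : ℝ) (E : Om → ℝ≥0∞) (h1 : P2 → R3 → ℝ≥0∞) (b : ℝ → ℝ)
    (L P : (Om → ℝ) → Om → ℝ≥0∞) (Cl : Set (Om → ℝ)) : Prop where
  ClM : ∀ u ∈ Cl, Measurable u
  Cl0 : (fun _ => (0 : ℝ)) ∈ Cl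
  ClLim : ∀ u : ℕ → Om → ℝ, (∀ n, u n ∈ Cl) → ∀ v : Om → ℝ, Measurable v →
    (∀ z : Om, T1 ≤ z.1 → E z < ⊤ → Filter.Tendsto (fun n => u n z) Filter.atTop (nhds (v z))) →
    v ∈ Cl
  ClPsi : ∀ u ∈ Cl,
    ({z : Om | T1 ≤ z.1 ∧ E z < ⊤}.indicator fun z => (damped T1 h1 (L u) (P u) z).toReal) ∈ Cl
  lam0 : 0 ≤ lam
  A0 : 0 ≤ A
  Em : Measurable E
  flE : ∀ z s, T1 ≤ s → s ≤ z.1 → E (fl z s) ≤ ENNReal.ofReal (Real.exp (lam * (z.1 - s))) * E z
  h1m : Measurable fun q : P2 × R3 => h1 q.1 q.2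
  h1E : ∀ x v, h1 x v ≤ ENNReal.ofReal A * E (T1, x, v)
  bc : Continuous b
  b0 : ∀ t, 0 ≤ b t
  Lm : ∀ u ∈ Cl, Measurable (L u)
  Pm : ∀ u ∈ Cl, Measurable (P u)
  Lb : ∀ u ∈ Cl, ∀ z : Om, T1 ≤ z.1 → E z < ⊤ →
    L u z ≤ ENNReal.ofReal (b z.1) * ENNReal.ofReal (1 + ‖z.2.2‖)
  Pb : ∀ u ∈ Cl, ∀ z : Om, T1 ≤ z.1 → E z < ⊤ → P u z ≤ ENNReal.ofReal (b z.1) * E z
  Ll : ∀ u u', u ∈ Cl → u' ∈ Cl → ∀ kap : ℝ → ℝ, Continuous kap →
    MonotoneOn kap (Ici T1) → (∀ t, T1 ≤ t → 1 ≤ kap t) → ∀ c : ℝ≥0∞, c < ⊤ →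
    (∀ z : Om, T1 ≤ z.1 → E z < ⊤ →
      ‖u z - u' z‖ₑ ≤ c * (ENNReal.ofReal (kap z.1) * ENNReal.ofReal (1 + ‖z.2.2‖) * E z)) →
    ∀ z : Om, T1 ≤ z.1 → E z < ⊤ →
      L u z ≤ L u' z + c * ENNReal.ofReal (1 + ‖z.2.2‖) * ENNReal.ofReal (b z.1 * kap z.1)
  Pl : ∀ u u', u ∈ Cl → u' ∈ Cl → ∀ kap : ℝ → ℝ, Continuous kap →
    MonotoneOn kap (Ici T1) → (∀ t, T1 ≤ t → 1 ≤ kap t) → ∀ c : ℝ≥0∞, c < ⊤ →
    (∀ z : Om, T1 ≤ z.1 → E z < ⊤ →
      ‖u z - u' z‖ₑ ≤ c * (ENNReal.ofReal (kap z.1) * ENNReal.ofReal (1 + ‖z.2.2‖) * E z)) →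
    ∀ z : Om, T1 ≤ z.1 → E z < ⊤ →
      P u z ≤ P u' z + c * ENNReal.ofReal (1 + ‖z.2.2‖) * ENNReal.ofReal (b z.1 * kap z.1) * E z

namespace FixHypC

variable {T1 lam A : ℝ} {E : Om → ℝ≥0∞} {h1 : P2 → R3 → ℝ≥0∞} {b : ℝ → ℝ}
  {L P : (Om → ℝ) → Om → ℝ≥0∞} {Cl : Set (Om → ℝ)}

theorem E_fl (H : FixHypC T1 lam A E h1 b L P Cl) {z : Om} {s : ℝ} (hE : E z < ⊤) (h2 : T1 ≤ s)
    (h3 : s ≤ z.1) : E (fl z s) < ⊤ :=
  (H.flE z s h2 h3).trans_lt (ENNReal.mul_lt_top ENNReal.ofReal_lt_top hE)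

theorem E_fl_le (H : FixHypC T1 lam A E h1 b L P Cl) {z : Om} {s : ℝ} (h2 : T1 ≤ s)
    (h3 : s ≤ z.1) : E (fl z s) ≤ ENNReal.ofReal (Real.exp (lam * (z.1 - T1))) * E z := by
  refine (H.flE z s h2 h3).trans ?_
  refine mul_le_mul_left (ENNReal.ofReal_le_ofReal (Real.exp_le_exp.2 ?_)) _
  exact mul_le_mul_of_nonneg_left (by linarith) H.lam0

theorem opt_ne_top (H : FixHypC T1 lam A E h1 b L P Cl) {u : Om → ℝ} (hu : u ∈ Cl) {z : Om}
    (hz : T1 ≤ z.1) (hE : E z < ⊤) : opt (L u) z T1 ≠ ⊤ := by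
  refine ne_top_of_le_ne_top (b := (∫⁻ s in Ioo T1 z.1, ENNReal.ofReal (b s)) *
    ENNReal.ofReal (1 + ‖z.2.2‖)) ?_ ?_
  · rw [lint_Ioo_eq H.bc hz fun s _ _ => H.b0 s]
    exact ENNReal.mul_ne_top ENNReal.ofReal_ne_top ENNReal.ofReal_ne_top
  · unfold opt
    rw [← lintegral_mul_const' _ _ ENNReal.ofReal_ne_top]
    exact setLIntegral_mono' measurableSet_Ioo fun s hs =>
      H.Lb u hu (fl z s) hs.1.le (H.E_fl hE hs.1.le hs.2.le)

theorem damped_le (H : FixHypC T1 lam A E h1 b L P Cl) {u : Om → ℝ} (hu : u ∈ Cl) {z : Om}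
    (hz : T1 ≤ z.1) (hE : E z < ⊤) : damped T1 h1 (L u) (P u) z ≤
      ENNReal.ofReal (Real.exp (lam * (z.1 - T1)) * (A + 1 + ∫ s in T1..z.1, b s)) * E z := by
  have hI0 : 0 ≤ ∫ s in T1..z.1, b s := intervalIntegral.integral_nonneg hz fun s _ => H.b0 s
  set e := ENNReal.ofReal (Real.exp (lam * (z.1 - T1))) with he
  have h2 : dmp (L u) z T1 * h1 (fl z T1).2.1 (fl z T1).2.2 ≤ ENNReal.ofReal A * (e * E z) := by
    calc _ ≤ 1 * (ENNReal.ofReal A * (e * E z)) := by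
          gcongr
          · exact dmp_le_one _ _ _
          · exact (H.h1E _ _).trans (mul_le_mul_right (H.E_fl_le le_rfl hz) _)
      _ = _ := one_mul _
  have h3 : ∫⁻ s in Ioo T1 z.1, dmp (L u) z s * P u (fl z s) ≤
      ENNReal.ofReal (∫ s in T1..z.1, b s) * (e * E z) := by
    rw [← lint_Ioo_eq H.bc hz fun s _ _ => H.b0 s,
      ← lintegral_mul_const' _ _ (ENNReal.mul_ne_top ENNReal.ofReal_ne_top hE.ne)]
    refine setLIntegral_mono' measurableSet_Ioo fun s hs => ?_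
    calc dmp (L u) z s * P u (fl z s) ≤ 1 * (ENNReal.ofReal (b s) * (e * E z)) := by
          gcongr
          · exact dmp_le_one _ _ _
          · refine (H.Pb u hu (fl z s) hs.1.le (H.E_fl hE hs.1.le hs.2.le)).trans ?_
            exact mul_le_mul_right (H.E_fl_le hs.1.le hs.2.le) _
      _ = _ := one_mul _
  unfold damped
  calc _ ≤ ENNReal.ofReal A * (e * E z) + ENNReal.ofReal (∫ s in T1..z.1, b s) * (e * E z) :=
        add_le_add h2 h3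
    _ = e * (ENNReal.ofReal A + ENNReal.ofReal (∫ s in T1..z.1, b s)) * E z := by ring
    _ ≤ _ := by
        gcongr
        rw [← ENNReal.ofReal_add H.A0 hI0, he, ← ENNReal.ofReal_mul (Real.exp_pos _).le]
        apply ENNReal.ofReal_le_ofReal
        have := Real.exp_pos (lam * (z.1 - T1))
        nlinarith

theorem damped_ne_top (H : FixHypC T1 lam A E h1 b L P Cl) {u : Om → ℝ} (hu : u ∈ Cl) {z : Om}
    (hz : T1 ≤ z.1) (hE : E z < ⊤) : damped T1 h1 (L u) (P u) z ≠ ⊤ :=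
  ne_top_of_le_ne_top (ENNReal.mul_ne_top ENNReal.ofReal_ne_top hE.ne) (H.damped_le hu hz hE)

/-- the Lipschitz estimate -/
theorem lip (H : FixHypC T1 lam A E h1 b L P Cl) {kap : ℝ → ℝ} (hkc : Continuous kap)
    (hkm : MonotoneOn kap (Ici T1)) (hk1 : ∀ t, T1 ≤ t → 1 ≤ kap t)
    (hkJ : ∀ t, T1 ≤ t → (∫ s in T1..t, b s * kap s) *
        (Real.exp (lam * (t - T1)) * (A + 1 + ∫ s in T1..t, b s)) ≤ kap t / 2)
    {u u' : Om → ℝ} (hu : u ∈ Cl) (hu' : u' ∈ Cl) {c : ℝ≥0∞} (hc : c < ⊤)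
    (h : ∀ z : Om, T1 ≤ z.1 → E z < ⊤ →
      ‖u z - u' z‖ₑ ≤ c * (ENNReal.ofReal (kap z.1) * ENNReal.ofReal (1 + ‖z.2.2‖) * E z))
    {z : Om} (hz : T1 ≤ z.1) (hE : E z < ⊤) :
    damped T1 h1 (L u) (P u) z ≤ damped T1 h1 (L u') (P u') z +
      ((1 / 2 : ℝ≥0) : ℝ≥0∞) * c * (ENNReal.ofReal (kap z.1) * ENNReal.ofReal (1 + ‖z.2.2‖) * E z) := by
  have hI0 : 0 ≤ ∫ s in T1..z.1, b s := intervalIntegral.integral_nonneg hz fun s _ => H.b0 s
  have h' : ∀ z : Om, T1 ≤ z.1 → E z < ⊤ →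
      ‖u' z - u z‖ₑ ≤ c * (ENNReal.ofReal (kap z.1) * ENNReal.ofReal (1 + ‖z.2.2‖) * E z) := by
    intro z hz hE
    have := h z hz hE
    rwa [← enorm_neg, neg_sub] at this
  have key := damped_le_add (T1 := T1) (lam := lam) H.lam0 (E := E) (h1 := h1)
    (A := ENNReal.ofReal A) H.h1E (L := L u) (P := P u) (L' := L u') (P' := P u') (z := z) hz
    (fun s h2 h3 => H.flE z s h2 h3) H.bc.measurable hkc.measurable (c := c)
    (w := ENNReal.ofReal (1 + ‖z.2.2‖)) (H.opt_ne_top hu hz hE)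
    (fun s h2 h3 => H.Ll u' u hu' hu kap hkc hkm hk1 c hc h' (fl z s) h2.le (H.E_fl hE h2.le h3.le))
    (fun s h2 h3 => H.Pl u u' hu hu' kap hkc hkm hk1 c hc h (fl z s) h2.le (H.E_fl hE h2.le h3.le))
    (fun s h2 h3 => H.Pb u' hu' (fl z s) h2.le (H.E_fl hE h2.le h3.le))
  refine key.trans (add_le_add le_rfl ?_)
  have e1 : (∫⁻ s in Ioo T1 z.1, ENNReal.ofReal (b s * kap s)) =
      ENNReal.ofReal (∫ s in T1..z.1, b s * kap s) :=
    lint_Ioo_eq (H.bc.mul hkc) hz fun s hs _ => mul_nonneg (H.b0 s) (zero_le_one.trans (hk1 s hs))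
  have e2 : (∫⁻ s in Ioo T1 z.1, ENNReal.ofReal (b s)) = ENNReal.ofReal (∫ s in T1..z.1, b s) :=
    lint_Ioo_eq H.bc hz fun s _ _ => H.b0 s
  have hJ0 : 0 ≤ ∫ s in T1..z.1, b s * kap s :=
    intervalIntegral.integral_nonneg hz fun s hs =>
      mul_nonneg (H.b0 s) (zero_le_one.trans (hk1 s hs.1))
  have e3 : (∫⁻ s in Ioo T1 z.1, ENNReal.ofReal (b s * kap s)) *
        (ENNReal.ofReal (Real.exp (lam * (z.1 - T1))) *
          (ENNReal.ofReal A + 1 + ∫⁻ s in Ioo T1 z.1, ENNReal.ofReal (b s))) ≤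
      ((1 / 2 : ℝ≥0) : ℝ≥0∞) * ENNReal.ofReal (kap z.1) := by
    rw [e1, e2, ← ENNReal.ofReal_one, ← ENNReal.ofReal_add H.A0 zero_le_one,
      ← ENNReal.ofReal_add (by have := H.A0; positivity) hI0,
      ← ENNReal.ofReal_mul (Real.exp_pos _).le, ← ENNReal.ofReal_mul hJ0]
    have e4 : ((1 / 2 : ℝ≥0) : ℝ≥0∞) = ENNReal.ofReal (1 / 2) := by
      rw [ENNReal.ofReal]
      congr 1
      ext
      simp
    rw [e4, ← ENNReal.ofReal_mul (by norm_num)]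
    apply ENNReal.ofReal_le_ofReal
    have := hkJ z.1 hz
    linarith
  calc c * ENNReal.ofReal (1 + ‖z.2.2‖) * E z * _
      ≤ c * ENNReal.ofReal (1 + ‖z.2.2‖) * E z * (((1 / 2 : ℝ≥0) : ℝ≥0∞) * ENNReal.ofReal (kap z.1)) := by
        gcongr
    _ = _ := by ring

end FixHypC

open FixHypC in
/-- **global fixed point of the damped Duhamel equation** -/
theorem dampFixC {T1 lam A : ℝ} {E : Om → ℝ≥0∞} {h1 : P2 → R3 → ℝ≥0∞} {b : ℝ → ℝ}
    {L P : (Om → ℝ) → Om → ℝ≥0∞} {Cl : Set (Om → ℝ)} (H : FixHypC T1 lam A E h1 b L P Cl) :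
    ∃ u ∈ Cl, (∀ z, 0 ≤ u z) ∧
      ∀ z : Om, T1 ≤ z.1 → E z < ⊤ →
        damped T1 h1 (L u) (P u) z ≠ ⊤ ∧ ENNReal.ofReal (u z) = damped T1 h1 (L u) (P u) z := by
  obtain ⟨kap, hkc, hk1, hkm, hkg, hkJ⟩ := exists_time_weight T1 lam H.lam0 H.bc H.b0 H.A0
  set S : Set Om := {z | T1 ≤ z.1 ∧ E z < ⊤} with hSdef
  have hS : MeasurableSet S :=
    (measurableSet_le measurable_const measurable_fst).inter (measurableSet_lt H.Em measurable_const)
  set μ : Measure Om := Measure.count.restrict S with hμ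
  have hae : ∀ p : Om → Prop, (∀ᵐ z ∂μ, p z) ↔ ∀ z ∈ S, p z := by
    intro p
    rw [hμ, ae_restrict_iff' hS, Measure.ae_count_iff]
  classical
  set Ψ : (Om → ℝ) → (Om → ℝ) := fun u => S.indicator fun z => (damped T1 h1 (L u) (P u) z).toReal
    with hΨ
  have hΨS : ∀ u, ∀ z ∈ S, Ψ u z = (damped T1 h1 (L u) (P u) z).toReal := fun u z hz => by
    simp only [hΨ]; exact indicator_of_mem hz _
  have hΨm : ∀ u ∈ Cl, Ψ u ∈ Cl := fun u hu => H.ClPsi u hu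
  set W : Om → ℝ≥0∞ := fun z => ENNReal.ofReal (kap z.1) * ENNReal.ofReal (1 + ‖z.2.2‖) * E z with hW
  have hWt : ∀ᵐ z ∂μ, W z < ⊤ := by
    rw [hae]
    intro z hz
    exact ENNReal.mul_lt_top (ENNReal.mul_lt_top ENNReal.ofReal_lt_top ENNReal.ofReal_lt_top) hz.2
  have hneg : ∀ u u' : Om → ℝ, ∀ c : ℝ≥0∞, (∀ z : Om, T1 ≤ z.1 → E z < ⊤ →
      ‖u z - u' z‖ₑ ≤ c * W z) → (∀ z : Om, T1 ≤ z.1 → E z < ⊤ → ‖u' z - u z‖ₑ ≤ c * W z) := by
    intro u u' c h z hz hE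
    have := h z hz hE
    rwa [← enorm_neg, neg_sub] at this
  obtain ⟨u, hu, hfix, -⟩ := WF.wfix (μ := μ) (W := W) hWt (S := Cl)
    H.ClM (fun u hu v hv hlim _ => H.ClLim u hu v hv fun z h1 h2 => (hae _).1 hlim z ⟨h1, h2⟩) (Ψ := Ψ) (fun u hu => hΨm u hu)
    (θ := (1 / 2 : ℝ≥0)) (by rw [← NNReal.coe_lt_coe]; norm_num) (fun u hu v hv c hc h => by
      rw [hae] at h ⊢
      intro z hz
      have h' : ∀ z : Om, T1 ≤ z.1 → E z < ⊤ → ‖u z - v z‖ₑ ≤ c * W z := fun z h1 h2 => h z ⟨h1, h2⟩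
      rw [hΨS u z hz, hΨS v z hz]
      exact enorm_toReal_sub_le (H.damped_ne_top hu hz.1 hz.2) (H.damped_ne_top hv hz.1 hz.2)
        (H.lip hkc hkm hk1 hkJ hu hv hc h' hz.1 hz.2)
        (H.lip hkc hkm hk1 hkJ hv hu hc (hneg u v c h') hz.1 hz.2))
    (u0 := fun _ => 0) H.Cl0 (C := 1) (by simp) (by
      rw [hae]
      intro z hz
      rw [hΨS _ z hz]
      have h2 := H.damped_le (u := fun _ => 0) H.Cl0 hz.1 hz.2
      rw [sub_zero, one_mul, ← ofReal_norm, Real.norm_of_nonneg ENNReal.toReal_nonneg,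
        ENNReal.ofReal_toReal (H.damped_ne_top H.Cl0 hz.1 hz.2)]
      refine h2.trans ?_
      simp only [hW]
      calc _ ≤ ENNReal.ofReal (kap z.1) * 1 * E z := by
            rw [mul_one]
            gcongr
            exact hkg z.1 hz.1
        _ ≤ _ := by
            gcongr
            rw [← ENNReal.ofReal_one]
            exact ENNReal.ofReal_le_ofReal (by linarith [norm_nonneg z.2.2]))
  have hfix' : ∀ z ∈ S, Ψ u z = u z := (hae _).1 hfix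
  -- the final function
  have hΨu := hΨm u hu
  have hz0 : ∀ z : Om, T1 ≤ z.1 → E z < ⊤ → ‖Ψ u z - u z‖ₑ ≤ 0 * W z := by
    intro z h1 h2
    rw [hfix' z ⟨h1, h2⟩]; simp
  refine ⟨Ψ u, hΨu, fun z => ?_, fun z hz hE => ⟨H.damped_ne_top hΨu hz hE, ?_⟩⟩
  · exact indicator_nonneg (fun _ _ => ENNReal.toReal_nonneg) z
  · rw [hΨS u z ⟨hz, hE⟩, ENNReal.ofReal_toReal (H.damped_ne_top hu hz hE)]
    apply le_antisymm
    · have := H.lip hkc hkm hk1 hkJ hu hΨu (c := 0) (by simp) (hneg _ _ 0 hz0) hz hE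
      simpa using this
    · have := H.lip hkc hkm hk1 hkJ hΨu hu (c := 0) (by simp) hz0 hz hE
      simpa using this

end Crest.Agent.R68.W
end
end

-- ▼ part R68/WB5
section

/-!
R68 / WB5: hypotheses and elementary estimates for the truncated problem (helper475, part W).
-/

set_option autoImplicit false
open MeasureTheory Set
open scoped ENNReal NNReal Topology
open Crest.AnalysisR.VecCalc3 Crest.AnalysisR.PDE.Boltzmann

noncomputable section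

namespace Crest.Agent.R68.W

open Crest.Agent.R68.A (Meas3)
open Crest.Agent.R68.WA (We w1 measurable_We measurable_w1 one_le_w1 w1_ne_top We_ne_top)

/-- locally bounded monotone families of bounds have continuous constants -/
theorem exists_cont_majorant {T1 : ℝ} {p : ℝ → ℝ≥0∞ → Prop}
    (hmono : ∀ t B B', B ≤ B' → p t B → p t B')
    (hloc : ∀ T, ∃ B : ℝ≥0, ∀ t, T1 ≤ t → t ≤ T → p t B) :
    ∃ b : ℝ → ℝ, Continuous b ∧ (∀ t, 0 ≤ b t) ∧ ∀ t, T1 ≤ t → p t (ENNReal.ofReal (b t)) := by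
  let S : ℝ → Set ℝ := fun t => {r | 0 ≤ r ∧ (T1 ≤ t → p t (ENNReal.ofReal r))}
  have hup : ∀ t r r', r ≤ r' → r ∈ S t → r' ∈ S t := fun t r r' h hr =>
    ⟨hr.1.trans h, fun ht => hmono t _ _ (ENNReal.ofReal_le_ofReal h) (hr.2 ht)⟩
  obtain ⟨g, hg⟩ := exists_continuous_forall_mem_convex_of_local_const (t := S) (fun t => by
    intro x hx y hy a b ha hb hab
    have h1 : min x y ≤ a • x + b • y := by
      have e1 : a * min x y ≤ a * x := mul_le_mul_of_nonneg_left (min_le_left _ _) ha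
      have e2 : b * min x y ≤ b * y := mul_le_mul_of_nonneg_left (min_le_right _ _) hb
      have e3 : (a + b) * min x y = min x y := by rw [hab, one_mul]
      simp only [smul_eq_mul]
      linarith
    rcases min_choice x y with h | h
    · rw [h] at h1; exact hup t _ _ h1 hx
    · rw [h] at h1; exact hup t _ _ h1 hy) (fun t => by
    obtain ⟨B, hB⟩ := hloc (t + 1)
    refine ⟨B, ?_⟩
    filter_upwards [gt_mem_nhds (show t < t + 1 by linarith)] with s hs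
    refine ⟨B.2, fun h1 => ?_⟩
    rw [ENNReal.ofReal_coe_nnreal]
    exact hB s h1 hs.le)
  exact ⟨g, g.continuous, fun t => (hg t).1, fun t ht => (hg t).2 ht⟩

/-- the bounds of the hot weight `E` and the cold majorant `N0` at time `t` with constant `B` -/
structure KB (E N0 : ℝ → P2 → R3 → ℝ≥0∞) (t : ℝ) (B : ℝ≥0∞) : Prop where
  EE : ∀ x v, Qp (E t x) (E t x) v ≤ B * E t x v
  wEE : ∀ x v, Qp (fun z => w1 z * E t x z) (E t x) v ≤ B * (w1 v * E t x v)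
  EwE : ∀ x v, Qp (E t x) (fun z => w1 z * E t x z) v ≤ B * (w1 v * E t x v)
  LwE : ∀ x v, Lc (fun z => w1 z * E t x z) v ≤ B * w1 v
  NE : ∀ x v, Qp (N0 t x) (E t x) v ≤ B * E t x v
  EN : ∀ x v, Qp (E t x) (N0 t x) v ≤ B * E t x v
  NwE : ∀ x v, Qp (N0 t x) (fun z => w1 z * E t x z) v ≤ B * (w1 v * E t x v)
  wEN : ∀ x v, Qp (fun z => w1 z * E t x z) (N0 t x) v ≤ B * (w1 v * E t x v)
  LN : ∀ x v, Lc (N0 t x) v ≤ B * w1 v

/-- the bounds of the cold functional `cf` and the spill functional `sp` at time `t` -/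
structure CB (T1 Y : ℝ) (E N0 : ℝ → P2 → R3 → ℝ≥0∞)
    (cf sp : (ℝ → P2 → R3 → ℝ≥0∞) → ℝ → P2 → R3 → ℝ≥0∞) (t : ℝ) (B : ℝ≥0∞) : Prop where
  sp_le : ∀ lam, Meas3 lam → (∀ t v, PerG fun x => lam t x v) → ∀ x v, sp lam t x v ≤ B * E t x v
  cf_lip : ∀ lam lam', Meas3 lam → (∀ t v, PerG fun x => lam t x v) → Meas3 lam' →
    (∀ t v, PerG fun x => lam' t x v) → (∀ s x v, s < T1 → lam s x v = lam' s x v) →
    ∀ g : ℝ → ℝ≥0∞, Measurable g → (∀ s x v, T1 ≤ s → ‖v‖ < Y + 3 →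
      lam s x v ≤ lam' s x v + g s ∧ lam' s x v ≤ lam s x v + g s) →
    ∀ x v, cf lam t x v ≤ cf lam' t x v + B * (∫⁻ s in Ioo T1 t, g s) * N0 t x v
  sp_lip : ∀ lam lam', Meas3 lam → (∀ t v, PerG fun x => lam t x v) → Meas3 lam' →
    (∀ t v, PerG fun x => lam' t x v) → (∀ s x v, s < T1 → lam s x v = lam' s x v) →
    ∀ g : ℝ → ℝ≥0∞, Measurable g → (∀ s x v, T1 ≤ s → ‖v‖ < Y + 3 →
      lam s x v ≤ lam' s x v + g s ∧ lam' s x v ≤ lam s x v + g s) →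
    ∀ x v, sp lam t x v ≤ sp lam' t x v + B * (∫⁻ s in Ioo T1 t, g s) * E t x v

theorem KB.mono {E N0 : ℝ → P2 → R3 → ℝ≥0∞} {t : ℝ} {B B' : ℝ≥0∞} (h : B ≤ B')
    (H : KB E N0 t B) : KB E N0 t B' where
  EE x v := (H.EE x v).trans (by gcongr)
  wEE x v := (H.wEE x v).trans (by gcongr)
  EwE x v := (H.EwE x v).trans (by gcongr)
  LwE x v := (H.LwE x v).trans (by gcongr)
  NE x v := (H.NE x v).trans (by gcongr)
  EN x v := (H.EN x v).trans (by gcongr)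
  NwE x v := (H.NwE x v).trans (by gcongr)
  wEN x v := (H.wEN x v).trans (by gcongr)
  LN x v := (H.LN x v).trans (by gcongr)

theorem CB.mono {T1 Y : ℝ} {E N0 : ℝ → P2 → R3 → ℝ≥0∞}
    {cf sp : (ℝ → P2 → R3 → ℝ≥0∞) → ℝ → P2 → R3 → ℝ≥0∞} {t : ℝ} {B B' : ℝ≥0∞} (h : B ≤ B')
    (H : CB T1 Y E N0 cf sp t B) : CB T1 Y E N0 cf sp t B' where
  sp_le lam h1 h2 x v := (H.sp_le lam h1 h2 x v).trans (by gcongr)
  cf_lip lam lam' h1 h2 h3 h4 h5 g h6 h7 x v :=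
    (H.cf_lip lam lam' h1 h2 h3 h4 h5 g h6 h7 x v).trans (by gcongr)
  sp_lip lam lam' h1 h2 h3 h4 h5 g h6 h7 x v :=
    (H.sp_lip lam lam' h1 h2 h3 h4 h5 g h6 h7 x v).trans (by gcongr)

/-- hypotheses of the truncated problem -/
structure THyp (T1 lam Y A : ℝ) (E N0 : ℝ → P2 → R3 → ℝ≥0∞) (h1 : P2 → R3 → ℝ≥0∞)
    (lamA : ℝ → P2 → R3 → ℝ≥0∞)
    (cf sp : (ℝ → P2 → R3 → ℝ≥0∞) → ℝ → P2 → R3 → ℝ≥0∞) : Prop where
  lam0 : 0 ≤ lam
  A0 : 0 ≤ A
  Y0 : 0 ≤ Y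
  Em : Meas3 E
  Eper : ∀ t v, PerG fun x => E t x v
  flight : ∀ s t x v, T1 ≤ s → s ≤ t →
    E s (x - (t - s) • bar v) v ≤ ENNReal.ofReal (Real.exp (lam * (t - s))) * E t x v
  We_le : ∀ t x v, T1 ≤ t → We v ≤ E t x v
  N0m : Meas3 N0
  h1m : Measurable fun q : P2 × R3 => h1 q.1 q.2
  h1per : ∀ v, PerG fun x => h1 x v
  h1E : ∀ x v, h1 x v ≤ ENNReal.ofReal A * E T1 x v
  lamAm : Meas3 lamA
  lamAper : ∀ t v, PerG fun x => lamA t x v
  cfm : ∀ lam, Meas3 lam → (∀ t v, PerG fun x => lam t x v) → Meas3 (cf lam)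
  spm : ∀ lam, Meas3 lam → (∀ t v, PerG fun x => lam t x v) → Meas3 (sp lam)
  cfper : ∀ lam, Meas3 lam → (∀ t v, PerG fun x => lam t x v) → ∀ t v, PerG fun x => cf lam t x v
  spper : ∀ lam, Meas3 lam → (∀ t v, PerG fun x => lam t x v) → ∀ t v, PerG fun x => sp lam t x v
  cf_le : ∀ lam, Meas3 lam → (∀ t v, PerG fun x => lam t x v) → ∀ t x v, T1 ≤ t →
    cf lam t x v ≤ N0 t x v
  kb : ∀ T, ∃ B : ℝ≥0, ∀ t, T1 ≤ t → t ≤ T → KB E N0 t B
  cb : ∀ T, ∃ B : ℝ≥0, ∀ t, T1 ≤ t → t ≤ T → CB T1 Y E N0 cf sp t B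

open scoped Classical in
/-- truncated hot component -/
def hc (T1 : ℝ) (E : ℝ → P2 → R3 → ℝ≥0∞) (B0 : ℝ≥0) (u : Om → ℝ) (t : ℝ) (x : P2) (v : R3) :
    ℝ≥0∞ :=
  if T1 ≤ t ∧ E t x v < ⊤ then min (ENNReal.ofReal (u (t, x, v))) (B0 * E t x v) else 0

open scoped Classical in
/-- external loss rate of the cold component -/
def lamu (T1 : ℝ) (E : ℝ → P2 → R3 → ℝ≥0∞) (B0 : ℝ≥0) (lamA : ℝ → P2 → R3 → ℝ≥0∞) (u : Om → ℝ)
    (t : ℝ) (x : P2) (v : R3) : ℝ≥0∞ :=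
  if T1 ≤ t then Lc (hc T1 E B0 u t x) v else lamA t x v

/-- total loss rate -/
def Lu (T1 : ℝ) (E : ℝ → P2 → R3 → ℝ≥0∞) (B0 : ℝ≥0) (lamA : ℝ → P2 → R3 → ℝ≥0∞)
    (cf : (ℝ → P2 → R3 → ℝ≥0∞) → ℝ → P2 → R3 → ℝ≥0∞) (u : Om → ℝ) (z : Om) : ℝ≥0∞ :=
  Lc (cf (lamu T1 E B0 lamA u) z.1 z.2.1) z.2.2 + Lc (hc T1 E B0 u z.1 z.2.1) z.2.2

/-- total source of the hot component -/
def Pu (T1 : ℝ) (E : ℝ → P2 → R3 → ℝ≥0∞) (B0 : ℝ≥0) (lamA : ℝ → P2 → R3 → ℝ≥0∞)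
    (cf sp : (ℝ → P2 → R3 → ℝ≥0∞) → ℝ → P2 → R3 → ℝ≥0∞) (u : Om → ℝ) (z : Om) : ℝ≥0∞ :=
  Qp (hc T1 E B0 u z.1 z.2.1) (hc T1 E B0 u z.1 z.2.1) z.2.2 +
    Qp (cf (lamu T1 E B0 lamA u) z.1 z.2.1) (hc T1 E B0 u z.1 z.2.1) z.2.2 +
    Qp (hc T1 E B0 u z.1 z.2.1) (cf (lamu T1 E B0 lamA u) z.1 z.2.1) z.2.2 +
    sp (lamu T1 E B0 lamA u) z.1 z.2.1 z.2.2

section basic

variable {T1 : ℝ} {E : ℝ → P2 → R3 → ℝ≥0∞} {B0 : ℝ≥0} {u u' : Om → ℝ}

theorem hc_le (t : ℝ) (x : P2) (v : R3) : hc T1 E B0 u t x v ≤ B0 * E t x v := by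
  unfold hc
  split_ifs
  · exact min_le_right _ _
  · exact bot_le

theorem meas3_hc (hE : Meas3 E) (hu : Measurable u) : Meas3 (hc T1 E B0 u) := by
  classical
  have h1 : MeasurableSet {p : ℝ × P2 × R3 | T1 ≤ p.1 ∧ E p.1 p.2.1 p.2.2 < ⊤} :=
    (measurableSet_le measurable_const measurable_fst).inter (measurableSet_lt hE measurable_const)
  have h2 : Measurable fun p : ℝ × P2 × R3 =>
      min (ENNReal.ofReal (u (p.1, p.2.1, p.2.2))) (B0 * E p.1 p.2.1 p.2.2) := by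
    apply Measurable.min
    · exact hu.ennreal_ofReal
    · exact Measurable.const_mul hE _
  exact Measurable.ite h1 h2 measurable_const

theorem hc_per (hE : ∀ t v, PerG fun x => E t x v)
    (hu : ∀ z : Om, T1 ≤ z.1 → E z.1 z.2.1 z.2.2 < ⊤ → ∀ k, u (z.1, z.2.1 + latt k, z.2.2) = u z)
    (t : ℝ) (v : R3) : PerG fun x => hc T1 E B0 u t x v := by
  intro x k
  have h1 : E t (x + latt k) v = E t x v := hE t v x k
  simp only [hc, h1]
  by_cases h : T1 ≤ t ∧ E t x v < ⊤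
  · rw [if_pos h, if_pos h]
    have := hu (t, x, v) h.1 h.2 k
    simp only at this
    rw [this]
  · rw [if_neg h, if_neg h]

theorem min_le_min_add {a a' M δ : ℝ≥0∞} (h : a ≤ a' + δ) : min a M ≤ min a' M + δ := by
  rcases le_total a' M with h1 | h1
  · rw [min_eq_left h1]; exact (min_le_left _ _).trans h
  · rw [min_eq_right h1]; exact (min_le_right _ _).trans le_self_add

theorem ofReal_le_add_enorm (a b : ℝ) : ENNReal.ofReal a ≤ ENNReal.ofReal b + ‖a - b‖ₑ := by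
  rw [← ofReal_norm, Real.norm_eq_abs]
  refine le_trans (ENNReal.ofReal_le_ofReal ?_) (ENNReal.ofReal_add_le)
  linarith [le_abs_self (a - b)]

/-- Lipschitz bound of the truncated component -/
theorem hc_lip {κ c : ℝ≥0∞} {t : ℝ} {x : P2}
    (h : ∀ v, T1 ≤ t → E t x v < ⊤ →
      ‖u (t, x, v) - u' (t, x, v)‖ₑ ≤ c * (κ * w1 v * E t x v)) (v : R3) :
    hc T1 E B0 u t x v ≤ hc T1 E B0 u' t x v + c * κ * (w1 v * E t x v) := by
  unfold hc
  split_ifs with h1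
  · refine min_le_min_add ((ofReal_le_add_enorm _ (u' (t, x, v))).trans ?_)
    refine add_le_add le_rfl ?_
    refine (h v h1.1 h1.2).trans (le_of_eq (by ring))
  · exact bot_le

end basic

end Crest.Agent.R68.W
end
end

-- ▼ part R68/WB6
section

/-!
R68 / WB6: existence for the truncated problem, global in time (helper475, part W).
-/

set_option autoImplicit false
open MeasureTheory Set
open scoped ENNReal NNReal Topology
open Crest.AnalysisR.VecCalc3 Crest.AnalysisR.PDE.Boltzmann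

noncomputable section

namespace Crest.Agent.R68.W

open Crest.Agent.R68.A (Meas3 meas3_Qp meas3_Lc Lc_mono Lc_add Lc_const_mul Qp_mono Qp_add_left
  Qp_add_right Qp_const_mul_left Qp_const_mul_right)
open Crest.Agent.R68.WA (We w1 measurable_We measurable_w1 one_le_w1 w1_ne_top We_ne_top)

/-! ### translations by the lattice -/

/-- translation by a lattice vector -/
def sh (k : ℤ × ℤ) (z : Om) : Om := (z.1, z.2.1 + latt k, z.2.2)

theorem fl_sh (k : ℤ × ℤ) (z : Om) (s : ℝ) : fl (sh k z) s = sh k (fl z s) := by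
  unfold fl sh
  simp only [Prod.mk.injEq, and_true, true_and]
  abel

theorem opt_sh {L : Om → ℝ≥0∞} (hL : ∀ k z, L (sh k z) = L z) (k : ℤ × ℤ) (z : Om) (s : ℝ) :
    opt L (sh k z) s = opt L z s := by
  unfold opt
  show ∫⁻ r in Ioo s z.1, L (fl (sh k z) r) = _
  simp only [fl_sh, hL]

theorem damped_sh {T1 : ℝ} {h1 : P2 → R3 → ℝ≥0∞} {L P : Om → ℝ≥0∞}
    (hh : ∀ v, PerG fun x => h1 x v) (hL : ∀ k z, L (sh k z) = L z)
    (hP : ∀ k z, P (sh k z) = P z) (k : ℤ × ℤ) (z : Om) :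
    damped T1 h1 L P (sh k z) = damped T1 h1 L P z := by
  unfold damped dmp
  simp only [opt_sh hL, fl_sh, hP]
  congr 1
  congr 1
  exact hh _ _ k

section main

variable {T1 lam Y A : ℝ} {E N0 : ℝ → P2 → R3 → ℝ≥0∞} {h1 : P2 → R3 → ℝ≥0∞}
  {lamA : ℝ → P2 → R3 → ℝ≥0∞} {cf sp : (ℝ → P2 → R3 → ℝ≥0∞) → ℝ → P2 → R3 → ℝ≥0∞} {B0 : ℝ≥0}

/-- the hot weight as a function on `Om` -/
def Eo (E : ℝ → P2 → R3 → ℝ≥0∞) (z : Om) : ℝ≥0∞ := E z.1 z.2.1 z.2.2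

/-- measurable functions which are periodic where the weight is finite -/
def Cl (T1 : ℝ) (E : ℝ → P2 → R3 → ℝ≥0∞) : Set (Om → ℝ) :=
  {u | Measurable u ∧ ∀ z : Om, T1 ≤ z.1 → Eo E z < ⊤ → ∀ k, u (sh k z) = u z}

theorem meas3_lamu (H : THyp T1 lam Y A E N0 h1 lamA cf sp) {u : Om → ℝ} (hu : u ∈ Cl T1 E) :
    Meas3 (lamu T1 E B0 lamA u) := by
  classical
  have h2 : MeasurableSet {p : ℝ × P2 × R3 | T1 ≤ p.1} :=
    measurableSet_le measurable_const measurable_fst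
  exact Measurable.ite h2 (meas3_Lc (meas3_hc H.Em hu.1)) H.lamAm

theorem per_hc (H : THyp T1 lam Y A E N0 h1 lamA cf sp) {u : Om → ℝ} (hu : u ∈ Cl T1 E)
    (t : ℝ) (v : R3) : PerG fun x => hc T1 E B0 u t x v :=
  hc_per H.Eper (fun z h2 h3 k => hu.2 z h2 h3 k) t v

theorem hc_shift (H : THyp T1 lam Y A E N0 h1 lamA cf sp) {u : Om → ℝ} (hu : u ∈ Cl T1 E)
    (t : ℝ) (x : P2) (k : ℤ × ℤ) : hc T1 E B0 u t (x + latt k) = hc T1 E B0 u t x := by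
  funext v
  exact per_hc H hu t v x k

theorem per_lamu (H : THyp T1 lam Y A E N0 h1 lamA cf sp) {u : Om → ℝ} (hu : u ∈ Cl T1 E)
    (t : ℝ) (v : R3) : PerG fun x => lamu T1 E B0 lamA u t x v := by
  intro x k
  unfold lamu
  simp only [hc_shift H hu]
  split_ifs
  · rfl
  · exact H.lamAper t v x k

theorem meas_Lu (H : THyp T1 lam Y A E N0 h1 lamA cf sp) {u : Om → ℝ} (hu : u ∈ Cl T1 E) :
    Measurable (Lu T1 E B0 lamA cf u) :=
  Measurable.add (meas3_Lc (H.cfm _ (meas3_lamu H hu) (per_lamu H hu)))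
    (meas3_Lc (meas3_hc H.Em hu.1))

theorem meas_Pu (H : THyp T1 lam Y A E N0 h1 lamA cf sp) {u : Om → ℝ} (hu : u ∈ Cl T1 E) :
    Measurable (Pu T1 E B0 lamA cf sp u) := by
  have m1 := meas3_hc (T1 := T1) (B0 := B0) H.Em hu.1
  have m2 := H.cfm _ (meas3_lamu (B0 := B0) H hu) (per_lamu H hu)
  have m3 := H.spm _ (meas3_lamu (B0 := B0) H hu) (per_lamu H hu)
  exact (((meas3_Qp m1 m1).add (meas3_Qp m2 m1)).add (meas3_Qp m1 m2)).add m3

theorem Lu_sh (H : THyp T1 lam Y A E N0 h1 lamA cf sp) {u : Om → ℝ} (hu : u ∈ Cl T1 E)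
    (k : ℤ × ℤ) (z : Om) : Lu T1 E B0 lamA cf u (sh k z) = Lu T1 E B0 lamA cf u z := by
  have h2 : cf (lamu T1 E B0 lamA u) z.1 (z.2.1 + latt k) = cf (lamu T1 E B0 lamA u) z.1 z.2.1 := by
    funext v
    exact H.cfper _ (meas3_lamu H hu) (per_lamu H hu) z.1 v z.2.1 k
  unfold Lu sh
  simp only [hc_shift H hu, h2]

theorem Pu_sh (H : THyp T1 lam Y A E N0 h1 lamA cf sp) {u : Om → ℝ} (hu : u ∈ Cl T1 E)
    (k : ℤ × ℤ) (z : Om) : Pu T1 E B0 lamA cf sp u (sh k z) = Pu T1 E B0 lamA cf sp u z := by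
  have h2 : cf (lamu T1 E B0 lamA u) z.1 (z.2.1 + latt k) = cf (lamu T1 E B0 lamA u) z.1 z.2.1 := by
    funext v
    exact H.cfper _ (meas3_lamu H hu) (per_lamu H hu) z.1 v z.2.1 k
  have h3 : sp (lamu T1 E B0 lamA u) z.1 (z.2.1 + latt k) z.2.2 =
      sp (lamu T1 E B0 lamA u) z.1 z.2.1 z.2.2 :=
    H.spper _ (meas3_lamu H hu) (per_lamu H hu) z.1 z.2.2 z.2.1 k
  unfold Pu sh
  simp only [hc_shift H hu, h2, h3]

/-! ### bounds -/

theorem E_le_w1E (t : ℝ) (x : P2) (v : R3) : E t x v ≤ w1 v * E t x v :=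
  le_mul_of_one_le_left' (one_le_w1 v)

theorem cf_le_N0 (H : THyp T1 lam Y A E N0 h1 lamA cf sp) {u : Om → ℝ} (hu : u ∈ Cl T1 E) {t : ℝ}
    (ht : T1 ≤ t) (x : P2) (v : R3) : cf (lamu T1 E B0 lamA u) t x v ≤ N0 t x v :=
  H.cf_le _ (meas3_lamu H hu) (per_lamu H hu) t x v ht

theorem Lu_le (H : THyp T1 lam Y A E N0 h1 lamA cf sp) {u : Om → ℝ} (hu : u ∈ Cl T1 E) {β : ℝ≥0∞}
    {z : Om} (hz : T1 ≤ z.1) (hK : KB E N0 z.1 β) :
    Lu T1 E B0 lamA cf u z ≤ (β + B0 * β) * w1 z.2.2 := by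
  unfold Lu
  have e1 : Lc (cf (lamu T1 E B0 lamA u) z.1 z.2.1) z.2.2 ≤ β * w1 z.2.2 :=
    (Lc_mono (fun v => cf_le_N0 H hu hz _ v) _).trans (hK.LN _ _)
  have e2 : Lc (hc T1 E B0 u z.1 z.2.1) z.2.2 ≤ B0 * (β * w1 z.2.2) := by
    calc _ ≤ Lc (fun v => B0 * (w1 v * E z.1 z.2.1 v)) z.2.2 :=
          Lc_mono (fun v => (hc_le _ _ v).trans (mul_le_mul_right (E_le_w1E _ _ v) _)) _
      _ = B0 * Lc (fun v => w1 v * E z.1 z.2.1 v) z.2.2 := Lc_const_mul ENNReal.coe_ne_top _ _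
      _ ≤ _ := by gcongr; exact hK.LwE _ _
  calc _ ≤ β * w1 z.2.2 + B0 * (β * w1 z.2.2) := add_le_add e1 e2
    _ = _ := by ring

theorem Pu_le (H : THyp T1 lam Y A E N0 h1 lamA cf sp) {u : Om → ℝ} (hu : u ∈ Cl T1 E) {β : ℝ≥0∞}
    {z : Om} (hz : T1 ≤ z.1) (hK : KB E N0 z.1 β) (hC : CB T1 Y E N0 cf sp z.1 β) :
    Pu T1 E B0 lamA cf sp u z ≤ (B0 * B0 * β + B0 * β + B0 * β + β) * Eo E z := by
  unfold Pu Eo
  have e1 : Qp (hc T1 E B0 u z.1 z.2.1) (hc T1 E B0 u z.1 z.2.1) z.2.2 ≤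
      B0 * (B0 * (β * E z.1 z.2.1 z.2.2)) := by
    calc _ ≤ Qp (fun v => B0 * E z.1 z.2.1 v) (fun v => B0 * E z.1 z.2.1 v) z.2.2 :=
          Qp_mono (fun v => hc_le _ _ v) (fun v => hc_le _ _ v) _
      _ = B0 * (B0 * Qp (E z.1 z.2.1) (E z.1 z.2.1) z.2.2) := by
          rw [Qp_const_mul_left ENNReal.coe_ne_top, Qp_const_mul_right ENNReal.coe_ne_top]
      _ ≤ _ := by gcongr; exact hK.EE _ _
  have e2 : Qp (cf (lamu T1 E B0 lamA u) z.1 z.2.1) (hc T1 E B0 u z.1 z.2.1) z.2.2 ≤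
      B0 * (β * E z.1 z.2.1 z.2.2) := by
    calc _ ≤ Qp (N0 z.1 z.2.1) (fun v => B0 * E z.1 z.2.1 v) z.2.2 :=
          Qp_mono (fun v => cf_le_N0 H hu hz _ v) (fun v => hc_le _ _ v) _
      _ = B0 * Qp (N0 z.1 z.2.1) (E z.1 z.2.1) z.2.2 := by
          rw [Qp_const_mul_right ENNReal.coe_ne_top]
      _ ≤ _ := by gcongr; exact hK.NE _ _
  have e3 : Qp (hc T1 E B0 u z.1 z.2.1) (cf (lamu T1 E B0 lamA u) z.1 z.2.1) z.2.2 ≤
      B0 * (β * E z.1 z.2.1 z.2.2) := by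
    calc _ ≤ Qp (fun v => B0 * E z.1 z.2.1 v) (N0 z.1 z.2.1) z.2.2 :=
          Qp_mono (fun v => hc_le _ _ v) (fun v => cf_le_N0 H hu hz _ v) _
      _ = B0 * Qp (E z.1 z.2.1) (N0 z.1 z.2.1) z.2.2 := by
          rw [Qp_const_mul_left ENNReal.coe_ne_top]
      _ ≤ _ := by gcongr; exact hK.EN _ _
  have e4 : sp (lamu T1 E B0 lamA u) z.1 z.2.1 z.2.2 ≤ β * E z.1 z.2.1 z.2.2 :=
    hC.sp_le _ (meas3_lamu H hu) (per_lamu H hu) _ _
  calc _ ≤ B0 * (B0 * (β * E z.1 z.2.1 z.2.2)) + B0 * (β * E z.1 z.2.1 z.2.2) +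
        B0 * (β * E z.1 z.2.1 z.2.2) + β * E z.1 z.2.1 z.2.2 :=
        add_le_add (add_le_add (add_le_add e1 e2) e3) e4
    _ = _ := by ring

/-! ### Lipschitz estimates -/

/-- Lipschitz estimate of the external rate -/
theorem lamu_lip (H : THyp T1 lam Y A E N0 h1 lamA cf sp) {u u' : Om → ℝ} (hu : u ∈ Cl T1 E)
    (hu' : u' ∈ Cl T1 E) {c κ β : ℝ≥0∞} (hc1 : c ≠ ⊤) (hκ : κ ≠ ⊤) {t : ℝ} (ht : T1 ≤ t)
    (hK : KB E N0 t β)
    (h : ∀ x v, E t x v < ⊤ → ‖u (t, x, v) - u' (t, x, v)‖ₑ ≤ c * (κ * w1 v * E t x v))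
    (x : P2) (v : R3) :
    lamu T1 E B0 lamA u t x v ≤ lamu T1 E B0 lamA u' t x v + c * κ * (β * w1 v) := by
  unfold lamu
  rw [if_pos ht, if_pos ht]
  have m1 := (meas3_hc (T1 := T1) (B0 := B0) H.Em hu'.1).slice t x
  calc Lc (hc T1 E B0 u t x) v
      ≤ Lc (fun z => hc T1 E B0 u' t x z + c * κ * (w1 z * E t x z)) v :=
        Lc_mono (fun z => hc_lip (fun v _ hv => h x v hv) z) _
    _ = Lc (hc T1 E B0 u' t x) v + Lc (fun z => c * κ * (w1 z * E t x z)) v := Lc_add m1 _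
    _ = Lc (hc T1 E B0 u' t x) v + c * κ * Lc (fun z => w1 z * E t x z) v := by
        rw [Lc_const_mul (ENNReal.mul_ne_top hc1 hκ)]
    _ ≤ _ := by gcongr; exact hK.LwE _ _

/-- common hypotheses of the Lipschitz estimates at time `t`: closeness of the hot parts and of the
cold functionals -/
structure Lp (T1 : ℝ) (E N0 : ℝ → P2 → R3 → ℝ≥0∞) (B0 : ℝ≥0) (lamA : ℝ → P2 → R3 → ℝ≥0∞)
    (cf sp : (ℝ → P2 → R3 → ℝ≥0∞) → ℝ → P2 → R3 → ℝ≥0∞) (u u' : Om → ℝ) (t : ℝ)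
    (a G : ℝ≥0∞) : Prop where
  hot : ∀ x v, hc T1 E B0 u t x v ≤ hc T1 E B0 u' t x v + a * (w1 v * E t x v)
  cold : ∀ x v, cf (lamu T1 E B0 lamA u) t x v ≤ cf (lamu T1 E B0 lamA u') t x v + G * N0 t x v
  spill : ∀ x v, sp (lamu T1 E B0 lamA u) t x v ≤
    sp (lamu T1 E B0 lamA u') t x v + G * E t x v

theorem Lu_lip (H : THyp T1 lam Y A E N0 h1 lamA cf sp) {u u' : Om → ℝ} (hu : u ∈ Cl T1 E)
    (hu' : u' ∈ Cl T1 E) {a G β : ℝ≥0∞} (ha : a ≠ ⊤) (hG : G ≠ ⊤) {z : Om}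
    (hK : KB E N0 z.1 β) (h : Lp T1 E N0 B0 lamA cf sp u u' z.1 a G) :
    Lu T1 E B0 lamA cf u z ≤ Lu T1 E B0 lamA cf u' z + (G * β + a * β) * w1 z.2.2 := by
  have m1 := (meas3_hc (T1 := T1) (B0 := B0) H.Em hu'.1).slice z.1 z.2.1
  have m2 := (H.cfm _ (meas3_lamu (B0 := B0) H hu') (per_lamu H hu')).slice z.1 z.2.1
  unfold Lu
  have e1 : Lc (cf (lamu T1 E B0 lamA u) z.1 z.2.1) z.2.2 ≤
      Lc (cf (lamu T1 E B0 lamA u') z.1 z.2.1) z.2.2 + G * (β * w1 z.2.2) := by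
    calc _ ≤ Lc (fun v => cf (lamu T1 E B0 lamA u') z.1 z.2.1 v + G * N0 z.1 z.2.1 v) z.2.2 :=
          Lc_mono (fun v => h.cold _ v) _
      _ = Lc (cf (lamu T1 E B0 lamA u') z.1 z.2.1) z.2.2 + G * Lc (N0 z.1 z.2.1) z.2.2 := by
          rw [Lc_add m2, Lc_const_mul hG]
      _ ≤ _ := by gcongr; exact hK.LN _ _
  have e2 : Lc (hc T1 E B0 u z.1 z.2.1) z.2.2 ≤
      Lc (hc T1 E B0 u' z.1 z.2.1) z.2.2 + a * (β * w1 z.2.2) := by
    calc _ ≤ Lc (fun v => hc T1 E B0 u' z.1 z.2.1 v + a * (w1 v * E z.1 z.2.1 v)) z.2.2 :=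
          Lc_mono (fun v => h.hot _ v) _
      _ = Lc (hc T1 E B0 u' z.1 z.2.1) z.2.2 + a * Lc (fun v => w1 v * E z.1 z.2.1 v) z.2.2 := by
          rw [Lc_add m1, Lc_const_mul ha]
      _ ≤ _ := by gcongr; exact hK.LwE _ _
  calc _ ≤ _ := add_le_add e1 e2
    _ = _ := by ring

theorem Pu_lip (H : THyp T1 lam Y A E N0 h1 lamA cf sp) {u u' : Om → ℝ} (hu : u ∈ Cl T1 E)
    (hu' : u' ∈ Cl T1 E) {a G β : ℝ≥0∞} (ha : a ≠ ⊤) (hG : G ≠ ⊤) {z : Om} (hz : T1 ≤ z.1)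
    (hK : KB E N0 z.1 β) (h : Lp T1 E N0 B0 lamA cf sp u u' z.1 a G) :
    Pu T1 E B0 lamA cf sp u z ≤ Pu T1 E B0 lamA cf sp u' z +
      (a * (2 * B0 * β + 2 * β) + G * (2 * B0 * β + 1)) * (w1 z.2.2 * Eo E z) := by
  have m0 := (meas3_hc (T1 := T1) (B0 := B0) H.Em hu.1).slice z.1 z.2.1
  have m1 := (meas3_hc (T1 := T1) (B0 := B0) H.Em hu'.1).slice z.1 z.2.1
  have m2 := (H.cfm _ (meas3_lamu (B0 := B0) H hu') (per_lamu H hu')).slice z.1 z.2.1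
  have m3 := (H.cfm _ (meas3_lamu (B0 := B0) H hu) (per_lamu H hu)).slice z.1 z.2.1
  have mE := H.Em.slice z.1 z.2.1
  set W := w1 z.2.2 * Eo E z with hW
  have hEW : E z.1 z.2.1 z.2.2 ≤ W := E_le_w1E _ _ _
  unfold Pu
  set f := hc T1 E B0 u z.1 z.2.1 with hf
  set f' := hc T1 E B0 u' z.1 z.2.1 with hf'
  set c := cf (lamu T1 E B0 lamA u) z.1 z.2.1 with hc'
  set c' := cf (lamu T1 E B0 lamA u') z.1 z.2.1 with hc''
  have hff : ∀ v, f v ≤ f' v + a * (w1 v * E z.1 z.2.1 v) := fun v => h.hot _ v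
  have hcc : ∀ v, c v ≤ c' v + G * N0 z.1 z.2.1 v := fun v => h.cold _ v
  have hfB : ∀ v, f v ≤ B0 * E z.1 z.2.1 v := fun v => hc_le _ _ v
  have hfB' : ∀ v, f' v ≤ B0 * E z.1 z.2.1 v := fun v => hc_le _ _ v
  have hcN : ∀ v, c v ≤ N0 z.1 z.2.1 v := fun v => cf_le_N0 H hu hz _ v
  have hcN' : ∀ v, c' v ≤ N0 z.1 z.2.1 v := fun v => cf_le_N0 H hu' hz _ v
  have mwE : Measurable fun v => w1 v * E z.1 z.2.1 v := measurable_w1.mul mE
  -- hot x hot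
  have e1 : Qp f f z.2.2 ≤ Qp f' f' z.2.2 + a * (2 * B0 * β) * W := by
    have s1 : Qp f f z.2.2 ≤ Qp f' f z.2.2 + a * (B0 * (β * W)) := by
      calc Qp f f z.2.2 ≤ Qp (fun v => f' v + a * (w1 v * E z.1 z.2.1 v)) f z.2.2 :=
            Qp_mono hff (fun _ => le_rfl) _
        _ = Qp f' f z.2.2 + a * Qp (fun v => w1 v * E z.1 z.2.1 v) f z.2.2 := by
            rw [Qp_add_left m1 m0, Qp_const_mul_left ha]
        _ ≤ Qp f' f z.2.2 + a * Qp (fun v => w1 v * E z.1 z.2.1 v)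
              (fun v => B0 * E z.1 z.2.1 v) z.2.2 := by
            gcongr
            exact Qp_mono (fun _ => le_rfl) hfB _
        _ = Qp f' f z.2.2 + a * (B0 * Qp (fun v => w1 v * E z.1 z.2.1 v) (E z.1 z.2.1) z.2.2) := by
            rw [Qp_const_mul_right ENNReal.coe_ne_top]
        _ ≤ _ := by gcongr; exact hK.wEE _ _
    have s2 : Qp f' f z.2.2 ≤ Qp f' f' z.2.2 + a * (B0 * (β * W)) := by
      calc Qp f' f z.2.2 ≤ Qp f' (fun v => f' v + a * (w1 v * E z.1 z.2.1 v)) z.2.2 :=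
            Qp_mono (fun _ => le_rfl) hff _
        _ = Qp f' f' z.2.2 + a * Qp f' (fun v => w1 v * E z.1 z.2.1 v) z.2.2 := by
            rw [Qp_add_right m1 m1, Qp_const_mul_right ha]
        _ ≤ Qp f' f' z.2.2 + a * Qp (fun v => B0 * E z.1 z.2.1 v)
              (fun v => w1 v * E z.1 z.2.1 v) z.2.2 := by
            gcongr
            exact Qp_mono hfB' (fun _ => le_rfl) _
        _ = Qp f' f' z.2.2 + a * (B0 * Qp (E z.1 z.2.1) (fun v => w1 v * E z.1 z.2.1 v) z.2.2) := by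
            rw [Qp_const_mul_left ENNReal.coe_ne_top]
        _ ≤ _ := by gcongr; exact hK.EwE _ _
    calc Qp f f z.2.2 ≤ Qp f' f' z.2.2 + a * (B0 * (β * W)) + a * (B0 * (β * W)) :=
          s1.trans (add_le_add_left s2 _)
      _ = _ := by ring
  -- cold x hot
  have e2 : Qp c f z.2.2 ≤ Qp c' f' z.2.2 + (a * β + G * (B0 * β)) * W := by
    have s1 : Qp c f z.2.2 ≤ Qp c' f z.2.2 + G * (B0 * (β * W)) := by
      calc Qp c f z.2.2 ≤ Qp (fun v => c' v + G * N0 z.1 z.2.1 v) f z.2.2 :=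
            Qp_mono hcc (fun _ => le_rfl) _
        _ = Qp c' f z.2.2 + G * Qp (N0 z.1 z.2.1) f z.2.2 := by
            rw [Qp_add_left m2 m0, Qp_const_mul_left hG]
        _ ≤ Qp c' f z.2.2 + G * Qp (N0 z.1 z.2.1) (fun v => B0 * E z.1 z.2.1 v) z.2.2 := by
            gcongr
            exact Qp_mono (fun _ => le_rfl) hfB _
        _ = Qp c' f z.2.2 + G * (B0 * Qp (N0 z.1 z.2.1) (E z.1 z.2.1) z.2.2) := by
            rw [Qp_const_mul_right ENNReal.coe_ne_top]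
        _ ≤ _ := by gcongr; exact (hK.NE _ _).trans (mul_le_mul_right hEW _)
    have s2 : Qp c' f z.2.2 ≤ Qp c' f' z.2.2 + a * (β * W) := by
      calc Qp c' f z.2.2 ≤ Qp c' (fun v => f' v + a * (w1 v * E z.1 z.2.1 v)) z.2.2 :=
            Qp_mono (fun _ => le_rfl) hff _
        _ = Qp c' f' z.2.2 + a * Qp c' (fun v => w1 v * E z.1 z.2.1 v) z.2.2 := by
            rw [Qp_add_right m2 m1, Qp_const_mul_right ha]
        _ ≤ Qp c' f' z.2.2 + a * Qp (N0 z.1 z.2.1) (fun v => w1 v * E z.1 z.2.1 v) z.2.2 := by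
            gcongr
            exact Qp_mono hcN' (fun _ => le_rfl) _
        _ ≤ _ := by gcongr; exact hK.NwE _ _
    calc Qp c f z.2.2 ≤ Qp c' f' z.2.2 + a * (β * W) + G * (B0 * (β * W)) :=
          s1.trans (add_le_add_left s2 _)
      _ = _ := by ring
  -- hot x cold
  have e3 : Qp f c z.2.2 ≤ Qp f' c' z.2.2 + (a * β + G * (B0 * β)) * W := by
    have s1 : Qp f c z.2.2 ≤ Qp f c' z.2.2 + G * (B0 * (β * W)) := by
      calc Qp f c z.2.2 ≤ Qp f (fun v => c' v + G * N0 z.1 z.2.1 v) z.2.2 :=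
            Qp_mono (fun _ => le_rfl) hcc _
        _ = Qp f c' z.2.2 + G * Qp f (N0 z.1 z.2.1) z.2.2 := by
            rw [Qp_add_right m0 m2, Qp_const_mul_right hG]
        _ ≤ Qp f c' z.2.2 + G * Qp (fun v => B0 * E z.1 z.2.1 v) (N0 z.1 z.2.1) z.2.2 := by
            gcongr
            exact Qp_mono hfB (fun _ => le_rfl) _
        _ = Qp f c' z.2.2 + G * (B0 * Qp (E z.1 z.2.1) (N0 z.1 z.2.1) z.2.2) := by
            rw [Qp_const_mul_left ENNReal.coe_ne_top]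
        _ ≤ _ := by gcongr; exact (hK.EN _ _).trans (mul_le_mul_right hEW _)
    have s2 : Qp f c' z.2.2 ≤ Qp f' c' z.2.2 + a * (β * W) := by
      calc Qp f c' z.2.2 ≤ Qp (fun v => f' v + a * (w1 v * E z.1 z.2.1 v)) c' z.2.2 :=
            Qp_mono hff (fun _ => le_rfl) _
        _ = Qp f' c' z.2.2 + a * Qp (fun v => w1 v * E z.1 z.2.1 v) c' z.2.2 := by
            rw [Qp_add_left m1 m2, Qp_const_mul_left ha]
        _ ≤ Qp f' c' z.2.2 + a * Qp (fun v => w1 v * E z.1 z.2.1 v) (N0 z.1 z.2.1) z.2.2 := by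
            gcongr
            exact Qp_mono (fun _ => le_rfl) hcN' _
        _ ≤ _ := by gcongr; exact hK.wEN _ _
    calc Qp f c z.2.2 ≤ Qp f' c' z.2.2 + a * (β * W) + G * (B0 * (β * W)) :=
          s1.trans (add_le_add_left s2 _)
      _ = _ := by ring
  have e4 : sp (lamu T1 E B0 lamA u) z.1 z.2.1 z.2.2 ≤
      sp (lamu T1 E B0 lamA u') z.1 z.2.1 z.2.2 + G * W :=
    (h.spill _ _).trans (add_le_add_right (mul_le_mul_right hEW _) _)
  calc _ ≤ _ := add_le_add (add_le_add (add_le_add e1 e2) e3) e4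
    _ = _ := by ring

end main

end Crest.Agent.R68.W
end
end

-- ▼ part R68/WB7

/-!
R68 / WB7: THE TRUNCATED PROBLEM HAS A GLOBAL SOLUTION (helper475, part W).
-/

set_option autoImplicit false
open MeasureTheory Set
open scoped ENNReal NNReal Topology
open Crest.AnalysisR.VecCalc3 Crest.AnalysisR.PDE.Boltzmann

noncomputable section

namespace Crest.Agent.R68.W

open Crest.Agent.R68.A (Meas3 meas3_Qp meas3_Lc Lc_mono Lc_add Lc_const_mul Qp_mono Qp_add_left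
  Qp_add_right Qp_const_mul_left Qp_const_mul_right)
open Crest.Agent.R68.WA (We w1 measurable_We measurable_w1 one_le_w1 w1_ne_top We_ne_top)

variable {T1 lam Y A : ℝ} {E N0 : ℝ → P2 → R3 → ℝ≥0∞} {h1 : P2 → R3 → ℝ≥0∞}
  {lamA : ℝ → P2 → R3 → ℝ≥0∞} {cf sp : (ℝ → P2 → R3 → ℝ≥0∞) → ℝ → P2 → R3 → ℝ≥0∞} {B0 : ℝ≥0}

/-- continuous primitive, frozen before `T1` -/
def Ib (T1 : ℝ) (b : ℝ → ℝ) (t : ℝ) : ℝ := ∫ s in T1..(max t T1), b s

theorem continuous_Ib (T1 : ℝ) {b : ℝ → ℝ} (hb : Continuous b) : Continuous (Ib T1 b) := by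
  have h : Continuous fun t => ∫ s in T1..t, b s :=
    continuous_iff_continuousAt.2 fun t =>
      (intervalIntegral.integral_hasDerivAt_right (hb.intervalIntegrable _ _)
        hb.stronglyMeasurable.stronglyMeasurableAtFilter hb.continuousAt).continuousAt
  exact h.comp (continuous_id.max continuous_const)

theorem Ib_nonneg (T1 : ℝ) {b : ℝ → ℝ} (hb0 : ∀ t, 0 ≤ b t) (t : ℝ) : 0 ≤ Ib T1 b t :=
  intervalIntegral.integral_nonneg (le_max_right _ _) fun s _ => hb0 s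

/-- the rate of the fixed point theorem -/
def bb (T1 Y : ℝ) (B0 : ℝ≥0) (b : ℝ → ℝ) (t : ℝ) : ℝ :=
  (b t + B0 * b t) + (B0 * B0 * b t + B0 * b t + B0 * b t + b t) +
    (b t * ((Y + 4) * Ib T1 b t) * b t + b t) +
    ((2 * B0 * b t + 2 * b t) + b t * ((Y + 4) * Ib T1 b t) * (2 * B0 * b t + 1))

section bbfacts

variable {b : ℝ → ℝ}

theorem continuous_bb (T1 Y : ℝ) (B0 : ℝ≥0) (hb : Continuous b) : Continuous (bb T1 Y B0 b) := by
  have := continuous_Ib T1 hb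
  unfold bb
  fun_prop

theorem bb_parts (hY : 0 ≤ Y) (hb0 : ∀ t, 0 ≤ b t) (t : ℝ) :
    0 ≤ bb T1 Y B0 b t ∧
    ENNReal.ofReal (b t) + B0 * ENNReal.ofReal (b t) ≤ ENNReal.ofReal (bb T1 Y B0 b t) ∧
    B0 * B0 * ENNReal.ofReal (b t) + B0 * ENNReal.ofReal (b t) + B0 * ENNReal.ofReal (b t) +
      ENNReal.ofReal (b t) ≤ ENNReal.ofReal (bb T1 Y B0 b t) ∧
    ENNReal.ofReal (b t) * (ENNReal.ofReal (Y + 4) * ENNReal.ofReal (Ib T1 b t)) *
      ENNReal.ofReal (b t) + ENNReal.ofReal (b t) ≤ ENNReal.ofReal (bb T1 Y B0 b t) ∧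
    (2 * B0 * ENNReal.ofReal (b t) + 2 * ENNReal.ofReal (b t)) +
      ENNReal.ofReal (b t) * (ENNReal.ofReal (Y + 4) * ENNReal.ofReal (Ib T1 b t)) *
        (2 * B0 * ENNReal.ofReal (b t) + 1) ≤ ENNReal.ofReal (bb T1 Y B0 b t) := by
  have h0 := hb0 t
  have hI := Ib_nonneg T1 hb0 t
  have hB : (0 : ℝ) ≤ B0 := B0.2
  have hY4 : 0 ≤ Y + 4 := by linarith
  set x := b t
  set I := Ib T1 b t
  have p1 : 0 ≤ x + B0 * x := by positivity
  have p2 : 0 ≤ B0 * B0 * x + B0 * x + B0 * x + x := by positivity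
  have p3 : 0 ≤ x * ((Y + 4) * I) * x + x := by positivity
  have p4 : 0 ≤ (2 * B0 * x + 2 * x) + x * ((Y + 4) * I) * (2 * B0 * x + 1) := by positivity
  have hbb : bb T1 Y B0 b t = (x + B0 * x) + (B0 * B0 * x + B0 * x + B0 * x + x) +
    (x * ((Y + 4) * I) * x + x) +
    ((2 * B0 * x + 2 * x) + x * ((Y + 4) * I) * (2 * B0 * x + 1)) := rfl
  have e0 : (B0 : ℝ≥0∞) = ENNReal.ofReal B0 := (ENNReal.ofReal_coe_nnreal).symm
  have e2 : (2 : ℝ≥0∞) = ENNReal.ofReal 2 := by simp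
  have e1 : (1 : ℝ≥0∞) = ENNReal.ofReal 1 := by simp
  refine ⟨by rw [hbb]; linarith, ?_, ?_, ?_, ?_⟩
  · rw [e0, ← ENNReal.ofReal_mul hB, ← ENNReal.ofReal_add h0 (by positivity)]
    apply ENNReal.ofReal_le_ofReal
    rw [hbb]; linarith
  · rw [e0, ← ENNReal.ofReal_mul hB, ← ENNReal.ofReal_mul (by positivity),
      ← ENNReal.ofReal_mul hB, ← ENNReal.ofReal_add (by positivity) (by positivity),
      ← ENNReal.ofReal_add (by positivity) (by positivity),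
      ← ENNReal.ofReal_add (by positivity) (by positivity)]
    apply ENNReal.ofReal_le_ofReal
    rw [hbb]; linarith
  · rw [← ENNReal.ofReal_mul hY4, ← ENNReal.ofReal_mul h0, ← ENNReal.ofReal_mul (by positivity),
      ← ENNReal.ofReal_add (by positivity) h0]
    apply ENNReal.ofReal_le_ofReal
    rw [hbb]; linarith
  · rw [e0, e2, e1, ← ENNReal.ofReal_mul (by norm_num), ← ENNReal.ofReal_mul (by positivity),
      ← ENNReal.ofReal_mul (by norm_num), ← ENNReal.ofReal_add (by positivity) (by positivity),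
      ← ENNReal.ofReal_mul hY4, ← ENNReal.ofReal_mul h0,
      ← ENNReal.ofReal_add (by positivity) (by norm_num), ← ENNReal.ofReal_mul (by positivity),
      ← ENNReal.ofReal_add (by positivity) (by positivity)]
    apply ENNReal.ofReal_le_ofReal
    rw [hbb]; linarith

end bbfacts

/-- the hypotheses of the fixed point theorem hold -/
theorem fixHypC (H : THyp T1 lam Y A E N0 h1 lamA cf sp) (B0 : ℝ≥0) {b : ℝ → ℝ}
    (hbc : Continuous b) (hb0 : ∀ t, 0 ≤ b t)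
    (hb : ∀ t, T1 ≤ t → KB E N0 t (ENNReal.ofReal (b t)) ∧
      CB T1 Y E N0 cf sp t (ENNReal.ofReal (b t))) :
    FixHypC T1 lam A (Eo E) h1 (bb T1 Y B0 b) (Lu T1 E B0 lamA cf) (Pu T1 E B0 lamA cf sp)
      (Cl T1 E) := by
  have hEsh : ∀ k (z : Om), Eo E (sh k z) = Eo E z := fun k z => H.Eper z.1 z.2.2 z.2.1 k
  have hnn : ∀ t, 0 ≤ bb T1 Y B0 b t := fun t => (bb_parts (T1 := T1) (B0 := B0) H.Y0 hb0 t).1
  -- closeness package
  have hLp : ∀ u u', u ∈ Cl T1 E → u' ∈ Cl T1 E → ∀ kap : ℝ → ℝ, Continuous kap →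
      MonotoneOn kap (Ici T1) → (∀ t, T1 ≤ t → 1 ≤ kap t) → ∀ c : ℝ≥0∞, c < ⊤ →
      (∀ z : Om, T1 ≤ z.1 → Eo E z < ⊤ →
        ‖u z - u' z‖ₑ ≤ c * (ENNReal.ofReal (kap z.1) * ENNReal.ofReal (1 + ‖z.2.2‖) * Eo E z)) →
      ∀ t, T1 ≤ t → Lp T1 E N0 B0 lamA cf sp u u' t (c * ENNReal.ofReal (kap t))
        (ENNReal.ofReal (b t) * (c * ENNReal.ofReal (Y + 4) *
          (ENNReal.ofReal (kap t) * ENNReal.ofReal (Ib T1 b t)))) := by
    intro u u' hu hu' kap hkc hkm hk1 c hc h t ht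
    have h' : ∀ z : Om, T1 ≤ z.1 → Eo E z < ⊤ →
        ‖u' z - u z‖ₑ ≤ c * (ENNReal.ofReal (kap z.1) * ENNReal.ofReal (1 + ‖z.2.2‖) * Eo E z) := by
      intro z hz hE
      have := h z hz hE
      rwa [← enorm_neg, neg_sub] at this
    set g : ℝ → ℝ≥0∞ := fun s => c * ENNReal.ofReal (b s * kap s) * ENNReal.ofReal (Y + 4) with hg
    have hgm : Measurable g := by
      have := hbc.measurable
      have := hkc.measurable
      fun_prop
    have hlam : ∀ w w' : Om → ℝ, w ∈ Cl T1 E → w' ∈ Cl T1 E → (∀ z : Om, T1 ≤ z.1 → Eo E z < ⊤ →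
        ‖w z - w' z‖ₑ ≤ c * (ENNReal.ofReal (kap z.1) * ENNReal.ofReal (1 + ‖z.2.2‖) * Eo E z)) →
        ∀ s x (v : R3), T1 ≤ s → ‖v‖ < Y + 3 →
        lamu T1 E B0 lamA w s x v ≤ lamu T1 E B0 lamA w' s x v + g s := by
      intro w w' hw hw' hww s x v hs hv
      refine (lamu_lip H hw hw' hc.ne ENNReal.ofReal_ne_top (κ := ENNReal.ofReal (kap s)) hs
        (hb s hs).1 (fun x v hv => hww (s, x, v) hs hv) x v).trans ?_
      gcongr
      have e1 : w1 v ≤ ENNReal.ofReal (Y + 4) := by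
        unfold w1
        exact ENNReal.ofReal_le_ofReal (by linarith)
      rw [hg]
      simp only
      rw [ENNReal.ofReal_mul (hb0 s)]
      calc c * ENNReal.ofReal (kap s) * (ENNReal.ofReal (b s) * w1 v)
          ≤ c * ENNReal.ofReal (kap s) * (ENNReal.ofReal (b s) * ENNReal.ofReal (Y + 4)) := by
            gcongr
        _ = _ := by ring
    have hgint : ∫⁻ s in Ioo T1 t, g s ≤ c * ENNReal.ofReal (Y + 4) *
        (ENNReal.ofReal (kap t) * ENNReal.ofReal (Ib T1 b t)) := by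
      have e1 : ENNReal.ofReal (Ib T1 b t) = ∫⁻ s in Ioo T1 t, ENNReal.ofReal (b s) := by
        rw [lint_Ioo_eq hbc ht fun s _ _ => hb0 s, Ib, max_eq_left ht]
      rw [e1, ← lintegral_const_mul' _ _ ENNReal.ofReal_ne_top,
        ← lintegral_const_mul' _ _ (ENNReal.mul_ne_top hc.ne ENNReal.ofReal_ne_top)]
      refine setLIntegral_mono' measurableSet_Ioo fun s hs => ?_
      have e2 : ENNReal.ofReal (b s * kap s) ≤ ENNReal.ofReal (kap t) * ENNReal.ofReal (b s) := by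
        rw [ENNReal.ofReal_mul (hb0 s), mul_comm]
        gcongr
        exact hkm hs.1.le ht hs.2.le
      calc g s = c * ENNReal.ofReal (Y + 4) * ENNReal.ofReal (b s * kap s) := by
            rw [hg]; ring
        _ ≤ _ := by gcongr
    have heq : ∀ s x (v : R3), s < T1 →
        lamu T1 E B0 lamA u s x v = lamu T1 E B0 lamA u' s x v := by
      intro s x v hs
      unfold lamu
      rw [if_neg (not_le.2 hs), if_neg (not_le.2 hs)]
    have hC := (hb t ht).2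
    refine ⟨fun x v => ?_, fun x v => ?_, fun x v => ?_⟩
    · exact hc_lip (fun v _ hv => h (t, x, v) ht hv) v
    · refine (hC.cf_lip _ _ (meas3_lamu H hu) (per_lamu H hu) (meas3_lamu H hu') (per_lamu H hu')
        heq g hgm (fun s x v hs hv => ⟨hlam u u' hu hu' h s x v hs hv,
          hlam u' u hu' hu h' s x v hs hv⟩) x v).trans ?_
      gcongr
    · refine (hC.sp_lip _ _ (meas3_lamu H hu) (per_lamu H hu) (meas3_lamu H hu') (per_lamu H hu')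
        heq g hgm (fun s x v hs hv => ⟨hlam u u' hu hu' h s x v hs hv,
          hlam u' u hu' hu h' s x v hs hv⟩) x v).trans ?_
      gcongr
  exact
    { ClM := fun u hu => hu.1
      Cl0 := ⟨measurable_const, fun _ _ _ _ => rfl⟩
      ClLim := by
        intro u hu v hv hlim
        refine ⟨hv, fun z hz hE k => ?_⟩
        have e1 := hlim z hz hE
        have e2 := hlim (sh k z) hz (by rw [hEsh]; exact hE)
        have e3 : (fun n => u n (sh k z)) = fun n => u n z := funext fun n => (hu n).2 z hz hE k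
        rw [e3] at e2
        exact tendsto_nhds_unique e2 e1
      ClPsi := by
        intro u hu
        have hS : MeasurableSet {z : Om | T1 ≤ z.1 ∧ Eo E z < ⊤} :=
          (measurableSet_le measurable_const measurable_fst).inter
            (measurableSet_lt H.Em measurable_const)
        refine ⟨(measurable_damped H.h1m (meas_Lu H hu) (meas_Pu H hu)).ennreal_toReal.indicator hS,
          fun z hz hE k => ?_⟩
        have h2 : sh k z ∈ {z : Om | T1 ≤ z.1 ∧ Eo E z < ⊤} := ⟨hz, by rw [hEsh]; exact hE⟩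
        have h3 : z ∈ {z : Om | T1 ≤ z.1 ∧ Eo E z < ⊤} := ⟨hz, hE⟩
        rw [indicator_of_mem h2, indicator_of_mem h3,
          damped_sh H.h1per (Lu_sh H hu) (Pu_sh H hu)]
      lam0 := H.lam0
      A0 := H.A0
      Em := H.Em
      flE := fun z s h2 h3 => H.flight s z.1 z.2.1 z.2.2 h2 h3
      h1m := H.h1m
      h1E := H.h1E
      bc := continuous_bb T1 Y B0 hbc
      b0 := hnn
      Lm := fun u hu => meas_Lu H hu
      Pm := fun u hu => meas_Pu H hu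
      Lb := by
        intro u hu z hz hE
        refine (Lu_le H hu hz (hb z.1 hz).1).trans ?_
        exact mul_le_mul_left (bb_parts (T1 := T1) (B0 := B0) H.Y0 hb0 z.1).2.1 _
      Pb := by
        intro u hu z hz hE
        refine (Pu_le H hu hz (hb z.1 hz).1 (hb z.1 hz).2).trans ?_
        exact mul_le_mul_left (bb_parts (T1 := T1) (B0 := B0) H.Y0 hb0 z.1).2.2.1 _
      Ll := by
        intro u u' hu hu' kap hkc hkm hk1 c hc h z hz hE
        have e1 := hLp u u' hu hu' kap hkc hkm hk1 c hc h z.1 hz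
        have e2 := Lu_lip H hu hu' (ENNReal.mul_ne_top hc.ne ENNReal.ofReal_ne_top)
          (ENNReal.mul_ne_top ENNReal.ofReal_ne_top (ENNReal.mul_ne_top
            (ENNReal.mul_ne_top hc.ne ENNReal.ofReal_ne_top)
            (ENNReal.mul_ne_top ENNReal.ofReal_ne_top ENNReal.ofReal_ne_top))) (hb z.1 hz).1 e1
        refine e2.trans (add_le_add le_rfl ?_)
        rw [ENNReal.ofReal_mul (hnn z.1)]
        have e3 := (bb_parts (T1 := T1) (B0 := B0) H.Y0 hb0 z.1).2.2.2.1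
        show _ * ENNReal.ofReal (1 + ‖z.2.2‖) ≤ _
        calc _ = c * ENNReal.ofReal (1 + ‖z.2.2‖) * ((ENNReal.ofReal (b z.1) *
              (ENNReal.ofReal (Y + 4) * ENNReal.ofReal (Ib T1 b z.1)) * ENNReal.ofReal (b z.1) +
              ENNReal.ofReal (b z.1)) * ENNReal.ofReal (kap z.1)) := by ring
          _ ≤ _ := by gcongr
      Pl := by
        intro u u' hu hu' kap hkc hkm hk1 c hc h z hz hE
        have e1 := hLp u u' hu hu' kap hkc hkm hk1 c hc h z.1 hz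
        have e2 := Pu_lip H hu hu' (ENNReal.mul_ne_top hc.ne ENNReal.ofReal_ne_top)
          (ENNReal.mul_ne_top ENNReal.ofReal_ne_top (ENNReal.mul_ne_top
            (ENNReal.mul_ne_top hc.ne ENNReal.ofReal_ne_top)
            (ENNReal.mul_ne_top ENNReal.ofReal_ne_top ENNReal.ofReal_ne_top))) hz (hb z.1 hz).1 e1
        refine e2.trans (add_le_add le_rfl ?_)
        rw [ENNReal.ofReal_mul (hnn z.1)]
        have e3 := (bb_parts (T1 := T1) (B0 := B0) H.Y0 hb0 z.1).2.2.2.2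
        show _ * (ENNReal.ofReal (1 + ‖z.2.2‖) * Eo E z) ≤ _
        calc _ = c * ENNReal.ofReal (1 + ‖z.2.2‖) *
              ((2 * B0 * ENNReal.ofReal (b z.1) + 2 * ENNReal.ofReal (b z.1) +
              ENNReal.ofReal (b z.1) * (ENNReal.ofReal (Y + 4) * ENNReal.ofReal (Ib T1 b z.1)) *
                (2 * B0 * ENNReal.ofReal (b z.1) + 1)) * ENNReal.ofReal (kap z.1)) * Eo E z := by
              ring
          _ ≤ _ := by gcongr }

/-- functions agreeing where the weight is finite have the same truncation -/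
theorem hc_congr {u u' : Om → ℝ} (h : ∀ z : Om, T1 ≤ z.1 → Eo E z < ⊤ → u z = u' z) :
    hc T1 E B0 u = hc T1 E B0 u' := by
  funext t x v
  unfold hc
  split_ifs with h2
  · rw [h (t, x, v) h2.1 h2.2]
  · rfl

/-- **the truncated problem has a global solution** -/
theorem truncFix (H : THyp T1 lam Y A E N0 h1 lamA cf sp) (B0 : ℝ≥0) :
    ∃ u : Om → ℝ, Measurable u ∧ (∀ z, 0 ≤ u z) ∧ (∀ k z, u (sh k z) = u z) ∧
      (∀ z, ¬ (T1 ≤ z.1 ∧ Eo E z < ⊤) → u z = 0) ∧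
      ∀ z : Om, T1 ≤ z.1 → Eo E z < ⊤ →
        damped T1 h1 (Lu T1 E B0 lamA cf u) (Pu T1 E B0 lamA cf sp u) z ≠ ⊤ ∧
        ENNReal.ofReal (u z) =
          damped T1 h1 (Lu T1 E B0 lamA cf u) (Pu T1 E B0 lamA cf sp u) z := by
  classical
  obtain ⟨b, hbc, hb0, hb⟩ := exists_cont_majorant (T1 := T1)
    (p := fun t B => KB E N0 t B ∧ CB T1 Y E N0 cf sp t B)
    (fun t B B' h hp => ⟨hp.1.mono h, hp.2.mono h⟩) (fun T => by
      obtain ⟨B1, hB1⟩ := H.kb T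
      obtain ⟨B2, hB2⟩ := H.cb T
      refine ⟨max B1 B2, fun t h2 h3 => ⟨(hB1 t h2 h3).mono ?_, (hB2 t h2 h3).mono ?_⟩⟩
      · exact_mod_cast le_max_left B1 B2
      · exact_mod_cast le_max_right B1 B2)
  obtain ⟨u, hu, hu0, hfix⟩ := dampFixC (fixHypC H B0 hbc hb0 hb)
  set S : Set Om := {z : Om | T1 ≤ z.1 ∧ Eo E z < ⊤} with hSdef
  have hS : MeasurableSet S :=
    (measurableSet_le measurable_const measurable_fst).inter (measurableSet_lt H.Em measurable_const)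
  have hEsh : ∀ k (z : Om), Eo E (sh k z) = Eo E z := fun k z => H.Eper z.1 z.2.2 z.2.1 k
  have hSsh : ∀ k (z : Om), sh k z ∈ S ↔ z ∈ S := by
    intro k z
    show (T1 ≤ z.1 ∧ Eo E (sh k z) < ⊤) ↔ _
    rw [hEsh]; rfl
  have hag : ∀ z : Om, T1 ≤ z.1 → Eo E z < ⊤ → S.indicator u z = u z := fun z h2 h3 =>
    indicator_of_mem (show z ∈ S from ⟨h2, h3⟩) _
  have hcc : hc T1 E B0 (S.indicator u) = hc T1 E B0 u := hc_congr hag
  have hll : lamu T1 E B0 lamA (S.indicator u) = lamu T1 E B0 lamA u := by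
    funext t x v
    unfold lamu
    rw [hcc]
  have hL : Lu T1 E B0 lamA cf (S.indicator u) = Lu T1 E B0 lamA cf u := by
    funext z
    unfold Lu
    rw [hcc, hll]
  have hP : Pu T1 E B0 lamA cf sp (S.indicator u) = Pu T1 E B0 lamA cf sp u := by
    funext z
    unfold Pu
    rw [hcc, hll]
  refine ⟨S.indicator u, hu.1.indicator hS, fun z => indicator_nonneg (fun z _ => hu0 z) z,
    fun k z => ?_, fun z hz => indicator_of_notMem (show z ∉ S from hz) _, fun z hz hE => ?_⟩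
  · by_cases h2 : z ∈ S
    · rw [indicator_of_mem h2, indicator_of_mem ((hSsh k z).2 h2)]
      exact hu.2 z h2.1 h2.2 k
    · rw [indicator_of_notMem h2, indicator_of_notMem (fun h => h2 ((hSsh k z).1 h))]
  · rw [hL, hP, hag z hz hE]
    exact hfix z hz hE

end Crest.Agent.R68.W
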