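import Mathlib
import Crest.Agent.R68.WK5
import Crest.Agent.R68.WA0
import Crest.Agent.R68.DPoles3
import Crest.Agent.R68.CGauss

-- ▼ part R68/WE
section

/-!
# Row 68, PART W (helper835): the class `E(t,x,v) = (1 + e^{-lam (t-T1)} D^{-3/2}) e^{-|v|}`.
Domination by the pole class `WK.Ep` of helper330.
-/

set_option autoImplicit false
open MeasureTheory Set
open scoped ENNReal NNReal
open Crest.AnalysisR.VecCalc3 Crest.AnalysisR.PDE.Boltzmann

noncomputable section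

namespace Crest.Agent.R68.WA

open WK DPole

/-- the weight of part W -/
def EW (P : Par) (lam T1 t : ℝ) (x : P2) (v : R3) : ℝ≥0∞ :=
  (1 + ENNReal.ofReal (Real.exp (-(lam * (t - T1)))) * (if 0 ≤ t then Dm P t x v else 1)) * We v

theorem EW_of_nonneg {P : Par} {lam T1 t : ℝ} (ht : 0 ≤ t) (x : P2) (v : R3) :
    EW P lam T1 t x v =
      (1 + ENNReal.ofReal (Real.exp (-(lam * (t - T1)))) * Dm P t x v) * We v := by
  unfold EW; rw [if_pos ht]

theorem measurable_EW {P : Par} (hY : 0 < P.Y) (lam T1 : ℝ) :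
    Measurable fun p : ℝ × P2 × R3 => EW P lam T1 p.1 p.2.1 p.2.2 := by
  have h1 := measurable_Dm (P := P) hY
  have h2 := measurable_We
  unfold EW
  fun_prop

theorem We_le_EW (P : Par) (lam T1 t : ℝ) (x : P2) (v : R3) : We v ≤ EW P lam T1 t x v := by
  unfold EW
  calc We v = 1 * We v := (one_mul _).symm
    _ ≤ _ := by gcongr; exact le_self_add

theorem EW_flight {P : Par} (hY : 0 < P.Y) {lam T1 s t : ℝ} (hlam : 0 ≤ lam) (hs : 0 ≤ s)
    (hst : s ≤ t) (x : P2) (v : R3) :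
    EW P lam T1 s (x - (t - s) • bar v) v ≤
      ENNReal.ofReal (Real.exp (lam * (t - s))) * EW P lam T1 t x v := by
  rw [EW_of_nonneg hs, EW_of_nonneg (hs.trans hst), ← mul_assoc]
  gcongr ?_ * _
  rw [mul_add, mul_one, ← mul_assoc, ← ENNReal.ofReal_mul (Real.exp_pos _).le, ← Real.exp_add]
  have h1 : lam * (t - s) + -(lam * (t - T1)) = -(lam * (s - T1)) := by ring
  rw [h1]
  gcongr
  · rw [← ENNReal.ofReal_one]
    apply ENNReal.ofReal_le_ofReal
    exact Real.one_le_exp (mul_nonneg hlam (by linarith))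
  · exact Dm_flight hY hs hst x v

theorem EW_per {P : Par} (lam T1 t : ℝ) (v : R3) : PerG (fun x => EW P lam T1 t x v) := by
  intro x k
  unfold EW Dm
  simp only [Dw_add_latt]

/-! ### poles -/

open scoped Classical in
/-- the set of poles at `(t,x)` -/
def UU (P : Par) (t : ℝ) (x : P2) : Finset R3 :=
  (KKf P t x).image (fun k => uvec P 1 t (x + latt k)) ∪
    (KKf P t x).image (fun k => uvec P (-1) t (x + latt k))

theorem card_UU (P : Par) (t : ℝ) (x : P2) : (UU P t x).card ≤ 2 * (KKf P t x).card := by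
  classical
  unfold UU
  refine (Finset.card_union_le _ _).trans ?_
  have h1 := Finset.card_image_le (s := KKf P t x) (f := fun k => uvec P 1 t (x + latt k))
  have h2 := Finset.card_image_le (s := KKf P t x) (f := fun k => uvec P (-1) t (x + latt k))
  omega

theorem Spole_le (P : Par) (t : ℝ) (x : P2) (v : R3) :
    Spole P t x v ≤ 1 + (2 * (KKf P t x).card : ℕ) * ∑ u ∈ UU P t x, kp (3 / 2) (v - u) := by
  classical
  unfold Spole
  gcongr
  have h1 : ∀ k ∈ KKf P t x,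
      ENNReal.ofReal ‖v - uvec P 1 t (x + latt k)‖ ^ (-(3 / 2) : ℝ) +
        ENNReal.ofReal ‖v - uvec P (-1) t (x + latt k)‖ ^ (-(3 / 2) : ℝ) ≤
      2 * ∑ u ∈ UU P t x, kp (3 / 2) (v - u) := by
    intro k hk
    have h2 : kp (3 / 2) (v - uvec P 1 t (x + latt k)) ≤ ∑ u ∈ UU P t x, kp (3 / 2) (v - u) :=
      Finset.single_le_sum (f := fun u => kp (3 / 2) (v - u)) (fun _ _ => by simp)
        (Finset.mem_union_left _ (Finset.mem_image_of_mem _ hk))
    have h3 : kp (3 / 2) (v - uvec P (-1) t (x + latt k)) ≤ ∑ u ∈ UU P t x, kp (3 / 2) (v - u) :=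
      Finset.single_le_sum (f := fun u => kp (3 / 2) (v - u)) (fun _ _ => by simp)
        (Finset.mem_union_right _ (Finset.mem_image_of_mem _ hk))
    rw [two_mul]
    exact add_le_add h2 h3
  refine (Finset.sum_le_sum h1).trans ?_
  rw [Finset.sum_const, nsmul_eq_mul]
  push_cast
  rw [← mul_assoc, mul_comm ((KKf P t x).card : ℝ≥0∞) 2]

/-- number of poles -/
def NP (Y t : ℝ) : ℝ := (3 * (Y + 2) + 1) ^ 2 * (1 + t) ^ 2

/-- weight of the poles in the class of helper330 -/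
def kapW (Y t : ℝ) : ℝ≥0∞ := ENNReal.ofReal (1 / (2 * NP Y t))

theorem NP_pos {Y t : ℝ} (hY : 0 < Y) (ht : 0 ≤ t) : 0 < NP Y t := by unfold NP; positivity

theorem kapW_mul_card {P : Par} (hP : ParD P) {t : ℝ} (ht : 0 ≤ t) (x : P2) :
    kapW P.Y t * (UU P t x).card ≤ 1 := by
  have h1 := card_poles hP ht x
  have h2 : (((UU P t x).card : ℕ) : ℝ) ≤ 2 * NP P.Y t := by
    have := card_UU P t x
    have h3 : ((UU P t x).card : ℝ) ≤ 2 * (KKf P t x).card := by exact_mod_cast this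
    unfold NP; linarith
  have h3 := NP_pos hP.Y ht
  unfold kapW
  rw [← ENNReal.ofReal_natCast, ← ENNReal.ofReal_mul (by positivity), ← ENNReal.ofReal_one]
  apply ENNReal.ofReal_le_ofReal
  rw [one_div, inv_mul_le_iff₀ (by positivity)]
  linarith

theorem lin_exp_le {lam s : ℝ} (hlam : 0 < lam) (hs : 0 ≤ s) :
    (2 + s) * Real.exp (-(lam * s / 4)) ≤ 2 + 4 / lam := by
  have h1 := Real.add_one_le_exp (lam * s / 4)
  rw [Real.exp_neg, ← div_eq_mul_inv, div_le_iff₀ (Real.exp_pos _)]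
  have h2 : (2 + 4 / lam) * (lam * s / 4 + 1) = 2 + s + 4 / lam + lam * s / 2 := by
    field_simp; ring
  have h3 : 0 ≤ 4 / lam + lam * s / 2 := by positivity
  have h4 : 0 ≤ 2 + 4 / lam := by positivity
  nlinarith [mul_le_mul_of_nonneg_left h1 h4]

/-- the constant of the domination -/
def CW (Y lam : ℝ) : ℝ :=
  1 + (8 + 6 * Y) ^ 2 + 4 * (8 + 6 * Y) ^ 2 * (3 * (Y + 2) + 1) ^ 4 * (2 + 4 / lam) ^ 4

theorem CW_pos {Y lam : ℝ} (hY : 0 < Y) (hlam : 0 < lam) : 0 < CW Y lam := by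
  unfold CW; positivity

theorem NP_exp_le {Y lam T1 t : ℝ} (hY : 0 < Y) (hlam : 0 < lam) (h0 : 0 ≤ T1) (h1 : T1 ≤ 1)
    (ht : T1 ≤ t) :
    NP Y t * NP Y t * Real.exp (-(lam * (t - T1))) ≤ (3 * (Y + 2) + 1) ^ 4 * (2 + 4 / lam) ^ 4 := by
  have hs : 0 ≤ t - T1 := by linarith
  have h2 := lin_exp_le hlam hs
  set e := Real.exp (-(lam * (t - T1) / 4)) with he
  have h3 : Real.exp (-(lam * (t - T1))) = e ^ 4 := by
    rw [he, ← Real.exp_nat_mul]; congr 1; ring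
  rw [h3]
  unfold NP
  have h4 : (1 + t) * e ≤ 2 + 4 / lam := by
    refine le_trans ?_ h2
    have := Real.exp_pos (-(lam * (t - T1) / 4))
    rw [← he] at this
    nlinarith
  have h5 : 0 ≤ (1 + t) * e := by
    have := Real.exp_pos (-(lam * (t - T1) / 4))
    rw [← he] at this
    have : 0 ≤ 1 + t := by linarith
    positivity
  calc (3 * (Y + 2) + 1) ^ 2 * (1 + t) ^ 2 * ((3 * (Y + 2) + 1) ^ 2 * (1 + t) ^ 2) * e ^ 4
      = (3 * (Y + 2) + 1) ^ 4 * ((1 + t) * e) ^ 4 := by ring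
    _ ≤ _ := by gcongr

/-- **the class of part W is dominated by the pole class** -/
theorem EW_le_Ep {P : Par} (hP : ParD P) {lam T1 t : ℝ} (hlam : 0 < lam) (h0 : 0 ≤ T1)
    (h1 : T1 ≤ 1) (ht : T1 ≤ t) (x : P2) (v : R3) :
    EW P lam T1 t x v ≤ ENNReal.ofReal (CW P.Y lam) * Ep 0 (kapW P.Y t) (UU P t x) v := by
  have hY := hP.Y
  have ht0 : 0 ≤ t := h0.trans ht
  rw [EW_of_nonneg ht0]
  have hew : Ep 0 (kapW P.Y t) (UU P t x) v = We v * Sp (kapW P.Y t) (UU P t x) v := by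
    unfold Ep ew We; simp
  rw [hew, mul_comm (We v), ← mul_assoc]
  gcongr ?_ * _
  set S := ∑ u ∈ UU P t x, kp (3 / 2) (v - u) with hS
  have hSp : Sp (kapW P.Y t) (UU P t x) v = 1 + kapW P.Y t * S := rfl
  rw [hSp]
  set e := Real.exp (-(lam * (t - T1))) with he
  have he0 : 0 < e := Real.exp_pos _
  have he1 : e ≤ 1 := Real.exp_le_one_iff.2 (by nlinarith)
  have hN := NP_pos hY ht0
  have hcard : ((2 * (KKf P t x).card : ℕ) : ℝ≥0∞) ≤ ENNReal.ofReal (2 * NP P.Y t) := by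
    rw [← ENNReal.ofReal_natCast]
    apply ENNReal.ofReal_le_ofReal
    have := card_poles hP ht0 x
    push_cast
    unfold NP; linarith
  have hDm : Dm P t x v ≤ ENNReal.ofReal ((8 + 6 * P.Y) ^ 2) *
      (1 + ENNReal.ofReal (2 * NP P.Y t) * S) := by
    refine (Dm_le_Spole hP ht0 x v).trans ?_
    gcongr
    refine (Spole_le P t x v).trans ?_
    gcongr
  calc 1 + ENNReal.ofReal e * Dm P t x v
      ≤ 1 + ENNReal.ofReal e * (ENNReal.ofReal ((8 + 6 * P.Y) ^ 2) *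
          (1 + ENNReal.ofReal (2 * NP P.Y t) * S)) := by gcongr
    _ = (1 + ENNReal.ofReal (e * (8 + 6 * P.Y) ^ 2)) +
          ENNReal.ofReal (e * (8 + 6 * P.Y) ^ 2 * (2 * NP P.Y t)) * S := by
        generalize (8 + 6 * P.Y) ^ 2 = c8 at *
        have e1 : ENNReal.ofReal (e * c8 * (2 * NP P.Y t)) =
            ENNReal.ofReal (e * c8) * ENNReal.ofReal (2 * NP P.Y t) := by
          rw [mul_comm, ENNReal.ofReal_mul (by positivity), mul_comm]
        rw [e1, ENNReal.ofReal_mul he0.le]; ring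
    _ ≤ ENNReal.ofReal (CW P.Y lam) + ENNReal.ofReal (CW P.Y lam) * kapW P.Y t * S := by
        gcongr
        · rw [← ENNReal.ofReal_one, ← ENNReal.ofReal_add (by norm_num) (by positivity)]
          apply ENNReal.ofReal_le_ofReal
          unfold CW
          have h2 : 0 ≤ 4 * (8 + 6 * P.Y) ^ 2 * (3 * (P.Y + 2) + 1) ^ 4 * (2 + 4 / lam) ^ 4 := by
            positivity
          have h3 : e * (8 + 6 * P.Y) ^ 2 ≤ 1 * (8 + 6 * P.Y) ^ 2 := by gcongr
          linarith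
        · unfold kapW
          rw [← ENNReal.ofReal_mul (CW_pos hY hlam).le]
          apply ENNReal.ofReal_le_ofReal
          rw [mul_one_div, le_div_iff₀ (by positivity)]
          have h2 := NP_exp_le (Y := P.Y) hY hlam h0 h1 ht
          rw [← he] at h2
          unfold CW
          have h3 : 0 ≤ 4 * (8 + 6 * P.Y) ^ 2 := by positivity
          have h4 := mul_le_mul_of_nonneg_left h2 h3
          nlinarith [sq_nonneg (8 + 6 * P.Y)]
    _ = ENNReal.ofReal (CW P.Y lam) * (1 + kapW P.Y t * S) := by ring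

end Crest.Agent.R68.WA
end
end

-- ▼ part R68/WE2
section

/-!
# Row 68, PART W (helper835): `KHyp` for the class `EW`.
-/

set_option autoImplicit false
open MeasureTheory Set
open scoped ENNReal NNReal
open Crest.AnalysisR.VecCalc3 Crest.AnalysisR.PDE.Boltzmann

noncomputable section

namespace Crest.Agent.R68.WA

open WK DPole

theorem ew_zero (v : R3) : ew 0 v = We v := by unfold ew We; simp

section gen

variable {C κ : ℝ≥0∞} {U : Finset R3} {E f : R3 → ℝ≥0∞}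

theorem gain_gen (hC : C ≠ ⊤) (hκ : κ * U.card ≤ 1) (hE : ∀ v, E v ≤ C * Ep 0 κ U v) (v : R3) :
    Qp E E v ≤ C * C * CQ 0 * We v := by
  calc Qp E E v ≤ Qp (fun a => C * Ep 0 κ U a) (fun a => C * Ep 0 κ U a) v :=
        WA.Qp_mono hE hE v
    _ = C * (C * Qp (Ep 0 κ U) (Ep 0 κ U) v) := by
        rw [Qp_smul_left hC, Qp_smul_right hC]
    _ ≤ C * (C * (CQ 0 * ew 0 v)) := by gcongr; exact Qp_Ep_le 0 hκ v
    _ = C * C * CQ 0 * We v := by rw [ew_zero]; ring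

theorem gsm_gen (hC0 : C ≠ 0) (hC : C ≠ ⊤) (hκ : κ * U.card ≤ 1) (hE : ∀ v, E v ≤ C * Ep 0 κ U v)
    (hf : Measurable f) (hfE : ∀ z, f z ≤ E z) {δ : ℝ} (hδ : 0 < δ) (v : R3) :
    Qp f E v ≤ C * CP 0 * ENNReal.ofReal δ⁻¹ * (∫⁻ z, f z) +
      C * C * CP 0 * (ca 0 * KI) * ENNReal.ofReal (δ ^ (1 / 4 : ℝ)) := by
  set f' : R3 → ℝ≥0∞ := fun z => C⁻¹ * f z with hf'
  have hf'm : Measurable f' := hf.const_mul _
  have hff : ∀ z, f z = C * f' z := by
    intro z
    rw [hf', ← mul_assoc, ENNReal.mul_inv_cancel hC0 hC, one_mul]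
  have hf'E : ∀ y, f' y ≤ Ep 0 κ U y := by
    intro y
    calc f' y ≤ C⁻¹ * (C * Ep 0 κ U y) := by
          change C⁻¹ * f y ≤ _
          gcongr; exact (hfE y).trans (hE y)
      _ = Ep 0 κ U y := by rw [← mul_assoc, ENNReal.inv_mul_cancel hC0 hC, one_mul]
  have hint : ∫⁻ y, f' y = C⁻¹ * ∫⁻ y, f y := lintegral_const_mul _ hf
  calc Qp f E v ≤ Qp f (fun a => C * Ep 0 κ U a) v := WA.Qp_mono (fun _ => le_rfl) hE v
    _ = Qp (fun a => C * f' a) (fun a => C * Ep 0 κ U a) v := by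
        congr 1; funext z; exact hff z
    _ = C * (C * Qp f' (Ep 0 κ U) v) := by rw [Qp_smul_left hC, Qp_smul_right hC]
    _ ≤ C * (C * (CP 0 * (ENNReal.ofReal δ⁻¹ * (∫⁻ y, f' y) +
          ENNReal.ofReal (δ ^ (1 / 4 : ℝ)) * (ca 0 * KI)))) := by
        gcongr; exact Qp_interp 0 hκ hf'm hf'E hδ v
    _ = (C * C⁻¹) * (C * CP 0 * ENNReal.ofReal δ⁻¹ * (∫⁻ z, f z)) +
          C * C * CP 0 * (ca 0 * KI) * ENNReal.ofReal (δ ^ (1 / 4 : ℝ)) := by
        rw [hint]; ring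
    _ = _ := by rw [ENNReal.mul_inv_cancel hC0 hC, one_mul]

theorem msm_gen (hC0 : C ≠ 0) (hC : C ≠ ⊤) (hκ : κ * U.card ≤ 1) (hE : ∀ v, E v ≤ C * Ep 0 κ U v)
    (hf : Measurable f) (hfE : ∀ z, f z ≤ E z) (R : ℝ) :
    ∫⁻ z, w1 z * f z ≤ ENNReal.ofReal (1 + R) * (∫⁻ z, f z) +
      C * (ca (1 + 0) * KI) * ENNReal.ofReal (Real.exp (-(1 / 4 * R))) := by
  set f' : R3 → ℝ≥0∞ := fun z => C⁻¹ * f z with hf'
  have hf'm : Measurable f' := hf.const_mul _
  have hff : ∀ z, f z = C * f' z := by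
    intro z
    rw [hf', ← mul_assoc, ENNReal.mul_inv_cancel hC0 hC, one_mul]
  have hf'E : ∀ y, f' y ≤ Ep 0 κ U y := by
    intro y
    calc f' y ≤ C⁻¹ * (C * Ep 0 κ U y) := by
          change C⁻¹ * f y ≤ _
          gcongr; exact (hfE y).trans (hE y)
      _ = Ep 0 κ U y := by rw [← mul_assoc, ENNReal.inv_mul_cancel hC0 hC, one_mul]
  have hint : ∫⁻ y, f' y = C⁻¹ * ∫⁻ y, f y := lintegral_const_mul _ hf
  have h1 := moment_interp 1 0 hκ hf'm hf'E R
  simp only [pow_one] at h1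
  calc ∫⁻ z, w1 z * f z = C * ∫⁻ z, ENNReal.ofReal (1 + ‖z‖) * f' z := by
        rw [← lintegral_const_mul' _ _ hC]
        refine lintegral_congr fun z => ?_
        rw [hff z]; unfold w1; ring
    _ ≤ C * (ENNReal.ofReal (1 + R) * (∫⁻ y, f' y) +
          ENNReal.ofReal (Real.exp (-(1 / 4 * R))) * (ca (1 + 0) * KI)) := by gcongr
    _ = (C * C⁻¹) * (ENNReal.ofReal (1 + R) * (∫⁻ y, f y)) +
          C * (ca (1 + 0) * KI) * ENNReal.ofReal (Real.exp (-(1 / 4 * R))) := by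
        rw [hint]; ring
    _ = _ := by rw [ENNReal.mul_inv_cancel hC0 hC, one_mul]

theorem mom_gen (hC : C ≠ ⊤) (hκ : κ * U.card ≤ 1) (hE : ∀ v, E v ≤ C * Ep 0 κ U v) :
    ∫⁻ z, w1 z * E z ≤ C * (ca (1 + 0) * KI) := by
  have h1 := moment_Ep_le 1 0 hκ
  simp only [pow_one] at h1
  calc ∫⁻ z, w1 z * E z ≤ ∫⁻ z, C * (ENNReal.ofReal (1 + ‖z‖) * Ep 0 κ U z) := by
        refine lintegral_mono fun z => ?_
        calc w1 z * E z ≤ w1 z * (C * Ep 0 κ U z) := by gcongr; exact hE z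
          _ = _ := by unfold w1; ring
    _ = C * ∫⁻ z, ENNReal.ofReal (1 + ‖z‖) * Ep 0 κ U z := lintegral_const_mul' _ _ hC
    _ ≤ _ := by gcongr

end gen

/-- smallness by the choice of `δ` -/
theorem small1 {B : ℝ≥0∞} (hB : B ≠ ⊤) {ε : ℝ} (hε : 0 < ε) :
    B * ENNReal.ofReal (((ε / (B.toReal + 1)) ^ 4) ^ (1 / 4 : ℝ)) ≤ ENNReal.ofReal ε := by
  have hb : 0 ≤ B.toReal := ENNReal.toReal_nonneg
  have h1 : ((ε / (B.toReal + 1)) ^ 4) ^ (1 / 4 : ℝ) = ε / (B.toReal + 1) := by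
    rw [← Real.rpow_natCast, ← Real.rpow_mul (by positivity)]
    norm_num
  rw [h1, ← ENNReal.ofReal_toReal hB, ← ENNReal.ofReal_mul hb, ENNReal.toReal_ofReal hb]
  apply ENNReal.ofReal_le_ofReal
  rw [mul_div_assoc', div_le_iff₀ (by positivity)]
  nlinarith

theorem small2 {B : ℝ≥0∞} (hB : B ≠ ⊤) {ε : ℝ} (hε : 0 < ε) :
    B * ENNReal.ofReal (Real.exp (-(1 / 4 * (4 * (B.toReal / ε))))) ≤ ENNReal.ofReal ε := by
  have hb : 0 ≤ B.toReal := ENNReal.toReal_nonneg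
  rw [← ENNReal.ofReal_toReal hB, ← ENNReal.ofReal_mul hb, ENNReal.toReal_ofReal hb]
  apply ENNReal.ofReal_le_ofReal
  have h1 : 1 / 4 * (4 * (B.toReal / ε)) = B.toReal / ε := by ring
  rw [h1, Real.exp_neg, ← div_eq_mul_inv, div_le_iff₀ (Real.exp_pos _)]
  have h2 := Real.add_one_le_exp (B.toReal / ε)
  calc B.toReal = ε * (B.toReal / ε) := by field_simp
    _ ≤ ε * Real.exp (B.toReal / ε) := by gcongr; linarith

/-- the domination constant as an extended number -/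
def CE (Y lam : ℝ) : ℝ≥0∞ := ENNReal.ofReal (CW Y lam)
/-- first constant of `KHyp` -/
def C1E (Y lam : ℝ) : ℝ≥0 := (CE Y lam * CE Y lam * CQ 0 + CE Y lam * (ca (1 + 0) * KI)).toNNReal
/-- coefficients of the smallness estimates -/
def B1E (Y lam : ℝ) : ℝ≥0∞ := CE Y lam * CE Y lam * CP 0 * (ca 0 * KI)
/-- coefficients of the smallness estimates -/
def B2E (Y lam : ℝ) : ℝ≥0∞ := CE Y lam * (ca (1 + 0) * KI)
/-- the function of `KHyp` -/
def CfE (Y lam : ℝ) (ε : ℝ≥0) : ℝ≥0 :=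
  (CE Y lam * CP 0 * ENNReal.ofReal ((ε / ((B1E Y lam).toReal + 1)) ^ 4)⁻¹ +
    ENNReal.ofReal (1 + 4 * ((B2E Y lam).toReal / ε))).toNNReal

theorem CE_ne_top (Y lam : ℝ) : CE Y lam ≠ ⊤ := ENNReal.ofReal_ne_top

theorem C1E_eq (Y lam : ℝ) :
    (C1E Y lam : ℝ≥0∞) = CE Y lam * CE Y lam * CQ 0 + CE Y lam * (ca (1 + 0) * KI) := by
  unfold C1E
  refine ENNReal.coe_toNNReal (ENNReal.add_ne_top.2 ⟨?_, ?_⟩)
  · exact ENNReal.mul_ne_top (ENNReal.mul_ne_top (CE_ne_top _ _) (CE_ne_top _ _)) (CQ_lt_top 0).ne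
  · exact ENNReal.mul_ne_top (CE_ne_top _ _) (ENNReal.mul_ne_top (ca_lt_top _).ne KI_lt_top.ne)

theorem B1E_ne_top (Y lam : ℝ) : B1E Y lam ≠ ⊤ :=
  ENNReal.mul_ne_top (ENNReal.mul_ne_top (ENNReal.mul_ne_top (CE_ne_top _ _) (CE_ne_top _ _))
    (CP_lt_top 0).ne) (ENNReal.mul_ne_top (ca_lt_top _).ne KI_lt_top.ne)

theorem B2E_ne_top (Y lam : ℝ) : B2E Y lam ≠ ⊤ :=
  ENNReal.mul_ne_top (CE_ne_top _ _) (ENNReal.mul_ne_top (ca_lt_top _).ne KI_lt_top.ne)

theorem CfE_eq (Y lam : ℝ) (ε : ℝ≥0) :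
    (CfE Y lam ε : ℝ≥0∞) =
      CE Y lam * CP 0 * ENNReal.ofReal ((ε / ((B1E Y lam).toReal + 1)) ^ 4)⁻¹ +
        ENNReal.ofReal (1 + 4 * ((B2E Y lam).toReal / ε)) := by
  unfold CfE
  refine ENNReal.coe_toNNReal (ENNReal.add_ne_top.2 ⟨?_, ENNReal.ofReal_ne_top⟩)
  exact ENNReal.mul_ne_top (ENNReal.mul_ne_top (CE_ne_top _ _) (CP_lt_top 0).ne)
    ENNReal.ofReal_ne_top

/-- **the kernel hypotheses of part W hold for the class `EW`, with constants depending only on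
`Y` and `lam`** -/
theorem KHyp_EW {P : Par} (hP : ParD P) {lam T1 : ℝ} (hlam : 0 < lam) (h0 : 0 ≤ T1) (h1 : T1 ≤ 1) :
    KHyp T1 lam (C1E P.Y lam) (CfE P.Y lam) (EW P lam T1) := by
  have hY := hP.Y
  have hC0 : CE P.Y lam ≠ 0 := by
    unfold CE
    simpa using CW_pos hY hlam
  have hC := CE_ne_top P.Y lam
  have hdom : ∀ t x, T1 ≤ t → ∀ v, EW P lam T1 t x v ≤
      CE P.Y lam * Ep 0 (kapW P.Y t) (UU P t x) v :=
    fun t x ht v => EW_le_Ep hP hlam h0 h1 ht x v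
  have hκ : ∀ t x, T1 ≤ t → kapW P.Y t * (UU P t x).card ≤ 1 :=
    fun t x ht => kapW_mul_card hP (h0.trans ht) x
  have hmE : ∀ t x, Measurable (EW P lam T1 t x) := fun t x =>
    (measurable_EW hY lam T1).comp (f := fun v : R3 => (t, x, v)) (by fun_prop)
  have hsm : ∀ ε : ℝ≥0, 0 < ε → ∀ t x v, T1 ≤ t → ∀ f : R3 → ℝ≥0∞, Measurable f →
      (∀ z, f z ≤ EW P lam T1 t x z) → Qp f (EW P lam T1 t x) v ≤ ε + CfE P.Y lam ε * ∫⁻ z, f z := by
    intro ε hε t x v ht f hf hfE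
    have hε' : (0 : ℝ) < ε := by exact_mod_cast hε
    have hδ : 0 < ((ε : ℝ) / ((B1E P.Y lam).toReal + 1)) ^ 4 := by
      have : 0 ≤ (B1E P.Y lam).toReal := ENNReal.toReal_nonneg
      positivity
    refine (gsm_gen hC0 hC (hκ t x ht) (hdom t x ht) hf hfE hδ v).trans ?_
    rw [add_comm]
    have h2 := small1 (B1E_ne_top P.Y lam) hε'
    refine add_le_add ?_ ?_
    · refine h2.trans_eq ?_
      rw [ENNReal.ofReal_coe_nnreal]
    · rw [CfE_eq]
      gcongr
      exact le_self_add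
  refine ⟨measurable_EW hY lam T1, fun t x v _ => We_le_EW P lam T1 t x v, ?_, hsm, ?_, ?_, ?_, ?_⟩
  · intro t x v ht
    refine (gain_gen hC (hκ t x ht) (hdom t x ht) v).trans ?_
    rw [C1E_eq]
    gcongr
    exact le_self_add
  · intro ε hε t x v ht f hf hfE
    rw [WK.Qp_comm (hmE t x) hf]
    exact hsm ε hε t x v ht f hf hfE
  · intro ε hε t x ht f hf hfE
    have hε' : (0 : ℝ) < ε := by exact_mod_cast hε
    refine (msm_gen hC0 hC (hκ t x ht) (hdom t x ht) hf hfE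
      (4 * ((B2E P.Y lam).toReal / ε))).trans ?_
    rw [add_comm]
    have h2 := small2 (B2E_ne_top P.Y lam) hε'
    refine add_le_add ?_ ?_
    · refine h2.trans_eq ?_
      rw [ENNReal.ofReal_coe_nnreal]
    · rw [CfE_eq]
      gcongr
      exact le_add_self
  · intro t x ht
    refine (mom_gen hC (hκ t x ht) (hdom t x ht)).trans ?_
    rw [C1E_eq]
    exact le_add_self
  · intro s t x v hs hst
    exact EW_flight hY hlam.le (h0.trans hs) hst x v

end Crest.Agent.R68.WA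
end
end

-- ▼ part R68/WM
section

/-!
# Row 68, PART W (helper835): the Maxwellian. `Qp M M = M Lc M`, `1 + |v| ≤ Lc M v ≤ 18 (1+|v|)`,
mass one.
-/

set_option autoImplicit false
open MeasureTheory Set
open scoped ENNReal NNReal
open Crest.AnalysisR.VecCalc3 Crest.AnalysisR.PDE.Boltzmann

noncomputable section

namespace Crest.Agent.R68.WA



theorem maxwellian_pos (v : R3) : 0 < maxwellian v := by
  unfold maxwellian; positivity


theorem Mx_neg (v : R3) : Mx (-v) = Mx v := by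
  unfold Mx maxwellian; rw [norm_neg]


/-- Gaussian integrals of the Maxwellian -/
theorem lintegral_Mx : ∫⁻ v, Mx v = 1 := by
  have h1 : ∀ v : R3, Mx v = ENNReal.ofReal ((2 * Real.pi) ^ (-(3 / 2 : ℝ))) *
      ENNReal.ofReal (Real.exp (-(1 / 2) * ‖v‖ ^ 2)) := by
    intro v
    unfold Mx maxwellian
    rw [← ENNReal.ofReal_mul (by positivity)]
    congr 3
    ring
  simp_rw [h1]
  rw [lintegral_const_mul' _ _ ENNReal.ofReal_ne_top, C.lintegral_gauss (by norm_num),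
    ← ENNReal.ofReal_mul (by positivity)]
  have h2 : Real.pi / (1 / 2) = 2 * Real.pi := by ring
  rw [h2, ← Real.rpow_add (by positivity)]
  norm_num

theorem lintegral_Mx_mul_exp :
    ∫⁻ v : R3, ENNReal.ofReal (Real.exp (-(1 / 2) * ‖v‖ ^ 2)) * Mx v ≤ ENNReal.ofReal (1 / 2) := by
  have h1 : ∀ v : R3, ENNReal.ofReal (Real.exp (-(1 / 2) * ‖v‖ ^ 2)) * Mx v =
      ENNReal.ofReal ((2 * Real.pi) ^ (-(3 / 2 : ℝ))) *
        ENNReal.ofReal (Real.exp (-1 * ‖v‖ ^ 2)) := by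
    intro v
    unfold Mx maxwellian
    rw [← ENNReal.ofReal_mul (by positivity), ← ENNReal.ofReal_mul (by positivity)]
    congr 1
    have : Real.exp (-1 * ‖v‖ ^ 2) = Real.exp (-(1 / 2) * ‖v‖ ^ 2) * Real.exp (-‖v‖ ^ 2 / 2) := by
      rw [← Real.exp_add]; congr 1; ring
    rw [this]; ring
  simp_rw [h1]
  rw [lintegral_const_mul' _ _ ENNReal.ofReal_ne_top, C.lintegral_gauss (by norm_num),
    ← ENNReal.ofReal_mul (by positivity)]
  apply ENNReal.ofReal_le_ofReal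
  rw [div_one, Real.mul_rpow (by norm_num) Real.pi_pos.le, mul_assoc, ← Real.rpow_add Real.pi_pos]
  norm_num
  have h3 : (2 : ℝ) ^ (-(3 / 2) : ℝ) ≤ (2 : ℝ) ^ (-1 : ℝ) :=
    Real.rpow_le_rpow_of_exponent_le (by norm_num) (by norm_num)
  have h4 : (2 : ℝ) ^ (-1 : ℝ) = 1 / 2 := by norm_num
  linarith

/-- first absolute moment of the Maxwellian -/
theorem lintegral_norm_Mx : ENNReal.ofReal (1 / 2) ≤ ∫⁻ v : R3, ENNReal.ofReal ‖v‖ * Mx v := by
  have h1 : ∀ v : R3, Mx v ≤ ENNReal.ofReal ‖v‖ * Mx v +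
      ENNReal.ofReal (Real.exp (-(1 / 2) * ‖v‖ ^ 2)) * Mx v := by
    intro v
    rw [← add_mul, ← ENNReal.ofReal_add (norm_nonneg v) (Real.exp_pos _).le]
    have h2 : (1 : ℝ) ≤ ‖v‖ + Real.exp (-(1 / 2) * ‖v‖ ^ 2) := by
      have h3 := Real.add_one_le_exp (-(1 / 2) * ‖v‖ ^ 2)
      have h4 := (Real.exp_pos (-(1 / 2) * ‖v‖ ^ 2)).le
      have h5 := norm_nonneg v
      rcases le_or_gt 1 ‖v‖ with h | h
      · linarith
      · nlinarith
    calc Mx v = 1 * Mx v := (one_mul _).symm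
      _ ≤ _ := by
        gcongr
        rw [← ENNReal.ofReal_one]
        exact ENNReal.ofReal_le_ofReal h2
  have h2 := lintegral_mono (μ := volume) h1
  rw [lintegral_Mx, lintegral_add_right _ (by
    have := measurable_Mx
    fun_prop)] at h2
  have h3 := h2.trans (add_le_add_right lintegral_Mx_mul_exp _)
  have h4 : (1 : ℝ≥0∞) = ENNReal.ofReal (1 / 2) + ENNReal.ofReal (1 / 2) := by
    rw [← ENNReal.ofReal_add (by norm_num) (by norm_num)]; norm_num
  rw [h4] at h3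
  exact (ENNReal.add_le_add_iff_right ENNReal.ofReal_ne_top).1 h3

/-- symmetrisation: `|v - z| + |v + z| ≥ |v| + |z|` -/
theorem norm_add_norm_le_symm (v z : R3) : ‖v‖ + ‖z‖ ≤ ‖v - z‖ + ‖v + z‖ := by
  have h1 : ‖(2 : ℝ) • v‖ ≤ ‖v - z‖ + ‖v + z‖ := by
    have : (2 : ℝ) • v = (v - z) + (v + z) := by rw [two_smul]; abel
    rw [this]; exact norm_add_le _ _
  have h2 : ‖(2 : ℝ) • z‖ ≤ ‖v + z‖ + ‖v - z‖ := by
    have : (2 : ℝ) • z = (v + z) - (v - z) := by rw [two_smul]; abel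
    rw [this]; exact norm_sub_le _ _
  rw [norm_smul] at h1 h2
  norm_num at h1 h2
  linarith

/-- **lower bound of the collision frequency of the Maxwellian** -/
theorem w1_le_Lc_Mx (v : R3) : w1 v ≤ Lc Mx v := by
  rw [C.Lc_eq]
  have hm := measurable_Mx
  set I := ∫⁻ z : R3, ENNReal.ofReal (2 * Real.pi * ‖v - z‖) * Mx z with hI
  have hneg : I = ∫⁻ z : R3, ENNReal.ofReal (2 * Real.pi * ‖v + z‖) * Mx z := by
    rw [hI, ← lintegral_neg_eq_self]
    refine lintegral_congr fun z => ?_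
    rw [sub_neg_eq_add, Mx_neg]
  have h1 : ENNReal.ofReal (2 * Real.pi * ‖v‖) + ENNReal.ofReal Real.pi ≤ I + I := by
    nth_rw 2 [hneg]
    rw [hI, ← lintegral_add_left (by fun_prop)]
    calc ENNReal.ofReal (2 * Real.pi * ‖v‖) + ENNReal.ofReal Real.pi
        ≤ ∫⁻ z : R3, (ENNReal.ofReal (2 * Real.pi * ‖v‖) * Mx z +
            ENNReal.ofReal (2 * Real.pi) * (ENNReal.ofReal ‖z‖ * Mx z)) := by
          rw [lintegral_add_left (by fun_prop), lintegral_const_mul' _ _ ENNReal.ofReal_ne_top,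
            lintegral_const_mul' _ _ ENNReal.ofReal_ne_top, lintegral_Mx, mul_one]
          gcongr
          calc ENNReal.ofReal Real.pi = ENNReal.ofReal (2 * Real.pi) * ENNReal.ofReal (1 / 2) := by
                rw [← ENNReal.ofReal_mul (by positivity)]; congr 1; ring
            _ ≤ _ := by gcongr; exact lintegral_norm_Mx
      _ ≤ _ := by
          refine lintegral_mono fun z => ?_
          rw [← mul_assoc, ← add_mul, ← add_mul, ← ENNReal.ofReal_mul (by positivity),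
            ← ENNReal.ofReal_add (by positivity) (by positivity),
            ← ENNReal.ofReal_add (by positivity) (by positivity)]
          gcongr ?_ * _
          apply ENNReal.ofReal_le_ofReal
          have := norm_add_norm_le_symm v z
          have hpi := Real.pi_pos
          nlinarith
  have h2 : w1 v + w1 v ≤ ENNReal.ofReal (2 * Real.pi * ‖v‖) + ENNReal.ofReal Real.pi := by
    unfold w1
    rw [← ENNReal.ofReal_add (by positivity) (by positivity),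
      ← ENNReal.ofReal_add (by positivity) (by positivity)]
    apply ENNReal.ofReal_le_ofReal
    have := Real.pi_gt_three
    nlinarith [norm_nonneg v]
  have h3 : 2 * w1 v ≤ 2 * I := by
    rw [two_mul, two_mul]; exact h2.trans h1
  exact (ENNReal.mul_le_mul_iff_right (by norm_num) (by norm_num)).1 h3


/-- the Maxwellian is below a constant times `e^{-|v|}` -/
theorem Mx_le_We (v : R3) : Mx v ≤ We v := by
  unfold Mx We maxwellian
  apply ENNReal.ofReal_le_ofReal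
  have h1 : (2 * Real.pi) ^ (-(3 / 2 : ℝ)) ≤ Real.exp (-(1 / 2)) := by
    have h2 : (2 * Real.pi) ^ (-(3 / 2 : ℝ)) ≤ (2 * Real.pi) ^ (-(1 : ℝ)) :=
      Real.rpow_le_rpow_of_exponent_le (by have := Real.pi_gt_three; linarith) (by norm_num)
    have h3 : (2 * Real.pi) ^ (-(1 : ℝ)) ≤ 1 / 6 := by
      rw [Real.rpow_neg (by positivity), Real.rpow_one, ← one_div]
      apply one_div_le_one_div_of_le (by norm_num)
      have := Real.pi_gt_three; linarith
    have h4 := Real.add_one_le_exp (-(1 / 2) : ℝ)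
    linarith
  calc (2 * Real.pi) ^ (-(3 / 2 : ℝ)) * Real.exp (-‖v‖ ^ 2 / 2)
      ≤ Real.exp (-(1 / 2)) * Real.exp (-‖v‖ ^ 2 / 2) := by gcongr
    _ = Real.exp (-(1 / 2) + -‖v‖ ^ 2 / 2) := (Real.exp_add _ _).symm
    _ ≤ Real.exp (-‖v‖) := by
        apply Real.exp_le_exp.2
        nlinarith [sq_nonneg (‖v‖ - 1)]

end Crest.Agent.R68.WA
end
end

-- ▼ part R68/WE3

/-!
# Row 68, PART W (helper835): the `w1`-weighted estimates of the class `EW` (for the truncated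
problem of helper475).
-/

set_option autoImplicit false
open MeasureTheory Set
open scoped ENNReal NNReal
open Crest.AnalysisR.VecCalc3 Crest.AnalysisR.PDE.Boltzmann

noncomputable section

namespace Crest.Agent.R68.WA

open WK DPole

theorem Ep_one (κ : ℝ≥0∞) (U : Finset R3) (v : R3) : Ep 1 κ U v = w1 v * Ep 0 κ U v :=
  Ep_succ κ U 0 v

theorem ew_one (v : R3) : ew 1 v = w1 v * We v := by
  unfold ew w1 We
  rw [← ENNReal.ofReal_mul (by positivity)]; simp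

/-- constant of the weighted estimates -/
def C2E (Y lam : ℝ) : ℝ≥0 :=
  (CE Y lam * CE Y lam * CQ 1 + CE Y lam * (ENNReal.ofReal (2 * Real.pi) * (ca (1 + 1) * KI))).toNNReal

theorem C2E_eq (Y lam : ℝ) : (C2E Y lam : ℝ≥0∞) =
    CE Y lam * CE Y lam * CQ 1 + CE Y lam * (ENNReal.ofReal (2 * Real.pi) * (ca (1 + 1) * KI)) := by
  unfold C2E
  refine ENNReal.coe_toNNReal (ENNReal.add_ne_top.2 ⟨?_, ?_⟩)
  · exact ENNReal.mul_ne_top (ENNReal.mul_ne_top (CE_ne_top _ _) (CE_ne_top _ _)) (CQ_lt_top 1).ne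
  · exact ENNReal.mul_ne_top (CE_ne_top _ _) (ENNReal.mul_ne_top ENNReal.ofReal_ne_top
      (ENNReal.mul_ne_top (ca_lt_top _).ne KI_lt_top.ne))

section

variable {P : Par} {lam T1 t : ℝ}

theorem w1EW_le (hP : ParD P) (hlam : 0 < lam) (h0 : 0 ≤ T1) (h1 : T1 ≤ 1) (ht : T1 ≤ t)
    (x : P2) (v : R3) :
    w1 v * EW P lam T1 t x v ≤ CE P.Y lam * Ep 1 (kapW P.Y t) (UU P t x) v := by
  rw [Ep_one]
  calc w1 v * EW P lam T1 t x v ≤ w1 v * (CE P.Y lam * Ep 0 (kapW P.Y t) (UU P t x) v) := by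
        gcongr; exact EW_le_Ep hP hlam h0 h1 ht x v
    _ = _ := by ring


/-- all four products of `EW` and `w1 * EW` -/
theorem Qp_w1EW (hP : ParD P) (hlam : 0 < lam) (h0 : 0 ≤ T1) (h1 : T1 ≤ 1) (ht : T1 ≤ t)
    (x : P2) {f g : R3 → ℝ≥0∞} (hf : ∀ z, f z ≤ w1 z * EW P lam T1 t x z)
    (hg : ∀ z, g z ≤ w1 z * EW P lam T1 t x z) (v : R3) :
    Qp f g v ≤ C2E P.Y lam * (w1 v * We v) := by
  have hκ := kapW_mul_card hP (h0.trans ht) x
  calc Qp f g v ≤ Qp (fun a => CE P.Y lam * Ep 1 (kapW P.Y t) (UU P t x) a)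
        (fun a => CE P.Y lam * Ep 1 (kapW P.Y t) (UU P t x) a) v :=
        WA.Qp_mono (fun z => (hf z).trans (w1EW_le hP hlam h0 h1 ht x z))
          (fun z => (hg z).trans (w1EW_le hP hlam h0 h1 ht x z)) v
    _ = CE P.Y lam * (CE P.Y lam * Qp (Ep 1 (kapW P.Y t) (UU P t x))
          (Ep 1 (kapW P.Y t) (UU P t x)) v) := by
        rw [Qp_smul_left (CE_ne_top _ _), Qp_smul_right (CE_ne_top _ _)]
    _ ≤ CE P.Y lam * (CE P.Y lam * (CQ 1 * ew 1 v)) := by gcongr; exact Qp_Ep_le 1 hκ v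
    _ = CE P.Y lam * CE P.Y lam * CQ 1 * (w1 v * We v) := by rw [ew_one]; ring
    _ ≤ _ := by
        rw [C2E_eq]
        gcongr
        exact le_self_add

theorem Lc_w1EW (hP : ParD P) (hlam : 0 < lam) (h0 : 0 ≤ T1) (h1 : T1 ≤ 1) (ht : T1 ≤ t)
    (x : P2) {f : R3 → ℝ≥0∞} (hf : ∀ z, f z ≤ w1 z * EW P lam T1 t x z) (v : R3) :
    Lc f v ≤ C2E P.Y lam * w1 v := by
  have hκ := kapW_mul_card hP (h0.trans ht) x
  calc Lc f v ≤ Lc (fun a => CE P.Y lam * Ep 1 (kapW P.Y t) (UU P t x) a) v :=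
        WA.Lc_mono (fun z => (hf z).trans (w1EW_le hP hlam h0 h1 ht x z)) v
    _ = CE P.Y lam * Lc (Ep 1 (kapW P.Y t) (UU P t x)) v := C.Lc_const_mul (CE_ne_top _ _) _ v
    _ ≤ CE P.Y lam * (ENNReal.ofReal (2 * Real.pi) * (ca (1 + 1) * KI) *
          ENNReal.ofReal (1 + ‖v‖)) := by gcongr; exact Lc_Ep_le 1 hκ v
    _ = CE P.Y lam * (ENNReal.ofReal (2 * Real.pi) * (ca (1 + 1) * KI)) * w1 v := by
        unfold w1; ring
    _ ≤ _ := by
        rw [C2E_eq]
        gcongr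
        exact le_add_self

/-- `E` is finite for almost every velocity -/
theorem ae_EW_ne_top (hP : ParD P) (hlam : 0 < lam) (h0 : 0 ≤ T1) (h1 : T1 ≤ 1) (ht : T1 ≤ t)
    (x : P2) : ∀ᵐ v, EW P lam T1 t x v ≠ ⊤ := by
  have hK := KHyp_EW hP hlam h0 h1
  have h2 := hK.mom t x ht
  have hm : Measurable (EW P lam T1 t x) :=
    (measurable_EW hP.Y lam T1).comp (f := fun v : R3 => (t, x, v)) (by fun_prop)
  have h3 : ∫⁻ v, EW P lam T1 t x v ≠ ⊤ := by
    refine ne_top_of_le_ne_top (b := (C1E P.Y lam : ℝ≥0∞)) ENNReal.coe_ne_top ?_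
    refine le_trans (lintegral_mono fun v => ?_) h2
    calc EW P lam T1 t x v = 1 * EW P lam T1 t x v := (one_mul _).symm
      _ ≤ _ := by gcongr; exact one_le_w1 v
  exact (ae_lt_top hm h3).mono fun v hv => hv.ne

end

end Crest.Agent.R68.WA
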