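import Crest.Agent.R68.WA0
import Crest.Agent.R68.WG1
import Crest.Agent.R68.WB1
import Crest.Agent.R68.CGauss

-- ▼ part R68/WA1
section

/-!
# Row 68, PART W (helper153): the a-priori theorem, part 1 (source bounds)
-/

set_option autoImplicit false
open MeasureTheory Set
open scoped ENNReal NNReal
open Crest.AnalysisR.VecCalc3 Crest.AnalysisR.PDE.Boltzmann

noncomputable section

namespace Crest.Agent.R68.WA

/-- hypotheses on the hot perturbation `gh = |H - M|` on `[T1,T]` -/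
structure PHyp (T1 T nu0 : ℝ) (a2 : ℝ≥0) (E gh Ph : ℝ → P2 → R3 → ℝ≥0∞)
    (damp : ℝ → ℝ → P2 → R3 → ℝ≥0∞) (vs : ℝ → ℝ≥0∞) : Prop where
  meas : Measurable fun p : ℝ × P2 × R3 => gh p.1 p.2.1 p.2.2
  vsm : Measurable vs
  per : ∀ t v, PerG (fun x => gh t x v)
  crude : ∀ t x v, T1 ≤ t → t ≤ T → gh t x v ≤ a2 * E t x v
  src : ∀ t x v, T1 ≤ t → t ≤ T → Ph t x v ≤
    Qp Mx (gh t x) v + Qp (gh t x) Mx v + Mx v * Lc (gh t x) v + Qp (gh t x) (gh t x) v +
      vs t * E t x v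
  damp1 : ∀ s t x v, damp s t x v ≤ 1
  damp2 : ∀ s r1 r2 t x v, E t x v ≠ ⊤ → T1 ≤ s → s ≤ r1 → r1 ≤ r2 → r2 ≤ t → t ≤ T →
    (∀ r ∈ Ioo r1 r2, Lc (gh r (x - (t - r) • bar v)) v ≤ ENNReal.ofReal (nu0 / 2 * (1 + ‖v‖))) →
    damp s t x v ≤ ENNReal.ofReal (Real.exp (-(nu0 / 2 * (1 + ‖v‖) * (r2 - r1))))
  duh : ∀ s t x v, E t x v ≠ ⊤ → T1 ≤ s → s ≤ t → t ≤ T → gh t x v ≤
    damp s t x v * gh s (x - (t - s) • bar v) v +
      ∫⁻ r in Ioo s t, damp r t x v * Ph r (x - (t - r) • bar v) v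

section src

variable {T1 T nu0 lam : ℝ} {C1 : ℝ≥0} {Cf : ℝ≥0 → ℝ≥0} {a2 : ℝ≥0}
  {E gh Ph : ℝ → P2 → R3 → ℝ≥0∞} {damp : ℝ → ℝ → P2 → R3 → ℝ≥0∞} {vs : ℝ → ℝ≥0∞} {CM : ℝ≥0}

/-- `4π` -/
def fpi : ℝ≥0 := Real.toNNReal (4 * Real.pi)

/-- constant of the crude source bound -/
def Bc (CM a2 C1 : ℝ≥0) : ℝ≥0 := 2 * (CM * a2 * C1) + fpi * CM * (a2 * C1) + a2 * a2 * C1
/-- constant of the small source bound -/
def C2c (CM a2 : ℝ≥0) : ℝ≥0 := 2 * CM + fpi * CM + a2

theorem meas_gh (hP : PHyp T1 T nu0 a2 E gh Ph damp vs) (t : ℝ) (x : P2) :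
    Measurable (gh t x) := by
  have := hP.meas
  exact this.comp (measurable_const.prodMk (measurable_const.prodMk measurable_id))

theorem Ph_le1 (hE : KHyp T1 lam C1 Cf E) (hP : PHyp T1 T nu0 a2 E gh Ph damp vs)
    (hCM : ∀ v : R3, Mx v ≤ CM * We v ∧ w1 v * Mx v ≤ CM * We v)
    {t : ℝ} (h1 : T1 ≤ t) (h2 : t ≤ T) (x : P2) (v : R3) :
    Ph t x v ≤ Bc CM a2 C1 * We v + vs t * E t x v := by
  refine (hP.src t x v h1 h2).trans (add_le_add_left ?_ _)
  have hM : ∀ z, Mx z ≤ CM * E t x z := fun z =>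
    (hCM z).1.trans (mul_le_mul' le_rfl (hE.We_le t x z h1))
  have hg : ∀ z, gh t x z ≤ a2 * E t x z := fun z => hP.crude t x z h1 h2
  have hQ : ∀ (a b : ℝ≥0), Qp (fun z => a * E t x z) (fun z => b * E t x z) v ≤
      (a * b * C1 : ℝ≥0) * We v := by
    intro a b
    rw [Qp_smul_left ENNReal.coe_ne_top, Qp_smul_right ENNReal.coe_ne_top]
    calc (a : ℝ≥0∞) * (b * Qp (E t x) (E t x) v) ≤ a * (b * (C1 * We v)) := by
          gcongr
          exact hE.gain t x v h1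
      _ = _ := by push_cast; ring
  have e1 : Qp Mx (gh t x) v ≤ (CM * a2 * C1 : ℝ≥0) * We v := (Qp_mono hM hg v).trans (hQ _ _)
  have e2 : Qp (gh t x) Mx v ≤ (CM * a2 * C1 : ℝ≥0) * We v := by
    refine (Qp_mono hg hM v).trans ((hQ _ _).trans (le_of_eq ?_))
    rw [mul_comm a2 CM]
  have e4 : Qp (gh t x) (gh t x) v ≤ (a2 * a2 * C1 : ℝ≥0) * We v := (Qp_mono hg hg v).trans (hQ _ _)
  have e3 : Mx v * Lc (gh t x) v ≤ (fpi * CM * (a2 * C1) : ℝ≥0) * We v := by
    have i1 : ∫⁻ z, w1 z * gh t x z ≤ (a2 * C1 : ℝ≥0) := by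
      calc ∫⁻ z, w1 z * gh t x z ≤ ∫⁻ z, a2 * (w1 z * E t x z) := by
            refine lintegral_mono fun z => ?_
            calc w1 z * gh t x z ≤ w1 z * (a2 * E t x z) := by gcongr; exact hg z
              _ = _ := by ring
        _ = a2 * ∫⁻ z, w1 z * E t x z := lintegral_const_mul' _ _ ENNReal.coe_ne_top
        _ ≤ a2 * C1 := by gcongr; exact hE.mom t x h1
        _ = _ := by push_cast; ring
    calc Mx v * Lc (gh t x) v ≤ Mx v * (fpi * w1 v * ∫⁻ z, w1 z * gh t x z) := by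
          gcongr; exact Lc_le _ _
      _ ≤ Mx v * (fpi * w1 v * (a2 * C1 : ℝ≥0)) := by gcongr
      _ = fpi * (w1 v * Mx v) * (a2 * C1 : ℝ≥0) := by ring
      _ ≤ fpi * (CM * We v) * (a2 * C1 : ℝ≥0) :=
          mul_le_mul' (mul_le_mul' le_rfl (hCM v).2) le_rfl
      _ = _ := by push_cast; ring
  calc _ ≤ (CM * a2 * C1 : ℝ≥0) * We v + (CM * a2 * C1 : ℝ≥0) * We v +
        (fpi * CM * (a2 * C1) : ℝ≥0) * We v + (a2 * a2 * C1 : ℝ≥0) * We v := by gcongr
    _ = _ := by unfold Bc; push_cast; ring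

theorem Ph_le2 (hE : KHyp T1 lam C1 Cf E) (hP : PHyp T1 T nu0 a2 E gh Ph damp vs)
    (hCM : ∀ v : R3, Mx v ≤ CM * We v ∧ w1 v * Mx v ≤ CM * We v) (ha2 : a2 ≠ 0)
    {ε : ℝ≥0} (hε : 0 < ε)
    {t : ℝ} (h1 : T1 ≤ t) (h2 : t ≤ T) (x : P2) (v : R3) :
    Ph t x v ≤ C2c CM a2 * (a2 * ε + Cf ε * ∫⁻ z, gh t x z) + vs t * E t x v := by
  refine (hP.src t x v h1 h2).trans (add_le_add_left ?_ _)
  have hm := meas_gh hP t x
  have hM : ∀ z, Mx z ≤ CM * E t x z := fun z =>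
    (hCM z).1.trans (mul_le_mul' le_rfl (hE.We_le t x z h1))
  have hg : ∀ z, gh t x z ≤ a2 * E t x z := fun z => hP.crude t x z h1 h2
  have ha : (a2 : ℝ≥0∞) ≠ 0 := by exact_mod_cast ha2
  have hai : (a2 : ℝ≥0∞) * (a2 : ℝ≥0∞)⁻¹ = 1 := ENNReal.mul_inv_cancel ha ENNReal.coe_ne_top
  set f' : R3 → ℝ≥0∞ := fun z => (a2 : ℝ≥0∞)⁻¹ * gh t x z with hf'
  have hf'm : Measurable f' := hm.const_mul _
  have hf'E : ∀ z, f' z ≤ E t x z := by
    intro z
    calc f' z ≤ (a2 : ℝ≥0∞)⁻¹ * (a2 * E t x z) := mul_le_mul' le_rfl (hg z)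
      _ = (a2 * (a2 : ℝ≥0∞)⁻¹) * E t x z := by ring
      _ = E t x z := by rw [hai, one_mul]
  have hff : ∀ z, gh t x z = a2 * f' z := by
    intro z
    rw [hf']
    simp only
    rw [← mul_assoc, hai, one_mul]
  have hint : ∫⁻ z, gh t x z = a2 * ∫⁻ z, f' z := by
    rw [← lintegral_const_mul' _ _ ENNReal.coe_ne_top]
    exact lintegral_congr hff
  set I : ℝ≥0∞ := a2 * ε + Cf ε * ∫⁻ z, gh t x z with hI
  have hIe : (a2 : ℝ≥0∞) * (ε + Cf ε * ∫⁻ z, f' z) = I := by rw [hI, hint]; ring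
  have s1 : Qp (E t x) (gh t x) v ≤ I := by
    rw [show gh t x = fun z => a2 * f' z from funext hff, Qp_smul_right ENNReal.coe_ne_top, ← hIe]
    gcongr
    exact hE.gsm2 ε hε t x v h1 f' hf'm hf'E
  have s2 : Qp (gh t x) (E t x) v ≤ I := by
    rw [show gh t x = fun z => a2 * f' z from funext hff, Qp_smul_left ENNReal.coe_ne_top, ← hIe]
    gcongr
    exact hE.gsm1 ε hε t x v h1 f' hf'm hf'E
  have s3 : ∫⁻ z, w1 z * gh t x z ≤ I := by
    calc ∫⁻ z, w1 z * gh t x z = ∫⁻ z, a2 * (w1 z * f' z) :=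
          lintegral_congr fun z => by rw [hff z]; ring
      _ = a2 * ∫⁻ z, w1 z * f' z := lintegral_const_mul' _ _ ENNReal.coe_ne_top
      _ ≤ a2 * (ε + Cf ε * ∫⁻ z, f' z) := by gcongr; exact hE.msm ε hε t x h1 f' hf'm hf'E
      _ = I := hIe
  have e1 : Qp Mx (gh t x) v ≤ CM * I := by
    refine (Qp_mono hM (fun z => le_rfl) v).trans ?_
    rw [Qp_smul_left ENNReal.coe_ne_top]
    gcongr
  have e2 : Qp (gh t x) Mx v ≤ CM * I := by
    refine (Qp_mono (fun z => le_rfl) hM v).trans ?_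
    rw [Qp_smul_right ENNReal.coe_ne_top]
    gcongr
  have e4 : Qp (gh t x) (gh t x) v ≤ a2 * I := by
    refine (Qp_mono hg (fun z => le_rfl) v).trans ?_
    rw [Qp_smul_left ENNReal.coe_ne_top]
    gcongr
  have e3 : Mx v * Lc (gh t x) v ≤ fpi * CM * I := by
    calc Mx v * Lc (gh t x) v ≤ Mx v * (fpi * w1 v * ∫⁻ z, w1 z * gh t x z) := by
          gcongr; exact Lc_le _ _
      _ ≤ Mx v * (fpi * w1 v * I) := by gcongr
      _ = fpi * (w1 v * Mx v) * I := by ring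
      _ ≤ fpi * (CM * We v) * I := mul_le_mul' (mul_le_mul' le_rfl (hCM v).2) le_rfl
      _ ≤ fpi * (CM * 1) * I := by gcongr; exact We_le_one v
      _ = _ := by ring
  calc _ ≤ CM * I + CM * I + fpi * CM * I + a2 * I := by gcongr
    _ = _ := by unfold C2c; push_cast; ring

end src

end Crest.Agent.R68.WA
end
end

-- ▼ part R68/WA2
section

/-!
# Row 68, PART W (helper153): the a-priori theorem, part 2 (layer, damping, time integrals)
-/

set_option autoImplicit false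
open MeasureTheory Set
open scoped ENNReal NNReal
open Crest.AnalysisR.VecCalc3 Crest.AnalysisR.PDE.Boltzmann

noncomputable section

namespace Crest.Agent.R68.WA

theorem lint_exp {ρ : ℝ} (hρ : 0 < ρ) (s t : ℝ) :
    ∫⁻ r in Ioo s t, ENNReal.ofReal (Real.exp (-(ρ * (t - r)))) ≤ ENNReal.ofReal (1 / ρ) := by
  rcases le_total t s with h | h
  · rw [Ioo_eq_empty (not_lt.2 h)]; simp
  have hd : ∀ x ∈ uIcc s t, HasDerivAt (fun r => Real.exp (-(ρ * (t - r))) / ρ)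
      (Real.exp (-(ρ * (t - x)))) x := by
    intro x _
    have h1 : HasDerivAt (fun r => -(ρ * (t - r))) ρ x := by
      have h0 : HasDerivAt (fun r : ℝ => ρ * r - ρ * t) ρ x := by
        simpa using ((hasDerivAt_id x).const_mul ρ).sub_const (ρ * t)
      have e : (fun r => -(ρ * (t - r))) = fun r : ℝ => ρ * r - ρ * t := by funext r; ring
      rw [e]; exact h0
    have h2 := (h1.exp).div_const ρ
    have e2 : Real.exp (-(ρ * (t - x))) * ρ / ρ = Real.exp (-(ρ * (t - x))) :=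
      mul_div_cancel_right₀ _ hρ.ne'
    rw [e2] at h2
    exact h2
  have hc : Continuous fun r => Real.exp (-(ρ * (t - r))) := by fun_prop
  have hi := intervalIntegral.integral_eq_sub_of_hasDerivAt hd (hc.intervalIntegrable _ _)
  have hint : IntegrableOn (fun r => Real.exp (-(ρ * (t - r)))) (Ioo s t) volume :=
    (hc.integrableOn_Icc (a := s) (b := t)).mono_set Ioo_subset_Icc_self
  rw [← ofReal_integral_eq_lintegral_ofReal hint (ae_of_all _ fun r => (Real.exp_pos _).le)]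
  refine ENNReal.ofReal_le_ofReal ?_
  rw [← integral_Ioc_eq_integral_Ioo, ← intervalIntegral.integral_of_le h, hi]
  have : 0 ≤ Real.exp (-(ρ * (t - s))) / ρ := by positivity
  simp only [sub_self, mul_zero, neg_zero, Real.exp_zero]
  linarith

theorem lint_exp_max {ρ : ℝ} (hρ : 0 < ρ) {T1 t1 t : ℝ} (h2 : t1 ≤ t) :
    ∫⁻ r in Ioo T1 t, ENNReal.ofReal (Real.exp (-(ρ * (t - max r t1)))) ≤
      ENNReal.ofReal (t1 - T1) + ENNReal.ofReal (1 / ρ) := by
  have hsub : Ioo T1 t ⊆ Ioc T1 t1 ∪ Ioo t1 t := by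
    intro r hr
    rcases le_or_gt r t1 with h | h
    · exact Or.inl ⟨hr.1, h⟩
    · exact Or.inr ⟨h, hr.2⟩
  refine (lintegral_mono_set hsub).trans ((lintegral_union_le _ _ _).trans (add_le_add ?_ ?_))
  · calc ∫⁻ r in Ioc T1 t1, ENNReal.ofReal (Real.exp (-(ρ * (t - max r t1))))
        ≤ ∫⁻ _r in Ioc T1 t1, (1 : ℝ≥0∞) := by
          refine setLIntegral_mono' measurableSet_Ioc fun r hr => ?_
          rw [← ENNReal.ofReal_one]
          refine ENNReal.ofReal_le_ofReal (Real.exp_le_one_iff.2 ?_)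
          have : max r t1 ≤ t := max_le (hr.2.trans h2) h2
          nlinarith
      _ = ENNReal.ofReal (t1 - T1) := by simp
  · calc ∫⁻ r in Ioo t1 t, ENNReal.ofReal (Real.exp (-(ρ * (t - max r t1))))
        = ∫⁻ r in Ioo t1 t, ENNReal.ofReal (Real.exp (-(ρ * (t - r)))) := by
          refine setLIntegral_congr_fun measurableSet_Ioo fun r hr => ?_
          simp only [max_eq_left hr.1.le]
      _ ≤ _ := lint_exp hρ _ _

section

variable {T1 T nu0 lam : ℝ} {C1 : ℝ≥0} {Cf : ℝ≥0 → ℝ≥0} {a2 : ℝ≥0}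
  {E gh Ph : ℝ → P2 → R3 → ℝ≥0∞} {damp : ℝ → ℝ → P2 → R3 → ℝ≥0∞} {vs : ℝ → ℝ≥0∞} {CM : ℝ≥0}

/-- the initial layer: no damping is used -/
theorem layer (hE : KHyp T1 lam C1 Cf E) (hP : PHyp T1 T nu0 a2 E gh Ph damp vs)
    (hCM : ∀ v : R3, Mx v ≤ CM * We v ∧ w1 v * Mx v ≤ CM * We v) (hlam : 0 ≤ lam)
    {A S0 : ℝ≥0} (hS : 0 < S0) (hinit : ∀ x v, gh T1 x v ≤ A * E T1 x v)
    (hvs : ∫⁻ t in Ioo T1 T, vs t ≤ S0) {ell t : ℝ} (h1 : T1 ≤ t) (h2 : t ≤ T)
    (h3 : t ≤ T1 + ell) (x : P2) (v : R3) :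
    gh t x v ≤ (ENNReal.ofReal (Real.exp (lam * ell)) * (A + S0) +
      Bc CM a2 C1 * ENNReal.ofReal ell) * E t x v := by
  set Z : ℝ≥0∞ := ENNReal.ofReal (Real.exp (lam * ell)) with hZ
  by_cases hEt : E t x v = ⊤
  · have hZ0 : Z ≠ 0 := by
      rw [hZ, Ne, ENNReal.ofReal_eq_zero, not_le]; exact Real.exp_pos _
    have hAS : ((A : ℝ≥0∞) + S0) ≠ 0 := by
      intro h
      exact hS.ne' (by exact_mod_cast (add_eq_zero.1 h).2)
    have hc : Z * (A + S0) + Bc CM a2 C1 * ENNReal.ofReal ell ≠ 0 := fun h =>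
      mul_ne_zero hZ0 hAS (add_eq_zero.1 h).1
    rw [hEt, ENNReal.mul_top hc]
    exact le_top
  have hfl : ∀ r, T1 ≤ r → r ≤ t → E r (x - (t - r) • bar v) v ≤ Z * E t x v := by
    intro r hr1 hr2
    refine (hE.flight r t x v hr1 hr2).trans (mul_le_mul' (ENNReal.ofReal_le_ofReal ?_) le_rfl)
    exact Real.exp_le_exp.2 (mul_le_mul_of_nonneg_left (by linarith) hlam)
  refine (hP.duh T1 t x v hEt le_rfl h1 h2).trans ?_
  have e1 : damp T1 t x v * gh T1 (x - (t - T1) • bar v) v ≤ Z * A * E t x v := by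
    calc damp T1 t x v * gh T1 (x - (t - T1) • bar v) v
        ≤ 1 * (A * E T1 (x - (t - T1) • bar v) v) :=
          mul_le_mul' (hP.damp1 _ _ _ _) (hinit _ _)
      _ ≤ 1 * (A * (Z * E t x v)) :=
          mul_le_mul' le_rfl (mul_le_mul' le_rfl (hfl T1 le_rfl h1))
      _ = _ := by ring
  have e2 : ∫⁻ r in Ioo T1 t, damp r t x v * Ph r (x - (t - r) • bar v) v ≤
      Bc CM a2 C1 * ENNReal.ofReal ell * E t x v + Z * S0 * E t x v := by
    calc ∫⁻ r in Ioo T1 t, damp r t x v * Ph r (x - (t - r) • bar v) v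
        ≤ ∫⁻ r in Ioo T1 t, (Bc CM a2 C1 * E t x v + vs r * (Z * E t x v)) := by
          refine setLIntegral_mono' measurableSet_Ioo fun r hr => ?_
          calc damp r t x v * Ph r (x - (t - r) • bar v) v
              ≤ 1 * (Bc CM a2 C1 * We v + vs r * E r (x - (t - r) • bar v) v) :=
                mul_le_mul' (hP.damp1 _ _ _ _)
                  (Ph_le1 hE hP hCM hr.1.le (hr.2.le.trans h2) _ _)
            _ ≤ Bc CM a2 C1 * E t x v + vs r * (Z * E t x v) := by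
                rw [one_mul]
                exact add_le_add (mul_le_mul' le_rfl (hE.We_le t x v h1))
                  (mul_le_mul' le_rfl (hfl r hr.1.le hr.2.le))
      _ = Bc CM a2 C1 * E t x v * ENNReal.ofReal (t - T1) +
          (∫⁻ r in Ioo T1 t, vs r) * (Z * E t x v) := by
          rw [lintegral_add_left measurable_const, lintegral_mul_const _ hP.vsm]
          simp
      _ ≤ Bc CM a2 C1 * E t x v * ENNReal.ofReal ell + S0 * (Z * E t x v) := by
          refine add_le_add (mul_le_mul' le_rfl (ENNReal.ofReal_le_ofReal (by linarith)))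
            (mul_le_mul' ((lintegral_mono_set (Ioo_subset_Ioo_right h2)).trans hvs) le_rfl)
      _ = _ := by ring
  refine (add_le_add e1 e2).trans (le_of_eq (by ring))

/-- small density gives a damping rate -/
theorem Lc_small {del : ℝ≥0} (hdel : (fpi : ℝ≥0∞) * del ≤ ENNReal.ofReal (nu0 / 2)) (hnu : 0 < nu0)
    {g : R3 → ℝ≥0∞} (hg : ∫⁻ z, w1 z * g z ≤ del) (v : R3) :
    Lc g v ≤ ENNReal.ofReal (nu0 / 2 * (1 + ‖v‖)) := by
  calc Lc g v ≤ fpi * w1 v * ∫⁻ z, w1 z * g z := Lc_le g v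
    _ ≤ fpi * w1 v * del := mul_le_mul' le_rfl hg
    _ = (fpi * del) * w1 v := by ring
    _ ≤ ENNReal.ofReal (nu0 / 2) * w1 v := mul_le_mul' hdel le_rfl
    _ = _ := by unfold w1; rw [← ENNReal.ofReal_mul (by positivity)]

/-- damping up to one unit of time after the verified range -/
theorem damp_step (hP : PHyp T1 T nu0 a2 E gh Ph damp vs) (hnu : 0 < nu0) {del : ℝ≥0}
    (hdel : (fpi : ℝ≥0∞) * del ≤ ENNReal.ofReal (nu0 / 2)) {t1 ts t : ℝ}
    (hts : t1 ≤ ts) (htt : ts ≤ t) (htt' : t ≤ ts + 1) (htT : t ≤ T)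
    (hN : ∀ s y, t1 ≤ s → s < ts → ∫⁻ z, w1 z * gh s y z ≤ del)
    {s : ℝ} (hs : T1 ≤ s) (x : P2) (v : R3) (hEt : E t x v ≠ ⊤) :
    damp s t x v ≤ ENNReal.ofReal (Real.exp (nu0 / 2)) *
      ENNReal.ofReal (Real.exp (-(nu0 / 2 * (t - max s t1)))) := by
  rw [← ENNReal.ofReal_mul (Real.exp_pos _).le, ← Real.exp_add]
  rcases le_total ts s with h | h
  · refine (hP.damp1 _ _ _ _).trans ?_
    rw [← ENNReal.ofReal_one]
    refine ENNReal.ofReal_le_ofReal (Real.one_le_exp ?_)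
    have h5 : max s t1 = s := max_eq_left (hts.trans h)
    rw [h5]
    nlinarith
  · have hm1 : s ≤ max s t1 := le_max_left _ _
    have hm2 : max s t1 ≤ ts := max_le h hts
    refine (hP.damp2 s (max s t1) ts t x v hEt hs hm1 hm2 htt htT ?_).trans ?_
    · intro r hr
      refine Lc_small hdel hnu (hN r _ ((le_max_right _ _).trans hr.1.le) hr.2) v
    · refine ENNReal.ofReal_le_ofReal (Real.exp_le_exp.2 ?_)
      have h6 : 0 ≤ ‖v‖ := norm_nonneg v
      have h7 : 0 ≤ ts - max s t1 := by linarith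
      have h8 : nu0 / 2 * (ts - max s t1) ≤ nu0 / 2 * (1 + ‖v‖) * (ts - max s t1) := by
        have : nu0 / 2 ≤ nu0 / 2 * (1 + ‖v‖) := by nlinarith
        exact mul_le_mul_of_nonneg_right this h7
      nlinarith

end

end Crest.Agent.R68.WA
end
end

-- ▼ part R68/WA3
section

/-!
# Row 68, PART W (helper153): the a-priori theorem, part 3 (bound of the density)
-/

set_option autoImplicit false
open MeasureTheory Set
open scoped ENNReal NNReal
open Crest.AnalysisR.VecCalc3 Crest.AnalysisR.PDE.Boltzmann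

noncomputable section

namespace Crest.Agent.R68.WA

/-- the tail of `(1+|v|)e^{-|v|}` -/
def tail (R : ℝ≥0) : ℝ≥0∞ := ∫⁻ v in {v : R3 | ‖v‖ ≤ R}ᶜ, w1 v * We v
/-- volume of the ball -/
def vol (R : ℝ≥0) : ℝ≥0∞ := volume {v : R3 | ‖v‖ ≤ R}
/-- source constant away from the diagonal -/
def J2c (CM a2 C1 : ℝ≥0) (Cfe C8R : ℝ≥0) (ε κ R e0 : ℝ≥0) : ℝ≥0∞ :=
  Bc CM a2 C1 * tail R + (1 + R : ℝ≥0) * C2c CM a2 *
    (a2 * ε * vol R + Cfe * (C8R * (1 + ENNReal.ofReal (1 / (κ : ℝ) ^ 2)) * e0))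

theorem measurable_bar : Measurable bar := by
  unfold bar
  fun_prop

section

variable {T1 T nu0 lam : ℝ} {C1 : ℝ≥0} {Cf C8 : ℝ≥0 → ℝ≥0} {a2 : ℝ≥0}
  {E gh Ph : ℝ → P2 → R3 → ℝ≥0∞} {damp : ℝ → ℝ → P2 → R3 → ℝ≥0∞} {vs : ℝ → ℝ≥0∞} {CM : ℝ≥0}

theorem meas_nn (hP : PHyp T1 T nu0 a2 E gh Ph damp vs) :
    Measurable fun p : ℝ × P2 => ∫⁻ z, gh p.1 p.2 z := by
  have h : Measurable fun q : (ℝ × P2) × R3 => gh q.1.1 q.1.2 q.2 :=
    hP.meas.comp ((measurable_fst.comp measurable_fst).prodMk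
      ((measurable_snd.comp measurable_fst).prodMk measurable_snd))
  exact h.lintegral_prod_right'

theorem per_nn (hP : PHyp T1 T nu0 a2 E gh Ph damp vs) (r : ℝ) :
    PerG fun y => ∫⁻ z, gh r y z := by
  intro y k
  exact lintegral_congr fun z => hP.per r z y k

/-- the velocity integral of the source bound at distance `≥ κ` in time -/
theorem J_far (hP : PHyp T1 T nu0 a2 E gh Ph damp vs) (htr : Trans C8)
    {e0 : ℝ≥0} (hL1 : ∀ s, T1 ≤ s → s ≤ T → ∫⁻ y in cellG, ∫⁻ z, gh s y z ≤ e0)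
    (ε κ R : ℝ≥0) (hκ : 0 < κ) {r t : ℝ} (h1 : T1 ≤ r) (h2 : r + κ ≤ t) (h3 : t ≤ T) (x : P2) :
    ∫⁻ v, w1 v * min (Bc CM a2 C1 * We v)
      (C2c CM a2 * (a2 * ε + Cf ε * ∫⁻ z, gh r (x - (t - r) • bar v) z)) ≤
      J2c CM a2 C1 (Cf ε) (C8 R) ε κ R e0 := by
  have hκ' : (0 : ℝ) < κ := hκ
  have hset : MeasurableSet {v : R3 | ‖v‖ ≤ R} := measurableSet_le measurable_norm measurable_const
  rw [← lintegral_add_compl _ hset, add_comm]
  unfold J2c
  refine add_le_add ?_ ?_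
  · unfold tail
    calc ∫⁻ v in {v : R3 | ‖v‖ ≤ R}ᶜ, w1 v * min (Bc CM a2 C1 * We v)
          (C2c CM a2 * (a2 * ε + Cf ε * ∫⁻ z, gh r (x - (t - r) • bar v) z))
        ≤ ∫⁻ v in {v : R3 | ‖v‖ ≤ R}ᶜ, Bc CM a2 C1 * (w1 v * We v) := by
          refine lintegral_mono fun v => ?_
          calc _ ≤ w1 v * (Bc CM a2 C1 * We v) := mul_le_mul' le_rfl (min_le_left _ _)
            _ = _ := by ring
      _ = _ := lintegral_const_mul' _ _ ENNReal.coe_ne_top
  · have hn : Measurable fun y : P2 => ∫⁻ z, gh r y z :=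
      (meas_nn hP).comp (measurable_const.prodMk measurable_id)
    have htau : 0 < t - r := by linarith
    have i1 := htr R (t - r) htau (fun y => ∫⁻ z, gh r y z) hn (per_nn hP r) x
    have i2 : ∫⁻ v in {v : R3 | ‖v‖ ≤ R}, (∫⁻ z, gh r (x - (t - r) • bar v) z) ≤
        C8 R * (1 + ENNReal.ofReal (1 / (κ : ℝ) ^ 2)) * e0 := by
      refine i1.trans (mul_le_mul' (mul_le_mul' le_rfl (add_le_add le_rfl ?_))
        (hL1 r h1 (by linarith)))
      refine ENNReal.ofReal_le_ofReal ?_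
      apply one_div_le_one_div_of_le (by positivity)
      have : (κ : ℝ) ≤ t - r := by linarith
      exact pow_le_pow_left₀ hκ'.le this 2
    calc ∫⁻ v in {v : R3 | ‖v‖ ≤ R}, w1 v * min (Bc CM a2 C1 * We v)
          (C2c CM a2 * (a2 * ε + Cf ε * ∫⁻ z, gh r (x - (t - r) • bar v) z))
        ≤ ∫⁻ v in {v : R3 | ‖v‖ ≤ R}, ((1 + R : ℝ≥0) * C2c CM a2 : ℝ≥0) *
            (a2 * ε + Cf ε * ∫⁻ z, gh r (x - (t - r) • bar v) z) := by
          refine setLIntegral_mono' hset fun v hv => ?_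
          have hw : w1 v ≤ ((1 + R : ℝ≥0) : ℝ≥0∞) := by
            unfold w1
            rw [← ENNReal.ofReal_coe_nnreal]
            refine ENNReal.ofReal_le_ofReal ?_
            push_cast
            have : ‖v‖ ≤ R := hv
            linarith
          calc _ ≤ ((1 + R : ℝ≥0) : ℝ≥0∞) * (C2c CM a2 * (a2 * ε + Cf ε *
                ∫⁻ z, gh r (x - (t - r) • bar v) z)) := mul_le_mul' hw (min_le_right _ _)
            _ = _ := by push_cast; ring
      _ = ((1 + R : ℝ≥0) * C2c CM a2 : ℝ≥0) * (a2 * ε * vol R + Cf ε *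
            ∫⁻ v in {v : R3 | ‖v‖ ≤ R}, ∫⁻ z, gh r (x - (t - r) • bar v) z) := by
          have e1 : ∫⁻ v in {v : R3 | ‖v‖ ≤ R}, (Cf ε : ℝ≥0∞) *
              ∫⁻ z, gh r (x - (t - r) • bar v) z = Cf ε *
              ∫⁻ v in {v : R3 | ‖v‖ ≤ R}, ∫⁻ z, gh r (x - (t - r) • bar v) z :=
            lintegral_const_mul' _ _ ENNReal.coe_ne_top
          have e2 : ∫⁻ _v in {v : R3 | ‖v‖ ≤ R}, ((a2 : ℝ≥0∞) * ε) = a2 * ε * vol R := by
            rw [lintegral_const, Measure.restrict_apply MeasurableSet.univ, univ_inter]; rfl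
          rw [lintegral_const_mul' _ _ ENNReal.coe_ne_top, lintegral_add_left measurable_const,
            e1, e2]
      _ ≤ _ := by
          push_cast
          gcongr

/-- the velocity integral of the source bound, crude -/
theorem J_near (hE : KHyp T1 lam C1 Cf E) {t : ℝ} (h1 : T1 ≤ t) (x : P2) (f : R3 → ℝ≥0∞) :
    ∫⁻ v, w1 v * min (Bc CM a2 C1 * We v) (f v) ≤ Bc CM a2 C1 * C1 := by
  calc ∫⁻ v, w1 v * min (Bc CM a2 C1 * We v) (f v)
      ≤ ∫⁻ v, Bc CM a2 C1 * (w1 v * E t x v) := by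
        refine lintegral_mono fun v => ?_
        calc _ ≤ w1 v * (Bc CM a2 C1 * E t x v) :=
              mul_le_mul' le_rfl ((min_le_left _ _).trans (mul_le_mul' le_rfl (hE.We_le t x v h1)))
          _ = _ := by ring
    _ = Bc CM a2 C1 * ∫⁻ v, w1 v * E t x v := lintegral_const_mul' _ _ ENNReal.coe_ne_top
    _ ≤ _ := mul_le_mul' le_rfl (hE.mom t x h1)

theorem swap_aux {g : R3 → ℝ≥0∞} (hg : Measurable g) {a b : ℝ → ℝ≥0∞} (ha : Measurable a)
    (hb : Measurable b) {P : ℝ → R3 → ℝ≥0∞} (hP : Measurable fun p : ℝ × R3 => P p.1 p.2)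
    {e : R3 → ℝ≥0∞} (he : Measurable e) (s : Set ℝ) {c : ℝ≥0∞} (hc : ∫⁻ v, w1 v * e v ≤ c) :
    ∫⁻ v, w1 v * (g v + ∫⁻ r in s, a r * (P r v + b r * e v)) ≤
      (∫⁻ v, w1 v * g v) + ∫⁻ r in s, a r * ((∫⁻ v, w1 v * P r v) + b r * c) := by
  have hw := measurable_w1
  have hm : Measurable fun p : R3 × ℝ => w1 p.1 * (a p.2 * (P p.2 p.1 + b p.2 * e p.1)) := by
    have hP' : Measurable fun p : R3 × ℝ => P p.2 p.1 := hP.comp measurable_swap
    have ha' : Measurable fun p : R3 × ℝ => a p.2 := ha.comp measurable_snd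
    have hb' : Measurable fun p : R3 × ℝ => b p.2 := hb.comp measurable_snd
    have he' : Measurable fun p : R3 × ℝ => e p.1 := he.comp measurable_fst
    have hw' : Measurable fun p : R3 × ℝ => w1 p.1 := hw.comp measurable_fst
    exact hw'.mul (ha'.mul (hP'.add (hb'.mul he')))
  calc ∫⁻ v, w1 v * (g v + ∫⁻ r in s, a r * (P r v + b r * e v))
      = ∫⁻ v, (w1 v * g v + ∫⁻ r in s, w1 v * (a r * (P r v + b r * e v))) := by
        refine lintegral_congr fun v => ?_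
        rw [mul_add, ← lintegral_const_mul' _ _ (w1_ne_top v)]
    _ = (∫⁻ v, w1 v * g v) + ∫⁻ v, ∫⁻ r in s, w1 v * (a r * (P r v + b r * e v)) := by
        have hwg : Measurable fun v => w1 v * g v := hw.mul hg
        rw [lintegral_add_left hwg]
    _ = (∫⁻ v, w1 v * g v) + ∫⁻ r in s, ∫⁻ v, w1 v * (a r * (P r v + b r * e v)) := by
        rw [lintegral_lintegral_swap hm.aemeasurable]
    _ ≤ _ := by
        refine add_le_add le_rfl (lintegral_mono fun r => ?_)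
        have hPr : Measurable (P r) := hP.comp (measurable_const.prodMk measurable_id)
        calc ∫⁻ v, w1 v * (a r * (P r v + b r * e v))
            = ∫⁻ v, a r * (w1 v * P r v + b r * (w1 v * e v)) :=
              lintegral_congr fun v => by ring
          _ = a r * ((∫⁻ v, w1 v * P r v) + b r * ∫⁻ v, w1 v * e v) := by
              have h1 : Measurable fun v => w1 v * P r v := hw.mul hPr
              have h2 : Measurable fun v => w1 v * e v := hw.mul he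
              have h3 : Measurable fun v => w1 v * P r v + b r * (w1 v * e v) :=
                h1.add (h2.const_mul _)
              rw [lintegral_const_mul _ h3, lintegral_add_left h1, lintegral_const_mul _ h2]
          _ ≤ a r * ((∫⁻ v, w1 v * P r v) + b r * c) := by gcongr

theorem N_bound (hE : KHyp T1 lam C1 Cf E) (hP : PHyp T1 T nu0 a2 E gh Ph damp vs)
    (hCM : ∀ v : R3, Mx v ≤ CM * We v ∧ w1 v * Mx v ≤ CM * We v) (ha2 : a2 ≠ 0)
    (hlam : 0 ≤ lam) (hnu : 0 < nu0) (hln : lam ≤ nu0 / 2) (htr : Trans C8)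
    {del e0 d0 S0 : ℝ≥0} (hdel : (fpi : ℝ≥0∞) * del ≤ ENNReal.ofReal (nu0 / 2))
    (hL1 : ∀ s, T1 ≤ s → s ≤ T → ∫⁻ y in cellG, ∫⁻ z, gh s y z ≤ e0)
    (hvs : ∫⁻ t in Ioo T1 T, vs t ≤ S0)
    {t1 ts t : ℝ} (ht1 : T1 ≤ t1) (hts : t1 ≤ ts) (htt : ts ≤ t) (htt' : t ≤ ts + 1) (htT : t ≤ T)
    (hN : ∀ s y, t1 ≤ s → s < ts → ∫⁻ z, w1 z * gh s y z ≤ del) (x : P2)
    (hi : ENNReal.ofReal (Real.exp (-(nu0 / 2 * (t - t1)))) *
      ∫⁻ v, w1 v * gh T1 (x - (t - T1) • bar v) v ≤ d0)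
    (ε κ R : ℝ≥0) (hε : 0 < ε) (hκ : 0 < κ) :
    ∫⁻ v, w1 v * gh t x v ≤ ENNReal.ofReal (Real.exp (nu0 / 2)) * d0 +
      ENNReal.ofReal (Real.exp (nu0 / 2)) *
      (Bc CM a2 C1 * C1 * κ + J2c CM a2 C1 (Cf ε) (C8 R) ε κ R e0 *
        (ENNReal.ofReal (t1 - T1) + ENNReal.ofReal (1 / (nu0 / 2))) +
        ENNReal.ofReal (Real.exp (lam * (t1 - T1))) * C1 * S0) := by
  have h1 : T1 ≤ t := ht1.trans (hts.trans htt)
  have hκ' : (0 : ℝ) < κ := hκ
  set K0 : ℝ≥0∞ := ENNReal.ofReal (Real.exp (nu0 / 2)) with hK0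
  set G : ℝ → ℝ≥0∞ := fun r => ENNReal.ofReal (Real.exp (-(nu0 / 2 * (t - max r t1)))) with hG
  set Pb : ℝ → R3 → ℝ≥0∞ := fun r v => min (Bc CM a2 C1 * We v)
      (C2c CM a2 * (a2 * ε + Cf ε * ∫⁻ z, gh r (x - (t - r) • bar v) z)) with hPb
  set Lr : ℝ → ℝ≥0∞ := fun r => ENNReal.ofReal (Real.exp (lam * (t - r))) with hLr
  set J2 := J2c CM a2 C1 (Cf ε) (C8 R) ε κ R e0 with hJ2
  have hK0t : K0 ≠ ⊤ := ENNReal.ofReal_ne_top
  -- measurability
  have hnm := meas_nn hP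
  have hGm : Measurable G := by rw [hG]; fun_prop
  have hLrm : Measurable Lr := by rw [hLr]; fun_prop
  have hbm : Measurable fun p : ℝ × R3 => ((p.1, x - (t - p.1) • bar p.2) : ℝ × P2) := by
    have := measurable_bar
    fun_prop
  have hPbm : Measurable fun p : ℝ × R3 => Pb p.1 p.2 := by
    rw [hPb]
    refine Measurable.min ((measurable_We.comp measurable_snd).const_mul _) ?_
    exact ((((hnm.comp hbm).const_mul _).const_add _).const_mul _)
  -- step 1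
  set e1t : ℝ≥0∞ := ENNReal.ofReal (Real.exp (-(nu0 / 2 * (t - t1)))) with he1t
  have he1tt : e1t ≠ ⊤ := ENNReal.ofReal_ne_top
  have s1 : ∀ v, E t x v ≠ ⊤ → gh t x v ≤ K0 * e1t * gh T1 (x - (t - T1) • bar v) v +
      ∫⁻ r in Ioo T1 t, K0 * G r * (Pb r v + vs r * (Lr r * E t x v)) := by
    intro v hEt
    refine (hP.duh T1 t x v hEt le_rfl h1 htT).trans (add_le_add ?_ ?_)
    · refine mul_le_mul' ?_ le_rfl
      have := damp_step hP hnu hdel hts htt htt' htT hN le_rfl x v hEt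
      rwa [max_eq_right ht1] at this
    · refine setLIntegral_mono' measurableSet_Ioo fun r hr => mul_le_mul' ?_ ?_
      · exact damp_step hP hnu hdel hts htt htt' htT hN hr.1.le x v hEt
      · have hrT : r ≤ T := hr.2.le.trans htT
        have e1 := Ph_le1 hE hP hCM hr.1.le hrT (x - (t - r) • bar v) v
        have e2 := Ph_le2 hE hP hCM ha2 hε hr.1.le hrT (x - (t - r) • bar v) v
        have e3 : vs r * E r (x - (t - r) • bar v) v ≤ vs r * (Lr r * E t x v) :=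
          mul_le_mul' le_rfl (hE.flight r t x v hr.1.le hr.2.le)
        have e1' := e1.trans (add_le_add le_rfl e3)
        have e2' := e2.trans (add_le_add le_rfl e3)
        rcases min_cases (Bc CM a2 C1 * We v)
          (C2c CM a2 * (a2 * ε + Cf ε * ∫⁻ z, gh r (x - (t - r) • bar v) z)) with h | h
        · rw [hPb]; simp only; rw [h.1]; exact e1'
        · rw [hPb]; simp only; rw [h.1]; exact e2'
  -- step 2
  have hEm : Measurable (E t x) :=
    hE.meas.comp (measurable_const.prodMk (measurable_const.prodMk measurable_id))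
  have hfin : ∀ᵐ v, E t x v ≠ ⊤ := by
    have hm : Measurable fun v => w1 v * E t x v := measurable_w1.mul hEm
    have := ae_lt_top hm (ne_top_of_le_ne_top ENNReal.coe_ne_top (hE.mom t x h1))
    filter_upwards [this] with v hv h
    rw [h, ENNReal.mul_top] at hv
    · exact hv.ne rfl
    · exact (lt_of_lt_of_le one_pos (one_le_w1 v)).ne'
  have s2 : ∫⁻ v, w1 v * gh t x v ≤ K0 * d0 +
      ∫⁻ r in Ioo T1 t, K0 * G r * ((∫⁻ v, w1 v * Pb r v) + vs r * (Lr r * C1)) := by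
    have hinit_meas0 : Measurable fun v : R3 => gh T1 (x - (t - T1) • bar v) v := by
      have h5 : Measurable fun v : R3 => ((T1, x - (t - T1) • bar v, v) : ℝ × P2 × R3) := by
        have := measurable_bar
        fun_prop
      exact hP.meas.comp h5
    have hinit_meas : Measurable fun v : R3 => K0 * e1t * gh T1 (x - (t - T1) • bar v) v :=
      hinit_meas0.const_mul _
    have hi' : ∫⁻ v, w1 v * (K0 * e1t * gh T1 (x - (t - T1) • bar v) v) ≤ K0 * d0 := by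
      calc ∫⁻ v, w1 v * (K0 * e1t * gh T1 (x - (t - T1) • bar v) v)
          = K0 * (e1t * ∫⁻ v, w1 v * gh T1 (x - (t - T1) • bar v) v) := by
            rw [← mul_assoc, ← lintegral_const_mul' _ _ (ENNReal.mul_ne_top hK0t he1tt)]
            exact lintegral_congr fun v => by ring
        _ ≤ _ := by gcongr
    calc ∫⁻ v, w1 v * gh t x v
        ≤ ∫⁻ v, w1 v * (K0 * e1t * gh T1 (x - (t - T1) • bar v) v +
            ∫⁻ r in Ioo T1 t, K0 * G r * (Pb r v + (vs r * Lr r) * E t x v)) := by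
          refine lintegral_mono_ae ?_
          filter_upwards [hfin] with v hv
          refine mul_le_mul' le_rfl ((s1 v hv).trans (le_of_eq ?_))
          congr 1
          exact lintegral_congr fun r => by ring
      _ ≤ _ := swap_aux hinit_meas (hGm.const_mul K0) (hP.vsm.mul hLrm) hPbm hEm (Ioo T1 t)
            (hE.mom t x h1)
      _ ≤ K0 * d0 + ∫⁻ r in Ioo T1 t, K0 * G r * ((∫⁻ v, w1 v * Pb r v) + vs r * (Lr r * C1)) := by
          refine add_le_add hi' (le_of_eq (lintegral_congr fun r => ?_))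
          simp only [Pi.mul_apply]
          ring
  -- step 3
  refine s2.trans (add_le_add le_rfl ?_)
  have s3 : ∀ r ∈ Ioo T1 t, K0 * G r * ((∫⁻ v, w1 v * Pb r v) + vs r * (Lr r * C1)) ≤
      K0 * ((Bc CM a2 C1 * C1) * (Ioo (t - κ) t).indicator (fun _ => (1 : ℝ≥0∞)) r + J2 * G r +
        ENNReal.ofReal (Real.exp (lam * (t1 - T1))) * C1 * vs r) := by
    intro r hr
    have g1 : G r ≤ 1 := by
      rw [hG, ← ENNReal.ofReal_one]
      refine ENNReal.ofReal_le_ofReal (Real.exp_le_one_iff.2 ?_)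
      have : max r t1 ≤ t := max_le hr.2.le (hts.trans htt)
      have : 0 ≤ nu0 / 2 * (t - max r t1) := mul_nonneg (by linarith) (by linarith)
      linarith
    have g2 : G r * Lr r ≤ ENNReal.ofReal (Real.exp (lam * (t1 - T1))) := by
      rw [hG, hLr]
      simp only
      rw [← ENNReal.ofReal_mul (Real.exp_pos _).le, ← Real.exp_add]
      refine ENNReal.ofReal_le_ofReal (Real.exp_le_exp.2 ?_)
      rcases le_total t1 r with h | h
      · rw [max_eq_left h]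
        have a1 : lam * (t - r) ≤ nu0 / 2 * (t - r) :=
          mul_le_mul_of_nonneg_right hln (by linarith [hr.2])
        have a2 : 0 ≤ lam * (t1 - T1) := mul_nonneg hlam (by linarith)
        linarith
      · rw [max_eq_right h]
        have a1 : lam * (t - t1) ≤ nu0 / 2 * (t - t1) :=
          mul_le_mul_of_nonneg_right hln (by linarith)
        have a3 : lam * (t1 - r) ≤ lam * (t1 - T1) :=
          mul_le_mul_of_nonneg_left (by linarith [hr.1]) hlam
        have a4 : lam * (t - r) = lam * (t - t1) + lam * (t1 - r) := by ring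
        linarith
    have j : ∫⁻ v, w1 v * Pb r v ≤
        (Bc CM a2 C1 * C1) * (Ioo (t - κ) t).indicator (fun _ => (1 : ℝ≥0∞)) r + J2 := by
      rcases lt_or_ge (t - κ) r with h | h
      · rw [indicator_of_mem (show r ∈ Ioo (t - (κ : ℝ)) t from ⟨h, hr.2⟩), mul_one]
        exact (J_near hE h1 x _).trans le_self_add
      · exact (J_far hP htr hL1 ε κ R hκ hr.1.le (by linarith) htT x).trans le_add_self
    calc K0 * G r * ((∫⁻ v, w1 v * Pb r v) + vs r * (Lr r * C1))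
        ≤ K0 * G r * (((Bc CM a2 C1 * C1) * (Ioo (t - κ) t).indicator (fun _ => (1 : ℝ≥0∞)) r + J2)
            + vs r * (Lr r * C1)) := by gcongr
      _ = K0 * ((Bc CM a2 C1 * C1) * (Ioo (t - κ) t).indicator (fun _ => (1 : ℝ≥0∞)) r * G r
            + J2 * G r + (G r * Lr r) * C1 * vs r) := by ring
      _ ≤ K0 * ((Bc CM a2 C1 * C1) * (Ioo (t - κ) t).indicator (fun _ => (1 : ℝ≥0∞)) r * 1
            + J2 * G r + (ENNReal.ofReal (Real.exp (lam * (t1 - T1)))) * C1 * vs r) := by gcongr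
      _ = _ := by rw [mul_one]
  refine (setLIntegral_mono' measurableSet_Ioo s3).trans ?_
  have hind : Measurable ((Ioo (t - (κ : ℝ)) t).indicator (fun _ => (1 : ℝ≥0∞))) :=
    measurable_const.indicator measurableSet_Ioo
  have m1 : Measurable fun r : ℝ => (Bc CM a2 C1 * C1 : ℝ≥0∞) *
      (Ioo (t - (κ : ℝ)) t).indicator (fun _ => (1 : ℝ≥0∞)) r := hind.const_mul _
  have m2 : Measurable fun r : ℝ => (Bc CM a2 C1 * C1 : ℝ≥0∞) *
      (Ioo (t - (κ : ℝ)) t).indicator (fun _ => (1 : ℝ≥0∞)) r + J2 * G r :=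
    m1.add (hGm.const_mul _)
  rw [lintegral_const_mul' _ _ hK0t, lintegral_add_left m2,
    lintegral_add_left m1, lintegral_const_mul _ hind, lintegral_const_mul _ hGm,
    lintegral_const_mul _ hP.vsm]
  have f1 : ∫⁻ r in Ioo T1 t, (Ioo (t - (κ : ℝ)) t).indicator (fun _ => (1 : ℝ≥0∞)) r ≤ κ := by
    calc ∫⁻ r in Ioo T1 t, (Ioo (t - (κ : ℝ)) t).indicator (fun _ => (1 : ℝ≥0∞)) r
        ≤ ∫⁻ r, (Ioo (t - (κ : ℝ)) t).indicator (fun _ => (1 : ℝ≥0∞)) r := setLIntegral_le_lintegral _ _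
      _ = κ := by
          rw [lintegral_indicator measurableSet_Ioo]
          simp
  have f2 : ∫⁻ r in Ioo T1 t, G r ≤ ENNReal.ofReal (t1 - T1) + ENNReal.ofReal (1 / (nu0 / 2)) :=
    lint_exp_max (by linarith) (hts.trans htt)
  have f3 : ∫⁻ r in Ioo T1 t, vs r ≤ S0 :=
    (lintegral_mono_set (Ioo_subset_Ioo_right htT)).trans hvs
  gcongr

end

end Crest.Agent.R68.WA
end
end

-- ▼ part R68/WA4
section

/-!
# Row 68, PART W (helper153): the a-priori theorem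
-/

set_option autoImplicit false
open MeasureTheory Set
open scoped ENNReal NNReal
open Crest.AnalysisR.VecCalc3 Crest.AnalysisR.PDE.Boltzmann

noncomputable section

namespace Crest.Agent.R68.WA

theorem exists_small {c : ℝ≥0∞} (hc : c ≠ ⊤) {d : ℝ≥0∞} (hd : d ≠ 0) :
    ∃ ε : ℝ≥0, 0 < ε ∧ ε ≤ 1 ∧ ∀ ε' : ℝ≥0, ε' ≤ ε → c * ε' ≤ d := by
  rcases eq_or_ne d ⊤ with rfl | hdt
  · exact ⟨1, one_pos, le_rfl, fun _ _ => le_top⟩
  lift c to ℝ≥0 using hc
  lift d to ℝ≥0 using hdt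
  have hd' : 0 < d := by
    rw [pos_iff_ne_zero]
    exact_mod_cast hd
  refine ⟨min 1 (d / (c + 1)), lt_min one_pos (by positivity), min_le_left _ _, fun ε' h => ?_⟩
  have h2 : ε' ≤ d / (c + 1) := h.trans (min_le_right _ _)
  have : c * ε' ≤ d := by
    calc c * ε' ≤ (c + 1) * (d / (c + 1)) := mul_le_mul' (le_add_of_nonneg_right zero_le_one) h2
      _ = d := by field_simp
  exact_mod_cast this

section

variable {T1 T nu0 lam : ℝ} {C1 : ℝ≥0} {Cf C8 : ℝ≥0 → ℝ≥0} {a2 : ℝ≥0}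
  {E gh Ph : ℝ → P2 → R3 → ℝ≥0∞} {damp : ℝ → ℝ → P2 → R3 → ℝ≥0∞} {vs : ℝ → ℝ≥0∞} {CM : ℝ≥0}

theorem tail_le (hE : KHyp T1 lam C1 Cf E) {η : ℝ≥0} (hη : 0 < η) {R : ℝ≥0}
    (hR : 2 * Cf (η / 2) * C1 ≤ η * R) (hR0 : 0 < R) : tail R ≤ η := by
  have hset : MeasurableSet {v : R3 | ‖v‖ ≤ R} := measurableSet_le measurable_norm measurable_const
  set f : R3 → ℝ≥0∞ := ({v : R3 | ‖v‖ ≤ R}ᶜ).indicator We with hf
  have hfm : Measurable f := measurable_We.indicator hset.compl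
  have hfE : ∀ z, f z ≤ E T1 (0, 0) z := fun z =>
    (indicator_le_self' (fun _ _ => zero_le) z).trans (hE.We_le T1 (0, 0) z le_rfl)
  have h1 : tail R = ∫⁻ z, w1 z * f z := by
    unfold tail
    rw [← lintegral_indicator hset.compl]
    refine lintegral_congr fun z => ?_
    rw [hf]
    by_cases hz : z ∈ ({v : R3 | ‖v‖ ≤ R}ᶜ : Set R3)
    · simp [indicator_of_mem hz]
    · simp [indicator_of_notMem hz]
  have h2 := hE.msm (η / 2) (by positivity) T1 (0, 0) le_rfl f hfm hfE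
  have hRe : (R : ℝ≥0∞) ≠ 0 := by exact_mod_cast hR0.ne'
  have h3 : (R : ℝ≥0∞) * ∫⁻ z, f z ≤ C1 := by
    rw [← lintegral_const_mul _ hfm]
    refine (lintegral_mono fun z => ?_).trans (hE.mom T1 (0, 0) le_rfl)
    by_cases hz : z ∈ ({v : R3 | ‖v‖ ≤ R}ᶜ : Set R3)
    · have hz' : (R : ℝ) < ‖z‖ := not_le.1 hz
      have : (R : ℝ≥0∞) ≤ w1 z := by
        unfold w1
        rw [← ENNReal.ofReal_coe_nnreal]
        exact ENNReal.ofReal_le_ofReal (by linarith)
      exact mul_le_mul' this (hfE z)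
    · have : f z = 0 := indicator_of_notMem hz _
      rw [this, mul_zero]; exact zero_le
  have h4 : (Cf (η / 2) : ℝ≥0∞) * ∫⁻ z, f z ≤ (η / 2 : ℝ≥0) := by
    have h5 : (R : ℝ≥0∞) * (Cf (η / 2) * ∫⁻ z, f z) ≤ R * (η / 2 : ℝ≥0) := by
      calc (R : ℝ≥0∞) * (Cf (η / 2) * ∫⁻ z, f z) = Cf (η / 2) * (R * ∫⁻ z, f z) := by ring
        _ ≤ Cf (η / 2) * C1 := by gcongr
        _ ≤ R * (η / 2 : ℝ≥0) := by
            have : Cf (η / 2) * C1 ≤ R * (η / 2) := by
              have e : R * (η / 2) = (η * R) / 2 := by ring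
              rw [e, le_div_iff₀ (by norm_num)]
              calc Cf (η / 2) * C1 * 2 = 2 * Cf (η / 2) * C1 := by ring
                _ ≤ _ := hR
            exact_mod_cast this
    exact (ENNReal.mul_le_mul_iff_right hRe ENNReal.coe_ne_top).1 h5
  rw [h1]
  refine h2.trans ?_
  calc ((η / 2 : ℝ≥0) : ℝ≥0∞) + Cf (η / 2) * ∫⁻ z, f z ≤ (η / 2 : ℝ≥0) + (η / 2 : ℝ≥0) := by gcongr
    _ = η := by rw [← ENNReal.coe_add, add_halves]

theorem vol_ne_top (R : ℝ≥0) : vol R ≠ ⊤ := by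
  unfold vol
  have : {v : R3 | ‖v‖ ≤ R} = Metric.closedBall (0 : R3) R := by
    ext v; simp
  rw [this]
  exact measure_closedBall_lt_top.ne

/-- the class bound after the initial layer -/
theorem class_bound (hE : KHyp T1 lam C1 Cf E) (hP : PHyp T1 T nu0 a2 E gh Ph damp vs)
    (hCM : ∀ v : R3, Mx v ≤ CM * We v ∧ w1 v * Mx v ≤ CM * We v) (ha2 : a2 ≠ 0)
    (hnu : 0 < nu0) (hln : lam ≤ nu0 / 2)
    {del S0 a1 : ℝ≥0} (hdel : (fpi : ℝ≥0∞) * del ≤ ENNReal.ofReal (nu0 / 2))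
    (hvs : ∫⁻ t in Ioo T1 T, vs t ≤ S0)
    {t1 t : ℝ} (ht1 : T1 ≤ t1) (htt : t1 ≤ t) (htT : t ≤ T)
    (hN : ∀ s y, t1 ≤ s → s < t → ∫⁻ z, w1 z * gh s y z ≤ del)
    (ha1 : ∀ x v, gh t1 x v ≤ a1 * E t1 x v)
    {R2 ε : ℝ≥0} (hε : 0 < ε)
    (c1 : (Bc CM a2 C1 : ℝ≥0∞) * ENNReal.ofReal (1 / (nu0 / 2 * (1 + R2))) ≤ 1 / 2)
    (c2 : C2c CM a2 * (a2 * ε + Cf ε * del) * ENNReal.ofReal (1 / (nu0 / 2)) ≤
      1 / 2 * ENNReal.ofReal (Real.exp (-R2))) (x : P2) (v : R3) :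
    gh t x v ≤ (a1 + S0 + 1 / 2) * E t x v := by
  have h1 : T1 ≤ t := ht1.trans htt
  by_cases hEt : E t x v = ⊤
  · have hc : (a1 : ℝ≥0∞) + S0 + 1 / 2 ≠ 0 := fun h => by simpa using (add_eq_zero.1 h).2
    rw [hEt, ENNReal.mul_top hc]
    exact le_top
  set ρ : ℝ := nu0 / 2 * (1 + ‖v‖) with hρ
  have hv0 := norm_nonneg v
  have hρ0 : nu0 / 2 ≤ ρ := by rw [hρ]; nlinarith
  have hρp : 0 < ρ := by linarith
  have hd : ∀ r, t1 ≤ r → r ≤ t → damp r t x v ≤ ENNReal.ofReal (Real.exp (-(ρ * (t - r)))) := by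
    intro r hr1 hr2
    exact hP.damp2 r r t t x v hEt (ht1.trans hr1) le_rfl hr2 le_rfl htT fun s hs =>
      Lc_small hdel hnu (hN s _ (hr1.trans hs.1.le) hs.2) v
  have hfl : ∀ r, t1 ≤ r → r ≤ t → damp r t x v * E r (x - (t - r) • bar v) v ≤ E t x v := by
    intro r hr1 hr2
    calc damp r t x v * E r (x - (t - r) • bar v) v
        ≤ ENNReal.ofReal (Real.exp (-(ρ * (t - r)))) *
            (ENNReal.ofReal (Real.exp (lam * (t - r))) * E t x v) :=
          mul_le_mul' (hd r hr1 hr2) (hE.flight r t x v (ht1.trans hr1) hr2)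
      _ = ENNReal.ofReal (Real.exp (-(ρ * (t - r)) + lam * (t - r))) * E t x v := by
          rw [← mul_assoc, ← ENNReal.ofReal_mul (Real.exp_pos _).le, ← Real.exp_add]
      _ ≤ 1 * E t x v := by
          refine mul_le_mul' ?_ le_rfl
          rw [← ENNReal.ofReal_one]
          refine ENNReal.ofReal_le_ofReal (Real.exp_le_one_iff.2 ?_)
          have : lam * (t - r) ≤ ρ * (t - r) :=
            mul_le_mul_of_nonneg_right (hln.trans hρ0) (by linarith)
          linarith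
      _ = _ := one_mul _
  set m : ℝ≥0∞ := min (Bc CM a2 C1 * We v) (C2c CM a2 * (a2 * ε + Cf ε * del)) with hm
  have hnn : ∀ s y, t1 ≤ s → s < t → ∫⁻ z, gh s y z ≤ del := by
    intro s y h2 h3
    refine (lintegral_mono fun z => ?_).trans (hN s y h2 h3)
    exact le_mul_of_one_le_left' (one_le_w1 z)
  have e1 : damp t1 t x v * gh t1 (x - (t - t1) • bar v) v ≤ a1 * E t x v := by
    calc damp t1 t x v * gh t1 (x - (t - t1) • bar v) v
        ≤ damp t1 t x v * (a1 * E t1 (x - (t - t1) • bar v) v) := mul_le_mul' le_rfl (ha1 _ _)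
      _ = a1 * (damp t1 t x v * E t1 (x - (t - t1) • bar v) v) := by ring
      _ ≤ _ := mul_le_mul' le_rfl (hfl t1 le_rfl htt)
  have hGm : Measurable fun r : ℝ => ENNReal.ofReal (Real.exp (-(ρ * (t - r)))) := by fun_prop
  have e2 : ∫⁻ r in Ioo t1 t, damp r t x v * Ph r (x - (t - r) • bar v) v ≤
      ENNReal.ofReal (1 / ρ) * m + S0 * E t x v := by
    calc ∫⁻ r in Ioo t1 t, damp r t x v * Ph r (x - (t - r) • bar v) v
        ≤ ∫⁻ r in Ioo t1 t, (ENNReal.ofReal (Real.exp (-(ρ * (t - r)))) * m + vs r * E t x v) := by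
          refine setLIntegral_mono' measurableSet_Ioo fun r hr => ?_
          have hr1 : T1 ≤ r := ht1.trans hr.1.le
          have hrT : r ≤ T := hr.2.le.trans htT
          have p1 := Ph_le1 hE hP hCM hr1 hrT (x - (t - r) • bar v) v
          have p2 := Ph_le2 hE hP hCM ha2 hε hr1 hrT (x - (t - r) • bar v) v
          have p2' : Ph r (x - (t - r) • bar v) v ≤ C2c CM a2 * (a2 * ε + Cf ε * del) +
              vs r * E r (x - (t - r) • bar v) v := by
            refine p2.trans (add_le_add ?_ le_rfl)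
            gcongr
            exact hnn r _ hr.1.le hr.2
          have p3 : Ph r (x - (t - r) • bar v) v ≤ m + vs r * E r (x - (t - r) • bar v) v := by
            rcases min_cases (Bc CM a2 C1 * We v)
              (C2c CM a2 * (a2 * ε + Cf ε * del)) with h | h
            · rw [hm, h.1]; exact p1
            · rw [hm, h.1]; exact p2'
          calc damp r t x v * Ph r (x - (t - r) • bar v) v
              ≤ damp r t x v * (m + vs r * E r (x - (t - r) • bar v) v) := mul_le_mul' le_rfl p3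
            _ = damp r t x v * m + vs r * (damp r t x v * E r (x - (t - r) • bar v) v) := by ring
            _ ≤ _ := add_le_add (mul_le_mul' (hd r hr.1.le hr.2.le) le_rfl)
                  (mul_le_mul' le_rfl (hfl r hr.1.le hr.2.le))
      _ = (∫⁻ r in Ioo t1 t, ENNReal.ofReal (Real.exp (-(ρ * (t - r))))) * m +
            (∫⁻ r in Ioo t1 t, vs r) * E t x v := by
          have hm1 : Measurable fun r : ℝ => ENNReal.ofReal (Real.exp (-(ρ * (t - r)))) * m :=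
            hGm.mul_const _
          rw [lintegral_add_left hm1, lintegral_mul_const _ hGm, lintegral_mul_const _ hP.vsm]
      _ ≤ _ := add_le_add (mul_le_mul' (lint_exp hρp _ _) le_rfl)
            (mul_le_mul' ((lintegral_mono_set (Ioo_subset_Ioo ht1 htT)).trans hvs) le_rfl)
  have e3 : ENNReal.ofReal (1 / ρ) * m ≤ 1 / 2 * We v := by
    rcases le_total (R2 : ℝ) ‖v‖ with h | h
    · calc ENNReal.ofReal (1 / ρ) * m ≤ ENNReal.ofReal (1 / (nu0 / 2 * (1 + R2))) *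
            (Bc CM a2 C1 * We v) := by
            refine mul_le_mul' (ENNReal.ofReal_le_ofReal ?_) (min_le_left _ _)
            apply one_div_le_one_div_of_le
            · have : (0 : ℝ) ≤ R2 := R2.2
              positivity
            · rw [hρ]
              exact mul_le_mul_of_nonneg_left (by linarith) (by linarith)
        _ = (Bc CM a2 C1 : ℝ≥0∞) * ENNReal.ofReal (1 / (nu0 / 2 * (1 + R2))) * We v := by ring
        _ ≤ _ := mul_le_mul' c1 le_rfl
    · calc ENNReal.ofReal (1 / ρ) * m ≤ ENNReal.ofReal (1 / (nu0 / 2)) *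
            (C2c CM a2 * (a2 * ε + Cf ε * del)) := by
            refine mul_le_mul' (ENNReal.ofReal_le_ofReal ?_) (min_le_right _ _)
            exact one_div_le_one_div_of_le (by linarith) hρ0
        _ = C2c CM a2 * (a2 * ε + Cf ε * del) * ENNReal.ofReal (1 / (nu0 / 2)) := by ring
        _ ≤ 1 / 2 * ENNReal.ofReal (Real.exp (-R2)) := c2
        _ ≤ _ := by
            unfold We
            exact mul_le_mul' le_rfl (ENNReal.ofReal_le_ofReal (Real.exp_le_exp.2 (by linarith)))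
  refine (hP.duh t1 t x v hEt ht1 htt htT).trans ?_
  calc _ ≤ a1 * E t x v + (1 / 2 * We v + S0 * E t x v) := by
        refine add_le_add e1 (e2.trans (add_le_add e3 le_rfl))
    _ ≤ a1 * E t x v + (1 / 2 * E t x v + S0 * E t x v) := by
        gcongr
        exact hE.We_le t x v h1
    _ = _ := by ring

end

end Crest.Agent.R68.WA
end
end

-- ▼ part R68/WA5
section

/-!
# Row 68, PART W (helper153): the a-priori theorem, choice of constants
-/

set_option autoImplicit false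
open MeasureTheory Set
open scoped ENNReal NNReal
open Crest.AnalysisR.VecCalc3 Crest.AnalysisR.PDE.Boltzmann

noncomputable section

namespace Crest.Agent.R68.WA

theorem six_parts (del : ℝ≥0) : (del : ℝ≥0∞) / 6 + del / 6 + del / 6 + del / 6 + del / 6 + del / 6 =
    del := by
  have h : (del : ℝ≥0∞) / 6 * 6 = del := ENNReal.div_mul_cancel (by norm_num) (by norm_num)
  calc _ = (del : ℝ≥0∞) / 6 * 6 := by ring
    _ = del := h

/-- **A-priori theorem.** (with the smallness of `del` exported) -/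
theorem apriori2 {nu0 lam : ℝ} (hnu : 0 < nu0) (hlam : 0 ≤ lam) (hln : lam ≤ nu0 / 2)
    (C1 : ℝ≥0) (Cf C8 : ℝ≥0 → ℝ≥0) (htr : Trans C8) (A a2 : ℝ≥0) (ha2 : a2 ≠ 0) :
    ∃ (ell : ℝ) (del e0 d0 S0 : ℝ≥0), 0 < ell ∧ ell ≤ 1 ∧ 0 < del ∧ 0 < e0 ∧ 0 < d0 ∧ 0 < S0 ∧
      (fpi : ℝ≥0∞) * del ≤ ENNReal.ofReal (nu0 / 2) ∧
      ∀ (T1 T : ℝ) (E gh Ph : ℝ → P2 → R3 → ℝ≥0∞) (damp : ℝ → ℝ → P2 → R3 → ℝ≥0∞)
        (vs : ℝ → ℝ≥0∞), KHyp T1 lam C1 Cf E → PHyp T1 T nu0 a2 E gh Ph damp vs →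
        (∀ x v, gh T1 x v ≤ A * E T1 x v) →
        (∀ t x, T1 + ell ≤ t → t ≤ T →
          ENNReal.ofReal (Real.exp (-(nu0 / 2 * (t - (T1 + ell))))) *
            ∫⁻ v, w1 v * gh T1 (x - (t - T1) • bar v) v ≤ d0) →
        (∀ s, T1 ≤ s → s ≤ T → ∫⁻ y in cellG, ∫⁻ z, gh s y z ≤ e0) →
        (∫⁻ t in Ioo T1 T, vs t ≤ S0) →
        (∀ t x v, T1 ≤ t → t ≤ T → gh t x v ≤ (2 * A + 2 : ℝ≥0) * E t x v) ∧
        (∀ t x, T1 + ell ≤ t → t ≤ T → ∫⁻ z, w1 z * gh t x z ≤ del) := by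
  obtain ⟨CM, -, hCM⟩ := exists_CM
  have hnu2 : 0 < nu0 / 2 := by linarith
  -- R2
  obtain ⟨R2, c1⟩ : ∃ R2 : ℝ≥0,
      (Bc CM a2 C1 : ℝ≥0∞) * ENNReal.ofReal (1 / (nu0 / 2 * (1 + R2))) ≤ 1 / 2 := by
    refine ⟨Real.toNNReal (4 * Bc CM a2 C1 / nu0), ?_⟩
    have hB : (0 : ℝ) ≤ 4 * Bc CM a2 C1 / nu0 := by positivity
    rw [Real.coe_toNNReal _ hB, ← ENNReal.ofReal_coe_nnreal, ← ENNReal.ofReal_mul (by positivity),
      show (1 / 2 : ℝ≥0∞) = ENNReal.ofReal (1 / 2) by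
        rw [ENNReal.ofReal_div_of_pos (by norm_num)]; simp]
    refine ENNReal.ofReal_le_ofReal ?_
    rw [mul_one_div, div_le_div_iff₀ (by positivity) (by norm_num)]
    have : nu0 * (4 * Bc CM a2 C1 / nu0) = 4 * Bc CM a2 C1 := by field_simp
    nlinarith
  set q : ℝ≥0∞ := ENNReal.ofReal (Real.exp (-R2)) with hq
  have hq0 : q ≠ 0 := by
    rw [hq, Ne, ENNReal.ofReal_eq_zero, not_le]; exact Real.exp_pos _
  set I2 : ℝ≥0∞ := ENNReal.ofReal (1 / (nu0 / 2)) with hI2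
  have hI2t : I2 ≠ ⊤ := ENNReal.ofReal_ne_top
  have hq4 : 1 / 4 * q ≠ 0 := mul_ne_zero (by norm_num) hq0
  obtain ⟨ε', hε', -, hε'2⟩ := exists_small (c := C2c CM a2 * a2 * I2)
    (ENNReal.mul_ne_top (ENNReal.mul_ne_top ENNReal.coe_ne_top ENNReal.coe_ne_top) hI2t) hq4
  obtain ⟨dl1, hdl1, -, hdl1'⟩ := exists_small (c := C2c CM a2 * Cf ε' * I2)
    (ENNReal.mul_ne_top (ENNReal.mul_ne_top ENNReal.coe_ne_top ENNReal.coe_ne_top) hI2t) hq4
  obtain ⟨dl2, hdl2, -, hdl2'⟩ := exists_small (c := (fpi : ℝ≥0∞)) ENNReal.coe_ne_top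
    (d := ENNReal.ofReal (nu0 / 2)) (by rw [Ne, ENNReal.ofReal_eq_zero, not_le]; exact hnu2)
  set del : ℝ≥0 := min dl1 dl2 with hdel
  have hdel0 : 0 < del := lt_min hdl1 hdl2
  have hdelf : (fpi : ℝ≥0∞) * del ≤ ENNReal.ofReal (nu0 / 2) := hdl2' del (min_le_right _ _)
  have c2 : C2c CM a2 * (a2 * ε' + Cf ε' * del) * I2 ≤ 1 / 2 * q := by
    calc C2c CM a2 * (a2 * ε' + Cf ε' * del) * I2
        = C2c CM a2 * a2 * I2 * ε' + C2c CM a2 * Cf ε' * I2 * del := by ring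
      _ ≤ 1 / 4 * q + 1 / 4 * q := add_le_add (hε'2 ε' le_rfl) (hdl1' del (min_le_left _ _))
      _ = (1 / 4 + 1 / 4) * q := by ring
      _ = 1 / 2 * q := by
          congr 1
          rw [show (1 / 4 : ℝ≥0∞) = ENNReal.ofReal (1 / 4) by
              rw [ENNReal.ofReal_div_of_pos (by norm_num)]; simp,
            show (1 / 2 : ℝ≥0∞) = ENNReal.ofReal (1 / 2) by
              rw [ENNReal.ofReal_div_of_pos (by norm_num)]; simp,
            ← ENNReal.ofReal_add (by norm_num) (by norm_num)]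
          norm_num
  set K0 : ℝ≥0∞ := ENNReal.ofReal (Real.exp (nu0 / 2)) with hK0
  have hK0t : K0 ≠ ⊤ := ENNReal.ofReal_ne_top
  set H : ℝ≥0∞ := 1 + I2 with hH
  have hHt : H ≠ ⊤ := ENNReal.add_ne_top.2 ⟨ENNReal.one_ne_top, hI2t⟩
  have hD0 : (del : ℝ≥0∞) / 6 ≠ 0 := by
    refine (ENNReal.div_pos (by exact_mod_cast hdel0.ne') (by norm_num)).ne'
  obtain ⟨κ, hκ, -, hκ'⟩ := exists_small (c := K0 * (Bc CM a2 C1 * C1))
    (ENNReal.mul_ne_top hK0t (ENNReal.mul_ne_top ENNReal.coe_ne_top ENNReal.coe_ne_top)) hD0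
  obtain ⟨η, hη, -, hη'⟩ := exists_small (c := K0 * Bc CM a2 C1 * H)
    (ENNReal.mul_ne_top (ENNReal.mul_ne_top hK0t ENNReal.coe_ne_top) hHt) hD0
  obtain ⟨R, hR0, hR⟩ : ∃ R : ℝ≥0, 0 < R ∧ 2 * Cf (η / 2) * C1 ≤ η * R := by
    refine ⟨2 * Cf (η / 2) * C1 / η + 1, by positivity, ?_⟩
    have e : η * (2 * Cf (η / 2) * C1 / η + 1) = 2 * Cf (η / 2) * C1 + η := by
      have : η ≠ 0 := hη.ne'
      field_simp
    rw [e]; exact le_self_add
  obtain ⟨ε, hε, -, hε2⟩ := exists_small (c := K0 * (1 + R : ℝ≥0) * C2c CM a2 * a2 * vol R * H)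
    (by
      have := vol_ne_top R
      finiteness) hD0
  obtain ⟨e0, he0, -, he0'⟩ := exists_small (c := K0 * (1 + R : ℝ≥0) * C2c CM a2 * Cf ε * C8 R *
      (1 + ENNReal.ofReal (1 / (κ : ℝ) ^ 2)) * H)
    (by finiteness) hD0
  obtain ⟨S1, hS1, -, hS1'⟩ := exists_small (c := K0 * ENNReal.ofReal (Real.exp lam) * C1)
    (by finiteness) hD0
  obtain ⟨d0, hd0, -, hd0'⟩ := exists_small (c := K0) hK0t hD0
  set S0 : ℝ≥0 := min S1 (1 / 4) with hS0
  have hS00 : 0 < S0 := lt_min hS1 (by norm_num)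
  -- ell
  obtain ⟨ell, hell, hell1, hell2, hell3⟩ : ∃ ell : ℝ, 0 < ell ∧ ell ≤ 1 ∧
      Real.exp (lam * ell) ≤ 2 ∧ Bc CM a2 C1 * ell ≤ 1 / 2 := by
    have hB : (0 : ℝ) ≤ Bc CM a2 C1 := NNReal.coe_nonneg _
    refine ⟨1 / (2 * (lam + Bc CM a2 C1 + 1)), by positivity, ?_, ?_, ?_⟩
    · rw [div_le_one (by positivity)]; linarith
    · have h1 : lam * (1 / (2 * (lam + Bc CM a2 C1 + 1))) ≤ 1 / 2 := by
        rw [mul_one_div, div_le_div_iff₀ (by positivity) (by norm_num)]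
        nlinarith
      calc Real.exp (lam * (1 / (2 * (lam + Bc CM a2 C1 + 1)))) ≤ Real.exp (1 / 2) :=
            Real.exp_le_exp.2 h1
        _ ≤ 2 := by
            have h3 : Real.exp (1 / 2) ^ 2 = Real.exp 1 := by
              rw [← Real.exp_nat_mul]; norm_num
            have h4 := Real.exp_one_lt_d9
            nlinarith [Real.exp_pos (1 / 2 : ℝ)]
    · rw [mul_one_div, div_le_div_iff₀ (by positivity) (by norm_num)]
      nlinarith
  refine ⟨ell, del, e0, d0, S0, hell, hell1, hdel0, he0, hd0, hS00, hdelf, ?_⟩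
  intro T1 T E gh Ph damp vs hE hP hinit hiN hL1 hvs
  set t1 : ℝ := T1 + ell with ht1
  have ht1' : T1 ≤ t1 := by linarith
  -- layer
  have hlayer : ∀ t x v, T1 ≤ t → t ≤ T → t ≤ t1 → gh t x v ≤ (2 * A + 1 : ℝ≥0) * E t x v := by
    intro t x v h1 h2 h3
    refine (layer hE hP hCM hlam hS00 hinit hvs h1 h2 h3 x v).trans (mul_le_mul' ?_ le_rfl)
    have a1 : ENNReal.ofReal (Real.exp (lam * ell)) ≤ 2 := by
      rw [show (2 : ℝ≥0∞) = ENNReal.ofReal 2 by simp]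
      exact ENNReal.ofReal_le_ofReal hell2
    have a3 : (Bc CM a2 C1 : ℝ≥0∞) * ENNReal.ofReal ell ≤ ((1 / 2 : ℝ≥0) : ℝ≥0∞) := by
      rw [← ENNReal.ofReal_coe_nnreal, ← ENNReal.ofReal_mul (NNReal.coe_nonneg _),
        ← ENNReal.ofReal_coe_nnreal]
      exact ENNReal.ofReal_le_ofReal (by push_cast; exact hell3)
    have a4 : (S0 : ℝ≥0∞) ≤ ((1 / 4 : ℝ≥0) : ℝ≥0∞) := by exact_mod_cast min_le_right _ _
    calc ENNReal.ofReal (Real.exp (lam * ell)) * (A + S0) + Bc CM a2 C1 * ENNReal.ofReal ell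
        ≤ 2 * (A + ((1 / 4 : ℝ≥0) : ℝ≥0∞)) + ((1 / 2 : ℝ≥0) : ℝ≥0∞) := by gcongr
      _ = ((2 * (A + 1 / 4) + 1 / 2 : ℝ≥0) : ℝ≥0∞) := by push_cast; ring
      _ = ((2 * A + 1 : ℝ≥0) : ℝ≥0∞) := by
          congr 1
          apply NNReal.coe_injective
          push_cast
          ring
  -- density
  have hdens : ∀ n : ℕ, ∀ t x, t1 ≤ t → t ≤ T → t < t1 + n → ∫⁻ z, w1 z * gh t x z ≤ del := by
    intro n
    induction n with
    | zero =>
      intro t x h1 _ h3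
      simp only [Nat.cast_zero, add_zero] at h3
      exact absurd h1 (not_le.2 h3)
    | succ n ih =>
      intro t x h1 h2 h3
      rcases lt_or_ge t (t1 + n) with h4 | h4
      · exact ih t x h1 h2 h4
      have hn0 : (0 : ℝ) ≤ n := Nat.cast_nonneg n
      have h5 : t ≤ t1 + n + 1 := by push_cast at h3; linarith
      have hNN : ∀ s y, t1 ≤ s → s < t1 + n → ∫⁻ z, w1 z * gh s y z ≤ del :=
        fun s y hs1 hs2 => ih s y hs1 (by linarith) hs2
      refine (N_bound hE hP hCM ha2 hlam hnu hln htr hdelf hL1 hvs ht1' (by linarith) h4 h5 h2 hNN x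
        (hiN t x h1 h2) ε κ R hε hκ).trans ?_
      have et : t1 - T1 = ell := by rw [ht1]; ring
      rw [et]
      have b1 : ENNReal.ofReal ell + ENNReal.ofReal (1 / (nu0 / 2)) ≤ H := by
        rw [hH, ← ENNReal.ofReal_one]
        exact add_le_add (ENNReal.ofReal_le_ofReal hell1) le_rfl
      have b2 : ENNReal.ofReal (Real.exp (lam * ell)) ≤ ENNReal.ofReal (Real.exp lam) :=
        ENNReal.ofReal_le_ofReal (Real.exp_le_exp.2 (by nlinarith))
      have b3 : tail R ≤ η := tail_le hE hη hR hR0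
      have b4 : K0 * (d0 : ℝ≥0∞) ≤ (del : ℝ≥0∞) / 6 := hd0' d0 le_rfl
      unfold J2c
      calc _ ≤ (del : ℝ≥0∞) / 6 + K0 * (Bc CM a2 C1 * C1 * κ + (Bc CM a2 C1 * η +
              (1 + R : ℝ≥0) * C2c CM a2 * (a2 * ε * vol R + Cf ε *
                (C8 R * (1 + ENNReal.ofReal (1 / (κ : ℝ) ^ 2)) * e0))) * H +
              ENNReal.ofReal (Real.exp lam) * C1 * S0) := by
            gcongr
        _ = (del : ℝ≥0∞) / 6 + K0 * (Bc CM a2 C1 * C1) * κ + K0 * Bc CM a2 C1 * H * η +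
              K0 * (1 + R : ℝ≥0) * C2c CM a2 * a2 * vol R * H * ε +
              K0 * (1 + R : ℝ≥0) * C2c CM a2 * Cf ε * C8 R *
                (1 + ENNReal.ofReal (1 / (κ : ℝ) ^ 2)) * H * e0 +
              K0 * ENNReal.ofReal (Real.exp lam) * C1 * S0 := by ring
        _ ≤ (del : ℝ≥0∞) / 6 + del / 6 + del / 6 + del / 6 + del / 6 + del / 6 := by
            exact add_le_add (add_le_add (add_le_add (add_le_add (add_le_add le_rfl (hκ' κ le_rfl))
              (hη' η le_rfl)) (hε2 ε le_rfl)) (he0' e0 le_rfl)) (hS1' S0 (min_le_left _ _))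
        _ = del := six_parts del
  have hdens' : ∀ t x, t1 ≤ t → t ≤ T → ∫⁻ z, w1 z * gh t x z ≤ del := by
    intro t x h1 h2
    obtain ⟨n, hn⟩ := exists_nat_gt (t - t1)
    exact hdens n t x h1 h2 (by linarith)
  refine ⟨fun t x v h1 h2 => ?_, fun t x h1 h2 => hdens' t x h1 h2⟩
  rcases le_total t t1 with h3 | h3
  · refine (hlayer t x v h1 h2 h3).trans (mul_le_mul' ?_ le_rfl)
    have : (2 * A + 1 : ℝ≥0) ≤ 2 * A + 2 := by gcongr; norm_num
    exact_mod_cast this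
  · have h4 := class_bound hE hP hCM ha2 hnu hln hdelf hvs ht1' h3 h2
      (fun s y hs1 hs2 => hdens' s y hs1 (hs2.le.trans h2))
      (fun x v => hlayer t1 x v ht1' (h3.trans h2) le_rfl) hε' c1 c2 x v
    refine h4.trans (mul_le_mul' ?_ le_rfl)
    have a4 : (S0 : ℝ≥0∞) ≤ ((1 / 4 : ℝ≥0) : ℝ≥0∞) := by exact_mod_cast min_le_right _ _
    calc ((2 * A + 1 : ℝ≥0) : ℝ≥0∞) + S0 + 1 / 2
        ≤ ((2 * A + 1 : ℝ≥0) : ℝ≥0∞) + ((1 / 4 : ℝ≥0) : ℝ≥0∞) + ((1 / 2 : ℝ≥0) : ℝ≥0∞) := by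
          gcongr
          rw [ENNReal.coe_div (by norm_num)]
          norm_num
      _ = ((2 * A + 1 + 1 / 4 + 1 / 2 : ℝ≥0) : ℝ≥0∞) := by push_cast; ring
      _ ≤ _ := by
          have : (2 * A + 1 + 1 / 4 + 1 / 2 : ℝ≥0) ≤ 2 * A + 2 := by
            rw [← NNReal.coe_le_coe]
            push_cast
            linarith
          exact_mod_cast this


end Crest.Agent.R68.WA
end
end

-- ▼ part R68/WG2
section

/-!
# Row 68, PART W (helper153): from the truncated system to the hypotheses of the a-priori theorem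
-/

set_option autoImplicit false
open MeasureTheory Set
open scoped ENNReal NNReal
open Crest.AnalysisR.VecCalc3 Crest.AnalysisR.PDE.Boltzmann

noncomputable section

namespace Crest.Agent.R68.WG

open Crest.Agent.R68.W Crest.Agent.R68.WA

/-! ### bilinear algebra -/

theorem Lc_add {f g : R3 → ℝ≥0∞} (hf : Measurable f) (v : R3) :
    Lc (fun z => f z + g z) v = Lc f v + Lc g v := by
  rw [C.Lc_eq, C.Lc_eq, C.Lc_eq, ← lintegral_add_left]
  · exact lintegral_congr fun vs => by ring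
  · exact Measurable.mul (by fun_prop) hf

/-- integrand of the gain term -/
def gI (f k : R3 → ℝ≥0∞) (v : R3) (q : R3 × R3) : ℝ≥0∞ :=
  ENNReal.ofReal |inner ℝ (v - q.1) q.2| * f (postVel v q.1 q.2) * k (postVelStar v q.1 q.2)

theorem measurable_gI {f k : R3 → ℝ≥0∞} (hf : Measurable f) (hk : Measurable k) (v : R3) :
    Measurable (gI f k v) := by
  have hp : Measurable fun q : R3 × R3 => postVel v q.1 q.2 := by unfold postVel; fun_prop
  have hs : Measurable fun q : R3 × R3 => postVelStar v q.1 q.2 := by unfold postVelStar; fun_prop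
  have ha : Measurable fun q : R3 × R3 => ENNReal.ofReal |inner ℝ (v - q.1) q.2| := by fun_prop
  exact (ha.mul (hf.comp hp)).mul (hk.comp hs)

theorem Qp_eq_gI (f k : R3 → ℝ≥0∞) (v : R3) :
    Qp f k v = ∫⁻ vs, ∫⁻ w, gI f k v (vs, w) ∂sphereMeasure := rfl

theorem lint2_add {F G : R3 × R3 → ℝ≥0∞} (hF : Measurable F) :
    ∫⁻ vs, ∫⁻ w, (F (vs, w) + G (vs, w)) ∂sphereMeasure =
      (∫⁻ vs, ∫⁻ w, F (vs, w) ∂sphereMeasure) + ∫⁻ vs, ∫⁻ w, G (vs, w) ∂sphereMeasure := by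
  have h1 : ∀ vs, Measurable fun w => F (vs, w) := fun vs => hF.comp measurable_prodMk_left
  have h2 : Measurable fun vs => ∫⁻ w, F (vs, w) ∂sphereMeasure := hF.lintegral_prod_right'
  rw [← lintegral_add_left h2]
  exact lintegral_congr fun vs => lintegral_add_left (h1 vs) _

theorem Qp_add_left {f g k : R3 → ℝ≥0∞} (hf : Measurable f) (hk : Measurable k) (v : R3) :
    Qp (fun z => f z + g z) k v = Qp f k v + Qp g k v := by
  rw [Qp_eq_gI, Qp_eq_gI, Qp_eq_gI, ← lint2_add (measurable_gI hf hk v)]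
  refine lintegral_congr fun vs => lintegral_congr fun w => ?_
  unfold gI
  ring

theorem Qp_add_right {f g k : R3 → ℝ≥0∞} (hf : Measurable f) (hk : Measurable k) (v : R3) :
    Qp k (fun z => f z + g z) v = Qp k f v + Qp k g v := by
  rw [Qp_eq_gI, Qp_eq_gI, Qp_eq_gI, ← lint2_add (measurable_gI hk hf v)]
  refine lintegral_congr fun vs => lintegral_congr fun w => ?_
  unfold gI
  ring

/-- the Maxwellian is an equilibrium -/
theorem Qp_Mx (v : R3) : Qp Mx Mx v = Mx v * Lc Mx v := by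
  have h : Mx = C.gs ((2 * Real.pi) ^ (-(3 / 2 : ℝ))) 1 0 := by
    funext z
    unfold Mx maxwellian C.gs
    simp
  rw [h]
  exact C.Qp_gs (by positivity) 1 0 v

/-- comparison of the source with the loss times the Maxwellian -/
theorem src_compare {h g c : R3 → ℝ≥0∞} (hh : Measurable h) (hg : Measurable g)
    (h1 : ∀ z, h z ≤ Mx z + g z) (h2 : ∀ z, Mx z ≤ h z + g z) {v : R3} {Sp K : ℝ≥0∞}
    (hK1 : Qp c h v + Qp h c v + Sp ≤ K) (hK2 : Mx v * Lc c v ≤ K) :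
    Qp h h v + Qp c h v + Qp h c v + Sp ≤ Lc (fun z => h z + c z) v * Mx v +
      (Qp Mx g v + Qp g Mx v + Mx v * Lc g v + Qp g g v + K) ∧
    Lc (fun z => h z + c z) v * Mx v ≤ Qp h h v + Qp c h v + Qp h c v + Sp +
      (Qp Mx g v + Qp g Mx v + Mx v * Lc g v + Qp g g v + K) := by
  have hM := measurable_Mx
  have e1 : Lc Mx v ≤ Lc h v + Lc g v := by
    rw [← Lc_add hh]; exact WA.Lc_mono h2 v
  have e2 : Lc h v ≤ Lc Mx v + Lc g v := by
    rw [← Lc_add hM]; exact WA.Lc_mono h1 v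
  rw [Lc_add hh]
  constructor
  · have e3 : Qp h h v ≤ Mx v * (Lc h v + Lc g v) + Qp Mx g v + Qp g Mx v + Qp g g v := by
      calc Qp h h v ≤ Qp (fun z => Mx z + g z) (fun z => Mx z + g z) v := WA.Qp_mono h1 h1 v
        _ = Qp Mx Mx v + Qp Mx g v + (Qp g Mx v + Qp g g v) := by
            have hMg : Measurable fun z => Mx z + g z := hM.add hg
            rw [Qp_add_left hM hMg, Qp_add_right hM hM, Qp_add_right hM hg]
        _ ≤ Mx v * (Lc h v + Lc g v) + Qp Mx g v + (Qp g Mx v + Qp g g v) := by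
            rw [Qp_Mx]; gcongr
        _ = _ := by ring
    calc Qp h h v + Qp c h v + Qp h c v + Sp
        = Qp h h v + (Qp c h v + Qp h c v + Sp) := by ring
      _ ≤ (Mx v * (Lc h v + Lc g v) + Qp Mx g v + Qp g Mx v + Qp g g v) + K := add_le_add e3 hK1
      _ = Lc h v * Mx v + (Qp Mx g v + Qp g Mx v + Mx v * Lc g v + Qp g g v + K) := by ring
      _ ≤ _ := by gcongr; exact le_self_add
  · have e4 : Mx v * Lc h v ≤ Qp h h v + (Qp Mx g v + Qp g Mx v + Mx v * Lc g v + Qp g g v) := by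
      calc Mx v * Lc h v ≤ Mx v * (Lc Mx v + Lc g v) := by gcongr
        _ = Qp Mx Mx v + Mx v * Lc g v := by rw [Qp_Mx]; ring
        _ ≤ (Qp h Mx v + Qp g Mx v) + Mx v * Lc g v := by
            rw [← Qp_add_left hh hM]
            gcongr
            exact WA.Qp_mono h2 (fun _ => le_rfl) v
        _ ≤ ((Qp h h v + Qp h g v) + Qp g Mx v) + Mx v * Lc g v := by
            rw [← Qp_add_right hh hh]
            gcongr
            exact WA.Qp_mono (fun _ => le_rfl) h2 v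
        _ ≤ ((Qp h h v + (Qp Mx g v + Qp g g v)) + Qp g Mx v) + Mx v * Lc g v := by
            rw [← Qp_add_left hM hg]
            gcongr
            exact WA.Qp_mono h1 (fun _ => le_rfl) v
        _ = _ := by ring
    calc (Lc h v + Lc c v) * Mx v = Mx v * Lc h v + Mx v * Lc c v := by ring
      _ ≤ (Qp h h v + (Qp Mx g v + Qp g Mx v + Mx v * Lc g v + Qp g g v)) + K :=
          add_le_add e4 hK2
      _ ≤ Qp h h v + (Qp c h v + Qp h c v + Sp) +
            (Qp Mx g v + Qp g Mx v + Mx v * Lc g v + Qp g g v) + K := by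
          calc _ = Qp h h v + (Qp Mx g v + Qp g Mx v + Mx v * Lc g v + Qp g g v) + K := rfl
            _ ≤ (Qp h h v + (Qp c h v + Qp h c v + Sp)) +
                (Qp Mx g v + Qp g Mx v + Mx v * Lc g v + Qp g g v) + K := by
                gcongr; exact le_self_add
      _ = _ := by ring

/-- joint measurability of `Qp` with parameters -/
theorem measurable_Qp_param {f k : Om → ℝ≥0∞} (hf : Measurable f) (hk : Measurable k) :
    Measurable fun z : Om =>
      Qp (fun w => f (z.1, z.2.1, w)) (fun w => k (z.1, z.2.1, w)) z.2.2 := by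
  have h1 : Measurable fun q : (Om × R3) × R3 =>
      ((q.1.1.1, q.1.1.2.1, postVel q.1.1.2.2 q.1.2 q.2) : Om) := by
    unfold postVel; fun_prop
  have h2 : Measurable fun q : (Om × R3) × R3 =>
      ((q.1.1.1, q.1.1.2.1, postVelStar q.1.1.2.2 q.1.2 q.2) : Om) := by
    unfold postVelStar; fun_prop
  have ha : Measurable fun q : (Om × R3) × R3 =>
      ENNReal.ofReal |inner ℝ (q.1.1.2.2 - q.1.2) q.2| := by fun_prop
  have h3 : Measurable fun q : (Om × R3) × R3 => ENNReal.ofReal |inner ℝ (q.1.1.2.2 - q.1.2) q.2| *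
      f (q.1.1.1, q.1.1.2.1, postVel q.1.1.2.2 q.1.2 q.2) *
      k (q.1.1.1, q.1.1.2.1, postVelStar q.1.1.2.2 q.1.2 q.2) :=
    (ha.mul (hf.comp h1)).mul (hk.comp h2)
  have h4 : Measurable fun p : Om × R3 => ∫⁻ w, ENNReal.ofReal |inner ℝ (p.1.2.2 - p.2) w| *
      f (p.1.1, p.1.2.1, postVel p.1.2.2 p.2 w) *
      k (p.1.1, p.1.2.1, postVelStar p.1.2.2 p.2 w) ∂sphereMeasure := h3.lintegral_prod_right'
  exact h4.lintegral_prod_right'

/-! ### the truncated system -/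

/-- data of the truncated system -/
structure TSys (T1 : ℝ) (b : ℝ≥0) (E : ℝ → P2 → R3 → ℝ≥0∞) (u : Om → ℝ) (c Sp : Om → ℝ≥0∞)
    (h1 : P2 → R3 → ℝ≥0∞) (Hc L P : Om → ℝ≥0∞) : Prop where
  um : Measurable u
  u0 : ∀ z, 0 ≤ u z
  uper : ∀ t v, PerG fun x => u (t, x, v)
  cm : Measurable c
  Spm : Measurable Sp
  Hc_eq : ∀ z, Hc z = min (ENNReal.ofReal (u z)) (b * E z.1 z.2.1 z.2.2)
  L_eq : ∀ z, L z = Lc (fun w => Hc (z.1, z.2.1, w) + c (z.1, z.2.1, w)) z.2.2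
  P_eq : ∀ z, P z = Qp (fun w => Hc (z.1, z.2.1, w)) (fun w => Hc (z.1, z.2.1, w)) z.2.2 +
    Qp (fun w => c (z.1, z.2.1, w)) (fun w => Hc (z.1, z.2.1, w)) z.2.2 +
    Qp (fun w => Hc (z.1, z.2.1, w)) (fun w => c (z.1, z.2.1, w)) z.2.2 + Sp z
  eqn : ∀ z : Om, T1 ≤ z.1 → E z.1 z.2.1 z.2.2 ≠ ⊤ → ENNReal.ofReal (u z) = damped T1 h1 L P z
  fin : ∀ z : Om, T1 ≤ z.1 → E z.1 z.2.1 z.2.2 ≠ ⊤ → opt L z T1 ≠ ⊤

section
variable {T1 : ℝ} {b : ℝ≥0} {E : ℝ → P2 → R3 → ℝ≥0∞} {u : Om → ℝ} {c Sp : Om → ℝ≥0∞}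
    {h1 : P2 → R3 → ℝ≥0∞} {Hc L P : Om → ℝ≥0∞}

theorem TSys.Hcm (h : TSys T1 b E u c Sp h1 Hc L P)
    (hE : Measurable fun p : ℝ × P2 × R3 => E p.1 p.2.1 p.2.2) : Measurable Hc := by
  have e : Hc = fun z => min (ENNReal.ofReal (u z)) (b * E z.1 z.2.1 z.2.2) := funext h.Hc_eq
  rw [e]
  exact (h.um.ennreal_ofReal).min (hE.const_mul _)


theorem TSys.Lm (h : TSys T1 b E u c Sp h1 Hc L P)
    (hE : Measurable fun p : ℝ × P2 × R3 => E p.1 p.2.1 p.2.2) : Measurable L := by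
  have hHc := h.Hcm hE
  have e : L = fun z => Lc (fun w => Hc (z.1, z.2.1, w) + c (z.1, z.2.1, w)) z.2.2 := funext h.L_eq
  rw [e]
  simp only [C.Lc_eq]
  have hm : Measurable fun p : Om × R3 => ((p.1.1, p.1.2.1, p.2) : Om) := by fun_prop
  have h3 : Measurable fun p : Om × R3 => ENNReal.ofReal (2 * Real.pi * ‖p.1.2.2 - p.2‖) *
      (Hc (p.1.1, p.1.2.1, p.2) + c (p.1.1, p.1.2.1, p.2)) :=
    Measurable.mul (by fun_prop) ((hHc.comp hm).add (h.cm.comp hm))
  exact h3.lintegral_prod_right'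

/-- distance to the Maxwellian -/
def ghf (u : Om → ℝ) (t : ℝ) (x : P2) (v : R3) : ℝ≥0∞ := ‖u (t, x, v) - maxwellian v‖ₑ

/-- the source majorant -/
def Phf (u : Om → ℝ) (E : ℝ → P2 → R3 → ℝ≥0∞) (vs : ℝ → ℝ≥0∞) (t : ℝ) (x : P2) (v : R3) : ℝ≥0∞ :=
  Qp Mx (ghf u t x) v + Qp (ghf u t x) Mx v + Mx v * Lc (ghf u t x) v +
    Qp (ghf u t x) (ghf u t x) v + vs t * E t x v

theorem measurable_ghf (hu : Measurable u) :
    Measurable fun p : ℝ × P2 × R3 => ghf u p.1 p.2.1 p.2.2 := by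
  unfold ghf
  have hM : Measurable maxwellian := by unfold maxwellian; fun_prop
  exact (hu.sub (hM.comp (measurable_snd.comp measurable_snd))).enorm

theorem ofReal_le_add_enorm (a c : ℝ) : ENNReal.ofReal a ≤ ENNReal.ofReal c + ‖a - c‖ₑ := by
  rw [← ofReal_norm, Real.norm_eq_abs]
  refine (ENNReal.ofReal_le_ofReal (show a ≤ c + |a - c| by linarith [le_abs_self (a - c)])).trans ?_
  exact ENNReal.ofReal_add_le

theorem enorm_sub_le_of {a c : ℝ} (ha : 0 ≤ a) (hc : 0 ≤ c) {δ : ℝ≥0∞}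
    (h1 : ENNReal.ofReal a ≤ ENNReal.ofReal c + δ) (h2 : ENNReal.ofReal c ≤ ENNReal.ofReal a + δ) :
    ‖a - c‖ₑ ≤ δ := by
  by_cases hδ : δ = ⊤
  · simp [hδ]
  rw [← ofReal_norm, Real.norm_eq_abs, ← ENNReal.ofReal_toReal hδ]
  apply ENNReal.ofReal_le_ofReal
  have hd : 0 ≤ δ.toReal := ENNReal.toReal_nonneg
  rw [← ENNReal.ofReal_toReal hδ, ← ENNReal.ofReal_add hc hd,
    ENNReal.ofReal_le_ofReal_iff (by positivity)] at h1
  rw [← ENNReal.ofReal_toReal hδ, ← ENNReal.ofReal_add ha hd,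
    ENNReal.ofReal_le_ofReal_iff (by positivity)] at h2
  rw [abs_sub_le_iff]
  constructor <;> linarith

theorem maxw_nonneg (v : R3) : 0 ≤ maxwellian v := by unfold maxwellian; positivity

theorem meas_dmp_r {L : Om → ℝ≥0∞} (hL : Measurable L) (z : Om) : Measurable fun r : ℝ => dmp L z r :=
  (measurable_dmp hL).comp (measurable_const.prodMk measurable_id)

theorem meas_fl_r (z : Om) : Measurable fun r : ℝ => fl z r :=
  measurable_fl.comp (measurable_const.prodMk measurable_id)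

theorem TSys.Pm (S : TSys T1 b E u c Sp h1 Hc L P)
    (hE : Measurable fun p : ℝ × P2 × R3 => E p.1 p.2.1 p.2.2) : Measurable P := by
  have hHc := S.Hcm hE
  have e2 : P = fun z => Qp (fun w => Hc (z.1, z.2.1, w)) (fun w => Hc (z.1, z.2.1, w)) z.2.2 +
      Qp (fun w => c (z.1, z.2.1, w)) (fun w => Hc (z.1, z.2.1, w)) z.2.2 +
      Qp (fun w => Hc (z.1, z.2.1, w)) (fun w => c (z.1, z.2.1, w)) z.2.2 + Sp z := funext S.P_eq
  rw [e2]
  exact (((measurable_Qp_param hHc hHc).add (measurable_Qp_param S.cm hHc)).add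
    (measurable_Qp_param hHc S.cm)).add S.Spm

theorem TSys.Hcu (S : TSys T1 b E u c Sp h1 Hc L P) {T : ℝ}
    (hT : ∀ t x v, T1 ≤ t → t ≤ T → ENNReal.ofReal (u (t, x, v)) ≤ b * E t x v)
    {t : ℝ} (x : P2) (h1 : T1 ≤ t) (h2 : t ≤ T) :
    (fun w => Hc (t, x, w)) = fun w => ENNReal.ofReal (u (t, x, w)) := by
  funext w
  rw [S.Hc_eq]
  exact min_eq_left (hT t x w h1 h2)

theorem meas_slice (t : ℝ) (x : P2) : Measurable fun w : R3 => ((t, x, w) : Om) := by
  fun_prop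

theorem ghf_le1 (u : Om → ℝ) (t : ℝ) (x : P2) (w : R3) :
    ENNReal.ofReal (u (t, x, w)) ≤ Mx w + ghf u t x w := ofReal_le_add_enorm _ _

theorem ghf_le2 (u : Om → ℝ) (t : ℝ) (x : P2) (w : R3) :
    Mx w ≤ ENNReal.ofReal (u (t, x, w)) + ghf u t x w := by
  refine (ofReal_le_add_enorm (maxwellian w) (u (t, x, w))).trans (le_of_eq ?_)
  unfold ghf
  rw [← ofReal_norm, ← ofReal_norm, norm_sub_rev]

theorem ghf_le_add {u : Om → ℝ} (hu : ∀ z, 0 ≤ u z) (t : ℝ) (x : P2) (v : R3) :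
    ghf u t x v ≤ ENNReal.ofReal (u (t, x, v)) + Mx v := by
  unfold ghf
  rw [← ofReal_norm, Real.norm_eq_abs]
  unfold Mx
  rw [← ENNReal.ofReal_add (hu _) (maxw_nonneg v)]
  refine ENNReal.ofReal_le_ofReal ?_
  have := hu (t, x, v)
  have := maxw_nonneg v
  rw [abs_le]; constructor <;> linarith

/-- comparison of the sources -/
theorem TSys.cmp (S : TSys T1 b E u c Sp h1 Hc L P) {T : ℝ}
    (hT : ∀ t x v, T1 ≤ t → t ≤ T → ENNReal.ofReal (u (t, x, v)) ≤ b * E t x v)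
    {vs : ℝ → ℝ≥0∞}
    (cold : ∀ t x v, T1 ≤ t → t ≤ T →
      Qp (fun w => c (t, x, w)) (fun w => Hc (t, x, w)) v +
        Qp (fun w => Hc (t, x, w)) (fun w => c (t, x, w)) v + Sp (t, x, v) ≤ vs t * E t x v ∧
      Mx v * Lc (fun w => c (t, x, w)) v ≤ vs t * E t x v)
    {t : ℝ} (x : P2) (v : R3) (h1 : T1 ≤ t) (h2 : t ≤ T) :
    P (t, x, v) ≤ L (t, x, v) * Mx v + Phf u E vs t x v ∧
      L (t, x, v) * Mx v ≤ P (t, x, v) + Phf u E vs t x v := by
  have hh : Measurable fun w => ENNReal.ofReal (u (t, x, w)) :=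
    (S.um.comp (meas_slice t x)).ennreal_ofReal
  have hg : Measurable (ghf u t x) := (measurable_ghf S.um).comp (meas_slice t x)
  have hk := cold t x v h1 h2
  have hu := S.Hcu hT x h1 h2
  rw [hu] at hk
  have key := src_compare hh hg (ghf_le1 u t x) (ghf_le2 u t x) hk.1 hk.2
  have e : (fun w => Hc (t, x, w) + c (t, x, w)) =
      fun w => ENNReal.ofReal (u (t, x, w)) + c (t, x, w) := by
    funext w
    rw [congrFun hu w]
  have eP : P (t, x, v) = Qp (fun w => ENNReal.ofReal (u (t, x, w)))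
      (fun w => ENNReal.ofReal (u (t, x, w))) v +
      Qp (fun w => c (t, x, w)) (fun w => ENNReal.ofReal (u (t, x, w))) v +
      Qp (fun w => ENNReal.ofReal (u (t, x, w))) (fun w => c (t, x, w)) v + Sp (t, x, v) := by
    rw [S.P_eq]
    change Qp (fun w => Hc (t, x, w)) (fun w => Hc (t, x, w)) v +
      Qp (fun w => c (t, x, w)) (fun w => Hc (t, x, w)) v +
      Qp (fun w => Hc (t, x, w)) (fun w => c (t, x, w)) v + Sp (t, x, v) = _
    rw [hu]
  have eL : L (t, x, v) = Lc (fun w => ENNReal.ofReal (u (t, x, w)) + c (t, x, w)) v := by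
    rw [S.L_eq]
    change Lc (fun w => Hc (t, x, w) + c (t, x, w)) v = _
    rw [e]
  rw [eP, eL]
  exact key

/-- damping lower bound -/
theorem TSys.damp2 (S : TSys T1 b E u c Sp h1 Hc L P) {T nu0 : ℝ} (hnu : 0 < nu0)
    (hnuM : ∀ v : R3, ENNReal.ofReal (nu0 * (1 + ‖v‖)) ≤ Lc Mx v)
    (hT : ∀ t x v, T1 ≤ t → t ≤ T → ENNReal.ofReal (u (t, x, v)) ≤ b * E t x v)
    (s r1 r2 t : ℝ) (x : P2) (v : R3) (hEt : E t x v ≠ ⊤) (hs1 : T1 ≤ s) (hs2 : s ≤ r1)
    (hr : r1 ≤ r2) (hr2 : r2 ≤ t) (htT : t ≤ T)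
    (hLc : ∀ r ∈ Ioo r1 r2, Lc (ghf u r (x - (t - r) • bar v)) v ≤
      ENNReal.ofReal (nu0 / 2 * (1 + ‖v‖))) :
    dmp L (t, x, v) s ≤ ENNReal.ofReal (Real.exp (-(nu0 / 2 * (1 + ‖v‖) * (r2 - r1)))) := by
  have hT1t : T1 ≤ t := hs1.trans (hs2.trans (hr.trans hr2))
  have hf : opt L (t, x, v) s ≠ ⊤ :=
    ne_top_of_le_ne_top (S.fin (t, x, v) hT1t hEt) (opt_anti L hs1)
  refine dmp_le_exp (by positivity) hs2 hr hr2 hf fun r hr' => ?_
  have hr1 : T1 ≤ r := hs1.trans (hs2.trans hr'.1.le)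
  have hrT : r ≤ T := hr'.2.le.trans (hr2.trans htT)
  have h5 := hLc r hr'
  set y : P2 := x - (t - r) • bar v with hy
  have e1 : Lc Mx v ≤ Lc (fun w => ENNReal.ofReal (u (r, y, w))) v + Lc (ghf u r y) v := by
    have hm' : Measurable fun w => ENNReal.ofReal (u (r, y, w)) :=
      (S.um.comp (meas_slice r y)).ennreal_ofReal
    rw [← Lc_add hm']
    exact WA.Lc_mono (ghf_le2 u r y) v
  have e2 : Lc (fun w => ENNReal.ofReal (u (r, y, w))) v ≤ L (fl (t, x, v) r) := by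
    rw [S.L_eq]
    refine WA.Lc_mono (fun w => ?_) v
    change ENNReal.ofReal (u (r, y, w)) ≤ Hc (r, y, w) + c (r, y, w)
    rw [congrFun (S.Hcu hT y hr1 hrT) w]
    exact le_self_add
  have e3 : ENNReal.ofReal (nu0 / 2 * (1 + ‖v‖)) + ENNReal.ofReal (nu0 / 2 * (1 + ‖v‖)) ≤
      L (fl (t, x, v) r) + ENNReal.ofReal (nu0 / 2 * (1 + ‖v‖)) := by
    calc _ = ENNReal.ofReal (nu0 * (1 + ‖v‖)) := by
          rw [← ENNReal.ofReal_add (by positivity) (by positivity)]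
          congr 1; ring
      _ ≤ Lc Mx v := hnuM v
      _ ≤ _ := e1.trans (add_le_add e2 h5)
  exact (ENNReal.add_le_add_iff_right ENNReal.ofReal_ne_top).1 e3

/-- the restarted equation -/
theorem TSys.restart (S : TSys T1 b E u c Sp h1 Hc L P) {lam : ℝ} {C1 : ℝ≥0} {Cf : ℝ≥0 → ℝ≥0}
    (hE : KHyp T1 lam C1 Cf E) {s : ℝ} {z : Om} (hs1 : T1 ≤ s) (hst : s ≤ z.1)
    (hEt : E z.1 z.2.1 z.2.2 ≠ ⊤) :
    ENNReal.ofReal (u z) = dmp L z s * ENNReal.ofReal (u (fl z s)) +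
        ∫⁻ r in Ioo s z.1, dmp L z r * P (fl z r) := by
  have hT1t : T1 ≤ z.1 := hs1.trans hst
  have hEs : E s (z.2.1 - (z.1 - s) • bar z.2.2) z.2.2 ≠ ⊤ := by
    refine ne_top_of_le_ne_top ?_ (hE.flight s z.1 z.2.1 z.2.2 hs1 hst)
    exact ENNReal.mul_ne_top ENNReal.ofReal_ne_top hEt
  have hfin := S.fin z hT1t hEt
  have h := damped_restart (h1 := h1) (L := L) (P := P) (z := z) (s := s) hs1 hst hfin
  rw [← S.eqn z hT1t hEt, ← S.eqn (fl z s) hs1 hEs] at h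
  exact h

/-- the mass identity times the Maxwellian -/
theorem Mx_mass {L : Om → ℝ≥0∞} (hLm : Measurable L) {z : Om} {s : ℝ} (hst : s ≤ z.1)
    (hfs : opt L z s ≠ ⊤) :
    Mx z.2.2 = dmp L z s * Mx z.2.2 +
      ∫⁻ r in Ioo s z.1, dmp L z r * (L (fl z r) * Mx z.2.2) := by
  have h := dmp_mass hLm hst hfs
  have hM : Mx z.2.2 ≠ ⊤ := by unfold Mx; exact ENNReal.ofReal_ne_top
  calc Mx z.2.2 = (dmp L z s + ∫⁻ r in Ioo s z.1, dmp L z r * L (fl z r)) * Mx z.2.2 := by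
        rw [h, one_mul]
    _ = dmp L z s * Mx z.2.2 + (∫⁻ r in Ioo s z.1, dmp L z r * L (fl z r)) * Mx z.2.2 := by
        rw [add_mul]
    _ = dmp L z s * Mx z.2.2 + ∫⁻ r in Ioo s z.1, (dmp L z r * L (fl z r)) * Mx z.2.2 := by
        rw [lintegral_mul_const' _ _ hM]
    _ = _ := by
        congr 1
        exact lintegral_congr fun r => by ring

/-- Duhamel for the distance to the Maxwellian -/
theorem TSys.duh (S : TSys T1 b E u c Sp h1 Hc L P) {lam : ℝ} {C1 : ℝ≥0} {Cf : ℝ≥0 → ℝ≥0}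
    (hE : KHyp T1 lam C1 Cf E) {T : ℝ}
    (hT : ∀ t x v, T1 ≤ t → t ≤ T → ENNReal.ofReal (u (t, x, v)) ≤ b * E t x v)
    {vs : ℝ → ℝ≥0∞}
    (cold : ∀ t x v, T1 ≤ t → t ≤ T →
      Qp (fun w => c (t, x, w)) (fun w => Hc (t, x, w)) v +
        Qp (fun w => Hc (t, x, w)) (fun w => c (t, x, w)) v + Sp (t, x, v) ≤ vs t * E t x v ∧
      Mx v * Lc (fun w => c (t, x, w)) v ≤ vs t * E t x v)
    (s t : ℝ) (x : P2) (v : R3) (hEt : E t x v ≠ ⊤) (hs1 : T1 ≤ s) (hst : s ≤ t) (htT : t ≤ T) :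
    ghf u t x v ≤ dmp L (t, x, v) s * ghf u s (x - (t - s) • bar v) v +
      ∫⁻ r in Ioo s t, dmp L (t, x, v) r * Phf u E vs r (x - (t - r) • bar v) v := by
  have hLm := S.Lm hE.meas
  have hPm := S.Pm hE.meas
  set z : Om := (t, x, v) with hz
  have hT1t : T1 ≤ t := hs1.trans hst
  have hfs : opt L z s ≠ ⊤ := ne_top_of_le_ne_top (S.fin z hT1t hEt) (opt_anti L hs1)
  have eH := S.restart hE (z := z) hs1 hst hEt
  have eM := Mx_mass hLm (z := z) hst hfs
  have hmd : Measurable fun r : ℝ => dmp L z r := meas_dmp_r hLm z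
  have hfr : Measurable fun r : ℝ => fl z r := meas_fl_r z
  have hLr : Measurable fun r : ℝ => L (fl z r) := hLm.comp hfr
  have hPr : Measurable fun r : ℝ => P (fl z r) := hPm.comp hfr
  have m1 : Measurable fun r : ℝ => dmp L z r * (L (fl z r) * Mx v) :=
    hmd.mul (hLr.mul_const _)
  have m2 : Measurable fun r : ℝ => dmp L z r * P (fl z r) := hmd.mul hPr
  have hi1 : ∫⁻ r in Ioo s t, dmp L z r * P (fl z r) ≤
      (∫⁻ r in Ioo s t, dmp L z r * (L (fl z r) * Mx v)) +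
        ∫⁻ r in Ioo s t, dmp L z r * Phf u E vs r (x - (t - r) • bar v) v := by
    rw [← lintegral_add_left m1]
    refine setLIntegral_mono' measurableSet_Ioo fun r hr => ?_
    rw [← mul_add]
    exact mul_le_mul' le_rfl (S.cmp hT cold _ v (hs1.trans hr.1.le) (hr.2.le.trans htT)).1
  have hi2 : ∫⁻ r in Ioo s t, dmp L z r * (L (fl z r) * Mx v) ≤
      (∫⁻ r in Ioo s t, dmp L z r * P (fl z r)) +
        ∫⁻ r in Ioo s t, dmp L z r * Phf u E vs r (x - (t - r) • bar v) v := by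
    rw [← lintegral_add_left m2]
    refine setLIntegral_mono' measurableSet_Ioo fun r hr => ?_
    rw [← mul_add]
    exact mul_le_mul' le_rfl (S.cmp hT cold _ v (hs1.trans hr.1.le) (hr.2.le.trans htT)).2
  refine enorm_sub_le_of (S.u0 z) (maxw_nonneg v) ?_ ?_
  · change ENNReal.ofReal (u z) ≤ Mx v + (dmp L z s * ghf u s (x - (t - s) • bar v) v +
      ∫⁻ r in Ioo s t, dmp L z r * Phf u E vs r (x - (t - r) • bar v) v)
    rw [eH]
    calc _ ≤ dmp L z s * (Mx v + ghf u s (x - (t - s) • bar v) v) +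
          ((∫⁻ r in Ioo s t, dmp L z r * (L (fl z r) * Mx v)) +
            ∫⁻ r in Ioo s t, dmp L z r * Phf u E vs r (x - (t - r) • bar v) v) :=
          add_le_add (mul_le_mul' le_rfl (ghf_le1 u s _ v)) hi1
      _ = (dmp L z s * Mx v + ∫⁻ r in Ioo s t, dmp L z r * (L (fl z r) * Mx v)) +
            (dmp L z s * ghf u s (x - (t - s) • bar v) v +
              ∫⁻ r in Ioo s t, dmp L z r * Phf u E vs r (x - (t - r) • bar v) v) := by ring
      _ = _ := by
          congr 1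
          exact eM.symm
  · change Mx v ≤ ENNReal.ofReal (u z) + (dmp L z s * ghf u s (x - (t - s) • bar v) v +
      ∫⁻ r in Ioo s t, dmp L z r * Phf u E vs r (x - (t - r) • bar v) v)
    rw [eH]
    calc Mx v = dmp L z s * Mx v + ∫⁻ r in Ioo s t, dmp L z r * (L (fl z r) * Mx v) := eM
      _ ≤ dmp L z s * (ENNReal.ofReal (u (fl z s)) + ghf u s (x - (t - s) • bar v) v) +
          ((∫⁻ r in Ioo s t, dmp L z r * P (fl z r)) +
            ∫⁻ r in Ioo s t, dmp L z r * Phf u E vs r (x - (t - r) • bar v) v) :=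
          add_le_add (mul_le_mul' le_rfl (ghf_le2 u s _ v)) hi2
      _ = _ := by ring

theorem TSys.phyp {lam : ℝ} {C1 : ℝ≥0} {Cf : ℝ≥0 → ℝ≥0} (S : TSys T1 b E u c Sp h1 Hc L P)
    (hE : KHyp T1 lam C1 Cf E) {T nu0 : ℝ} (hnu : 0 < nu0)
    (hnuM : ∀ v : R3, ENNReal.ofReal (nu0 * (1 + ‖v‖)) ≤ Lc Mx v) {CM : ℝ≥0}
    (hCM : ∀ v : R3, Mx v ≤ CM * We v ∧ w1 v * Mx v ≤ CM * We v)
    (hT : ∀ t x v, T1 ≤ t → t ≤ T → ENNReal.ofReal (u (t, x, v)) ≤ b * E t x v)
    {vs : ℝ → ℝ≥0∞} (hvs : Measurable vs)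
    (cold : ∀ t x v, T1 ≤ t → t ≤ T →
      Qp (fun w => c (t, x, w)) (fun w => Hc (t, x, w)) v +
        Qp (fun w => Hc (t, x, w)) (fun w => c (t, x, w)) v + Sp (t, x, v) ≤ vs t * E t x v ∧
      Mx v * Lc (fun w => c (t, x, w)) v ≤ vs t * E t x v) :
    PHyp T1 T nu0 (b + CM) E (ghf u) (Phf u E vs) (fun s t x v => dmp L (t, x, v) s) vs := by
  refine ⟨measurable_ghf S.um, hvs, ?_, ?_, ?_, ?_, ?_, ?_⟩
  · intro t v x k
    have h : u (t, x + latt k, v) = u (t, x, v) := S.uper t v x k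
    change ‖u (t, x + latt k, v) - maxwellian v‖ₑ = ‖u (t, x, v) - maxwellian v‖ₑ
    rw [h]
  · intro t x v h1 h2
    calc ghf u t x v ≤ ENNReal.ofReal (u (t, x, v)) + Mx v := ghf_le_add S.u0 t x v
      _ ≤ b * E t x v + CM * E t x v :=
          add_le_add (hT t x v h1 h2) ((hCM v).1.trans (mul_le_mul' le_rfl (hE.We_le t x v h1)))
      _ = _ := by push_cast; ring
  · intro t x v _ _
    exact le_rfl
  · intro s t x v
    exact dmp_le_one _ _ _
  · intro s r1 r2 t x v hEt hs1 hs2 hr hr2 htT hLc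
    exact S.damp2 hnu hnuM hT s r1 r2 t x v hEt hs1 hs2 hr hr2 htT hLc
  · intro s t x v hEt hs1 hst htT
    exact S.duh hE hT cold s t x v hEt hs1 hst htT

end

end Crest.Agent.R68.WG
end
end

-- ▼ part R68/WG3

/-!
# Row 68, PART W (helper153): continuation of the truncated solution for all times
-/

set_option autoImplicit false
open MeasureTheory Set
open scoped ENNReal NNReal
open Crest.AnalysisR.VecCalc3 Crest.AnalysisR.PDE.Boltzmann

noncomputable section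

namespace Crest.Agent.R68.WG

open Crest.Agent.R68.W Crest.Agent.R68.WA

variable {T1 : ℝ} {b : ℝ≥0} {E : ℝ → P2 → R3 → ℝ≥0∞} {u : Om → ℝ} {c Sp : Om → ℝ≥0∞}
    {h1 : P2 → R3 → ℝ≥0∞} {Hc L P : Om → ℝ≥0∞}

theorem fpi_coe : ((fpi : ℝ≥0) : ℝ≥0∞) = ENNReal.ofReal (4 * Real.pi) := rfl

/-- lower bound of the loss rate from the smallness of the density distance -/
theorem TSys.rate_ge (S : TSys T1 b E u c Sp h1 Hc L P) {T nu0 : ℝ} (hnu : 0 < nu0)
    (hnuM : ∀ v : R3, ENNReal.ofReal (nu0 * (1 + ‖v‖)) ≤ Lc Mx v)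
    (hT : ∀ t x v, T1 ≤ t → t ≤ T → ENNReal.ofReal (u (t, x, v)) ≤ b * E t x v) {del : ℝ≥0}
    (hdel : (fpi : ℝ≥0∞) * del ≤ ENNReal.ofReal (nu0 / 2)) {t : ℝ} {x : P2} (ht1 : T1 ≤ t)
    (ht2 : t ≤ T) (hN : ∫⁻ z, w1 z * ghf u t x z ≤ del) (v : R3) :
    ENNReal.ofReal (nu0 / 2) * w1 v ≤ Lc (fun w => Hc (t, x, w)) v := by
  have hm' : Measurable fun w => ENNReal.ofReal (u (t, x, w)) :=
    (S.um.comp (meas_slice t x)).ennreal_ofReal
  have e1 : Lc Mx v ≤ Lc (fun w => ENNReal.ofReal (u (t, x, w))) v + Lc (ghf u t x) v := by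
    rw [← Lc_add hm']
    exact WA.Lc_mono (ghf_le2 u t x) v
  have e2 : Lc (ghf u t x) v ≤ ENNReal.ofReal (nu0 / 2) * w1 v := by
    refine (Lc_le _ _).trans ?_
    calc ENNReal.ofReal (4 * Real.pi) * w1 v * ∫⁻ z, w1 z * ghf u t x z
        ≤ ENNReal.ofReal (4 * Real.pi) * w1 v * del := by gcongr
      _ = (fpi : ℝ≥0∞) * del * w1 v := by rw [fpi_coe]; ring
      _ ≤ _ := by gcongr
  have e3 : ENNReal.ofReal (nu0 / 2) * w1 v + ENNReal.ofReal (nu0 / 2) * w1 v ≤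
      Lc (fun w => ENNReal.ofReal (u (t, x, w))) v + ENNReal.ofReal (nu0 / 2) * w1 v := by
    calc _ = ENNReal.ofReal (nu0 * (1 + ‖v‖)) := by
          unfold w1
          rw [← ENNReal.ofReal_mul (by positivity), ← ENNReal.ofReal_add (by positivity)
            (by positivity)]
          congr 1; ring
      _ ≤ Lc Mx v := hnuM v
      _ ≤ _ := e1.trans (add_le_add le_rfl e2)
  rw [S.Hcu hT x ht1 ht2]
  refine (ENNReal.add_le_add_iff_right ?_).1 e3
  exact ENNReal.mul_ne_top ENNReal.ofReal_ne_top (w1_ne_top v)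

/-- crude growth over one step -/
theorem TSys.step (S : TSys T1 b E u c Sp h1 Hc L P) {lam : ℝ} {C1 : ℝ≥0} {Cf : ℝ≥0 → ℝ≥0}
    (hE : KHyp T1 lam C1 Cf E) (hlam : 0 ≤ lam) {T τ : ℝ} (hT1 : T1 ≤ T)
    {hs S0 : ℝ≥0} (hb : b ≠ 0)
    (hT : ∀ x v, ENNReal.ofReal (u (T, x, v)) ≤ hs * E T x v)
    {vs : ℝ → ℝ≥0∞} (hvs : Measurable vs) (hvs0 : ∫⁻ t in Ioi T1, vs t ≤ S0)
    (cold : ∀ t x v, T1 ≤ t → t ≤ T + 1 →
      Qp (fun w => c (t, x, w)) (fun w => Hc (t, x, w)) v +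
        Qp (fun w => Hc (t, x, w)) (fun w => c (t, x, w)) v + Sp (t, x, v) ≤ vs t * E t x v)
    (hτ1 : τ ≤ 1)
    (hc : ENNReal.ofReal (Real.exp (lam * τ)) * (hs + S0) + b * b * C1 * ENNReal.ofReal τ ≤ b)
    {t : ℝ} (htT : T ≤ t) (ht : t ≤ T + τ) (x : P2) (v : R3) :
    ENNReal.ofReal (u (t, x, v)) ≤ b * E t x v := by
  by_cases hEt : E t x v = ⊤
  · rw [hEt, ENNReal.mul_top (by exact_mod_cast hb)]
    exact le_top
  have hτ0 : 0 ≤ τ := by linarith
  set z : Om := (t, x, v) with hz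
  have hexp : ∀ r, T ≤ r → r ≤ t → E r (x - (t - r) • bar v) v ≤
      ENNReal.ofReal (Real.exp (lam * τ)) * E t x v := by
    intro r hr1 hr2
    refine (hE.flight r t x v (hT1.trans hr1) hr2).trans (mul_le_mul' ?_ le_rfl)
    refine ENNReal.ofReal_le_ofReal (Real.exp_le_exp.2 ?_)
    exact mul_le_mul_of_nonneg_left (by linarith) hlam
  have hHcE : ∀ r y w, Hc (r, y, w) ≤ b * E r y w := by
    intro r y w
    rw [S.Hc_eq]; exact min_le_right _ _
  have e0 := S.restart hE (z := z) hT1 htT hEt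
  have e1 : dmp L z T * ENNReal.ofReal (u (fl z T)) ≤
      ENNReal.ofReal (Real.exp (lam * τ)) * hs * E t x v := by
    calc dmp L z T * ENNReal.ofReal (u (fl z T)) ≤ 1 * (hs * E T (x - (t - T) • bar v) v) :=
          mul_le_mul' (dmp_le_one _ _ _) (hT _ _)
      _ ≤ 1 * (hs * (ENNReal.ofReal (Real.exp (lam * τ)) * E t x v)) := by
          gcongr; exact hexp T le_rfl htT
      _ = _ := by ring
  have e2 : ∫⁻ r in Ioo T t, dmp L z r * P (fl z r) ≤
      (b * b * C1 * ENNReal.ofReal τ) * E t x v +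
        ENNReal.ofReal (Real.exp (lam * τ)) * S0 * E t x v := by
    have e3 : ∀ r ∈ Ioo T t, dmp L z r * P (fl z r) ≤
        b * b * C1 * E t x v + vs r * (ENNReal.ofReal (Real.exp (lam * τ)) * E t x v) := by
      intro r hr
      have hr1 : T1 ≤ r := hT1.trans hr.1.le
      set y : P2 := x - (t - r) • bar v with hy
      have hP : P (fl z r) ≤ b * b * C1 * We v + vs r * E r y v := by
        rw [S.P_eq]
        change Qp (fun w => Hc (r, y, w)) (fun w => Hc (r, y, w)) v +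
          Qp (fun w => c (r, y, w)) (fun w => Hc (r, y, w)) v +
          Qp (fun w => Hc (r, y, w)) (fun w => c (r, y, w)) v + Sp (r, y, v) ≤ _
        have a1 : Qp (fun w => Hc (r, y, w)) (fun w => Hc (r, y, w)) v ≤ b * b * C1 * We v := by
          calc _ ≤ Qp (fun w => b * E r y w) (fun w => b * E r y w) v :=
                WA.Qp_mono (hHcE r y) (hHcE r y) v
            _ = b * (b * Qp (E r y) (E r y) v) := by
                rw [WA.Qp_smul_left ENNReal.coe_ne_top, WA.Qp_smul_right ENNReal.coe_ne_top]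
            _ ≤ b * (b * (C1 * We v)) := by gcongr; exact hE.gain r y v hr1
            _ = _ := by ring
        have a2 := cold r y v hr1 (by linarith [hr.2])
        calc _ = Qp (fun w => Hc (r, y, w)) (fun w => Hc (r, y, w)) v +
            (Qp (fun w => c (r, y, w)) (fun w => Hc (r, y, w)) v +
              Qp (fun w => Hc (r, y, w)) (fun w => c (r, y, w)) v + Sp (r, y, v)) := by ring
          _ ≤ _ := add_le_add a1 a2
      calc dmp L z r * P (fl z r) ≤ 1 * (b * b * C1 * We v + vs r * E r y v) :=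
            mul_le_mul' (dmp_le_one _ _ _) hP
        _ ≤ 1 * (b * b * C1 * E t x v + vs r * (ENNReal.ofReal (Real.exp (lam * τ)) * E t x v)) := by
            gcongr
            · exact hE.We_le t x v (hT1.trans htT)
            · exact hexp r hr.1.le hr.2.le
        _ = _ := one_mul _
    calc ∫⁻ r in Ioo T t, dmp L z r * P (fl z r)
        ≤ ∫⁻ r in Ioo T t, (b * b * C1 * E t x v +
            vs r * (ENNReal.ofReal (Real.exp (lam * τ)) * E t x v)) :=
          setLIntegral_mono' measurableSet_Ioo e3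
      _ = b * b * C1 * E t x v * ENNReal.ofReal (t - T) +
            (∫⁻ r in Ioo T t, vs r) * (ENNReal.ofReal (Real.exp (lam * τ)) * E t x v) := by
          rw [lintegral_add_left measurable_const, setLIntegral_const, Real.volume_Ioo,
            lintegral_mul_const _ hvs]
      _ ≤ b * b * C1 * E t x v * ENNReal.ofReal τ +
            S0 * (ENNReal.ofReal (Real.exp (lam * τ)) * E t x v) := by
          gcongr
          · linarith
          · refine (lintegral_mono_set ?_).trans hvs0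
            intro r hr
            exact lt_of_le_of_lt hT1 hr.1
      _ = _ := by ring
  calc ENNReal.ofReal (u z) = dmp L z T * ENNReal.ofReal (u (fl z T)) +
        ∫⁻ r in Ioo T z.1, dmp L z r * P (fl z r) := e0
    _ ≤ ENNReal.ofReal (Real.exp (lam * τ)) * hs * E t x v +
        ((b * b * C1 * ENNReal.ofReal τ) * E t x v +
        ENNReal.ofReal (Real.exp (lam * τ)) * S0 * E t x v) := add_le_add e1 e2
    _ = (ENNReal.ofReal (Real.exp (lam * τ)) * (hs + S0) + b * b * C1 * ENNReal.ofReal τ) *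
          E t x v := by ring
    _ ≤ _ := by gcongr

/-- **Continuation theorem.** -/
theorem global {nu0 lam : ℝ} (hnu : 0 < nu0) (hlam : 0 ≤ lam) (hln : lam ≤ nu0 / 2)
    (hnuM : ∀ v : R3, ENNReal.ofReal (nu0 * (1 + ‖v‖)) ≤ Lc Mx v)
    (C1 : ℝ≥0) (Cf C8 : ℝ≥0 → ℝ≥0) (htr : Trans C8) (A : ℝ≥0) :
    ∃ (hs : ℝ≥0) (ell : ℝ) (del e0 d0 S0 : ℝ≥0), 1 ≤ hs ∧ 0 < ell ∧ ell ≤ 1 ∧ 0 < del ∧ 0 < e0 ∧
      0 < d0 ∧ 0 < S0 ∧
      ∀ (T1 : ℝ) (E : ℝ → P2 → R3 → ℝ≥0∞) (u : Om → ℝ) (c Sp : Om → ℝ≥0∞)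
        (h1 : P2 → R3 → ℝ≥0∞) (Hc L P : Om → ℝ≥0∞) (vs : ℝ → ℝ≥0∞),
        KHyp T1 lam C1 Cf E → TSys T1 (2 * hs) E u c Sp h1 Hc L P → Measurable vs →
        (∫⁻ t in Ioi T1, vs t ≤ S0) →
        (∀ x v, ghf u T1 x v ≤ A * E T1 x v) →
        (∀ t x, T1 + ell ≤ t → ENNReal.ofReal (Real.exp (-(nu0 / 2 * (t - (T1 + ell))))) *
          ∫⁻ v, w1 v * ghf u T1 (x - (t - T1) • bar v) v ≤ d0) →
        (∀ T, T1 ≤ T → (∀ t x v, T1 ≤ t → t ≤ T →
            ENNReal.ofReal (u (t, x, v)) ≤ (2 * hs : ℝ≥0) * E t x v) →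
          ∀ s, T1 ≤ s → s ≤ T → ∫⁻ y in cellG, ∫⁻ z, ghf u s y z ≤
            e0 + ∫⁻ y in cellG, ∫⁻ z, c (s, y, z)) →
        (∀ T, T1 ≤ T → (∀ t x v, T1 ≤ t → t ≤ T →
            ENNReal.ofReal (u (t, x, v)) ≤ (2 * hs : ℝ≥0) * E t x v) →
          (∀ t x v, T1 + ell ≤ t → t ≤ T →
            ENNReal.ofReal (nu0 / 2) * w1 v ≤ Lc (fun w => Hc (t, x, w)) v) →
          (∀ t x v, T1 ≤ t → t ≤ T + 1 →
            Qp (fun w => c (t, x, w)) (fun w => Hc (t, x, w)) v +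
              Qp (fun w => Hc (t, x, w)) (fun w => c (t, x, w)) v + Sp (t, x, v) ≤ vs t * E t x v ∧
            Mx v * Lc (fun w => c (t, x, w)) v ≤ vs t * E t x v) ∧
          (∀ t, T1 ≤ t → t ≤ T + 1 → ∫⁻ y in cellG, ∫⁻ z, c (t, y, z) ≤ e0)) →
        (∀ t x v, T1 ≤ t → ENNReal.ofReal (u (t, x, v)) ≤ hs * E t x v) ∧
        (∀ t x v, T1 ≤ t → ghf u t x v ≤ (2 * A + 2 : ℝ≥0) * E t x v) ∧
        (∀ t x, T1 + ell ≤ t → ∫⁻ z, w1 z * ghf u t x z ≤ del) ∧
        (∀ t x v, T1 + ell ≤ t →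
            ENNReal.ofReal (nu0 / 2) * w1 v ≤ Lc (fun w => Hc (t, x, w)) v) := by
  obtain ⟨CM, hCM1, hCM⟩ := exists_CM
  set hs : ℝ≥0 := CM + (2 * A + 2) with hhs
  have hs1 : 1 ≤ hs := hCM1.trans le_self_add
  have hs0 : hs ≠ 0 := (lt_of_lt_of_le one_pos hs1).ne'
  obtain ⟨b, hb⟩ : ∃ b : ℝ≥0, b = 2 * hs := ⟨_, rfl⟩
  have hb0 : b ≠ 0 := by rw [hb]; exact mul_ne_zero two_ne_zero hs0
  obtain ⟨ell, del, e0', d0, S0', hell, hell1, hdel, he0', hd0, hS0', hdelf, key⟩ :=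
    apriori2 hnu hlam hln C1 Cf C8 htr A (b + CM) (by positivity)
  obtain ⟨e0, he0, he0e⟩ : ∃ e0 : ℝ≥0, 0 < e0 ∧ e0 + e0 = e0' :=
    ⟨e0' / 2, by positivity, add_halves e0'⟩
  set S0 : ℝ≥0 := min S0' (1 / 8) with hS0
  have hS00 : 0 < S0 := lt_min hS0' (by norm_num)
  -- the time step
  obtain ⟨τ, hτ, hτ1, hτ2, hτ3⟩ : ∃ τ : ℝ, 0 < τ ∧ τ ≤ 1 ∧ Real.exp (lam * τ) ≤ 5 / 4 ∧
      (b : ℝ) * b * C1 * τ ≤ 1 / 4 := by
    have hB : (0 : ℝ) ≤ (b : ℝ) * b * C1 := by positivity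
    refine ⟨1 / (5 * (lam + (b : ℝ) * b * C1 + 1)), by positivity, ?_, ?_, ?_⟩
    · rw [div_le_one (by positivity)]; linarith
    · have h1 : lam * (1 / (5 * (lam + (b : ℝ) * b * C1 + 1))) ≤ 1 / 5 := by
        rw [mul_one_div, div_le_div_iff₀ (by positivity) (by norm_num)]
        nlinarith
      calc Real.exp (lam * (1 / (5 * (lam + (b : ℝ) * b * C1 + 1)))) ≤ Real.exp (1 / 5) :=
            Real.exp_le_exp.2 h1
        _ ≤ 5 / 4 := by
            have h3 : Real.exp (1 / 5) ^ 5 = Real.exp 1 := by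
              rw [← Real.exp_nat_mul]; norm_num
            have h4 := Real.exp_one_lt_d9
            by_contra h
            push Not at h
            have h5 : (5 / 4 : ℝ) ^ 5 < Real.exp (1 / 5) ^ 5 :=
              pow_lt_pow_left₀ h (by norm_num) (by norm_num)
            rw [h3] at h5
            norm_num at h5
            linarith
    · rw [mul_one_div, div_le_div_iff₀ (by positivity) (by norm_num)]
      nlinarith
  have hcst : ENNReal.ofReal (Real.exp (lam * τ)) * (hs + S0) + b * b * C1 * ENNReal.ofReal τ ≤ b := by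
    have a1 : ENNReal.ofReal (Real.exp (lam * τ)) ≤ ENNReal.ofReal (5 / 4) :=
      ENNReal.ofReal_le_ofReal hτ2
    have a2 : (b : ℝ≥0∞) * b * C1 * ENNReal.ofReal τ ≤ ENNReal.ofReal (1 / 4) := by
      have : (b : ℝ≥0∞) * b * C1 = ENNReal.ofReal ((b : ℝ) * b * C1) := by
        rw [ENNReal.ofReal_mul (by positivity), ENNReal.ofReal_mul (by positivity),
          ENNReal.ofReal_coe_nnreal, ENNReal.ofReal_coe_nnreal]
      rw [this, ← ENNReal.ofReal_mul (by positivity)]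
      exact ENNReal.ofReal_le_ofReal hτ3
    have a3 : (hs : ℝ≥0∞) + S0 = ENNReal.ofReal ((hs : ℝ) + S0) := by
      rw [ENNReal.ofReal_add (by positivity) (by positivity), ENNReal.ofReal_coe_nnreal,
        ENNReal.ofReal_coe_nnreal]
    calc _ ≤ ENNReal.ofReal (5 / 4) * ENNReal.ofReal ((hs : ℝ) + S0) + ENNReal.ofReal (1 / 4) := by
          rw [← a3]; gcongr
      _ = ENNReal.ofReal (5 / 4 * ((hs : ℝ) + S0) + 1 / 4) := by
          rw [← ENNReal.ofReal_mul (by norm_num), ← ENNReal.ofReal_add (by positivity)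
            (by norm_num)]
      _ ≤ ENNReal.ofReal (b : ℝ) := by
          refine ENNReal.ofReal_le_ofReal ?_
          have b1 : (S0 : ℝ) ≤ 1 / 8 := by
            have : S0 ≤ 1 / 8 := min_le_right _ _
            exact_mod_cast this
          have b2 : (1 : ℝ) ≤ hs := by exact_mod_cast hs1
          have b3 : (b : ℝ) = 2 * hs := by rw [hb]; push_cast; ring
          rw [b3]
          linarith
      _ = _ := ENNReal.ofReal_coe_nnreal
  refine ⟨hs, ell, del, e0, d0, S0, hs1, hell, hell1, hdel, he0, hd0, hS00, ?_⟩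
  intro T1 E u c Sp h1 Hc L P vs hE S hvs hvs0 hA hD hent hcold
  rw [← hb] at S hent hcold
  -- conclusions on [T1, T] from the crude bound on [T1, T]
  have concl : ∀ T, T1 ≤ T →
      (∀ t x v, T1 ≤ t → t ≤ T → ENNReal.ofReal (u (t, x, v)) ≤ b * E t x v) →
      (∀ t x v, T1 ≤ t → t ≤ T →
        Qp (fun w => c (t, x, w)) (fun w => Hc (t, x, w)) v +
          Qp (fun w => Hc (t, x, w)) (fun w => c (t, x, w)) v + Sp (t, x, v) ≤ vs t * E t x v ∧
        Mx v * Lc (fun w => c (t, x, w)) v ≤ vs t * E t x v) →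
      (∀ t, T1 ≤ t → t ≤ T → ∫⁻ y in cellG, ∫⁻ z, c (t, y, z) ≤ e0) →
      (∀ t x v, T1 ≤ t → t ≤ T → ghf u t x v ≤ (2 * A + 2 : ℝ≥0) * E t x v) ∧
      (∀ t x, T1 + ell ≤ t → t ≤ T → ∫⁻ z, w1 z * ghf u t x z ≤ del) := by
    intro T hT hu hc hm
    have hP := S.phyp hE hnu hnuM hCM hu hvs hc
    refine key T1 T E (ghf u) _ _ vs hE hP hA (fun t x h1 _ => hD t x h1)
      (fun s h1 h2 => ?_) ?_
    · refine (hent T hT hu s h1 h2).trans ?_
      rw [← he0e]
      push_cast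
      exact add_le_add le_rfl (hm s h1 h2)
    refine (lintegral_mono_set (fun r hr => hr.1)).trans (hvs0.trans ?_)
    exact_mod_cast min_le_left _ _
  have hHle : ∀ t x v, T1 ≤ t → ghf u t x v ≤ (2 * A + 2 : ℝ≥0) * E t x v →
      ENNReal.ofReal (u (t, x, v)) ≤ hs * E t x v := by
    intro t x v ht hg
    calc ENNReal.ofReal (u (t, x, v)) ≤ Mx v + ghf u t x v := ghf_le1 u t x v
      _ ≤ CM * E t x v + (2 * A + 2 : ℝ≥0) * E t x v :=
          add_le_add ((hCM v).1.trans (mul_le_mul' le_rfl (hE.We_le t x v ht))) hg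
      _ = _ := by rw [hhs]; push_cast; ring
  have hsb : ∀ t x v, (hs : ℝ≥0∞) * E t x v ≤ b * E t x v := by
    intro t x v
    gcongr
    rw [hb, two_mul]
    exact le_self_add
  -- induction
  have main : ∀ n : ℕ,
      (∀ t x v, T1 ≤ t → t ≤ T1 + n * τ → ENNReal.ofReal (u (t, x, v)) ≤ hs * E t x v) ∧
      (∀ t x v, T1 ≤ t → t ≤ T1 + n * τ → ghf u t x v ≤ (2 * A + 2 : ℝ≥0) * E t x v) ∧
      (∀ t x, T1 + ell ≤ t → t ≤ T1 + n * τ → ∫⁻ z, w1 z * ghf u t x z ≤ del) := by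
    intro n
    induction n with
    | zero =>
      have hz : T1 + ((0 : ℕ) : ℝ) * τ = T1 := by simp
      rw [hz]
      have h2 : ∀ t x v, T1 ≤ t → t ≤ T1 → ghf u t x v ≤ (2 * A + 2 : ℝ≥0) * E t x v := by
        intro t x v h1 h2
        have : t = T1 := le_antisymm h2 h1
        subst this
        refine (hA x v).trans ?_
        gcongr
        calc A ≤ A + (A + 2) := le_self_add
          _ = 2 * A + 2 := by ring
      refine ⟨fun t x v h1 h3 => hHle t x v h1 (h2 t x v h1 h3), h2, ?_⟩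
      intro t x h1 h3
      exact absurd (h1.trans h3) (by linarith)
    | succ n ih =>
      obtain ⟨i1, i2, i3⟩ := ih
      set T : ℝ := T1 + n * τ with hT
      have hT1 : T1 ≤ T := by rw [hT]; have : (0 : ℝ) ≤ n * τ := by positivity
                              linarith
      have hub : ∀ t x v, T1 ≤ t → t ≤ T → ENNReal.ofReal (u (t, x, v)) ≤ b * E t x v :=
        fun t x v a1 a2 => (i1 t x v a1 a2).trans (hsb t x v)
      have hrate : ∀ t x v, T1 + ell ≤ t → t ≤ T →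
            ENNReal.ofReal (nu0 / 2) * w1 v ≤ Lc (fun w => Hc (t, x, w)) v :=
        fun t x v a1 a2 => S.rate_ge hnu hnuM hub hdelf (by linarith) a2 (i3 t x a1 a2) v
      have hcb := hcold T hT1 hub hrate
      have hT' : T1 + ((n + 1 : ℕ) : ℝ) * τ = T + τ := by rw [hT]; push_cast; ring
      rw [hT']
      have hub' : ∀ t x v, T1 ≤ t → t ≤ T + τ → ENNReal.ofReal (u (t, x, v)) ≤ b * E t x v := by
        intro t x v a1 a2
        rcases le_total t T with a3 | a3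
        · exact hub t x v a1 a3
        · exact S.step hE hlam hT1 hb0 (fun x v => i1 T x v hT1 le_rfl) hvs hvs0
            (fun t x v a1 a2 => (hcb.1 t x v a1 a2).1) hτ1 hcst a3 a2 x v
      have hc := concl (T + τ) (by linarith) hub'
        (fun t x v a1 a2 => hcb.1 t x v a1 (by linarith))
        (fun t a1 a2 => hcb.2 t a1 (by linarith))
      exact ⟨fun t x v a1 a2 => hHle t x v a1 (hc.1 t x v a1 a2), hc.1, hc.2⟩
  have hex : ∀ t : ℝ, ∃ n : ℕ, t ≤ T1 + n * τ := by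
    intro t
    obtain ⟨n, hn⟩ := exists_nat_gt ((t - T1) / τ)
    refine ⟨n, ?_⟩
    rw [div_lt_iff₀ hτ] at hn
    linarith
  have r1 : ∀ t x v, T1 ≤ t → ENNReal.ofReal (u (t, x, v)) ≤ hs * E t x v := by
    intro t x v a1
    obtain ⟨n, hn⟩ := hex t
    exact (main n).1 t x v a1 hn
  have r3 : ∀ t x, T1 + ell ≤ t → ∫⁻ z, w1 z * ghf u t x z ≤ del := by
    intro t x a1
    obtain ⟨n, hn⟩ := hex t
    exact (main n).2.2 t x a1 hn
  refine ⟨r1, ?_, r3, ?_⟩
  · intro t x v a1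
    obtain ⟨n, hn⟩ := hex t
    exact (main n).2.1 t x v a1 hn
  · intro t x v a1
    exact S.rate_ge hnu hnuM (fun t x v b1 _ => (r1 t x v b1).trans (hsb t x v)) hdelf
      (by linarith) (le_refl t) (r3 t x a1) v

end Crest.Agent.R68.WG
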