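import Crest.Agent.R68.WD
import Crest.Agent.R68.WProps
import Crest.Agent.R68.WG3
import Crest.Agent.R68.WB7
import Crest.Agent.R68.WE3
import Crest.Agent.R68.WK6
import Crest.Agent.R68.NDefs

-- ▼ part R68/WDataOut
section

/-!
# Row 68, PART W (helper835): `DataOut_holds`.
-/

set_option autoImplicit false
open MeasureTheory Set Filter
open scoped ENNReal NNReal Topology
open Crest.AnalysisR.VecCalc3 Crest.AnalysisR.PDE.Boltzmann

noncomputable section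

namespace Crest.Agent.R68.WP

open WA DPole N Main0

/-- a finite constant times something tending to zero -/
theorem ev_small {ι : Type*} {l : Filter ι} {f : ι → ℝ} (hf : Tendsto f l (𝓝 0)) {C : ℝ≥0∞}
    (hC : C ≠ ⊤) {d : ℝ} (hd : 0 < d) : ∀ᶠ i in l, ENNReal.ofReal (f i) * C ≤ ENNReal.ofReal d := by
  have h1 : Tendsto (fun i => f i * C.toReal) l (𝓝 0) := by simpa using hf.mul_const C.toReal
  filter_upwards [h1.eventually (ge_mem_nhds hd)] with i hi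
  rw [← ENNReal.ofReal_toReal hC, ← ENNReal.ofReal_mul' ENNReal.toReal_nonneg]
  exact ENNReal.ofReal_le_ofReal hi

theorem tendsto_tail : Tendsto (fun R : ℝ => Real.exp 2 * Real.exp (-(R / 2))) atTop (𝓝 0) := by
  have h1 : Tendsto (fun R : ℝ => R / 2) atTop atTop := tendsto_id.atTop_div_const (by norm_num)
  have h2 := (Real.tendsto_exp_neg_atTop_nhds_zero.comp h1).const_mul (Real.exp 2)
  simpa [Function.comp_def] using h2

theorem tendsto_rhj : Tendsto rhj atTop (𝓝 0) := by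
  unfold rhj
  exact tendsto_rpow (by norm_num)

theorem DataOut_holds {Y : ℝ} (hY : 0 < Y) : DataOut Y := by
  refine ⟨2, ?_⟩
  intro K ey hK hey hey'
  refine Eventually.of_forall fun p => ?_
  intro ell d0 hell hd0
  have hd4 : 0 < d0 / 4 := by positivity
  obtain ⟨R0, hR0⟩ := eventually_atTop.1 (ev_small tendsto_tail J2W_ne_top hd4)
  refine ⟨R0, fun R hR => ?_⟩
  -- eps
  have hCe : ENNReal.ofReal (Real.exp 50) * ENNReal.ofReal (Real.exp (1 / 8 * ell)) *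
      (C1E Y (1 / 8) : ℝ≥0∞) ≠ ⊤ :=
    ENNReal.mul_ne_top (ENNReal.mul_ne_top ENNReal.ofReal_ne_top ENNReal.ofReal_ne_top)
      ENNReal.coe_ne_top
  have hev : ∀ᶠ e : ℝ in 𝓝[>] 0, ENNReal.ofReal e * (ENNReal.ofReal (Real.exp 50) *
      ENNReal.ofReal (Real.exp (1 / 8 * ell)) * (C1E Y (1 / 8) : ℝ≥0∞)) ≤ ENNReal.ofReal (d0 / 4) :=
    ev_small (tendsto_id.mono_left nhdsWithin_le_nhds) hCe hd4
  have hev2 : ∀ᶠ e : ℝ in 𝓝[>] 0, e ≤ Real.exp (-50) :=
    (tendsto_id.mono_left nhdsWithin_le_nhds).eventually (ge_mem_nhds (Real.exp_pos _))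
  have hev3 : ∀ᶠ e : ℝ in 𝓝[>] (0 : ℝ), 0 < e := eventually_mem_nhdsWithin
  obtain ⟨e, he1, he2, he3⟩ := (hev.and (hev2.and hev3)).exists
  refine ⟨e, he3, ?_⟩
  -- r
  set r : ℝ≥0 := Real.toNNReal R0 with hr
  have hrR : R0 ≤ (r : ℝ) := Real.le_coe_toNNReal R0
  -- hole
  have hhole : Tendsto (fun j0 : ℕ => 4 * rhj j0 ^ 2) atTop (𝓝 0) := by
    simpa using (tendsto_rhj.pow 2).const_mul 4
  have hCh : (ENNReal.ofReal (Real.exp 2) * (((Real.toNNReal (2 * r * (4 + 36 * r ^ 2)) : ℝ≥0) :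
      ℝ≥0∞) * (1 + ENNReal.ofReal (1 / ell ^ 2)))) ≠ ⊤ := by
    refine ENNReal.mul_ne_top ENNReal.ofReal_ne_top (ENNReal.mul_ne_top ENNReal.coe_ne_top ?_)
    exact ENNReal.add_ne_top.2 ⟨ENNReal.one_ne_top, ENNReal.ofReal_ne_top⟩
  filter_upwards [ev_small hhole hCh hd4, ev_ParD K Y ey p hY,
    ev_T1_le (show (0 : ℝ) < 1 / 4 by norm_num), ev_pos] with j0 h1 h2 h3 h4
  obtain ⟨h4, h5, h6⟩ := h4
  intro h hm hclose
  refine ⟨fun x v => ?_, fun t x ht => ?_⟩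
  · exact data_pointwise h6.le h3 (by norm_num) he2 hclose x v
  · have h7 := data_density (nu0 := 1) (lam := 1 / 8) h2 (by norm_num) (by norm_num) hell h6.le h3
      (by norm_num) h5.le hclose r ht x
    refine h7.trans ?_
    have e1 := he1
    have e2 := hR0 R hR
    have e3 := hR0 r hrR
    have e4 : ENNReal.ofReal (Real.exp 2) * (((Real.toNNReal (2 * r * (4 + 36 * r ^ 2)) : ℝ≥0) :
        ℝ≥0∞) * (1 + ENNReal.ofReal (1 / ell ^ 2)) * ENNReal.ofReal (4 * rhj j0 ^ 2)) ≤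
        ENNReal.ofReal (d0 / 4) := by
      refine le_trans (le_of_eq ?_) h1
      ring
    calc _ ≤ ENNReal.ofReal (d0 / 4) + ENNReal.ofReal (d0 / 4) + ENNReal.ofReal (d0 / 4) +
          ENNReal.ofReal (d0 / 4) := add_le_add (add_le_add (add_le_add e1 e2) e3) e4
      _ = ENNReal.ofReal d0 := by
        rw [← ENNReal.ofReal_add hd4.le hd4.le, ← ENNReal.ofReal_add (by positivity) hd4.le,
          ← ENNReal.ofReal_add (by positivity) hd4.le]
        congr 1; ring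

end Crest.Agent.R68.WP
end
end

-- ▼ part R68/WOutA
section

/-!
# Row 68, PART W (helper835): the assembly of `WOut` from its inputs.
-/

set_option autoImplicit false
open MeasureTheory Set Filter
open scoped ENNReal NNReal Topology
open Crest.AnalysisR.VecCalc3 Crest.AnalysisR.PDE.Boltzmann

noncomputable section

namespace Crest.Agent.R68.WP

open Crest.Agent.R68.A (en Meas3)
open WA DPole N Main0
open Crest.Agent.R68.W (Om damped THyp)

/-- loss rate of the cold component: `lamA` before `T1`, the own one after -/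
def lamG (T1 : ℝ) (lamA Hh : Fld) : Fld := fun t x v =>
  open scoped Classical in if T1 ≤ t then Lc (Hh t x) v else lamA t x v

/-- the damped equation of the hot component on `[T1,T]` -/
def HEq (T1 : ℝ) (E : Fld) (h1 : P2 → R3 → ℝ≥0∞) (cf sp : Fld → Fld) (lam Hh : Fld) (T : ℝ) : Prop :=
  ∀ t x v, T1 ≤ t → t ≤ T → E t x v ≠ ⊤ →
    Hh t x v = damped T1 h1
      (fun z => lossH (cf lam) Hh z.1 z.2.1 z.2.2)
      (fun z => gainH (cf lam) (sp lam) Hh z.1 z.2.1 z.2.2) (t, x, v)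

/-- **(helper153, `WG.main`)**: global existence after `T1`. -/
def GMain (Y : ℝ) : Prop :=
  ∀ A : ℝ≥0, ∃ (b1 b2 : ℝ≥0) (ell e0 d0 S0 : ℝ), 0 < ell ∧ 0 < e0 ∧ 0 < d0 ∧ 0 < S0 ∧
    ∀ P : Par, ParD P → P.Y = Y → ∀ T1 : ℝ, 0 ≤ T1 → T1 ≤ 1 →
    ∀ (A' : ℝ) (N0 : Fld) (h1 : P2 → R3 → ℝ≥0∞) (lamA : Fld) (cf sp : Fld → Fld) (vs : ℝ → ℝ≥0∞),
      THyp T1 (1 / 8) Y A' (EW P (1 / 8) T1) N0 h1 lamA cf sp → Measurable vs →
      (∫⁻ t in Ioi T1, vs t) ≤ ENNReal.ofReal S0 →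
      (∀ x v, dd (h1 x v) (Mx v) ≤ A * EW P (1 / 8) T1 T1 x v) →
      (∀ t x, T1 + ell ≤ t → ENNReal.ofReal (Real.exp (-(1 / 2 * (t - (T1 + ell))))) *
          ∫⁻ v, w1 v * dd (h1 (x - (t - T1) • bar v) v) (Mx v) ≤ ENNReal.ofReal d0) →
      (∀ lam : Fld, Meas3 lam → PerF lam → ∀ T : ℝ, T1 ≤ T →
        (∀ t x v, T1 + ell ≤ t → t ≤ T → ENNReal.ofReal (1 / 2) * w1 v ≤ lam t x v) →
        (∀ t x v, T1 ≤ t → t ≤ T + 1 →
          Qp (cf lam t x) (EW P (1 / 8) T1 t x) v + Qp (EW P (1 / 8) T1 t x) (cf lam t x) v +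
            sp lam t x v + Mx v * Lc (cf lam t x) v ≤ vs t * EW P (1 / 8) T1 t x v) ∧
        (∀ t, T1 ≤ t → t ≤ T + 1 →
          ∫⁻ y in cellG, ∫⁻ v, cf lam t y v ≤ ENNReal.ofReal e0)) →
      (∀ (Hh : Fld) (T : ℝ), T1 ≤ T → Meas3 Hh → PerF Hh →
        (∀ t x v, T1 ≤ t → Hh t x v ≤ b1 * EW P (1 / 8) T1 t x v) →
        HEq T1 (EW P (1 / 8) T1) h1 cf sp (lamG T1 lamA Hh) Hh T →
        ∀ s, T1 ≤ s → s ≤ T → ∫⁻ y in cellG, ∫⁻ v,
          dd (cf (lamG T1 lamA Hh) s y v + Hh s y v) (Mx v) ≤ ENNReal.ofReal e0) →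
      ∃ Hh : Fld, Meas3 Hh ∧ PerF Hh ∧
        (∀ t x v, T1 ≤ t → Hh t x v ≤ b2 * EW P (1 / 8) T1 t x v) ∧
        ∀ T, HEq T1 (EW P (1 / 8) T1) h1 cf sp (lamG T1 lamA Hh) Hh T

/-! ### Small facts -/

theorem meas3_LcF {F : Fld} (hF : Meas3 F) : Meas3 (LcF F) := A.meas3_Lc hF

theorem perF_LcF {F : Fld} (hF : PerF F) : PerF (LcF F) := by
  intro t v x k
  show Lc (F t (x + latt k)) v = Lc (F t x) v
  congr 1
  funext z
  exact hF t z x k

theorem meas3_Hgl {H0 : P2 → R3 → ℝ≥0∞} {T1 : ℝ} {H Hh : Fld}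
    (h0 : Measurable fun q : P2 × R3 => H0 q.1 q.2) (hH : Meas3 H) (hHh : Meas3 Hh) :
    Meas3 (Hgl H0 T1 H Hh) := by
  classical
  unfold Hgl Meas3
  refine Measurable.ite (measurableSet_le measurable_fst measurable_const) ?_ ?_
  · exact h0.comp (g := fun q : P2 × R3 => H0 q.1 q.2) measurable_snd
  · exact Measurable.ite (measurableSet_lt measurable_fst measurable_const) hH hHh

theorem perF_Hgl {H0 : P2 → R3 → ℝ≥0∞} {T1 : ℝ} {H Hh : Fld}
    (h0 : ∀ v, PerG fun x => H0 x v) (hH : PerF H) (hHh : PerF Hh) :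
    PerF (Hgl H0 T1 H Hh) := by
  intro t v x k
  have e1 : H0 (x + latt k) v = H0 x v := h0 v x k
  have e2 : H t (x + latt k) v = H t x v := hH t v x k
  have e3 : Hh t (x + latt k) v = Hh t x v := hHh t v x k
  simp only [Hgl, e1, e2, e3]

theorem lamG_Hgl {H0 : P2 → R3 → ℝ≥0∞} {T1 : ℝ} (hT1 : 0 < T1) (H Hh : Fld) :
    lamG T1 (LcF (Hgl H0 T1 H 0)) Hh = LcF (Hgl H0 T1 H Hh) := by
  classical
  funext t x v
  unfold lamG LcF
  by_cases h : T1 ≤ t
  · rw [if_pos h]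
    congr 1
    funext z
    unfold Hgl
    rw [if_neg (not_le.2 (hT1.trans_le h)), if_neg (not_lt.2 h)]
  · rw [if_neg h]
    congr 1
    funext z
    unfold Hgl
    rw [if_pos (not_le.1 h), if_pos (not_le.1 h)]

theorem mildGOn_mono {G : ℝ → P2 → R3 → ℝ} {G0 : P2 → R3 → ℝ} {R T T' : ℝ} (hT : T' ≤ T)
    (h : MildGOn G G0 R T) : MildGOn G G0 R T' :=
  ⟨h.datum, h.meas, h.nonneg, h.per, h.init, fun t h0 h1 => h.mild t h0 (h1.trans hT), fun k =>
    lt_of_le_of_lt (lintegral_mono_set (prod_mono_left (Ioo_subset_Ioo_right hT))) (h.int k)⟩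

theorem mildG_of_ge {G : ℝ → P2 → R3 → ℝ} {G0 : P2 → R3 → ℝ} {R T1 : ℝ}
    (h : ∀ T, T1 ≤ T → MildGOn G G0 R T) : MildG G G0 R :=
  mildG_of_on fun TT => mildGOn_mono (le_max_left TT T1) (h _ (le_max_right TT T1))

/-- the L¹ distance in terms of `dd` -/
theorem dd_eq_enorm {F : ℝ≥0∞} (hF : F ≠ ⊤) (v : R3) :
    dd F (Mx v) = ‖F.toReal - maxwellian v‖ₑ := by
  have hM : 0 ≤ maxwellian v := (WA.maxwellian_pos v).le
  unfold dd Mx
  rw [← ENNReal.ofReal_toReal hF, ENNReal.toReal_ofReal ENNReal.toReal_nonneg,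
    ← ENNReal.ofReal_sub _ hM, ← ENNReal.ofReal_sub _ ENNReal.toReal_nonneg]
  rcases le_total F.toReal (maxwellian v) with h | h
  · rw [ENNReal.ofReal_of_nonpos (sub_nonpos.2 h), zero_add, ← ofReal_norm, Real.norm_eq_abs,
      abs_of_nonpos (sub_nonpos.2 h), neg_sub]
  · rw [ENNReal.ofReal_of_nonpos (sub_nonpos.2 h), add_zero, ← ofReal_norm, Real.norm_eq_abs,
      abs_of_nonneg (sub_nonneg.2 h)]

/-- the entropy step -/
theorem ent_of_mild {F : Fld} {G0 : P2 → R3 → ℝ} {R T s e0 : ℝ} (hs0 : 0 ≤ s) (hsT : s ≤ T)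
    (h : MildGOn (fun t x v => (F t x v).toReal) G0 R T)
    (hfin : ∀ x, ∀ᵐ v, F s x v ≠ ⊤) (he0 : 0 < e0)
    (hent : relEntG G0 ≤ ENNReal.ofReal ((e0 / 3) ^ 2))
    (hmass : ∫⁻ q in cellG ×ˢ (univ : Set R3), ENNReal.ofReal (G0 q.1 q.2) ≤ 2) :
    ∫⁻ y in cellG, ∫⁻ v, dd (F s y v) (Mx v) ≤ ENNReal.ofReal e0 := by
  have h1 := h.l1_le hs0 hsT (ε := e0 / 3) (A := 2) (by positivity) (by norm_num) hent
    (hmass.trans (by norm_num))
  have h2 : (1 + 2) * (e0 / 3) = e0 := by ring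
  rw [h2] at h1
  refine le_trans (le_of_eq ?_) h1
  have hm : Measurable fun q : P2 × R3 => ‖(F s q.1 q.2).toReal - maxwellian q.2‖ₑ := by
    have h3 : Measurable fun q : P2 × R3 => (F s q.1 q.2).toReal := h.measurable_slice s
    have h4 : Measurable fun q : P2 × R3 => maxwellian q.2 :=
      W.measurable_maxwellian.comp measurable_snd
    exact (h3.sub h4).enorm
  rw [Fuel.restrict_cellG, lintegral_prod _ hm.aemeasurable]
  refine lintegral_congr fun y => ?_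
  refine lintegral_congr_ae ?_
  filter_upwards [hfin y] with v hv
  exact dd_eq_enorm hv v

theorem ae_Dm_ne_top' {P : Par} (hP : ParD P) {t : ℝ} (ht : 0 ≤ t) (x : P2) :
    ∀ᵐ v : R3, Dm P t x v ≠ ⊤ := by
  filter_upwards [ae_EW_ne_top (lam := 1 / 8) hP (by norm_num) le_rfl zero_le_one ht x] with v hv h
  apply hv
  rw [EW_of_nonneg ht, h]
  have h1 : ENNReal.ofReal (Real.exp (-(1 / 8 * (t - 0)))) ≠ 0 := by
    rw [Ne, ENNReal.ofReal_eq_zero, not_le]; exact Real.exp_pos _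
  have h2 : We v ≠ 0 := by
    unfold We; rw [Ne, ENNReal.ofReal_eq_zero, not_le]; exact Real.exp_pos _
  rw [ENNReal.mul_top h1, add_top, ENNReal.top_mul h2]

/-- **assembly of Part W** -/
theorem WOut_of {Y : ℝ} (hY : 0 < Y) (hG : GMain Y) (hT : TruncOut Y) (hC : ColdOut Y)
    (hM : MildOut Y) (hCa : CausOut Y) : WOut Y := by
  classical
  obtain ⟨A, hD⟩ := DataOut_holds hY
  obtain ⟨b1, b2, ell, e0, d0, S0, hell, he0, hd0, hS0, hmain⟩ := hG A
  refine ⟨1, fun K hK _ ey hey hey' => ?_⟩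
  filter_upwards [hT K ey hK hey hey', hC K ey hK hey hey', hD K ey hK hey hey',
    hM K ey hK hey hey', hCa K ey hK hey hey', eventually_ge_atTop 3] with p h1 h2 h3 h4 h5 hp
  obtain ⟨R1, hR1⟩ := h3 ell d0 hell hd0
  obtain ⟨J, R2, ρ, hρ, hent⟩ := Fuel.exists_relEnt_small (K := K) (Y := Y) (p := p)
    (ε := ENNReal.ofReal ((e0 / 3) ^ 2)) (ENNReal.ofReal_pos.2 (by positivity))
  set R : ℝ := max (max R1 R2) (Y + 4) with hR
  have hRR1 : R1 ≤ R := (le_max_left _ _).trans (le_max_left _ _)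
  have hRR2 : R2 ≤ R := (le_max_right _ _).trans (le_max_left _ _)
  have hRY : Y + 4 ≤ R := le_max_right _ _
  obtain ⟨ε, hε, hdat⟩ := hR1 R hRR1
  refine ⟨R, ε, hε, ?_⟩
  have hS : 0 < min S0 e0 := lt_min hS0 he0
  filter_upwards [h1 R, h2 ell (min S0 e0) hell hS, hdat, h4 R hRY, h5,
    ev_Ok K Y ey p (by linarith) hY hey hp, ev_ParD K Y ey p hY, ev_T1_le one_pos, ev_rh_le hρ,
    ev_hole K Y ey p, eventually_ge_atTop J, ev_pos] with j0 a1 a2 a3 a4 a5 hOk hPD hT1 hrho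
    hhole hJ hpos
  obtain ⟨hdl, hrh, hT1p⟩ := hpos
  intro H A0 hHot hA0 hHZ hclose
  set P := par K Y ey p j0 with hP
  set T1 := T1j j0 with hT1e
  set H0 := H0f j0 R with hH0
  have hH0m : Measurable fun q : P2 × R3 => H0 q.1 q.2 := measurable_H0f j0 R
  have hH0p : ∀ v, PerG fun x => H0 x v := perG_H0f j0 R
  have hHm : Meas3 H := hHot.meas
  have hHp : PerF H := hHot.per
  have h0m : Meas3 (0 : Fld) := by
    show Measurable fun p : ℝ × P2 × R3 => (0 : Fld) p.1 p.2.1 p.2.2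
    exact measurable_const
  have h0p : PerF (0 : Fld) := fun t v x k => rfl
  set lamA : Fld := LcF (Hgl H0 T1 H 0) with hlamA
  have hlamAm : Meas3 lamA := meas3_LcF (meas3_Hgl hH0m hHm h0m)
  have hlamAp : PerF lamA := perF_LcF (perF_Hgl hH0p hHp h0p)
  have hlG : ∀ Hh : Fld, lamG T1 lamA Hh = LcF (Hgl H0 T1 H Hh) := fun Hh =>
    lamG_Hgl hT1p H Hh
  obtain ⟨A', hTH⟩ := a1 H A0 hHot hA0 hHZ
  have hTH' : THyp T1 (1 / 8) Y A' (EW P (1 / 8) T1) (coldS P) (H T1) lamA (coldR P)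
      (coldSpill P) := { hTH with lamAm := hlamAm, lamAper := hlamAp }
  obtain ⟨vs, hvs, hvsS, hcold⟩ := a2
  have hH1m : Measurable fun q : P2 × R3 => H T1 q.1 q.2 := by
    have h6 : Measurable fun q : P2 × R3 => (T1, q.1, q.2) := by fun_prop
    exact Measurable.comp hHm h6
  obtain ⟨hd1, hd2⟩ := a3 (H T1) hH1m hclose
  obtain ⟨hcaus1, hcaus2⟩ := a5
  obtain ⟨hent1, hent2⟩ := hent P (rhj j0) R hOk rfl rfl rfl hJ hhole hrho hRR2
  -- finiteness
  have hEfin : ∀ t, T1 ≤ t → ∀ x, ∀ᵐ v, EW P (1 / 8) T1 t x v ≠ ⊤ := fun t ht x =>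
    ae_EW_ne_top hPD (by norm_num) hT1p.le hT1 ht x
  have hcfin : ∀ lam : Fld, Meas3 lam → PerF lam → ∀ t x v, 0 ≤ t → coldR P lam t x v ≠ ⊤ := by
    intro lam hl1 hl2 t x v ht
    obtain ⟨-, -, -, -, c1, c2⟩ := hcaus1 lam hl1 hl2
    exact ne_top_of_le_ne_top (c2 t x v ht) (c1 t x v ht)
  have hHglm : ∀ Hh : Fld, Meas3 Hh → Meas3 (Hgl H0 T1 H Hh) := fun Hh h =>
    meas3_Hgl hH0m hHm h
  have hHglp : ∀ Hh : Fld, PerF Hh → PerF (Hgl H0 T1 H Hh) := fun Hh h =>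
    perF_Hgl hH0p hHp h
  have hHgt : ∀ (Hh : Fld) t x v, T1 ≤ t → Hgl H0 T1 H Hh t x v = Hh t x v := by
    intro Hh t x v ht
    unfold Hgl
    rw [if_neg (not_le.2 (hT1p.trans_le ht)), if_neg (not_lt.2 ht)]
  -- the mild solution
  have hmild : ∀ (b : ℝ≥0) (Hh : Fld) (T : ℝ), T1 ≤ T → Meas3 Hh → PerF Hh →
      (∀ t x v, T1 ≤ t → Hh t x v ≤ b * EW P (1 / 8) T1 t x v) →
      HEq T1 (EW P (1 / 8) T1) (H T1) (coldR P) (coldSpill P) (lamG T1 lamA Hh) Hh T →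
      MildGOn (fun t x v => (Ftot P (Hgl H0 T1 H Hh) t x v).toReal)
        (Fuel.F0 P (rhj j0) R) R T := by
    intro b Hh T hT hm hp hb heq
    rw [hlG] at heq
    exact a4 H A0 hHot hA0 hHZ b Hh T hT hm hp hb heq
  have hENT : ∀ (Hh : Fld) (T : ℝ), T1 ≤ T → Meas3 Hh → PerF Hh →
      (∀ t x v, T1 ≤ t → Hh t x v ≤ b1 * EW P (1 / 8) T1 t x v) →
      HEq T1 (EW P (1 / 8) T1) (H T1) (coldR P) (coldSpill P) (lamG T1 lamA Hh) Hh T →
      ∀ s, T1 ≤ s → s ≤ T → ∫⁻ y in cellG, ∫⁻ v,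
          dd (coldR P (lamG T1 lamA Hh) s y v + Hh s y v) (Mx v) ≤ ENNReal.ofReal e0 := by
    intro Hh T hT hm hp hb heq s hs1 hs2
    have hml := hmild b1 Hh T hT hm hp hb heq
    have hs0 : 0 ≤ s := hT1p.le.trans hs1
    rw [hlG]
    have h6 := ent_of_mild (F := Ftot P (Hgl H0 T1 H Hh)) hs0 hs2 hml ?_ he0 hent1 hent2
    · refine le_trans (le_of_eq ?_) h6
      refine lintegral_congr fun y => lintegral_congr fun v => ?_
      unfold Ftot
      rw [hHgt Hh s y v hs1]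
    · intro x
      filter_upwards [hEfin s hs1 x] with v hv
      unfold Ftot
      rw [hHgt Hh s x v hs1]
      refine ENNReal.add_ne_top.2 ⟨hcfin _ (meas3_LcF (hHglm _ hm)) (perF_LcF (hHglp _ hp))
        s x v hs0, ?_⟩
      exact ne_top_of_le_ne_top (ENNReal.mul_ne_top ENNReal.coe_ne_top hv) (hb s x v hs1)
  obtain ⟨Hh, hHhm, hHhp, hHhb, hHheq⟩ := hmain P hPD rfl T1 hT1p.le hT1 A' (coldS P) (H T1) lamA
    (coldR P) (coldSpill P) vs hTH' hvs
    (hvsS.trans (ENNReal.ofReal_le_ofReal (min_le_left _ _))) hd1 hd2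
    (fun lam hl1 hl2 T hT hr => by
      obtain ⟨c1, c2⟩ := hcold lam hl1 hl2 T hT hr
      exact ⟨c1, fun t ht1 ht2 => (c2 t ht1 ht2).trans
        (ENNReal.ofReal_le_ofReal (min_le_right _ _))⟩) hENT
  refine ⟨fun t x v => (Ftot P (Hgl H0 T1 H Hh) t x v).toReal, ?_, ?_⟩
  · exact mildG_of_ge fun T hT => hmild b2 Hh T hT hHhm hHhp hHhb (hHheq T)
  · -- the solution on `(0,T1)`
    have hHt : ∀ t x v, 0 < t → t < T1 → Hgl H0 T1 H Hh t x v = H t x v := by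
      intro t x v h6 h7
      unfold Hgl
      rw [if_neg (not_le.2 h6), if_pos h7]
    have hcR : ∀ t x v, 0 < t → t < T1 →
        coldR P (LcF (Hgl H0 T1 H Hh)) t x v = coldR P (LcF H) t x v := by
      intro t x v h6 h7
      refine (hcaus2 (LcF (Hgl H0 T1 H Hh)) (LcF H) (meas3_LcF (hHglm _ hHhm))
        (perF_LcF (hHglp _ hHhp)) (meas3_LcF hHm) (perF_LcF hHp) T1 ?_ t x v h6.le h7.le).1
      intro s y w h8 h9
      unfold LcF
      congr 1
      funext z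
      exact hHt s y z h8 h9
    have hfin : ∀ᵐ z : ℝ × P2 × R3, z.1 ∈ Ioo 0 T1 → H z.1 z.2.1 z.2.2 ≠ ⊤ := by
      have hms : MeasurableSet {z : ℝ × P2 × R3 | z.1 ∈ Ioo 0 T1 → H z.1 z.2.1 z.2.2 ≠ ⊤} := by
        have e1 : {z : ℝ × P2 × R3 | z.1 ∈ Ioo 0 T1 → H z.1 z.2.1 z.2.2 ≠ ⊤} =
            {z : ℝ × P2 × R3 | z.1 ∈ Ioo 0 T1}ᶜ ∪ {z : ℝ × P2 × R3 | H z.1 z.2.1 z.2.2 = ⊤}ᶜ := by
          ext z
          simp only [mem_ofPred_eq, mem_union, mem_compl_iff]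
          tauto
        rw [e1]
        exact (measurableSet_Ioo.preimage measurable_fst).compl.union
          ((measurableSet_singleton ⊤).preimage hHm).compl
      rw [Measure.volume_eq_prod, Measure.ae_prod_iff_ae_ae hms]
      refine Eventually.of_forall fun t => ?_
      have hms2 : MeasurableSet {z : P2 × R3 | t ∈ Ioo 0 T1 → H t z.1 z.2 ≠ ⊤} :=
        hms.preimage (measurable_const.prodMk measurable_id : Measurable fun z : P2 × R3 => (t, z))
      rw [Measure.volume_eq_prod, Measure.ae_prod_iff_ae_ae hms2]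
      refine Eventually.of_forall fun x => ?_
      by_cases ht : t ∈ Ioo 0 T1
      · filter_upwards [ae_Dm_ne_top' hPD ht.1.le x] with v hv _
        refine ne_top_of_le_ne_top ?_ (hHZ t ⟨ht.1, ht.2.le⟩ x v)
        exact ENNReal.mul_ne_top hA0 (ENNReal.mul_ne_top ENNReal.ofReal_ne_top hv)
      · exact Eventually.of_forall fun v h => absurd h ht
    filter_upwards [hfin] with z hz hz1
    have h6 := hcR z.1 z.2.1 z.2.2 hz1.1 hz1.2
    have h7 := hHt z.1 z.2.1 z.2.2 hz1.1 hz1.2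
    show ENNReal.ofReal (Ftot P (Hgl H0 T1 H Hh) z.1 z.2.1 z.2.2).toReal = _
    rw [ENNReal.ofReal_toReal]
    · unfold Ftot
      rw [h6, h7]
    · unfold Ftot
      rw [h6, h7]
      exact ENNReal.add_ne_top.2 ⟨hcfin _ (meas3_LcF hHm) (perF_LcF hHp) _ _ _ hz1.1.le, hz hz1⟩

end Crest.Agent.R68.WP
end
end

-- ▼ part R68/WG4

/-!
# Row 68, PART W (helper153): the truncated solution is a global solution
-/

set_option autoImplicit false
open MeasureTheory Set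
open scoped ENNReal NNReal
open Crest.AnalysisR.VecCalc3 Crest.AnalysisR.PDE.Boltzmann

noncomputable section

namespace Crest.Agent.R68.WG

open Crest.Agent.R68.W Crest.Agent.R68.WA
open Crest.Agent.R68.A (Meas3)
open Crest.Agent.R68.N (Fld dd lossH gainH PerF LcF)

/-- rate of the glued hot component -/
def lamG (T1 : ℝ) (lamA Hh : Fld) : Fld := fun t x v =>
  open scoped Classical in if T1 ≤ t then Lc (Hh t x) v else lamA t x v

section

variable {T1 lam Y A' : ℝ} {E N0 : Fld} {h1 : P2 → R3 → ℝ≥0∞} {lamA : Fld} {cf sp : Fld → Fld}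
  {B0 : ℝ≥0} {u : Om → ℝ}

theorem lamu_eq (T1 : ℝ) (E : Fld) (B0 : ℝ≥0) (lamA : Fld) (u : Om → ℝ) :
    lamu T1 E B0 lamA u = lamG T1 lamA (hc T1 E B0 u) := rfl

theorem hc_eq_min (h0 : ∀ z, ¬ (T1 ≤ z.1 ∧ Eo E z < ⊤) → u z = 0) (t : ℝ) (x : P2) (v : R3) :
    hc T1 E B0 u t x v = min (ENNReal.ofReal (u (t, x, v))) (B0 * E t x v) := by
  unfold hc
  split_ifs with h
  · rfl
  · rw [h0 (t, x, v) h, ENNReal.ofReal_zero]
    exact (min_eq_left bot_le).symm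

theorem opt_fin (H : THyp T1 lam Y A' E N0 h1 lamA cf sp) (hu : u ∈ Cl T1 E) {z : Om}
    (hz : T1 ≤ z.1) : opt (Lu T1 E B0 lamA cf u) z T1 ≠ ⊤ := by
  obtain ⟨B, hB⟩ := H.kb z.1
  have h2 : ∀ r ∈ Ioo T1 z.1, Lu T1 E B0 lamA cf u (fl z r) ≤ (B + B0 * B) * w1 z.2.2 := by
    intro r hr
    exact Lu_le H hu (z := fl z r) hr.1.le (hB r hr.1.le hr.2.le)
  unfold opt
  refine ne_top_of_le_ne_top ?_ (setLIntegral_mono' measurableSet_Ioo h2)
  rw [setLIntegral_const, Real.volume_Ioo]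
  have h3 : (B : ℝ≥0∞) + B0 * B ≠ ⊤ := by
    exact_mod_cast ENNReal.coe_ne_top (r := B + B0 * B)
  exact ENNReal.mul_ne_top (ENNReal.mul_ne_top h3 (w1_ne_top _)) ENNReal.ofReal_ne_top

/-- the solution of the truncated problem gives a truncated system -/
theorem tsys (H : THyp T1 lam Y A' E N0 h1 lamA cf sp) (hu : Measurable u) (hu0 : ∀ z, 0 ≤ u z)
    (hper : ∀ k z, u (sh k z) = u z) (h0 : ∀ z, ¬ (T1 ≤ z.1 ∧ Eo E z < ⊤) → u z = 0)
    (heq : ∀ z : Om, T1 ≤ z.1 → Eo E z < ⊤ → ENNReal.ofReal (u z) =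
      damped T1 h1 (Lu T1 E B0 lamA cf u) (Pu T1 E B0 lamA cf sp u) z) :
    TSys T1 B0 E u (fun z => cf (lamu T1 E B0 lamA u) z.1 z.2.1 z.2.2)
      (fun z => sp (lamu T1 E B0 lamA u) z.1 z.2.1 z.2.2) h1
      (fun z => hc T1 E B0 u z.1 z.2.1 z.2.2) (Lu T1 E B0 lamA cf u) (Pu T1 E B0 lamA cf sp u) := by
  have hcl : u ∈ Cl T1 E := ⟨hu, fun z _ _ k => hper k z⟩
  refine ⟨hu, hu0, ?_, ?_, ?_, ?_, ?_, ?_, ?_, ?_⟩
  · intro t v x k
    exact hper k (t, x, v)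
  · exact H.cfm _ (meas3_lamu H hcl) (per_lamu H hcl)
  · exact H.spm _ (meas3_lamu H hcl) (per_lamu H hcl)
  · intro z
    exact hc_eq_min h0 _ _ _
  · intro z
    have m1 : Measurable fun w => hc T1 E B0 u z.1 z.2.1 w := (meas3_hc H.Em hu).slice z.1 z.2.1
    unfold Lu
    rw [Lc_add m1, add_comm]
  · intro z
    rfl
  · intro z hz hE
    exact heq z hz (lt_top_iff_ne_top.2 hE)
  · intro z hz _
    exact opt_fin H hcl hz

end

/-- elementary facts on `dd` -/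
theorem le_add_dd (a b : ℝ≥0∞) : a ≤ b + dd a b := by
  unfold dd
  calc a ≤ b + (a - b) := le_add_tsub
    _ ≤ b + (a - b + (b - a)) := add_le_add le_rfl le_self_add

theorem dd_comm (a b : ℝ≥0∞) : dd a b = dd b a := by unfold dd; rw [add_comm]

theorem enorm_sub_le_dd {a c : ℝ} (ha : 0 ≤ a) (hc : 0 ≤ c) :
    ‖a - c‖ₑ ≤ dd (ENNReal.ofReal a) (ENNReal.ofReal c) := by
  refine enorm_sub_le_of ha hc (le_add_dd _ _) ?_
  rw [dd_comm]
  exact le_add_dd _ _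


/-- **MAIN THEOREM of Part W (continuation).** -/
theorem main (Y : ℝ) (A : ℝ≥0) :
    ∃ (hs : ℝ≥0) (ell : ℝ) (e0 d0 S0 : ℝ≥0), 1 ≤ hs ∧ 0 < ell ∧ ell ≤ 1 ∧ 0 < e0 ∧ 0 < d0 ∧
      0 < S0 ∧
      ∀ (P : Par) (T1 A' : ℝ) (N0 : Fld) (h1 : P2 → R3 → ℝ≥0∞) (lamA : Fld) (cf sp : Fld → Fld)
        (vs : ℝ → ℝ≥0∞), DPole.ParD P → P.Y = Y → 0 ≤ T1 → T1 ≤ 1 →
        THyp T1 (1 / 8) Y A' (EW P (1 / 8) T1) N0 h1 lamA cf sp → Measurable vs →
        (∫⁻ t in Ioi T1, vs t) ≤ S0 →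
        -- data
        (∀ x v, dd (h1 x v) (Mx v) ≤ A * EW P (1 / 8) T1 T1 x v) →
        (∀ t x, T1 + ell ≤ t → ENNReal.ofReal (Real.exp (-(1 / 2 * (t - (T1 + ell))))) *
          ∫⁻ v, w1 v * dd (h1 (x - (t - T1) • bar v) v) (Mx v) ≤ d0) →
        -- cold part
        (∀ lam : Fld, Meas3 lam → PerF lam → ∀ T : ℝ, T1 ≤ T →
          (∀ t x v, T1 + ell ≤ t → t ≤ T → ENNReal.ofReal (1 / 2) * w1 v ≤ lam t x v) →
          (∀ t x v, T1 ≤ t → t ≤ T + 1 →
            Qp (cf lam t x) (EW P (1 / 8) T1 t x) v + Qp (EW P (1 / 8) T1 t x) (cf lam t x) v +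
              sp lam t x v + Mx v * Lc (cf lam t x) v ≤ vs t * EW P (1 / 8) T1 t x v) ∧
          (∀ t, T1 ≤ t → t ≤ T + 1 → ∫⁻ y in cellG, ∫⁻ v, cf lam t y v ≤ e0)) →
        -- entropy
        (∀ (Hh : Fld) (T : ℝ), T1 ≤ T → Meas3 Hh → PerF Hh →
          (∀ t x v, T1 ≤ t → Hh t x v ≤ (2 * hs : ℝ≥0) * EW P (1 / 8) T1 t x v) →
          (∀ t x v, T1 ≤ t → t ≤ T → EW P (1 / 8) T1 t x v ≠ ⊤ →
            Hh t x v = damped T1 h1 (fun z => lossH (cf (lamG T1 lamA Hh)) Hh z.1 z.2.1 z.2.2)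
              (fun z => gainH (cf (lamG T1 lamA Hh)) (sp (lamG T1 lamA Hh)) Hh z.1 z.2.1 z.2.2)
              (t, x, v)) →
          ∀ s, T1 ≤ s → s ≤ T →
            ∫⁻ y in cellG, ∫⁻ v, dd (cf (lamG T1 lamA Hh) s y v + Hh s y v) (Mx v) ≤ e0) →
        ∃ Hh : Fld, Meas3 Hh ∧ PerF Hh ∧
          (∀ t x v, T1 ≤ t → Hh t x v ≤ hs * EW P (1 / 8) T1 t x v) ∧
          (∀ t x v, T1 ≤ t → EW P (1 / 8) T1 t x v ≠ ⊤ →
            Hh t x v = damped T1 h1 (fun z => lossH (cf (lamG T1 lamA Hh)) Hh z.1 z.2.1 z.2.2)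
              (fun z => gainH (cf (lamG T1 lamA Hh)) (sp (lamG T1 lamA Hh)) Hh z.1 z.2.1 z.2.2)
              (t, x, v)) := by
  have hnuM : ∀ v : R3, ENNReal.ofReal (1 * (1 + ‖v‖)) ≤ Lc Mx v := by
    intro v
    rw [one_mul]
    exact w1_le_Lc_Mx v
  obtain ⟨hs, ell, del, e0, d0, Sg, hhs, hell, hell1, hdel, he0, hd0, hSg, key⟩ :=
    global (nu0 := 1) (lam := 1 / 8) one_pos (by norm_num) (by norm_num) hnuM (C1E Y (1 / 8))
      (CfE Y (1 / 8)) _ WK.trans (A + 1)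
  have hb0 : (2 * hs : ℝ≥0) ≠ 0 :=
    mul_ne_zero two_ne_zero (lt_of_lt_of_le one_pos hhs).ne'
  have hb1 : (1 : ℝ≥0∞) ≤ ((2 * hs : ℝ≥0) : ℝ≥0∞) := by
    have : (1 : ℝ≥0) ≤ 2 * hs := hhs.trans (by rw [two_mul]; exact le_self_add)
    exact_mod_cast this
  refine ⟨hs, ell, e0, d0, Sg / (2 * hs), hhs, hell, hell1, he0, hd0, by positivity, ?_⟩
  intro P T1 A' N0 h1 lamA cf sp vs hP hPY hT0 hT1 H hvs hvs0 hdat hdat2 hcold hent
  set E : Fld := EW P (1 / 8) T1 with hE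
  obtain ⟨b, hb⟩ : ∃ b : ℝ≥0, b = 2 * hs := ⟨_, rfl⟩
  rw [← hb] at hb0 hb1 hvs0 hent
  have hKH : KHyp T1 (1 / 8) (C1E Y (1 / 8)) (CfE Y (1 / 8)) E := by
    rw [← hPY]
    exact KHyp_EW hP (by norm_num) hT0 hT1
  obtain ⟨u, hu, hu0, hper, hz0, hfix⟩ := truncFix H b
  have hcl : u ∈ Cl T1 E := ⟨hu, fun z _ _ k => hper k z⟩
  have S := tsys H hu hu0 hper hz0 (fun z h2 h3 => (hfix z h2 h3).2)
  set lm : Fld := lamu T1 E b lamA u with hlm
  have hlmM : Meas3 lm := meas3_lamu H hcl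
  have hlmP : PerF lm := per_lamu H hcl
  have hcM : Meas3 (cf lm) := H.cfm _ hlmM hlmP
  have hHM : Meas3 (hc T1 E b u) := meas3_hc H.Em hu
  have hHP : PerF (hc T1 E b u) := fun t v => per_hc H hcl t v
  have hHle : ∀ t x v, hc T1 E b u t x v ≤ b * E t x v := fun t x v => hc_le t x v
  -- the equation in the form of the theorem
  have hLeq : (fun z : Om => lossH (cf lm) (hc T1 E b u) z.1 z.2.1 z.2.2) =
      Lu T1 E b lamA cf u := by
    funext z
    unfold lossH Lu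
    exact Lc_add (hcM.slice z.1 z.2.1) _
  have hPeq : (fun z : Om => gainH (cf lm) (sp lm) (hc T1 E b u) z.1 z.2.1 z.2.2) =
      Pu T1 E b lamA cf sp u := by
    funext z
    unfold gainH Pu
    rw [← hlm]
    ring
  have heqn : ∀ t x v, T1 ≤ t → E t x v ≠ ⊤ → ENNReal.ofReal (u (t, x, v)) ≤ b * E t x v →
      hc T1 E b u t x v = damped T1 h1
        (fun z => lossH (cf (lamG T1 lamA (hc T1 E b u))) (hc T1 E b u) z.1 z.2.1 z.2.2)
        (fun z => gainH (cf (lamG T1 lamA (hc T1 E b u))) (sp (lamG T1 lamA (hc T1 E b u)))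
          (hc T1 E b u) z.1 z.2.1 z.2.2) (t, x, v) := by
    intro t x v h2 h3 h4
    rw [← lamu_eq, ← hlm, hLeq, hPeq, ← (hfix (t, x, v) h2 (lt_top_iff_ne_top.2 h3)).2]
    rw [hc_eq_min hz0, min_eq_left h4]
  -- value at `T1`
  have hT1v : ∀ x v, E T1 x v ≠ ⊤ → ENNReal.ofReal (u (T1, x, v)) = h1 x v := by
    intro x v h3
    rw [(hfix (T1, x, v) le_rfl (lt_top_iff_ne_top.2 h3)).2]
    unfold damped dmp opt fl
    simp
  have hgd : ∀ x v, E T1 x v ≠ ⊤ → ghf u T1 x v ≤ dd (h1 x v) (Mx v) := by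
    intro x v h3
    rw [← hT1v x v h3]
    exact enorm_sub_le_dd (hu0 _) (maxw_nonneg v)
  have r := key T1 E u _ _ h1 _ _ _ (fun t => b * vs t) hKH (by rw [← hb]; exact S)
    (hvs.const_mul _) ?_ ?_ ?_ ?_ ?_
  · refine ⟨hc T1 E b u, hHM, hHP, ?_, ?_⟩
    · intro t x v h2
      refine le_trans ?_ (r.1 t x v h2)
      rw [hc_eq_min hz0]
      exact min_le_left _ _
    · intro t x v h2 h3
      refine heqn t x v h2 h3 ((r.1 t x v h2).trans ?_)
      gcongr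
      rw [hb, two_mul]
      exact le_self_add
  · -- integral of `vs`
    rw [lintegral_const_mul _ hvs]
    calc (b : ℝ≥0∞) * ∫⁻ t in Ioi T1, vs t ≤ b * ((Sg / b : ℝ≥0) : ℝ≥0∞) := by
          gcongr
      _ = Sg := by
          rw [← ENNReal.coe_mul, mul_div_cancel₀ _ hb0]
  · -- data 1
    intro x v
    by_cases h3 : E T1 x v = ⊤
    · rw [h3, ENNReal.mul_top (by positivity)]
      exact le_top
    · refine (hgd x v h3).trans ((hdat x v).trans ?_)
      gcongr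
      exact le_self_add
  · -- data 2
    intro t x h2
    refine le_trans ?_ (hdat2 t x h2)
    gcongr ?_ * ?_
    · exact le_rfl
    · refine lintegral_mono_ae ?_
      filter_upwards [ae_EW_ne_top hP (lam := 1 / 8) (by norm_num) hT0 hT1
        (show T1 ≤ t by linarith) x] with v hv
      gcongr
      refine hgd _ v ?_
      refine ne_top_of_le_ne_top ?_ (hKH.flight T1 t x v le_rfl (by linarith))
      exact ENNReal.mul_ne_top ENNReal.ofReal_ne_top hv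
  · -- entropy
    intro T hT hcr s hs1 hs2
    rw [← hb] at hcr
    have h2 := hent (hc T1 E b u) T hT hHM hHP (fun t x v _ => hHle t x v)
      (fun t x v h2 h3 h4 => heqn t x v h2 h4 (hcr t x v h2 h3)) s hs1 hs2
    rw [← lamu_eq, ← hlm] at h2
    have hpt : ∀ y v, ghf u s y v ≤ dd (cf lm s y v + hc T1 E b u s y v) (Mx v) + cf lm s y v := by
      intro y v
      have hcu : hc T1 E b u s y v = ENNReal.ofReal (u (s, y, v)) := by
        rw [hc_eq_min hz0, min_eq_left (hcr s y v hs1 hs2)]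
      rw [hcu]
      set cc := cf lm s y v with hcc
      refine enorm_sub_le_of (hu0 _) (maxw_nonneg v) ?_ ?_
      · calc ENNReal.ofReal (u (s, y, v)) ≤ cc + ENNReal.ofReal (u (s, y, v)) := le_add_self
          _ ≤ Mx v + dd (cc + ENNReal.ofReal (u (s, y, v))) (Mx v) := le_add_dd _ _
          _ ≤ Mx v + (dd (cc + ENNReal.ofReal (u (s, y, v))) (Mx v) + cc) := by
              gcongr; exact le_self_add
      · calc Mx v ≤ (cc + ENNReal.ofReal (u (s, y, v))) +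
              dd (Mx v) (cc + ENNReal.ofReal (u (s, y, v))) := le_add_dd _ _
          _ = ENNReal.ofReal (u (s, y, v)) +
              (dd (cc + ENNReal.ofReal (u (s, y, v))) (Mx v) + cc) := by
              rw [dd_comm]; ring
    have hcs : Measurable fun q : P2 × R3 => cf lm s q.1 q.2 :=
      (show Measurable (fun p : ℝ × P2 × R3 => cf lm p.1 p.2.1 p.2.2) from hcM).comp
        (measurable_const.prodMk measurable_id)
    calc ∫⁻ y in cellG, ∫⁻ z, ghf u s y z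
        ≤ ∫⁻ y in cellG, ∫⁻ v, (dd (cf lm s y v + hc T1 E b u s y v) (Mx v) + cf lm s y v) :=
          lintegral_mono fun y => lintegral_mono fun v => hpt y v
      _ = ∫⁻ y in cellG, ((∫⁻ v, dd (cf lm s y v + hc T1 E b u s y v) (Mx v)) +
            ∫⁻ v, cf lm s y v) := by
          refine lintegral_congr fun y => ?_
          exact lintegral_add_right _ (hcs.comp measurable_prodMk_left)
      _ = (∫⁻ y in cellG, ∫⁻ v, dd (cf lm s y v + hc T1 E b u s y v) (Mx v)) +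
            ∫⁻ y in cellG, ∫⁻ v, cf lm s y v :=
          lintegral_add_right _ hcs.lintegral_prod_right'
      _ ≤ _ := by gcongr
  · -- cold part
    intro T hT hcr hrate
    rw [show (1 : ℝ) / 2 = 1 / 2 from rfl] at hrate
    have h2 := hcold lm hlmM hlmP T hT (fun t x v h3 h4 => by
      have h5 := hrate t x v h3 h4
      rw [hlm]
      unfold lamu
      rw [if_pos (by linarith)]
      exact h5)
    refine ⟨fun t x v h3 h4 => ?_, h2.2⟩
    have h5 := h2.1 t x v h3 h4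
    have q1 : Qp (cf lm t x) (hc T1 E b u t x) v ≤ b * Qp (cf lm t x) (E t x) v := by
      rw [← WA.Qp_smul_right ENNReal.coe_ne_top]
      exact WA.Qp_mono (fun _ => le_rfl) (hHle t x) v
    have q2 : Qp (hc T1 E b u t x) (cf lm t x) v ≤ b * Qp (E t x) (cf lm t x) v := by
      rw [← WA.Qp_smul_left ENNReal.coe_ne_top]
      exact WA.Qp_mono (hHle t x) (fun _ => le_rfl) v
    constructor
    · calc Qp (cf lm t x) (hc T1 E b u t x) v + Qp (hc T1 E b u t x) (cf lm t x) v + sp lm t x v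
          ≤ b * Qp (cf lm t x) (E t x) v + b * Qp (E t x) (cf lm t x) v + b * sp lm t x v := by
            gcongr
            exact le_mul_of_one_le_left' hb1
        _ = b * (Qp (cf lm t x) (E t x) v + Qp (E t x) (cf lm t x) v + sp lm t x v) := by ring
        _ ≤ b * (vs t * E t x v) := by
            gcongr
            exact le_self_add.trans h5
        _ = _ := by ring
    · calc Mx v * Lc (cf lm t x) v ≤ vs t * E t x v := le_add_self.trans h5
        _ ≤ b * (vs t * E t x v) := le_mul_of_one_le_left' hb1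
        _ = _ := by ring

end Crest.Agent.R68.WG
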