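import Crest.Agent.R68.WG1
import Crest.Agent.R68.Int2
import Crest.Agent.R68.NDefs
import Crest.Agent.R68.DPoles3
import Crest.Agent.R68.WE3
import Crest.Agent.R68.WProps

-- ▼ part R68/WGlue1
section

/-!
# Row 68, PART W (helper153): the glued hot component, exponential form on `[0,T]`
-/

set_option autoImplicit false
open MeasureTheory Set
open scoped ENNReal NNReal
open Crest.AnalysisR.VecCalc3 Crest.AnalysisR.PDE.Boltzmann

noncomputable section

namespace Crest.Agent.R68.WGl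

open Crest.Agent.R68.A (Meas3 en en_zero en_top en_add en_coe_ofReal en_ne_top en_le_one)
open Crest.Agent.R68.N
open Crest.Agent.R68.W (Om fl opt dmp damped fl_self)

/-- the glued hot component: datum for `t ≤ 0`, Part A/N for `0 < t < T1`, Part W for `t ≥ T1` -/
def Hgl (H0 : P2 → R3 → ℝ≥0∞) (T1 : ℝ) (H Hh : Fld) : Fld := fun t x v =>
  open scoped Classical in
  if t ≤ 0 then H0 x v else if t < T1 then H t x v else Hh t x v

variable {P : Par} {T1 T : ℝ} {H0 : P2 → R3 → ℝ≥0∞} {H Hh c sp : Fld}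

theorem Hgl_le {t : ℝ} (ht : t ≤ 0) : Hgl H0 T1 H Hh t = H0 := by
  funext x v; unfold Hgl; rw [if_pos ht]

theorem Hgl_mid {t : ℝ} (h0 : 0 < t) (h1 : t < T1) : Hgl H0 T1 H Hh t = H t := by
  funext x v; unfold Hgl; rw [if_neg (not_le.2 h0), if_pos h1]

theorem Hgl_ge {t : ℝ} (h0 : 0 < T1) (h1 : T1 ≤ t) : Hgl H0 T1 H Hh t = Hh t := by
  funext x v; unfold Hgl; rw [if_neg (not_le.2 (h0.trans_le h1)), if_neg (not_lt.2 h1)]

theorem meas3_Hgl (m0 : Measurable fun p : P2 × R3 => H0 p.1 p.2) (m1 : Meas3 H) (m2 : Meas3 Hh) :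
    Meas3 (Hgl H0 T1 H Hh) := by
  classical
  have h0 : MeasurableSet {p : ℝ × P2 × R3 | p.1 ≤ 0} :=
    measurableSet_le measurable_fst measurable_const
  have h1 : MeasurableSet {p : ℝ × P2 × R3 | p.1 < T1} :=
    measurableSet_lt measurable_fst measurable_const
  exact Measurable.ite h0 (m0.comp measurable_snd) (Measurable.ite h1 m1 m2)

theorem perF_Hgl (m0 : ∀ v, PerG fun x => H0 x v) (m1 : PerF H) (m2 : PerF Hh) :
    PerF (Hgl H0 T1 H Hh) := by
  intro t v x k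
  have e0 : H0 (x + latt k) v = H0 x v := m0 v x k
  have e1 : H t (x + latt k) v = H t x v := m1 t v x k
  have e2 : Hh t (x + latt k) v = Hh t x v := m2 t v x k
  unfold Hgl
  simp only [e0, e1, e2]

theorem loss_congr {c c' H H' : Fld} {t : ℝ} {x : P2} (h1 : ∀ z, c t x z = c' t x z)
    (h2 : ∀ z, H t x z = H' t x z) (v : R3) : lossH c H t x v = lossH c' H' t x v := by
  unfold lossH
  simp only [h1, h2]

theorem gain_congr {c c' s s' H H' : Fld} {t : ℝ} {x : P2} (h1 : ∀ z, c t x z = c' t x z)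
    (h3 : ∀ z, s t x z = s' t x z)
    (h2 : ∀ z, H t x z = H' t x z) (v : R3) : gainH c s H t x v = gainH c' s' H' t x v := by
  have e1 : c t x = c' t x := funext h1
  have e2 : H t x = H' t x := funext h2
  unfold gainH
  rw [e1, e2, h3]

/-- accumulated rate -/
def ac (n : Fld) (s t : ℝ) (x : P2) (v : R3) : ℝ≥0∞ :=
  ∫⁻ r in Ioo s t, n r (x - (t - r) • bar v) v

/-- the right side of the exponential form started at time `a` -/
def expf (n q : Fld) (a : ℝ) (g : P2 → R3 → ℝ≥0∞) (t : ℝ) (x : P2) (v : R3) : ℝ≥0∞ :=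
  g (x - (t - a) • bar v) v * en (ac n a t x v) +
    ∫⁻ s in Ioo a t, en (ac n s t x v) * q s (x - (t - s) • bar v) v

theorem ac_split (n : Fld) {s a t : ℝ} (h1 : s ≤ a) (h2 : a ≤ t) (x : P2) (v : R3) :
    ac n s t x v = ac n s a (x - (t - a) • bar v) v + ac n a t x v := by
  unfold ac
  rw [WG.lint_Ioo_split h1 h2]
  congr 1
  refine lintegral_congr fun r => ?_
  congr 1
  rw [sub_sub, ← add_smul]
  congr 2
  ring

/-- gluing of two exponential forms -/
theorem expf_glue {n q : Fld} {g : P2 → R3 → ℝ≥0∞} {b a t : ℝ} (hb : b ≤ a) (hat : a ≤ t)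
    (x : P2) (v : R3) (k : P2 → R3 → ℝ≥0∞)
    (hk : k (x - (t - a) • bar v) v = expf n q b g a (x - (t - a) • bar v) v) :
    expf n q a k t x v = expf n q b g t x v := by
  unfold expf at hk ⊢
  have hpos : ∀ r : ℝ, x - (t - a) • bar v - (a - r) • bar v = x - (t - r) • bar v := by
    intro r
    rw [sub_sub, ← add_smul]
    congr 2
    ring
  rw [hk, WG.lint_Ioo_split hb hat (f := fun s => en (ac n s t x v) * q s (x - (t - s) • bar v) v)]
  rw [hpos]
  have e1 : en (ac n b t x v) = en (ac n b a (x - (t - a) • bar v) v) * en (ac n a t x v) := by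
    rw [ac_split n hb hat, en_add]
  have e2 : ∫⁻ s in Ioo b a, en (ac n s t x v) * q s (x - (t - s) • bar v) v =
      (∫⁻ s in Ioo b a, en (ac n s a (x - (t - a) • bar v) v) *
        q s (x - (t - a) • bar v - (a - s) • bar v) v) * en (ac n a t x v) := by
    rw [← lintegral_mul_const' _ _ (en_ne_top _)]
    refine setLIntegral_congr_fun measurableSet_Ioo fun s hs => ?_
    simp only [hpos]
    rw [ac_split n hs.2.le hat, en_add]
    ring
  rw [e1, e2]
  ring

/-- the damping factors of helper475 in terms of `en` -/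
theorem dmp_eq_en {n : Fld} {t : ℝ} {x : P2} {v : R3} {s : ℝ}
    (hf : opt (fun z : Om => n z.1 z.2.1 z.2.2) (t, x, v) s ≠ ⊤) :
    dmp (fun z : Om => n z.1 z.2.1 z.2.2) (t, x, v) s = en (ac n s t x v) := by
  have e : opt (fun z : Om => n z.1 z.2.1 z.2.2) (t, x, v) s = ac n s t x v := rfl
  unfold dmp
  rw [e] at hf ⊢
  conv_rhs => rw [← ENNReal.ofReal_toReal hf]
  rw [en_coe_ofReal ENNReal.toReal_nonneg]

theorem damped_eq_expf {n q : Fld} {a : ℝ} {g : P2 → R3 → ℝ≥0∞} {t : ℝ} {x : P2} {v : R3}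
    (hf : opt (fun z : Om => n z.1 z.2.1 z.2.2) (t, x, v) a ≠ ⊤) :
    damped a g (fun z : Om => n z.1 z.2.1 z.2.2) (fun z : Om => q z.1 z.2.1 z.2.2) (t, x, v) =
      expf n q a g t x v := by
  unfold damped expf
  rw [dmp_eq_en hf, mul_comm]
  congr 1
  refine setLIntegral_congr_fun measurableSet_Ioo fun s hs => ?_
  have h2 : opt (fun z : Om => n z.1 z.2.1 z.2.2) (t, x, v) s ≠ ⊤ :=
    ne_top_of_le_ne_top hf (WG.opt_anti _ hs.1.le)
  simp only
  rw [dmp_eq_en h2]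
  rfl

theorem ac_congr {n n' : Fld} {s t : ℝ} {x : P2} {v : R3}
    (h : ∀ r ∈ Ioo s t, n r (x - (t - r) • bar v) v = n' r (x - (t - r) • bar v) v) :
    ac n s t x v = ac n' s t x v := setLIntegral_congr_fun measurableSet_Ioo h

theorem expf_congr {n n' q q' : Fld} {a t : ℝ} {g : P2 → R3 → ℝ≥0∞} {x : P2} {v : R3}
    (h : ∀ r ∈ Ioo a t, n r (x - (t - r) • bar v) v = n' r (x - (t - r) • bar v) v)
    (h2 : ∀ r ∈ Ioo a t, q r (x - (t - r) • bar v) v = q' r (x - (t - r) • bar v) v) :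
    expf n q a g t x v = expf n' q' a g t x v := by
  unfold expf
  rw [ac_congr h]
  congr 1
  refine setLIntegral_congr_fun measurableSet_Ioo fun s hs => ?_
  rw [h2 s hs, ac_congr fun r hr => h r ⟨hs.1.trans hr.1, hr.2⟩]

/-- **the exponential form of the glued hot component on `[0,T]`** -/
theorem expo (hY : 0 < P.Y) (hT1 : 0 < T1) {Cf Sf : Fld → Fld}
    (hot : HotSol P Cf Sf H0 T1 H)
    (hc : ∀ t x v, 0 ≤ t → t ≤ T1 → c t x v = Cf (LcF H) t x v)
    (hsp : ∀ t x v, 0 ≤ t → t ≤ T1 → sp t x v = Sf (LcF H) t x v)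
    (heq : ∀ t x v, T1 ≤ t → t ≤ T → Dm P t x v ≠ ⊤ →
      Hh t x v = damped T1 (H T1) (fun z => lossH c Hh z.1 z.2.1 z.2.2)
        (fun z => gainH c sp Hh z.1 z.2.1 z.2.2) (t, x, v))
    (hfin : ∀ t x v, T1 ≤ t → t ≤ T →
      opt (fun z : Om => lossH c Hh z.1 z.2.1 z.2.2) (t, x, v) T1 ≠ ⊤) :
    ∀ t ∈ Icc 0 T, ∀ x v, Dm P t x v ≠ ⊤ → Hgl H0 T1 H Hh t x v =
      expf (lossH c (Hgl H0 T1 H Hh)) (gainH c sp (Hgl H0 T1 H Hh)) 0 H0 t x v := by
  set Hg := Hgl H0 T1 H Hh with hHg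
  have hDw : ∀ {t x v}, Dm P t x v ≠ ⊤ → 0 < Dw P t x v := by
    intro t x v h
    by_contra h2
    apply h
    unfold Dm
    rw [ENNReal.ofReal_of_nonpos (not_lt.1 h2), ENNReal.zero_rpow_of_neg (by norm_num)]
  -- on `(0, T1]`
  have hA : ∀ t x v, 0 < t → t ≤ T1 → Dm P t x v ≠ ⊤ →
      H t x v = expf (lossH c Hg) (gainH c sp Hg) 0 H0 t x v := by
    intro t x v h0 h1 hD
    have h := hot.eqn t ⟨h0, h1⟩ x v (hDw hD)
    rw [h]
    have e : en (acc (lossH (Cf (LcF H)) H) 0 t x v) * H0 (x - t • bar v) v +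
        Dam (lossH (Cf (LcF H)) H) (gainH (Cf (LcF H)) (Sf (LcF H)) H) t x v =
        expf (lossH (Cf (LcF H)) H) (gainH (Cf (LcF H)) (Sf (LcF H)) H) 0 H0 t x v := by
      unfold expf Dam
      rw [mul_comm, sub_zero]
      rfl
    rw [e]
    refine expf_congr (fun r hr => ?_) (fun r hr => ?_)
    · refine loss_congr (fun z => (hc r _ z hr.1.le (hr.2.le.trans h1)).symm) (fun z => ?_) v
      rw [hHg, Hgl_mid hr.1 (hr.2.trans_le h1)]
    · refine gain_congr (fun z => (hc r _ z hr.1.le (hr.2.le.trans h1)).symm)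
        (fun z => (hsp r _ z hr.1.le (hr.2.le.trans h1)).symm) (fun z => ?_) v
      rw [hHg, Hgl_mid hr.1 (hr.2.trans_le h1)]
  intro t ht x v hD
  rcases ht.1.eq_or_lt with h0 | h0
  · rw [← h0, hHg, Hgl_le le_rfl]
    unfold expf ac
    simp
  rcases lt_or_ge t T1 with h1 | h1
  · rw [← hA t x v h0 h1.le hD, hHg, Hgl_mid h0 h1]
  · have e1 : Hg t x v = Hh t x v := by rw [hHg, Hgl_ge hT1 h1]
    rw [e1, heq t x v h1 ht.2 hD, damped_eq_expf (hfin t x v h1 ht.2)]
    have e2 : expf (lossH c Hh) (gainH c sp Hh) T1 (H T1) t x v =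
        expf (lossH c Hg) (gainH c sp Hg) T1 (H T1) t x v := by
      refine expf_congr (fun r hr => ?_) (fun r hr => ?_)
      · refine loss_congr (fun _ => rfl) (fun z => ?_) v
        rw [hHg, Hgl_ge hT1 hr.1.le]
      · refine gain_congr (fun _ => rfl) (fun _ => rfl) (fun z => ?_) v
        rw [hHg, Hgl_ge hT1 hr.1.le]
    rw [e2]
    refine expf_glue hT1.le h1 x v (H T1) ?_
    refine hA T1 _ v hT1 le_rfl ?_
    exact ne_top_of_le_ne_top hD (DPole.Dm_flight hY hT1.le h1 x v)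

end Crest.Agent.R68.WGl
end
end

-- ▼ part R68/WGlue2
section

/-!
# Row 68, PART W (helper153): mild form of the sum of the cold and the glued hot component
-/

set_option autoImplicit false
open MeasureTheory Set
open scoped ENNReal NNReal
open Crest.AnalysisR.VecCalc3 Crest.AnalysisR.PDE.Boltzmann

noncomputable section

namespace Crest.Agent.R68.WGl

open Crest.Agent.R68.A (Meas3 en meas3_Qp meas3_Lc Lc_add Qp_add_left Qp_add_right)
open Crest.Agent.R68.N
open Crest.Agent.R68.WA (w1 w1_ne_top one_le_w1)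

variable {P : Par} {T1 T : ℝ} {H0 : P2 → R3 → ℝ≥0∞} {H Hh Hg c sp : Fld}

/-- almost every position is not a lattice point -/
theorem ae_distG_pos : ∀ᵐ p : P2 × R3, 0 < distG p.1 := by
  have h1 : (Set.range fun k : ℤ × ℤ => -latt k).Countable := Set.countable_range _
  have h2 : ∀ᵐ x : P2, 0 < distG x := by
    have h3 : ∀ᵐ x : P2, x ∉ Set.range fun k : ℤ × ℤ => -latt k :=
      (h1.ae_notMem (μ := (volume : Measure P2)))
    filter_upwards [h3] with x hx
    rcases (distG_nonneg x).eq_or_lt with h | h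
    · exfalso
      apply hx
      obtain ⟨k, hk⟩ := exists_distG_eq x
      rw [hk] at h
      refine ⟨k, ?_⟩
      have h4 : x + latt k = 0 := norm_eq_zero.1 h.symm
      simp only
      exact (eq_neg_of_add_eq_zero_left h4).symm
    · exact h
  have h4 : (volume : Measure (P2 × R3)) = (volume : Measure P2).prod (volume : Measure R3) :=
    Measure.volume_eq_prod _ _
  rw [h4]
  exact (Measure.quasiMeasurePreserving_fst (μ := (volume : Measure P2))
    (ν := (volume : Measure R3))).ae h2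

/-- the distance along a flight -/
theorem kap_le {x : P2} {v : R3} {s : ℝ} (hs : 0 ≤ s) :
    distG x / (1 + ‖bar v‖) ≤ s + distG (x + s • bar v) := by
  have h1 : distG x ≤ distG (x + s • bar v) + s * ‖bar v‖ := by
    have h := distG_le_add (x + s • bar v) (-(s • bar v))
    rw [add_neg_cancel_right, norm_neg, norm_smul, Real.norm_eq_abs, abs_of_nonneg hs] at h
    exact h
  rw [div_le_iff₀ (by positivity)]
  have h2 := distG_nonneg (x + s • bar v)
  nlinarith [norm_nonneg (bar v), mul_nonneg h2 (norm_nonneg (bar v))]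

/-- finiteness along almost every flight -/
theorem fin_ae (hY : 0 < P.Y) (hP : DPole.ParD P) (hT1 : 0 < T1) (hT : T1 ≤ T) {nu : Fld}
    {C1 C2 A2 : ℝ≥0∞} (hC1 : C1 ≠ ⊤) (hC2 : C2 ≠ ⊤) (hA2 : A2 ≠ ⊤)
    (n1 : ∀ t x v, 0 < t → t < T1 → ENNReal.ofReal ((t + distG x) ^ 2) * nu t x v ≤ C1 * w1 v)
    (n2 : ∀ t x v, T1 ≤ t → t < T → nu t x v ≤ C2 * w1 v)
    (n3 : ∀ t x v, 0 < t → t < T → Hg t x v ≤ A2 * Dm P t x v) :
    ∀ᵐ p : P2 × R3, ∫⁻ s in Ioo 0 T, nu s (p.1 + s • bar p.2) p.2 *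
      (1 + Hg s (p.1 + s • bar p.2) p.2) ≠ ⊤ := by
  have hT0 : 0 < T := hT1.trans_le hT
  have hD : ∀ᵐ p : P2 × R3, Dm P T p.1 p.2 ≠ ⊤ := by
    have hm : MeasurableSet {p : P2 × R3 | Dm P T p.1 p.2 ≠ ⊤} := by
      have h := DPole.measurable_Dm_t hY hT0.le
      exact (h (measurableSet_singleton ⊤)).compl
    rw [Measure.volume_eq_prod P2 R3, Measure.ae_prod_iff_ae_ae hm]
    refine Filter.Eventually.of_forall fun x => ?_
    filter_upwards [WA.ae_EW_ne_top hP (lam := 1) (T1 := 0) one_pos le_rfl zero_le_one hT0.le x]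
      with v hv
    intro h
    apply hv
    rw [WA.EW_of_nonneg hT0.le, h]
    have h2 : ENNReal.ofReal (Real.exp (-(1 * (T - 0)))) ≠ 0 := by
      rw [Ne, ENNReal.ofReal_eq_zero, not_le]; exact Real.exp_pos _
    rw [ENNReal.mul_top h2, add_top, ENNReal.top_mul]
    unfold WA.We
    rw [Ne, ENNReal.ofReal_eq_zero, not_le]; exact Real.exp_pos _
  filter_upwards [I.ae_at (Q := fun x v => Dm P T x v ≠ ⊤) T hD, ae_distG_pos] with p hp1 hp2
  obtain ⟨x, v⟩ := p
  simp only at hp1 hp2 ⊢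
  set κ : ℝ := distG x / (1 + ‖bar v‖) with hκ
  have hκ0 : 0 < κ := by positivity
  set M : ℝ≥0∞ := C1 * w1 v / ENNReal.ofReal (κ ^ 2) + C2 * w1 v with hM
  have hMt : M ≠ ⊤ := by
    rw [hM]
    refine ENNReal.add_ne_top.2 ⟨?_, ENNReal.mul_ne_top hC2 (w1_ne_top v)⟩
    refine (ENNReal.div_lt_top (ENNReal.mul_ne_top hC1 (w1_ne_top v)) ?_).ne
    rw [Ne, ENNReal.ofReal_eq_zero, not_le]
    positivity
  set B : ℝ≥0∞ := M * (1 + A2 * Dm P T (x + T • bar v) v) with hB
  have hBt : B ≠ ⊤ := by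
    rw [hB]
    exact ENNReal.mul_ne_top hMt (ENNReal.add_ne_top.2 ⟨ENNReal.one_ne_top,
      ENNReal.mul_ne_top hA2 hp1⟩)
  have key : ∀ s ∈ Ioo 0 T, nu s (x + s • bar v) v * (1 + Hg s (x + s • bar v) v) ≤ B := by
    intro s hs
    have e1 : nu s (x + s • bar v) v ≤ M := by
      rcases lt_or_ge s T1 with h | h
      · have h1 := n1 s (x + s • bar v) v hs.1 h
        have h2 : ENNReal.ofReal (κ ^ 2) * nu s (x + s • bar v) v ≤ C1 * w1 v := by
          refine le_trans ?_ h1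
          gcongr
          exact kap_le hs.1.le
        rw [hM]
        refine le_trans ?_ le_self_add
        rw [ENNReal.le_div_iff_mul_le (Or.inl ?_) (Or.inl ENNReal.ofReal_ne_top), mul_comm]
        · exact h2
        · rw [Ne, ENNReal.ofReal_eq_zero, not_le]
          positivity
      · rw [hM]
        exact (n2 s _ v h hs.2).trans le_add_self
    have e2 : Hg s (x + s • bar v) v ≤ A2 * Dm P T (x + T • bar v) v := by
      refine (n3 s _ v hs.1 hs.2).trans ?_
      gcongr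
      have h := DPole.Dm_flight hY hs.1.le hs.2.le (x + T • bar v) v
      rwa [I.pos_back] at h
    rw [hB]
    gcongr
  refine ne_top_of_le_ne_top ?_ (setLIntegral_mono' measurableSet_Ioo key)
  rw [setLIntegral_const, Real.volume_Ioo]
  exact ENNReal.mul_ne_top hBt ENNReal.ofReal_ne_top

/-- **mild form of the sum** -/
theorem mild_sum (hY : 0 < P.Y) (hP : DPole.ParD P) (hT1 : 0 < T1) (hT : T1 ≤ T)
    (mH0 : Measurable fun p : P2 × R3 => H0 p.1 p.2)
    (mc : Meas3 c) (msp : Meas3 sp) (mH : Meas3 Hg)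
    (hexp : ∀ t ∈ Icc 0 T, ∀ x v, Dm P t x v ≠ ⊤ → Hg t x v =
      expf (lossH c Hg) (gainH c sp Hg) 0 H0 t x v)
    {C1 C2 A2 : ℝ≥0∞} (hC1 : C1 ≠ ⊤) (hC2 : C2 ≠ ⊤) (hA2 : A2 ≠ ⊤)
    (n1 : ∀ t x v, 0 < t → t < T1 →
      ENNReal.ofReal ((t + distG x) ^ 2) * lossH c Hg t x v ≤ C1 * w1 v)
    (n2 : ∀ t x v, T1 ≤ t → t < T → lossH c Hg t x v ≤ C2 * w1 v)
    (n3 : ∀ t x v, 0 < t → t ≤ T → Hg t x v ≤ A2 * Dm P t x v)
    (hcold : ∀ t x v, 0 ≤ t → (∫⁻ s in Ioo 0 t, LcF Hg s (x + s • bar v) v) ≠ ⊤ →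
      c t (x + t • bar v) v +
        (∫⁻ s in Ioo 0 t, lossH c Hg s (x + s • bar v) v * c s (x + s • bar v) v) +
        (∫⁻ s in Ioo 0 t, sp s (x + s • bar v) v) =
      phiE P 0 x v +
        ∫⁻ s in Ioo 0 t, Qp (c s (x + s • bar v)) (c s (x + s • bar v)) v) :
    ∀ t ∈ Icc 0 T, ∀ᵐ p : P2 × R3,
      (c t (p.1 + t • bar p.2) p.2 + Hg t (p.1 + t • bar p.2) p.2) +
        ∫⁻ s in Ioo 0 t, Lc (fun z => c s (p.1 + s • bar p.2) z + Hg s (p.1 + s • bar p.2) z) p.2 *
          (c s (p.1 + s • bar p.2) p.2 + Hg s (p.1 + s • bar p.2) p.2) =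
      (phiE P 0 p.1 p.2 + H0 p.1 p.2) +
        ∫⁻ s in Ioo 0 t, Qp (fun z => c s (p.1 + s • bar p.2) z + Hg s (p.1 + s • bar p.2) z)
          (fun z => c s (p.1 + s • bar p.2) z + Hg s (p.1 + s • bar p.2) z) p.2 := by
  have hfin := fin_ae hY hP hT1 hT hC1 hC2 hA2 n1 n2 (fun t x v h1 h2 => n3 t x v h1 h2.le)
  have mL : Meas3 (lossH c Hg) := meas3_Lc (F := fun t x v => c t x v + Hg t x v) (mc.add mH)
  have mG : Meas3 (gainH c sp Hg) :=
    ((msp.add (meas3_Qp mc mH)).add (meas3_Qp mH mc)).add (meas3_Qp mH mH)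
  set W : Fld := fun t x v => if 0 ≤ t then Dm P t x v else 1 with hW
  have hWe : ∀ {t : ℝ} (x : P2) (v : R3), 0 ≤ t → W t x v = Dm P t x v := by
    intro t x v ht
    rw [hW]; simp only; rw [if_pos ht]
  have hWae : ∀ t ∈ Icc 0 T, ∀ᵐ p : P2 × R3, W t p.1 p.2 ≠ ⊤ := by
    intro t ht
    have hm : MeasurableSet {p : P2 × R3 | Dm P t p.1 p.2 ≠ ⊤} := by
      have h := DPole.measurable_Dm_t hY ht.1
      exact (h (measurableSet_singleton ⊤)).compl
    have h2 : ∀ᵐ p : P2 × R3, Dm P t p.1 p.2 ≠ ⊤ := by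
      rw [Measure.volume_eq_prod P2 R3, Measure.ae_prod_iff_ae_ae hm]
      refine Filter.Eventually.of_forall fun x => ?_
      filter_upwards [WA.ae_EW_ne_top hP (lam := 1) (T1 := 0) one_pos le_rfl zero_le_one ht.1 x]
        with v hv
      intro h
      apply hv
      rw [WA.EW_of_nonneg ht.1, h]
      have h2 : ENNReal.ofReal (Real.exp (-(1 * (t - 0)))) ≠ 0 := by
        rw [Ne, ENNReal.ofReal_eq_zero, not_le]; exact Real.exp_pos _
      rw [ENNReal.mul_top h2, add_top, ENNReal.top_mul]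
      unfold WA.We
      rw [Ne, ENNReal.ofReal_eq_zero, not_le]; exact Real.exp_pos _
    filter_upwards [h2] with p hp
    rw [hWe _ _ ht.1]
    exact hp
  have hmild := I.mild_of_expo (T := T) (nu := lossH c Hg) (L := lossH c Hg)
    (q := gainH c sp Hg) (H := Hg) (W := W) (H0 := H0) mL mL mG mH (DPole.measurable_Dm hY)
    (fun _ _ _ _ => le_rfl) hWae (fun t ht x v hWt => by
      rw [hWe _ _ ht.1] at hWt
      rw [hexp t ht x v hWt]
      unfold expf ac
      rw [sub_zero]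
      congr 1
      refine lintegral_congr fun s => ?_
      rw [tsub_self, zero_mul, add_zero]) hfin
  intro t ht
  have hWt := I.ae_at (Q := fun x v => W t x v ≠ ⊤) t (hWae t ht)
  filter_upwards [hmild t ht, hfin, hWt] with p hp1 hp2 hp3
  obtain ⟨x, v⟩ := p
  simp only at hp1 hp2 hp3 ⊢
  rw [hWe _ _ ht.1] at hp3
  have hmono : ∀ f : ℝ → ℝ≥0∞, ∫⁻ s in Ioo 0 t, f s ≤ ∫⁻ s in Ioo 0 T, f s := fun f =>
    lintegral_mono_set (Ioo_subset_Ioo_right ht.2)
  -- measurability along the flight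
  have mm : ∀ {F : Fld}, Meas3 F → Measurable fun s : ℝ => F s (x + s • bar v) v := by
    intro F hF
    exact hF.comp (by fun_prop) (by fun_prop) (by fun_prop)
  -- finiteness
  have f1 : ∫⁻ s in Ioo 0 t, lossH c Hg s (x + s • bar v) v ≠ ⊤ := by
    refine ne_top_of_le_ne_top hp2 ((hmono _).trans (lintegral_mono fun s => ?_))
    calc lossH c Hg s (x + s • bar v) v = lossH c Hg s (x + s • bar v) v * 1 := (mul_one _).symm
      _ ≤ _ := by gcongr; exact le_self_add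
  have f2 : ∫⁻ s in Ioo 0 t, lossH c Hg s (x + s • bar v) v * Hg s (x + s • bar v) v ≠ ⊤ := by
    refine ne_top_of_le_ne_top hp2 ((hmono _).trans (lintegral_mono fun s => ?_))
    gcongr
    exact le_add_self
  have eLc : ∀ s, lossH c Hg s (x + s • bar v) v =
      Lc (c s (x + s • bar v)) v + Lc (Hg s (x + s • bar v)) v :=
    fun s => Lc_add (mc.slice s _) v
  have f3 : ∫⁻ s in Ioo 0 t, LcF Hg s (x + s • bar v) v ≠ ⊤ := by
    refine ne_top_of_le_ne_top f1 (lintegral_mono fun s => ?_)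
    rw [eLc s]
    exact le_add_self
  have hC := hcold t x v ht.1 f3
  have f6 : ∫⁻ s in Ioo 0 t, sp s (x + s • bar v) v ≠ ⊤ := by
    rcases ht.1.eq_or_lt with h0 | h0
    · rw [← h0]; simp
    have f4 : Hg t (x + t • bar v) v ≠ ⊤ :=
      ne_top_of_le_ne_top (ENNReal.mul_ne_top hA2 hp3) (n3 t _ v h0 ht.2)
    have f5 : ∫⁻ s in Ioo 0 t, gainH c sp Hg s (x + s • bar v) v ≠ ⊤ := by
      have h1 : H0 x v + ∫⁻ s in Ioo 0 t, gainH c sp Hg s (x + s • bar v) v ≠ ⊤ := by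
        rw [← hp1]
        exact ENNReal.add_ne_top.2 ⟨f4, f2⟩
      exact (ENNReal.add_ne_top.1 h1).2
    refine ne_top_of_le_ne_top f5 (lintegral_mono fun s => ?_)
    unfold gainH
    exact le_self_add.trans (le_self_add.trans le_self_add)
  -- integrands
  have e1 : ∫⁻ s in Ioo 0 t, Lc (fun z => c s (x + s • bar v) z + Hg s (x + s • bar v) z) v *
      (c s (x + s • bar v) v + Hg s (x + s • bar v) v) =
      (∫⁻ s in Ioo 0 t, lossH c Hg s (x + s • bar v) v * c s (x + s • bar v) v) +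
      ∫⁻ s in Ioo 0 t, lossH c Hg s (x + s • bar v) v * Hg s (x + s • bar v) v := by
    have m1 : Measurable fun s : ℝ => lossH c Hg s (x + s • bar v) v * c s (x + s • bar v) v :=
      (mm mL).mul (mm mc)
    rw [← lintegral_add_left m1]
    refine lintegral_congr fun s => ?_
    rw [← mul_add]
    rfl
  have e2 : (∫⁻ s in Ioo 0 t, Qp (fun z => c s (x + s • bar v) z + Hg s (x + s • bar v) z)
        (fun z => c s (x + s • bar v) z + Hg s (x + s • bar v) z) v) +
        ∫⁻ s in Ioo 0 t, sp s (x + s • bar v) v =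
      (∫⁻ s in Ioo 0 t, Qp (c s (x + s • bar v)) (c s (x + s • bar v)) v) +
        ∫⁻ s in Ioo 0 t, gainH c sp Hg s (x + s • bar v) v := by
    have m1 : Measurable fun s : ℝ => sp s (x + s • bar v) v := mm msp
    have m2 : Measurable fun s : ℝ => gainH c sp Hg s (x + s • bar v) v := mm mG
    rw [← lintegral_add_right _ m1, ← lintegral_add_right _ m2]
    refine lintegral_congr fun s => ?_
    have k1 := mc.slice s (x + s • bar v)
    have k2 := mH.slice s (x + s • bar v)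
    have k3 : Measurable fun z => c s (x + s • bar v) z + Hg s (x + s • bar v) z := k1.add k2
    rw [Qp_add_left k1 k3, Qp_add_right k1 k1, Qp_add_right k2 k1]
    unfold gainH
    ring
  -- sum
  have hsum : ((c t (x + t • bar v) v + Hg t (x + t • bar v) v) +
      ((∫⁻ s in Ioo 0 t, lossH c Hg s (x + s • bar v) v * c s (x + s • bar v) v) +
      ∫⁻ s in Ioo 0 t, lossH c Hg s (x + s • bar v) v * Hg s (x + s • bar v) v)) +
      ∫⁻ s in Ioo 0 t, sp s (x + s • bar v) v =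
      ((phiE P 0 x v + H0 x v) +
        ∫⁻ s in Ioo 0 t, Qp (fun z => c s (x + s • bar v) z + Hg s (x + s • bar v) z)
        (fun z => c s (x + s • bar v) z + Hg s (x + s • bar v) z) v) +
      ∫⁻ s in Ioo 0 t, sp s (x + s • bar v) v := by
    calc _ = (c t (x + t • bar v) v +
        (∫⁻ s in Ioo 0 t, lossH c Hg s (x + s • bar v) v * c s (x + s • bar v) v) +
        (∫⁻ s in Ioo 0 t, sp s (x + s • bar v) v)) + (Hg t (x + t • bar v) v +
        ∫⁻ s in Ioo 0 t, lossH c Hg s (x + s • bar v) v * Hg s (x + s • bar v) v) := by ring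
      _ = (phiE P 0 x v +
        ∫⁻ s in Ioo 0 t, Qp (c s (x + s • bar v)) (c s (x + s • bar v)) v) +
        (H0 x v + ∫⁻ s in Ioo 0 t, gainH c sp Hg s (x + s • bar v) v) := by rw [hC, hp1]
      _ = (phiE P 0 x v + H0 x v) +
        ((∫⁻ s in Ioo 0 t, Qp (c s (x + s • bar v)) (c s (x + s • bar v)) v) +
        ∫⁻ s in Ioo 0 t, gainH c sp Hg s (x + s • bar v) v) := by ring
      _ = _ := by rw [← e2]; ring
  rw [e1]
  exact (ENNReal.add_left_inj f6).1 hsum

end Crest.Agent.R68.WGl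
end
end

-- ▼ part R68/WGlue3

/-!
# Row 68, PART W (helper153): `MildOut` from the facts on the cold component
-/

set_option autoImplicit false
open MeasureTheory Set Filter
open scoped ENNReal NNReal Topology
open Crest.AnalysisR.VecCalc3 Crest.AnalysisR.PDE.Boltzmann

noncomputable section

namespace Crest.Agent.R68.WP

open Crest.Agent.R68.A (en Meas3 meas3_Lc Lc_add)
open Crest.Agent.R68.N
open Crest.Agent.R68.Main0 (H0f Hot)
open Crest.Agent.R68.W (Om damped THyp opt)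
open Crest.Agent.R68.WA (We w1 Mx EW one_le_w1 w1_ne_top)

/-- (819/906) integral form of the cold equation (C7) -/
def ColdMildOut (Y : ℝ) : Prop :=
  ∀ K ey : ℝ, 1 ≤ K → 0 < ey → ey ≤ 1 / 100 → ∀ᶠ p : ℕ in atTop, ∀ᶠ j0 : ℕ in atTop,
    ∀ lam : Fld, Meas3 lam → PerF lam → ∀ (t : ℝ) (x : P2) (v : R3), 0 ≤ t →
      (∫⁻ s in Ioo 0 t, lam s (x + s • bar v) v) ≠ ⊤ →
      coldR (par K Y ey p j0) lam t (x + t • bar v) v +
        (∫⁻ s in Ioo 0 t, rateC (par K Y ey p j0) lam s (x + s • bar v) v *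
          coldR (par K Y ey p j0) lam s (x + s • bar v) v) +
        (∫⁻ s in Ioo 0 t, coldSpill (par K Y ey p j0) lam s (x + s • bar v) v) =
      phiE (par K Y ey p j0) 0 x v +
        ∫⁻ s in Ioo 0 t, Qp (coldR (par K Y ey p j0) lam s (x + s • bar v))
          (coldR (par K Y ey p j0) lam s (x + s • bar v)) v

/-- (819/827/475) loss rate of the cold majorant -/
def SizeOut (Y : ℝ) : Prop :=
  ∀ K ey : ℝ, 1 ≤ K → 0 < ey → ey ≤ 1 / 100 → ∀ᶠ p : ℕ in atTop, ∀ᶠ j0 : ℕ in atTop,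
    (∃ C : ℝ≥0∞, C ≠ ⊤ ∧ ∀ t ∈ Ioc 0 (T1j j0), ∀ (x : P2) (v : R3),
      ENNReal.ofReal ((t + distG x) ^ 2) * Lc (coldS (par K Y ey p j0) t x) v ≤ C * w1 v) ∧
    (∀ T : ℝ, ∃ B : ℝ≥0∞, B ≠ ⊤ ∧ ∀ t, T1j j0 ≤ t → t ≤ T → ∀ (x : P2) (v : R3),
      Lc (coldS (par K Y ey p j0) t x) v ≤ B * w1 v)

/-- (858) integrability: a mild solution in the class is a `MildGOn` -/
def IntOut (Y : ℝ) : Prop :=
  ∀ K ey : ℝ, 1 ≤ K → 0 < ey → ey ≤ 1 / 100 → ∀ᶠ p : ℕ in atTop, ∀ᶠ j0 : ℕ in atTop,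
    ∀ (F : Fld) (G0 : P2 → R3 → ℝ) (R T : ℝ), 0 ≤ T → Meas3 F → PerF F → DatumG G0 R →
      (∀ x v, F 0 x v = ENNReal.ofReal (G0 x v)) →
      (∃ A : ℝ≥0∞, A ≠ ⊤ ∧ ∀ t ∈ Ioc 0 T, ∀ x v, F t x v ≤ coldS (par K Y ey p j0) t x v +
        A * (Dm (par K Y ey p j0) t x v * ENNReal.ofReal (Real.exp (-‖v‖)))) →
      (∀ t ∈ Icc 0 T, ∀ᵐ q : P2 × R3, F t (q.1 + t • bar q.2) q.2 +
        ∫⁻ s in Ioo 0 t, Lc (F s (q.1 + s • bar q.2)) q.2 * F s (q.1 + s • bar q.2) q.2 =
        ENNReal.ofReal (G0 q.1 q.2) +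
          ∫⁻ s in Ioo 0 t, Qp (F s (q.1 + s • bar q.2)) (F s (q.1 + s • bar q.2)) q.2) →
      MildGOn (fun t x v => (F t x v).toReal) G0 R T

/-! ### elementary bounds -/

theorem gau_le_exp {t : ℝ} (ht1 : t ≤ 1) (v : R3) :
    gau (1 / 50) t v ≤ Real.exp 25 * Real.exp (-‖v‖) := by
  unfold gau
  rw [← Real.exp_add]
  refine Real.exp_le_exp.2 ?_
  have h1 : √t ≤ 1 := by rw [Real.sqrt_le_one]; exact ht1
  nlinarith [sq_nonneg (‖v‖ / 10 - 5), mul_nonneg (sub_nonneg.2 h1) (sq_nonneg ‖v‖)]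

theorem Zg_le_exp {P : Par} {t : ℝ} (ht1 : t ≤ 1) (x : P2) (v : R3) :
    Zg P (1 / 50) t x v ≤ ENNReal.ofReal (Real.exp 25) * (Dm P t x v * We v) := by
  unfold Zg We
  calc ENNReal.ofReal (gau (1 / 50) t v) * Dm P t x v
      ≤ ENNReal.ofReal (Real.exp 25 * Real.exp (-‖v‖)) * Dm P t x v := by
        gcongr; exact gau_le_exp ht1 v
    _ = _ := by rw [ENNReal.ofReal_mul (Real.exp_pos _).le]; ring

theorem EW_le_Dm {P : Par} {lam T1 t : ℝ} (hlam : 0 ≤ lam) (h0 : 0 ≤ T1) (ht : T1 ≤ t) (x : P2)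
    (v : R3) : EW P lam T1 t x v ≤ 2 * (Dm P t x v * We v) := by
  rw [WA.EW_of_nonneg (h0.trans ht)]
  have h1 : ENNReal.ofReal (Real.exp (-(lam * (t - T1)))) ≤ 1 := by
    rw [← ENNReal.ofReal_one]
    refine ENNReal.ofReal_le_ofReal ?_
    rw [Real.exp_le_one_iff]
    have : 0 ≤ lam * (t - T1) := mul_nonneg hlam (by linarith)
    linarith
  calc (1 + ENNReal.ofReal (Real.exp (-(lam * (t - T1)))) * Dm P t x v) * We v
      ≤ (Dm P t x v + 1 * Dm P t x v) * We v := by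
        gcongr
        exact DPole.one_le_Dm P t x v
    _ = _ := by ring

theorem We_le_one' (v : R3) : We v ≤ 1 := by
  unfold We
  rw [← ENNReal.ofReal_one]
  refine ENNReal.ofReal_le_ofReal ?_
  rw [Real.exp_le_one_iff]
  linarith [norm_nonneg v]


/-- **`MildOut`** -/
theorem MildOut_of {Y : ℝ} (hY1 : 1 ≤ Y) (hCa : CausOut Y) (hCm : ColdMildOut Y) (hSz : SizeOut Y)
    (hIn : IntOut Y) : MildOut Y := by
  intro K ey hK hey hey1
  filter_upwards [hCa K ey hK hey hey1, hCm K ey hK hey hey1, hSz K ey hK hey hey1,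
    hIn K ey hK hey hey1, eventually_ge_atTop 3] with p hCa hCm hSz hIn hp3
  intro R hR
  have hY : 0 < Y := by linarith
  filter_upwards [hCa, hCm, hSz, hIn, ev_pos, ev_T1_le one_pos,
    ev_ParD K Y ey p hY,
    ev_Ok K Y ey p (by linarith) hY hey hp3,
    ev_hole K Y ey p]
    with j0 hCa hCm hSz hIn hpos hT11 hPD hOk hhole
  intro H A hot hA hbd b Hh T hT mHh pHh hHhb heqn
  obtain ⟨hdl, hrh, hT1⟩ := hpos
  set P := par K Y ey p j0 with hP
  set T1 := T1j j0 with hT1def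
  obtain ⟨⟨Cn, hCn, near⟩, far⟩ := hSz
  obtain ⟨Bf, hBf, far⟩ := far T
  have hPY : 0 < P.Y := hY
  have mH0 : Measurable fun q : P2 × R3 => H0f j0 R q.1 q.2 :=
    ENNReal.measurable_ofReal.comp (Fuel.measurable_bg _ _)
  have pH0 : ∀ v, PerG fun x => H0f j0 R x v := by
    intro v x k
    show H0f j0 R (x + latt k) v = H0f j0 R x v
    unfold H0f
    have : Fuel.bg (rhj j0) R (x + latt k) v = Fuel.bg (rhj j0) R x v := Fuel.perG_bg _ _ v x k
    rw [this]
  obtain ⟨Hg, hHg⟩ : ∃ Hg : Fld, Hg = WGl.Hgl (H0f j0 R) T1 H Hh := ⟨_, rfl⟩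
  have hHg' : Hgl (H0f j0 R) T1 H Hh = Hg := hHg.symm
  rw [hHg'] at heqn ⊢
  have mHg : Meas3 Hg := by rw [hHg]; exact WGl.meas3_Hgl mH0 hot.meas mHh
  have pHg : PerF Hg := by rw [hHg]; exact WGl.perF_Hgl pH0 hot.per pHh
  have perLc : ∀ {G : Fld}, PerF G → PerF (LcF G) := by
    intro G hG t v x k
    have e : G t (x + latt k) = G t x := funext fun z => hG t z x k
    show Lc (G t (x + latt k)) v = Lc (G t x) v
    rw [e]
  have mlam : Meas3 (LcF Hg) := meas3_Lc mHg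
  have plam : PerF (LcF Hg) := perLc pHg
  set c : Fld := coldR P (LcF Hg) with hc
  set sp : Fld := coldSpill P (LcF Hg) with hsp
  obtain ⟨mc, pc, msp, psp, cle, cfin⟩ := hCa.1 (LcF Hg) mlam plam
  have hmid : ∀ {t : ℝ}, 0 < t → t < T1 → Hg t = H t := by
    intro t h0 h1
    rw [hHg]; exact WGl.Hgl_mid h0 h1
  have hge : ∀ {t : ℝ}, T1 ≤ t → Hg t = Hh t := by
    intro t h1
    rw [hHg]; exact WGl.Hgl_ge hT1 h1
  have hcaus := hCa.2 (LcF Hg) (LcF H) mlam plam (meas3_Lc hot.meas) (perLc hot.per) T1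
    (fun t x v h0 h1 => by
      show Lc (Hg t x) v = Lc (H t x) v
      rw [hmid h0 h1])
  -- bounds
  have hLE : ∀ t x v, T1 ≤ t → Lc (Hh t x) v ≤ b * (WA.C2E P.Y (1 / 8) * w1 v) := by
    intro t x v ht
    calc Lc (Hh t x) v ≤ Lc (fun z => b * EW P (1 / 8) T1 t x z) v :=
          WA.Lc_mono (fun z => hHhb t x z ht) v
      _ = b * Lc (EW P (1 / 8) T1 t x) v := Crest.Agent.R68.A.Lc_const_mul ENNReal.coe_ne_top _ _
      _ ≤ _ := by
          gcongr
          exact WA.Lc_w1EW hPD (by norm_num) hT1.le hT11 ht x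
            (fun z => le_mul_of_one_le_left' (one_le_w1 z)) v
  have hHE : ∀ t x v, 0 < t → t < T1 →
      H t x v ≤ A * ENNReal.ofReal (Real.exp 25) * (Dm P t x v * We v) := by
    intro t x v h0 h1
    rw [mul_assoc]
    refine (hbd t ⟨h0, h1.le⟩ x v).trans ?_
    gcongr
    exact Zg_le_exp (h1.le.trans hT11) x v
  have hAe : A * ENNReal.ofReal (Real.exp 25) ≠ ⊤ := ENNReal.mul_ne_top hA ENNReal.ofReal_ne_top
  have hLH : ∀ t x v, 0 < t → t < T1 → Lc (H t x) v ≤
      A * ENNReal.ofReal (Real.exp 25) * (Real.exp (1 / 8) |> ENNReal.ofReal) *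
        (WA.C2E P.Y (1 / 8) * w1 v) := by
    intro t x v h0 h1
    have h2 : ∀ z, H t x z ≤ A * ENNReal.ofReal (Real.exp 25) * ENNReal.ofReal (Real.exp (1 / 8)) *
        EW P (1 / 8) 0 t x z := by
      intro z
      refine (hHE t x z h0 h1).trans ?_
      rw [mul_assoc (A * ENNReal.ofReal (Real.exp 25))]
      refine mul_le_mul' le_rfl ?_
      rw [WA.EW_of_nonneg h0.le, ← mul_assoc]
      refine mul_le_mul' ?_ le_rfl
      have h3 : 1 ≤ ENNReal.ofReal (Real.exp (1 / 8)) * ENNReal.ofReal (Real.exp (-(1 / 8 * (t - 0)))) := by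
        rw [← ENNReal.ofReal_mul (Real.exp_pos _).le, ← Real.exp_add, ← ENNReal.ofReal_one]
        refine ENNReal.ofReal_le_ofReal ?_
        rw [Real.one_le_exp_iff]
        have := h1.le.trans hT11
        linarith
      calc Dm P t x z = 1 * Dm P t x z := (one_mul _).symm
        _ ≤ (ENNReal.ofReal (Real.exp (1 / 8)) * ENNReal.ofReal (Real.exp (-(1 / 8 * (t - 0))))) *
            Dm P t x z := by gcongr
        _ = ENNReal.ofReal (Real.exp (1 / 8)) * (ENNReal.ofReal (Real.exp (-(1 / 8 * (t - 0)))) *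
            Dm P t x z) := by ring
        _ ≤ _ := by gcongr; exact le_add_self
    calc Lc (H t x) v ≤ Lc (fun z => A * ENNReal.ofReal (Real.exp 25) *
          ENNReal.ofReal (Real.exp (1 / 8)) * EW P (1 / 8) 0 t x z) v := WA.Lc_mono h2 v
      _ = A * ENNReal.ofReal (Real.exp 25) * ENNReal.ofReal (Real.exp (1 / 8)) *
          Lc (EW P (1 / 8) 0 t x) v :=
          Crest.Agent.R68.A.Lc_const_mul (ENNReal.mul_ne_top hAe ENNReal.ofReal_ne_top) _ _
      _ ≤ _ := by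
          gcongr
          exact WA.Lc_w1EW hPD (by norm_num) le_rfl zero_le_one h0.le x
            (fun z => le_mul_of_one_le_left' (one_le_w1 z)) v
  have eL : ∀ t x v, lossH c Hg t x v = Lc (c t x) v + Lc (Hg t x) v :=
    fun t x v => Lc_add (mc.slice t x) v
  set C1 : ℝ≥0∞ := Cn + 4 * (A * ENNReal.ofReal (Real.exp 25) * ENNReal.ofReal (Real.exp (1 / 8)) *
    WA.C2E P.Y (1 / 8)) with hC1
  have hC1t : C1 ≠ ⊤ := by
    rw [hC1]
    refine ENNReal.add_ne_top.2 ⟨hCn, ENNReal.mul_ne_top (by norm_num) ?_⟩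
    exact ENNReal.mul_ne_top (ENNReal.mul_ne_top hAe ENNReal.ofReal_ne_top) ENNReal.coe_ne_top
  set C2 : ℝ≥0∞ := Bf + b * WA.C2E P.Y (1 / 8) with hC2
  have hC2t : C2 ≠ ⊤ :=
    ENNReal.add_ne_top.2 ⟨hBf, ENNReal.mul_ne_top ENNReal.coe_ne_top ENNReal.coe_ne_top⟩
  set A2 : ℝ≥0∞ := A * ENNReal.ofReal (Real.exp 25) + 2 * b with hA2
  have hA2t : A2 ≠ ⊤ :=
    ENNReal.add_ne_top.2 ⟨hAe, ENNReal.mul_ne_top (by norm_num) ENNReal.coe_ne_top⟩
  have n1 : ∀ t x v, 0 < t → t < T1 →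
      ENNReal.ofReal ((t + distG x) ^ 2) * lossH c Hg t x v ≤ C1 * w1 v := by
    intro t x v h0 h1
    rw [eL, mul_add, hC1, add_mul]
    refine add_le_add ?_ ?_
    · refine le_trans ?_ (near t ⟨h0, h1.le⟩ x v)
      gcongr
      exact WA.Lc_mono (fun z => cle t x z h0.le) v
    · rw [hmid h0 h1]
      calc ENNReal.ofReal ((t + distG x) ^ 2) * Lc (H t x) v
          ≤ 4 * (A * ENNReal.ofReal (Real.exp 25) * ENNReal.ofReal (Real.exp (1 / 8)) *
            (WA.C2E P.Y (1 / 8) * w1 v)) := by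
            refine mul_le_mul' ?_ (hLH t x v h0 h1)
            have h3 : (4 : ℝ≥0∞) = ENNReal.ofReal 4 := by simp
            rw [h3]
            refine ENNReal.ofReal_le_ofReal ?_
            have h4 := distG_le_one x
            have h5 := distG_nonneg x
            have h6 := h1.le.trans hT11
            nlinarith
        _ = _ := by ring
  have n2' : ∀ t x v, T1 ≤ t → t ≤ T → lossH c Hh t x v ≤ C2 * w1 v := by
    intro t x v h0 h1
    have e : lossH c Hh t x v = Lc (c t x) v + Lc (Hh t x) v := Lc_add (mc.slice t x) v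
    rw [e, hC2, add_mul]
    refine add_le_add ?_ ?_
    · refine le_trans ?_ (far t h0 h1 x v)
      exact WA.Lc_mono (fun z => cle t x z (hT1.le.trans h0)) v
    · refine (hLE t x v h0).trans (le_of_eq (by ring))
  have n2 : ∀ t x v, T1 ≤ t → t < T → lossH c Hg t x v ≤ C2 * w1 v := by
    intro t x v h0 h1
    have e : lossH c Hg t x v = lossH c Hh t x v :=
      WGl.loss_congr (fun _ => rfl) (fun z => by rw [hge h0]) v
    rw [e]
    exact n2' t x v h0 h1.le
  have hbig : ∀ t x v, 0 < t → t ≤ T → Hg t x v ≤ A2 * (Dm P t x v * We v) := by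
    intro t x v h0 h1
    rcases lt_or_ge t T1 with h2 | h2
    · rw [hmid h0 h2, hA2, add_mul]
      exact (hHE t x v h0 h2).trans le_self_add
    · rw [hge h2, hA2, add_mul]
      refine (hHhb t x v h2).trans (le_trans ?_ le_add_self)
      calc (b : ℝ≥0∞) * EWj K Y ey p j0 t x v ≤ b * (2 * (Dm P t x v * We v)) := by
            gcongr
            exact EW_le_Dm (by norm_num) hT1.le h2 x v
        _ = _ := by ring
  have n3 : ∀ t x v, 0 < t → t ≤ T → Hg t x v ≤ A2 * Dm P t x v := by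
    intro t x v h0 h1
    refine (hbig t x v h0 h1).trans ?_
    gcongr
    calc Dm P t x v * We v ≤ Dm P t x v * 1 := by gcongr; exact We_le_one' v
      _ = _ := mul_one _
  -- exponential form
  have hexp := WGl.expo (P := P) (T1 := T1) (T := T) (H0 := H0f j0 R) (H := H) (Hh := Hh) (c := c)
    (sp := sp) hPY hT1 hot (fun t x v h0 h1 => (hcaus t x v h0 h1).1)
    (fun t x v h0 h1 => (hcaus t x v h0 h1).2)
    (fun t x v h0 h1 hD => heqn t x v h0 h1 (by
      have h2 := EW_le_Dm (P := P) (lam := 1 / 8) (by norm_num) hT1.le h0 x v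
      refine ne_top_of_le_ne_top ?_ h2
      refine ENNReal.mul_ne_top (by norm_num) (ENNReal.mul_ne_top hD ?_)
      exact (WA.We_ne_top v)))
    (fun t x v h0 h1 => by
      have h2 : ∀ r ∈ Ioo T1 t, lossH c Hh r (x - (t - r) • bar v) v ≤ C2 * w1 v :=
        fun r hr => n2' r _ v hr.1.le (hr.2.le.trans h1)
      refine ne_top_of_le_ne_top ?_ (setLIntegral_mono' measurableSet_Ioo h2)
      rw [setLIntegral_const, Real.volume_Ioo]
      exact ENNReal.mul_ne_top (ENNReal.mul_ne_top hC2t (w1_ne_top v)) ENNReal.ofReal_ne_top)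
  rw [← hHg] at hexp
  -- mild form
  have hcold : ∀ t x v, 0 ≤ t → (∫⁻ s in Ioo 0 t, LcF Hg s (x + s • bar v) v) ≠ ⊤ →
      c t (x + t • bar v) v +
        (∫⁻ s in Ioo 0 t, lossH c Hg s (x + s • bar v) v * c s (x + s • bar v) v) +
        (∫⁻ s in Ioo 0 t, sp s (x + s • bar v) v) =
      phiE P 0 x v +
        ∫⁻ s in Ioo 0 t, Qp (c s (x + s • bar v)) (c s (x + s • bar v)) v := by
    intro t x v h0 hf
    have h := hCm (LcF Hg) mlam plam t x v h0 hf
    have e : ∀ s, rateC P (LcF Hg) s (x + s • bar v) v = lossH c Hg s (x + s • bar v) v := by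
      intro s
      rw [eL]
      rfl
    simp only [e] at h
    exact h
  have hms := WGl.mild_sum hPY hPD hT1 hT mH0 mc msp mHg hexp hC1t hC2t hA2t n1 n2 n3 hcold
  have hc0 : ∀ x v, c 0 x v = phiE P 0 x v := by
    intro x v
    have h := hcold 0 x v le_rfl (by simp)
    simpa using h
  have hG0 : ∀ x v, phiE P 0 x v + H0f j0 R x v = ENNReal.ofReal (Fuel.F0 P (rhj j0) R x v) := by
    intro x v
    unfold phiE H0f Fuel.F0
    rw [ENNReal.ofReal_add (Fuel.phi_nonneg hOk 0 x v) (Fuel.bg_nonneg _ _ _ _)]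
  have hHg0 : Hg 0 = H0f j0 R := by rw [hHg]; exact WGl.Hgl_le le_rfl
  refine hIn (Ftot P Hg) (Fuel.F0 P (rhj j0) R) R T (hT1.le.trans hT) (mc.add mHg) ?_
    (Fuel.datumG_F0 hOk hhole hR) ?_ ⟨A2, hA2t, ?_⟩ ?_
  · intro t v x k
    have e1 : c t (x + latt k) v = c t x v := pc t v x k
    have e2 : Hg t (x + latt k) v = Hg t x v := pHg t v x k
    show c t (x + latt k) v + Hg t (x + latt k) v = c t x v + Hg t x v
    rw [e1, e2]
  · intro x v
    show c 0 x v + Hg 0 x v = _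
    rw [hc0, hHg0, hG0]
  · intro t ht x v
    exact add_le_add (cle t x v ht.1.le) (hbig t x v ht.1 ht.2)
  · intro t ht
    filter_upwards [hms t ht] with q hq
    rw [← hG0]
    exact hq

end Crest.Agent.R68.WP
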