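import Crest.Agent.R68.ColdSpill_Mg
import Crest.Agent.R68.ColdOutAll
import Crest.Agent.R68.DOut
import Crest.Agent.R68.ColdFin
import Crest.Agent.R68.ColdCpl
import Crest.Agent.R68.WG4_Mg
import Crest.Agent.R68.ColdT1_Mg
import Mathlib
import Crest.Agent.R68.WB8
import Crest.Agent.R68.ColdDefs
import Crest.Agent.R68.IntE
import Crest.Agent.R68.CSize3
import Crest.Agent.R68.ColdW2
import Crest.Agent.R68.ColdMeas
import Crest.Agent.R68.Int2
import Crest.Agent.R68.Pole
import Crest.Agent.R68.ZOn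
import Crest.Agent.R68.ColdW6
import Crest.Agent.R68.WD
import Crest.Agent.R68.WProps
import Crest.Agent.R68.ColdW4
import Crest.Agent.R68.ColdVS
import Crest.Agent.R68.ColdPic
import Crest.Agent.R68.ColdW3
import Crest.Agent.R68.WA0
import Crest.Agent.R68.IKInp
import Crest.Agent.R68.KWs
import Crest.Agent.R68.ColdCpl2
import Crest.Agent.R68.ColdLip
import Crest.Agent.R68.WGlue3
import Crest.Agent.R68.KWarm

-- ▼ part R68/AOutHolds
section

/-!
# Row 68 (helper819, from 418's `AOut_of`): Part A for the final parameters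
-/

set_option autoImplicit false

namespace Crest.Agent.R68.A

/-- **Part A** -/
theorem AOut_holds : Main0.AOut 10 :=
  AOut_of (by norm_num) (KC.ColdOutAll_holds (by norm_num)) KC.warmSize_holds
    (ColdSp.SpillOutAll_holds (by norm_num))

end Crest.Agent.R68.A
end

-- ▼ part R68/DOutHolds
section

/-!
# Row 68 (helper559): the distinguishing statement `DOut`
-/

set_option autoImplicit false
open MeasureTheory Set Filter
open scoped ENNReal Topology
open Crest.AnalysisR.VecCalc3 Crest.AnalysisR.PDE.Boltzmann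

noncomputable section

namespace Crest.Agent.R68.D

open Crest.Agent.R68.A (en Meas3)
open Crest.Agent.R68.N (Fld PerF)

theorem coldD_holds {P : Par} (hC : ColdPar Cold.C0 P) (hB : ColdW.Big P) (T : ℝ) :
    DCong.ColdD P T where
  meas := fun lam hm _ => ColdM.meas3_coldR _ hm
  full := fun lam hm _ t x v ht =>
    ColdC.coldR_eq_coldL hC hB (by have := hC.K; linarith) hm ht x v
  fin := fun lam hm _ t ht _ => Eventually.of_forall fun q =>
    ne_top_of_le_ne_top (Cold.coldS_ne_top hB ht.le q.1 q.2)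
      (Cold.coldR_le_coldS hC hB.ok lam ht.le q.1 q.2)

theorem DOut_holds (Y : ℝ) (hY : 1 ≤ Y) : Main0.DOut Y := by
  refine DCong.DOut_of ⟨1, fun K hK _ ey hey hey1 => ?_⟩
  filter_upwards [eventually_ge_atTop 512] with p hp
  filter_upwards [ev_ColdPar K Y ey p Cold.C0 hK hY hp,
    ev_Ok K Y ey p (by linarith) (by linarith) hey (by omega),
    tendsto_natCast_atTop_atTop.eventually_ge_atTop K] with j0 hC hOk hKj
  exact coldD_holds hC ⟨hOk, hp, hY, hKj⟩ _

end Crest.Agent.R68.D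
end
end

-- ▼ part R68/WOutB
section

/-!
# Row 68, PART W (helper835): `GMain_holds` from helper153's `WG.main`.
-/

set_option autoImplicit false
open MeasureTheory Set Filter
open scoped ENNReal NNReal Topology
open Crest.AnalysisR.VecCalc3 Crest.AnalysisR.PDE.Boltzmann

noncomputable section

namespace Crest.Agent.R68.WP

open Crest.Agent.R68.A (en Meas3)
open WA DPole N Main0
open Crest.Agent.R68.W (Om damped THyp)

theorem GMain_holds (Y : ℝ) : GMain Y := by
  intro A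
  obtain ⟨hs, ell, e0, d0, S0, -, hell, -, he0, hd0, hS0, hmain⟩ := WG.main Y A
  have c1 : ∀ x : ℝ≥0, ENNReal.ofReal (x : ℝ) = x := fun x => ENNReal.ofReal_coe_nnreal
  refine ⟨2 * hs, hs, ell, e0, d0, S0, hell, by exact_mod_cast he0, by exact_mod_cast hd0,
    by exact_mod_cast hS0, ?_⟩
  intro P hP hPY T1 hT0 hT1 A' N0 h1 lamA cf sp vs hTH hvs hvsS hd1 hd2 hcold hent
  simp only [c1] at hvsS hd2 hcold hent
  obtain ⟨Hh, q1, q2, q3, q4⟩ := hmain P T1 A' N0 h1 lamA cf sp vs hP hPY hT0 hT1 hTH hvs hvsS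
    hd1 hd2 hcold (fun Hh T hT hm hp hb heq => hent Hh T hT hm hp hb heq)
  exact ⟨Hh, q1, q2, q3, fun T t x v h2 _ h3 => q4 t x v h2 h3⟩

/-- Part W from the four remaining inputs -/
theorem WOut_of' {Y : ℝ} (hY : 0 < Y) (hT : TruncOut Y) (hC : ColdOut Y)
    (hM : MildOut Y) (hCa : CausOut Y) : WOut Y :=
  WOut_of hY (GMain_holds Y) hT hC hM hCa

end Crest.Agent.R68.WP
end
end

-- ▼ part R68/ColdLip3
section

/-!
# Row 68, PART C (helper475): Lipschitz dependence of the cold component on the external rate (C4)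
-/

set_option autoImplicit false
open MeasureTheory Set Filter
open scoped ENNReal NNReal Topology
open Crest.AnalysisR.VecCalc3 Crest.AnalysisR.PDE.Boltzmann

noncomputable section

namespace Crest.Agent.R68.ColdL

open Crest.Agent.R68.A (Meas3 en)
open Crest.Agent.R68.ColdW (Big)

variable {P : Par}

theorem sol_coldR (hC : ColdPar Cold.C0 P) (hB : Big P) {lam : ℝ → P2 → R3 → ℝ≥0∞}
    (hl : Meas3 lam) (T : ℝ) : Sol P T (coldR P lam) lam where
  m := ColdM.meas3_coldR P hl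
  ml := hl
  eq t x v ht _ := ColdC.coldR_eq_coldL hC hB (by linarith [hC.K]) hl ht x v

/-- the two assumptions on the parameters of part C -/
theorem big_of (hC : ColdPar Cold.C0 P) (hey : 0 < P.ey) (hC' : ColdPar C.C0 P) : Big P where
  ok := C.CP.ok hC' hey
  p := hC.p
  Y1 := hC.Y
  K := by
    have h1 := hC.j0
    have hK := hC.K
    have hY := hC.Y
    have h2 : 1 ≤ P.K + P.Y := by linarith
    have h3 : P.K + P.Y ≤ (P.K + P.Y) ^ 8 := le_self_pow₀ h2 (by norm_num)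
    have h4 := Cold.C0_ge
    have h5 : P.K + P.Y ≤ Cold.C0 * (P.K + P.Y) ^ 8 := by
      calc P.K + P.Y ≤ 1 * (P.K + P.Y) ^ 8 := by rw [one_mul]; exact h3
        _ ≤ Cold.C0 * (P.K + P.Y) ^ 8 := by
            gcongr
            exact le_trans (by norm_num) h4
    linarith

section

variable {T : ℝ} {lam lam' g : ℝ → P2 → R3 → ℝ≥0∞} {Δ : ℝ → P2 → ℝ≥0∞}

/-- general form with the constant `B` -/
theorem coldR_lip_B (hC : ColdPar Cold.C0 P) (hB : Big P) (hl : Meas3 lam) (hl' : Meas3 lam')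
    {B : ℝ} (hB0 : 0 < B) (hBd : ∀ t x v, 0 < t → t ≤ T → coldS P t x v ≠ 0 →
      Lc (coldS P t x) v ≤ ENNReal.ofReal B) (K : Close P T lam lam' g Δ) {t : ℝ} (ht : 0 ≤ t)
    (htT : t ≤ T) (x : P2) (v : R3) :
    coldR P lam t x v ≤ coldR P lam' t x v +
      ENNReal.ofReal (Real.exp (B * t)) * Δ t x * Maj P t x v :=
  (cmp_main hC hB (sol_coldR hC hB hl T) (sol_coldR hC hB hl' T) hB0 hBd K ht htT x v).1.1

/-- general form with the constant `B`, sheet by sheet -/
theorem coldjk_lip_B (hC : ColdPar Cold.C0 P) (hB : Big P) (hl : Meas3 lam) (hl' : Meas3 lam')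
    {B : ℝ} (hB0 : 0 < B) (hBd : ∀ t x v, 0 < t → t ≤ T → coldS P t x v ≠ 0 →
      Lc (coldS P t x) v ≤ ENNReal.ofReal B) (K : Close P T lam lam' g Δ) {t : ℝ} (ht : 0 ≤ t)
    (htT : t ≤ T) (x : P2) (v : R3) (i : (ℤ × ℤ) × ℕ) :
    coldjk P lam i t x v ≤ coldjk P lam' i t x v +
      ENNReal.ofReal (Real.exp (B * t)) * Δ t x * Wj P i.2 t (x + latt i.1) v :=
  (cmp_main hC hB (sol_coldR hC hB hl T) (sol_coldR hC hB hl' T) hB0 hBd K ht htT x v).2 i.2 i.1

/-- majorant of one sheet -/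
theorem Wj_le' (hC : ColdPar Cold.C0 P) {j : ℕ} {t : ℝ} (ht : 0 ≤ t) (x : P2) (v : R3) :
    Wj P j t x v ≤ phij P j t x v + warmj P j t x v := by
  refine (Wj_le hC ht x v).trans (add_le_add le_rfl (mul_le_of_le_one_left' ?_))
  rw [← ENNReal.ofReal_one]
  exact ENNReal.ofReal_le_ofReal (min_le_right _ _)

/-! ### `[0,T1]` -/





/-! ### all times -/

/-- **`coldR_lipW`**: all times, locally bounded constant -/
theorem coldR_lipW (hC : ColdPar Cold.C0 P) (hB : Big P) (T : ℝ) :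
    ∃ B : ℝ≥0, ∀ lam lam' g : ℝ → P2 → R3 → ℝ≥0∞, ∀ Δ : ℝ → P2 → ℝ≥0∞, ∀ T', T' ≤ T →
      Meas3 lam → Meas3 lam' → Close P T' lam lam' g Δ → ∀ t, 0 ≤ t → t ≤ T' → ∀ x v,
      coldR P lam t x v ≤ coldR P lam' t x v + B * Δ t x * coldS P t x v ∧
      ∀ i : (ℤ × ℤ) × ℕ, coldjk P lam i t x v ≤ coldjk P lam' i t x v +
        B * Δ t x * (phij P i.2 t (x + latt i.1) v + warmj P i.2 t (x + latt i.1) v) := by
  obtain ⟨B0, hB0⟩ := ColdW.Lc_bdd hB T
  refine ⟨Real.toNNReal (Real.exp (max B0 1 * max T 0)), fun lam lam' g Δ T' hT' hl hl' K t ht htT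
    x v => ?_⟩
  have hb : 0 < max B0 1 := lt_max_of_lt_right one_pos
  have hBd : ∀ t x v, 0 < t → t ≤ T' → coldS P t x v ≠ 0 →
      Lc (coldS P t x) v ≤ ENNReal.ofReal (max B0 1) := fun t x v a1 a2 a3 =>
    (hB0 t x v a1.le (a2.trans hT') a3).trans (ENNReal.ofReal_le_ofReal (le_max_left _ _))
  have hexp : ENNReal.ofReal (Real.exp (max B0 1 * t)) ≤
      ((Real.toNNReal (Real.exp (max B0 1 * max T 0)) : ℝ≥0) : ℝ≥0∞) := by
    refine ENNReal.ofReal_le_ofReal (Real.exp_le_exp.2 (mul_le_mul_of_nonneg_left ?_ hb.le))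
    exact (htT.trans hT').trans (le_max_left _ _)
  refine ⟨(coldR_lip_B hC hB hl hl' hb hBd K ht htT x v).trans ?_, fun i =>
    (coldjk_lip_B hC hB hl hl' hb hBd K ht htT x v i).trans ?_⟩
  · exact add_le_add le_rfl (mul_le_mul' (mul_le_mul' hexp le_rfl) (Maj_le_coldS P t x v))
  · exact add_le_add le_rfl (mul_le_mul' (mul_le_mul' hexp le_rfl) (Wj_le' hC ht _ v))

end

end Crest.Agent.R68.ColdL
end
end

-- ▼ part R68/WB9
section

/-!
R68 / WB9: the hypotheses `THyp` of the truncated problem for the hot weight `EW` and the cold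
component `coldR` (helper475, part W).  The facts on the cold component are collected in `CFacts`
(parts C and W, helper906 and helper827).
-/

set_option autoImplicit false
open MeasureTheory Set
open scoped ENNReal NNReal Topology
open Crest.AnalysisR.VecCalc3 Crest.AnalysisR.PDE.Boltzmann

noncomputable section

namespace Crest.Agent.R68.W

open Crest.Agent.R68.A (Meas3 meas3_Qp meas3_Lc)
open Crest.Agent.R68.WA (We w1 EW measurable_EW EW_per EW_flight We_le_EW)
open Crest.Agent.R68.DPole (ParD)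
open Crest.Agent.R68.C (newt)

/-- the facts on the cold component used by the truncated problem on `[T1,∞)` -/
structure CFacts (P : Par) (lam T1 : ℝ) : Prop where
  meas : ∀ lam, Meas3 lam → (∀ t v, PerG fun x => lam t x v) → Meas3 (coldR P lam)
  per : ∀ lam, Meas3 lam → (∀ t v, PerG fun x => lam t x v) →
    ∀ t v, PerG fun x => coldR P lam t x v
  smeas : ∀ lam, Meas3 lam → (∀ t v, PerG fun x => lam t x v) → Meas3 (coldSpill P lam)
  sper : ∀ lam, Meas3 lam → (∀ t v, PerG fun x => lam t x v) →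
    ∀ t v, PerG fun x => coldSpill P lam t x v
  le : ∀ lam, Meas3 lam → (∀ t v, PerG fun x => lam t x v) → ∀ t x v, T1 ≤ t →
    coldR P lam t x v ≤ coldS P t x v
  Smeas : Meas3 (coldS P)
  Ssupp : ∀ t x v, T1 ≤ t → P.Y + 5 < ‖v‖ → coldS P t x v = 0
  Sbd : ∀ T, ∃ B : ℝ≥0, ∀ t, T1 ≤ t → t ≤ T → ∀ x, ∫⁻ u, coldS P t x u ≤ B ∧
      ∀ v, newt (coldS P t x) v ≤ B * Dm P t x v
  cb : ∀ T, ∃ B : ℝ≥0, ∀ t, T1 ≤ t → t ≤ T →
    CB T1 P.Y (EW P lam T1) (coldS P) (coldR P) (coldSpill P) t B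

/-- **`THyp` for the actual weights** -/
theorem thyp_EW {P : Par} (hP : ParD P) {lam T1 A : ℝ} (hlam : 0 < lam) (h0 : 0 ≤ T1) (h1 : T1 ≤ 1)
    (hA : 0 ≤ A) (F : CFacts P lam T1) {d1 : P2 → R3 → ℝ≥0∞}
    (hd1 : Measurable fun q : P2 × R3 => d1 q.1 q.2) (hd1per : ∀ v, PerG fun x => d1 x v)
    (hd1E : ∀ x v, d1 x v ≤ ENNReal.ofReal A * EW P lam T1 T1 x v)
    {lamA : ℝ → P2 → R3 → ℝ≥0∞} (hlamA : Meas3 lamA) (hlamAper : ∀ t v, PerG fun x => lamA t x v) :
    THyp T1 lam P.Y A (EW P lam T1) (coldS P) d1 lamA (coldR P) (coldSpill P) where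
  lam0 := hlam.le
  A0 := hA
  Y0 := hP.Y.le
  Em := measurable_EW hP.Y lam T1
  Eper t v := EW_per lam T1 t v
  flight s t x v h2 h3 := EW_flight hP.Y hlam.le (h0.trans h2) h3 x v
  We_le t x v _ := We_le_EW P lam T1 t x v
  N0m := F.Smeas
  h1m := hd1
  h1per := hd1per
  h1E := hd1E
  lamAm := hlamA
  lamAper := hlamAper
  cfm := F.meas
  spm := F.smeas
  cfper := F.per
  spper := F.sper
  cf_le := F.le
  kb := kb_EW hP hlam h0 h1 F.Smeas (R' := P.Y + 5) (by have := hP.Y; linarith) F.Ssupp F.Sbd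
  cb := F.cb

end Crest.Agent.R68.W
end
end

-- ▼ part R68/IntF
section

/-!
Row 68, PART I (helper858), module 9: the cold majorant: density, logarithm, finiteness of the sums.
-/

set_option autoImplicit false
open MeasureTheory Set Filter Metric
open scoped ENNReal Topology Real
open Crest.AnalysisR.VecCalc3 Crest.AnalysisR.PDE.Boltzmann

noncomputable section

namespace Crest.Agent.R68.I

open Crest.Agent.R68.Fuel Crest.Agent.R68.A

variable {P : Par}

/-! ### finiteness of the sums -/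

/-- weight of the logarithm -/
def w1 (CL : ℝ) (j : ℕ) (_t : ℝ) : ℝ≥0∞ := ENNReal.ofReal (CL * bj j ^ (-(1 / 36) : ℝ))

/-- weight of the density -/
def w2 (CN : ℝ) (j : ℕ) (t : ℝ) : ℝ≥0∞ := ENNReal.ofReal (CN / (t + bj j))

lemma one_add_rpow_le (a : ℝ≥0∞) {p : ℝ} (hp : 0 ≤ p) :
    (1 + a) ^ p ≤ (2 : ℝ≥0∞) ^ p * (1 + a ^ p) := by
  rcases le_total a 1 with h | h
  · calc (1 + a) ^ p ≤ (2 : ℝ≥0∞) ^ p := by
          apply ENNReal.rpow_le_rpow _ hp
          rw [← one_add_one_eq_two]; gcongr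
      _ = (2 : ℝ≥0∞) ^ p * 1 := (mul_one _).symm
      _ ≤ _ := by gcongr; exact le_self_add
  · calc (1 + a) ^ p ≤ (2 * a) ^ p := by
          apply ENNReal.rpow_le_rpow _ hp
          rw [two_mul]; gcongr
      _ = (2 : ℝ≥0∞) ^ p * a ^ p := ENNReal.mul_rpow_of_nonneg _ _ hp
      _ ≤ _ := by gcongr; exact le_add_self

lemma term1_le (h : P.Ok) {CL T t : ℝ} (hCL : 0 ≤ CL) (ht : t ∈ Ioo 0 T) (j : ℕ) :
    w1 CL j t ^ (9 : ℝ) * volume {y : P2 | zx P j t y} ≤
      ENNReal.ofReal (CL ^ 9 * (8 * P.Y * (T + 1)) * (1 + P.kap * T) * 5) *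
        ENNReal.ofReal (bj j ^ (5 / 4 : ℝ)) := by
  have hb := bj_pos j
  have hb1 := bj_le_one j
  have hY := h.Y0
  have hk := Ok.kap0 h
  have hT : 0 < T := ht.1.trans ht.2
  refine (mul_le_mul' le_rfl (volume_zx_le h j ht.1.le)).trans ?_
  unfold w1
  rw [ENNReal.ofReal_rpow_of_nonneg (by positivity) (by norm_num), ← ENNReal.ofReal_mul (by
      have := ht.1; positivity), ← ENNReal.ofReal_mul (by have := ht.1; positivity),
    ← ENNReal.ofReal_mul (by positivity), ← ENNReal.ofReal_mul (by positivity)]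
  apply ENNReal.ofReal_le_ofReal
  have e1 : (CL * bj j ^ (-(1 / 36) : ℝ)) ^ (9 : ℝ) = CL ^ 9 * bj j ^ (-(1 / 4) : ℝ) := by
    rw [Real.mul_rpow hCL (by positivity), ← Real.rpow_mul hb.le]
    norm_num
  rw [e1]
  have e2 : bj j ^ (5 / 4 : ℝ) = bj j ^ (-(1 / 4) : ℝ) * bj j ^ (3 / 2 : ℝ) := by
    rw [← Real.rpow_add hb]; norm_num
  rw [e2]
  have ht0 := ht.1
  have h1 : 8 * P.Y * (t + bj j) ≤ 8 * P.Y * (T + 1) := by
    have := ht.2; gcongr
  have h2 : 1 + P.kap * t ≤ 1 + P.kap * T := by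
    have := ht.2; gcongr
  calc CL ^ 9 * bj j ^ (-(1 / 4) : ℝ) * (8 * P.Y * (t + bj j) * ((1 + P.kap * t) *
        (5 * bj j ^ (3 / 2 : ℝ))))
      ≤ CL ^ 9 * bj j ^ (-(1 / 4) : ℝ) * (8 * P.Y * (T + 1) * ((1 + P.kap * T) *
        (5 * bj j ^ (3 / 2 : ℝ)))) := by gcongr
    _ = _ := by ring

lemma term2_le (h : P.Ok) {CN T t : ℝ} (hCN : 0 ≤ CN) (ht : t ∈ Ioo 0 T) (j : ℕ) :
    w2 CN j t ^ (9 / 4 : ℝ) * volume {y : P2 | zx P j t y} ≤
      ENNReal.ofReal (CN ^ (9 / 4 : ℝ) * (8 * P.Y) * (1 + P.kap * T) * 5) *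
        (ENNReal.ofReal (bj j ^ (9 / 8 : ℝ)) * ENNReal.ofReal (t ^ (-(7 / 8) : ℝ))) := by
  have hb := bj_pos j
  have hb1 := bj_le_one j
  have hY := h.Y0
  have hk := Ok.kap0 h
  have ht0 := ht.1
  have hT : 0 < T := ht.1.trans ht.2
  refine (mul_le_mul' le_rfl (volume_zx_le h j ht.1.le)).trans ?_
  unfold w2
  rw [ENNReal.ofReal_rpow_of_nonneg (by positivity) (by norm_num), ← ENNReal.ofReal_mul (by
      positivity), ← ENNReal.ofReal_mul (by positivity),
    ← ENNReal.ofReal_mul (by positivity), ← ENNReal.ofReal_mul (by positivity),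
    ← ENNReal.ofReal_mul (by positivity)]
  apply ENNReal.ofReal_le_ofReal
  have hs : 0 < t + bj j := by positivity
  have e1 : (CN / (t + bj j)) ^ (9 / 4 : ℝ) * (t + bj j) =
      CN ^ (9 / 4 : ℝ) * (t + bj j) ^ (-(5 / 4) : ℝ) := by
    rw [Real.div_rpow hCN hs.le, div_mul_eq_mul_div, mul_div_assoc]
    congr 1
    rw [div_eq_mul_inv, ← Real.rpow_neg hs.le]
    nth_rewrite 1 [← Real.rpow_one (t + bj j)]
    rw [← Real.rpow_add hs]; norm_num
  have e2 : (t + bj j) ^ (-(5 / 4) : ℝ) ≤ bj j ^ (-(3 / 8) : ℝ) * t ^ (-(7 / 8) : ℝ) := by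
    have : (t + bj j) ^ (-(5 / 4) : ℝ) = (t + bj j) ^ (-(3 / 8) : ℝ) * (t + bj j) ^ (-(7 / 8) : ℝ) := by
      rw [← Real.rpow_add hs]; norm_num
    rw [this]
    exact mul_le_mul (Real.rpow_le_rpow_of_nonpos hb (by linarith) (by norm_num))
      (Real.rpow_le_rpow_of_nonpos ht0 (by linarith) (by norm_num)) (by positivity) (by positivity)
  have e3 : bj j ^ (9 / 8 : ℝ) = bj j ^ (-(3 / 8) : ℝ) * bj j ^ (3 / 2 : ℝ) := by
    rw [← Real.rpow_add hb]; norm_num
  rw [e3]
  have h2 : 1 + P.kap * t ≤ 1 + P.kap * T := by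
    have := ht.2; gcongr
  calc (CN / (t + bj j)) ^ (9 / 4 : ℝ) * (8 * P.Y * (t + bj j) * ((1 + P.kap * t) *
        (5 * bj j ^ (3 / 2 : ℝ))))
      = (CN / (t + bj j)) ^ (9 / 4 : ℝ) * (t + bj j) * (8 * P.Y * ((1 + P.kap * t) *
        (5 * bj j ^ (3 / 2 : ℝ)))) := by ring
    _ = CN ^ (9 / 4 : ℝ) * (t + bj j) ^ (-(5 / 4) : ℝ) * (8 * P.Y * ((1 + P.kap * t) *
        (5 * bj j ^ (3 / 2 : ℝ)))) := by rw [e1]
    _ ≤ CN ^ (9 / 4 : ℝ) * (bj j ^ (-(3 / 8) : ℝ) * t ^ (-(7 / 8) : ℝ)) * (8 * P.Y *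
        ((1 + P.kap * T) * (5 * bj j ^ (3 / 2 : ℝ)))) := by gcongr
    _ = _ := by ring

theorem fin_sum (h : P.Ok) (T : ℝ) {CL CN : ℝ} (hCL : 0 ≤ CL) (hCN : 0 ≤ CN) :
    ∫⁻ t in Ioo 0 T, ∫⁻ x in cellG, (1 + sumW P (w1 CL) t x) * (1 + sumW P (w2 CN) t x) ^ 2 < ⊤ := by
  obtain ⟨M, hM⟩ := exists_overlap h T
  set D1 : ℝ≥0∞ := ENNReal.ofReal (CL ^ 9 * (8 * P.Y * (T + 1)) * (1 + P.kap * T) * 5) with hD1
  set D2 : ℝ≥0∞ := ENNReal.ofReal (CN ^ (9 / 4 : ℝ) * (8 * P.Y) * (1 + P.kap * T) * 5) with hD2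
  set S1 : ℝ≥0∞ := ∑' j : ℕ, ENNReal.ofReal (bj j ^ (5 / 4 : ℝ)) with hS1
  set S2 : ℝ≥0∞ := ∑' j : ℕ, ENNReal.ofReal (bj j ^ (9 / 8 : ℝ)) with hS2
  have hS1t : S1 < ⊤ := tsum_bj_lt_top (by norm_num)
  have hS2t : S2 < ⊤ := tsum_bj_lt_top (by norm_num)
  have m1 : ∀ j, Measurable (w1 CL j) := fun j => by unfold w1; fun_prop
  have m2 : ∀ j, Measurable (w2 CN j) := fun j => by unfold w2; fun_prop
  have key : ∀ t ∈ Ioo 0 T, ∫⁻ x in cellG, (1 + sumW P (w1 CL) t x) * (1 + sumW P (w2 CN) t x) ^ 2 ≤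
      (2 : ℝ≥0∞) ^ (9 : ℝ) * (1 + (M : ℝ≥0∞) ^ (9 : ℝ) * (D1 * S1)) +
      (2 : ℝ≥0∞) ^ (9 / 4 : ℝ) * (1 + (M : ℝ≥0∞) ^ (9 / 4 : ℝ) *
        (D2 * (S2 * ENNReal.ofReal (t ^ (-(7 / 8) : ℝ))))) := by
    intro t ht
    have hsl : Measurable fun x : P2 => (t, x) := by fun_prop
    have mm1 : Measurable fun x => sumW P (fun j t => w1 CL j t ^ (9 : ℝ)) t x :=
      (measurable_sumW (P := P) (w := fun j t => w1 CL j t ^ (9 : ℝ))
        (fun j => (m1 j).pow_const _)).comp hsl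
    have mm2 : Measurable fun x => sumW P (fun j t => w2 CN j t ^ (9 / 4 : ℝ)) t x :=
      (measurable_sumW (P := P) (w := fun j t => w2 CN j t ^ (9 / 4 : ℝ))
        (fun j => (m2 j).pow_const _)).comp hsl
    calc ∫⁻ x in cellG, (1 + sumW P (w1 CL) t x) * (1 + sumW P (w2 CN) t x) ^ 2
        ≤ ∫⁻ x in cellG, ((2 : ℝ≥0∞) ^ (9 : ℝ) * (1 + (M : ℝ≥0∞) ^ (9 : ℝ) *
            sumW P (fun j t => w1 CL j t ^ (9 : ℝ)) t x) +
          (2 : ℝ≥0∞) ^ (9 / 4 : ℝ) * (1 + (M : ℝ≥0∞) ^ (9 / 4 : ℝ) *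
            sumW P (fun j t => w2 CN j t ^ (9 / 4 : ℝ)) t x)) := by
          refine lintegral_mono fun x => ?_
          obtain ⟨S, hS, hS'⟩ := hM t ht x
          calc _ ≤ (1 + sumW P (w1 CL) t x) ^ (9 : ℝ) + (1 + sumW P (w2 CN) t x) ^ (9 / 4 : ℝ) :=
                mul_sq_le _ _
            _ ≤ (2 : ℝ≥0∞) ^ (9 : ℝ) * (1 + sumW P (w1 CL) t x ^ (9 : ℝ)) +
                (2 : ℝ≥0∞) ^ (9 / 4 : ℝ) * (1 + sumW P (w2 CN) t x ^ (9 / 4 : ℝ)) := by
                gcongr
                · exact one_add_rpow_le _ (by norm_num)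
                · exact one_add_rpow_le _ (by norm_num)
            _ ≤ _ := by
                gcongr
                · exact sumW_rpow_le _ hS hS' (by norm_num)
                · exact sumW_rpow_le _ hS hS' (by norm_num)
      _ = (2 : ℝ≥0∞) ^ (9 : ℝ) * (1 + (M : ℝ≥0∞) ^ (9 : ℝ) *
            ∫⁻ x in cellG, sumW P (fun j t => w1 CL j t ^ (9 : ℝ)) t x) +
          (2 : ℝ≥0∞) ^ (9 / 4 : ℝ) * (1 + (M : ℝ≥0∞) ^ (9 / 4 : ℝ) *
            ∫⁻ x in cellG, sumW P (fun j t => w2 CN j t ^ (9 / 4 : ℝ)) t x) := by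
          have hcell : ∫⁻ _x in cellG, (1 : ℝ≥0∞) = 1 := by
            rw [setLIntegral_const, volume_cellG, mul_one]
          have a1 : Measurable fun x => 1 + (M : ℝ≥0∞) ^ (9 : ℝ) *
              sumW P (fun j t => w1 CL j t ^ (9 : ℝ)) t x := measurable_const.add (mm1.const_mul _)
          have a2 : Measurable fun x => 1 + (M : ℝ≥0∞) ^ (9 / 4 : ℝ) *
              sumW P (fun j t => w2 CN j t ^ (9 / 4 : ℝ)) t x := measurable_const.add (mm2.const_mul _)
          have a3 : Measurable fun x => (2 : ℝ≥0∞) ^ (9 : ℝ) * (1 + (M : ℝ≥0∞) ^ (9 : ℝ) *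
              sumW P (fun j t => w1 CL j t ^ (9 : ℝ)) t x) := a1.const_mul _
          rw [lintegral_add_left a3, lintegral_const_mul _ a1, lintegral_const_mul _ a2,
            lintegral_add_left measurable_const, lintegral_add_left measurable_const,
            lintegral_const_mul _ mm1, lintegral_const_mul _ mm2, hcell]
      _ ≤ _ := by
          gcongr
          · rw [lint_sumW, hS1, ← ENNReal.tsum_mul_left]
            exact ENNReal.tsum_le_tsum fun j => term1_le h hCL ht j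
          · rw [lint_sumW, hS2, ← ENNReal.tsum_mul_right, ← ENNReal.tsum_mul_left]
            exact ENNReal.tsum_le_tsum fun j => term2_le h hCN ht j
  refine (setLIntegral_mono' measurableSet_Ioo key).trans_lt ?_
  have hI : ∫⁻ t in Ioo 0 T, ENNReal.ofReal (t ^ (-(7 / 8) : ℝ)) < ⊤ := by
    rcases le_or_gt T 0 with hT | hT
    · rw [Ioo_eq_empty (not_lt.2 hT)]; simp
    · rw [lintegral_rpow_Ioo' (by norm_num) hT.le]
      exact ENNReal.ofReal_lt_top
  have hmt : Measurable fun t : ℝ => ENNReal.ofReal (t ^ (-(7 / 8) : ℝ)) := by fun_prop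
  rw [lintegral_add_left measurable_const, setLIntegral_const,
    lintegral_const_mul _ (by fun_prop), lintegral_add_left measurable_const,
    lintegral_const_mul _ (by fun_prop), lintegral_const_mul _ (by fun_prop),
    lintegral_const_mul _ hmt, setLIntegral_const]
  have hvol : volume (Ioo (0 : ℝ) T) < ⊤ := by rw [Real.volume_Ioo]; exact ENNReal.ofReal_lt_top
  have hp1 : (2 : ℝ≥0∞) ^ (9 : ℝ) < ⊤ := ENNReal.rpow_lt_top_of_nonneg (by norm_num) (by norm_num)
  have hp2 : (2 : ℝ≥0∞) ^ (9 / 4 : ℝ) < ⊤ := ENNReal.rpow_lt_top_of_nonneg (by norm_num) (by norm_num)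
  have hp3 : (M : ℝ≥0∞) ^ (9 : ℝ) < ⊤ := ENNReal.rpow_lt_top_of_nonneg (by norm_num) (by simp)
  have hp4 : (M : ℝ≥0∞) ^ (9 / 4 : ℝ) < ⊤ := ENNReal.rpow_lt_top_of_nonneg (by norm_num) (by simp)
  refine ENNReal.add_lt_top.2 ⟨ENNReal.mul_lt_top (ENNReal.mul_lt_top hp1 (ENNReal.add_lt_top.2
    ⟨ENNReal.one_lt_top, ENNReal.mul_lt_top hp3 (ENNReal.mul_lt_top ENNReal.ofReal_lt_top hS1t)⟩)) hvol,
    ENNReal.mul_lt_top hp2 (ENNReal.add_lt_top.2 ⟨ENNReal.mul_lt_top ENNReal.one_lt_top hvol,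
      ENNReal.mul_lt_top hp4 (ENNReal.mul_lt_top ENNReal.ofReal_lt_top
        (ENNReal.mul_lt_top hS2t hI))⟩)⟩

end Crest.Agent.R68.I
end
end

-- ▼ part R68/IntG
section

/-!
Row 68, PART I (helper858), module 10: the cold majorant per lane; `MildG.int` from the class bound.
-/

set_option autoImplicit false
open MeasureTheory Set Filter Metric
open scoped ENNReal Topology Real
open Crest.AnalysisR.VecCalc3 Crest.AnalysisR.PDE.Boltzmann

noncomputable section

namespace Crest.Agent.R68.I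

open Crest.Agent.R68.Fuel Crest.Agent.R68.A

variable {P : Par}

/-- one lane, one image of the cold majorant -/
def sj (P : Par) (j : ℕ) (t : ℝ) (y : P2) (v : R3) : ℝ≥0∞ :=
  ENNReal.ofReal (phs P j t y v) + warmj P j t y v

lemma meas3_sj (P : Par) (j : ℕ) : Meas3 (sj P j) :=
  Measurable.add (ENNReal.measurable_ofReal.comp (measurable_phs P j)) (ColdM.meas3_warmj P j)

lemma coldS_eq (h : P.Ok) (t : ℝ) (x : P2) (v : R3) :
    coldS P t x v = ∑' i : (ℤ × ℤ) × ℕ, sj P i.2 t (x + latt i.1) v := by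
  unfold coldS phiE warm sj
  have e1 := ENNReal.tsum_prod' (f := fun i : (ℤ × ℤ) × ℕ =>
    ENNReal.ofReal (phs P i.2 t (x + latt i.1) v))
  have e2 := ENNReal.tsum_prod' (f := fun i : (ℤ × ℤ) × ℕ => warmj P i.2 t (x + latt i.1) v)
  rw [ofReal_phi h, ENNReal.tsum_add, e1, e2]

lemma zx_of_LZ (h : ColdPar C.C0 P) {j : ℕ} {t : ℝ} (ht : 0 ≤ t) {y : P2} (hz : C.LZ P j t y) :
    zx P j t y := by
  refine ⟨hz.1, C.lab_mem_laneE h hz, hz.2.2.trans ?_⟩
  have hj := hz.1
  have h1 := C.slack_small2 h hj (n := 2) (by norm_num)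
  have hb := bj_pos j
  have hb1 := bj_le_one j
  have h2 : bj j ^ 2 ≤ 1 := pow_le_one₀ hb.le hb1
  have hY := h.Y
  have hr := rr_nonneg (lab P t y)
  have : P.Y + rhoj P.p j * tauj P.p j / bj j ^ 2 ≤ 2 * P.Y := by linarith
  gcongr

lemma sj_ne (h : P.Ok) (hc : ColdPar C.C0 P) {j : ℕ} {t : ℝ} (ht : 0 ≤ t) {y : P2} {v : R3}
    (h0 : sj P j t y v ≠ 0) : zx P j t y ∧ ‖v‖ ≤ P.Y + 5 := by
  unfold sj at h0
  by_cases h1 : ENNReal.ofReal (phs P j t y v) = 0
  · rw [h1, zero_add] at h0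
    have hz : Ztj P j t y v := by
      by_contra h2
      exact h0 (by unfold warmj; rw [if_neg h2])
    exact ⟨zx_of_LZ hc ht (C.LZ_of_Ztj hz), by have := C.norm_lt_of_warmj hc ht h0; linarith⟩
  · have h2 : R68.phij P j t y v ≠ 0 := by rw [ColdW.phij_eq h]; exact h1
    have hz := ColdW.Ztj_of_phij h hc.p ht h2
    refine ⟨zx_of_LZ hc ht (C.LZ_of_Ztj hz), ?_⟩
    have h3 : phs P j t y v ≠ 0 := fun h4 => h1 (by rw [h4]; simp)
    obtain ⟨hj, hv⟩ := mem_of_phs_ne h3
    exact C.norm_le_of_lset h hj hv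

/-- supremum of one lane -/
lemma sj_le (h : P.Ok) (hc : ColdPar C.C0 P) {j : ℕ} {t : ℝ} (ht : 0 ≤ t) (y : P2) (v : R3) :
    sj P j t y v ≤ ENNReal.ofReal (2 * P.K * bj j ^ (-((3 * P.p + 1 : ℕ) : ℝ))) := by
  have hb := bj_pos j
  have hb1 := bj_le_one j
  have hK : 0 ≤ P.K := h.K0
  have hg : gaussj P j t y v ≤ ENNReal.ofReal (P.K * bj j ^ (-((3 * P.p + 1 : ℕ) : ℝ))) := by
    unfold gaussj
    apply ENNReal.ofReal_le_ofReal
    have he : Real.exp (-‖v - uvec P (wj j) t y‖ ^ 2 / (4 * etaj P.p j ^ 2)) ≤ 1 := by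
      rw [Real.exp_le_one_iff]
      apply div_nonpos_of_nonpos_of_nonneg
      · have := sq_nonneg ‖v - uvec P (wj j) t y‖; linarith
      · positivity
    have hη : etaj P.p j = bj j ^ P.p := rfl
    have e : P.K / (bj j * etaj P.p j ^ 3) = P.K * bj j ^ (-((3 * P.p + 1 : ℕ) : ℝ)) := by
      rw [hη, Real.rpow_neg hb.le, Real.rpow_natCast, ← pow_mul, div_eq_mul_inv]
      congr 2
      ring
    rw [e]
    calc _ ≤ P.K * bj j ^ (-((3 * P.p + 1 : ℕ) : ℝ)) * 1 := by gcongr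
      _ = _ := mul_one _
  have h1 : ENNReal.ofReal (phs P j t y v) ≤ gaussj P j t y v := by
    rw [← ColdW.phij_eq h]; exact ColdW.phij_le_gaussj h j ht y v
  have h2 : warmj P j t y v ≤ gaussj P j t y v := by
    unfold warmj
    split_ifs
    · calc ENNReal.ofReal (kapj P.p j) * gaussj P j t y v ≤ 1 * gaussj P j t y v := by
            gcongr
            rw [ENNReal.ofReal_le_one]
            exact (C.kapj_le hc j).trans (pow_le_one₀ hb.le hb1)
        _ = _ := one_mul _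
    · exact bot_le
  calc sj P j t y v ≤ gaussj P j t y v + gaussj P j t y v := add_le_add h1 h2
    _ ≤ _ := by
      rw [show 2 * P.K * bj j ^ (-((3 * P.p + 1 : ℕ) : ℝ)) =
        P.K * bj j ^ (-((3 * P.p + 1 : ℕ) : ℝ)) + P.K * bj j ^ (-((3 * P.p + 1 : ℕ) : ℝ)) by ring,
        ENNReal.ofReal_add (by positivity) (by positivity)]
      exact add_le_add hg hg

/-- density of one lane -/
lemma lint_sj_le (h : P.Ok) (hc : ColdPar C.C0 P) {j : ℕ} {t T : ℝ} (ht : t ∈ Ioo 0 T) (y : P2) :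
    ∫⁻ v, sj P j t y v ≤ w2 (2 * P.K + (T + 1)) j t := by
  have hb := bj_pos j
  have hb1 := bj_le_one j
  have hK : 0 ≤ P.K := h.K0
  have ht0 := ht.1
  have htT := ht.2
  have hpos : 0 < t + bj j := by positivity
  have hm : Measurable fun v => ENNReal.ofReal (phs P j t y v) :=
    ENNReal.measurable_ofReal.comp ((measurable_phs P j).comp
      (by fun_prop : Measurable fun v : R3 => (t, y, v)))
  unfold sj
  rw [lintegral_add_left hm]
  by_cases hj : P.j0 ≤ j
  · have hj1 : 1 ≤ j := (Ok.j1 h).trans hj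
    have h1 : ∫⁻ v, ENNReal.ofReal (phs P j t y v) ≤ ENNReal.ofReal (2 * P.K / (t + bj j)) := by
      have := lint_phij_le h j ht0.le y (g := fun _ => 1) measurable_const
        (A := ENNReal.ofReal (2 * P.K / (t + bj j))) (B := 1) (fun a ha => by
          apply ENNReal.ofReal_le_ofReal
          have h2 := (C.lane_sq hj1 ha).1
          have hra : bj j / 2 ≤ rr a := h2
          have hk := Ok.kap0 h
          unfold dens
          rw [one_add_kap]
          have h3 : (t + bj j) / 2 ≤ (t + rr a) * (1 + P.kap * t) := by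
            have h5 : 0 ≤ t + rr a := by linarith
            have h4 : t + rr a ≤ (t + rr a) * (1 + P.kap * t) := by
              have := mul_nonneg h5 (mul_nonneg hk ht0.le)
              linarith
            linarith
          calc P.K / ((t + rr a) * (1 + P.kap * t)) ≤ P.K / ((t + bj j) / 2) := by
                gcongr
            _ = 2 * P.K / (t + bj j) := by field_simp) (fun _ _ => le_rfl)
      simp only [mul_one] at this
      refine le_trans (lintegral_mono fun v => ?_) this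
      rw [phs_of_le hj]
    have h2 : ∫⁻ v, warmj P j t y v ≤ ENNReal.ofReal ((T + 1) / (t + bj j)) := by
      refine (C.lintegral_warmj hc hj t y).trans (ENNReal.ofReal_le_ofReal ?_)
      refine (pow_le_one₀ hb.le hb1).trans ?_
      rw [le_div_iff₀ hpos]; linarith
    refine (add_le_add h1 h2).trans ?_
    unfold w2
    rw [← ENNReal.ofReal_add (by positivity) (by
      have : 0 < T + 1 := by linarith
      positivity), ← add_div]
  · have h1 : ∀ v, ENNReal.ofReal (phs P j t y v) = 0 := by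
      intro v; unfold phs; rw [if_neg hj]; simp
    have h2 : ∀ v, warmj P j t y v = 0 := by
      intro v; unfold warmj
      rw [if_neg fun hz => hj hz.1]
    simp [h1, h2]

/-- logarithm of one lane -/
lemma lg_sj_le (h : P.Ok) (hc : ColdPar C.C0 P) : ∃ CL : ℝ, 0 ≤ CL ∧ ∀ (j : ℕ) (t : ℝ), 0 ≤ t →
    ∀ (y : P2) (v : R3), lg (sj P j t y v) ≤ w1 CL j t := by
  set m : ℝ := ((3 * P.p + 1 : ℕ) : ℝ) with hm
  have hm1 : 1 ≤ m := by rw [hm]; push_cast; have : (0:ℝ) ≤ P.p := Nat.cast_nonneg _; linarith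
  set κ : ℝ := 1 / (36 * m) with hκ
  have hκ0 : 0 < κ := by positivity
  have hκ1 : κ ≤ 1 := by
    rw [hκ, div_le_one (by positivity)]; linarith
  have hK : 0 ≤ P.K := h.K0
  refine ⟨1 / κ * (2 * P.K) ^ κ, by positivity, fun j t ht y v => ?_⟩
  have hb := bj_pos j
  refine (lg_mono (sj_le h hc ht y v)).trans ((lg_le_rpow _ hκ0 hκ1).trans ?_)
  rw [ENNReal.ofReal_rpow_of_nonneg (by positivity) hκ0.le, ← ENNReal.ofReal_mul (by positivity)]
  unfold w1
  apply ENNReal.ofReal_le_ofReal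
  rw [Real.mul_rpow (by positivity) (by positivity), ← Real.rpow_mul hb.le]
  have : -m * κ = -(1 / 36) := by rw [hκ]; field_simp
  rw [this, mul_assoc]

lemma lg_sum_le {ι : Type} (S : Finset ι) (f : ι → ℝ≥0∞) : lg (∑ i ∈ S, f i) ≤ ∑ i ∈ S, lg (f i) := by
  classical
  induction S using Finset.induction_on with
  | empty => simp
  | insert a s ha ih =>
    rw [Finset.sum_insert ha, Finset.sum_insert ha]
    exact (lg_add_le _ _).trans (by gcongr)

theorem cold_profile (h : P.Ok) (hc : ColdPar C.C0 P) (T : ℝ) : ∃ CL CN : ℝ, 0 ≤ CL ∧ 0 ≤ CN ∧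
    (∀ t ∈ Ioo 0 T, ∀ x v, coldS P t x v ≠ 0 → ‖v‖ ≤ P.Y + 5) ∧
    (∀ t ∈ Ioo 0 T, ∀ x v, lg (coldS P t x v) ≤ sumW P (w1 CL) t x) ∧
    (∀ t ∈ Ioo 0 T, ∀ x, ∫⁻ v, coldS P t x v ≤ sumW P (w2 CN) t x) := by
  classical
  obtain ⟨CL, hCL, hlg⟩ := lg_sj_le h hc
  obtain ⟨M, hM⟩ := exists_overlap h T
  refine ⟨CL, max 0 (2 * P.K + (T + 1)), hCL, le_max_left _ _, ?_, ?_, ?_⟩
  · intro t ht x v hne
    rw [coldS_eq h] at hne
    by_contra h1
    apply hne
    rw [ENNReal.tsum_eq_zero]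
    intro i
    by_contra h2
    exact h1 (sj_ne h hc ht.1.le h2).2
  · intro t ht x v
    obtain ⟨S, -, hS⟩ := hM t ht x
    rw [coldS_eq h, tsum_eq_sum (s := S)]
    · refine (lg_sum_le S _).trans ?_
      unfold sumW
      refine le_trans (Finset.sum_le_sum fun i _ => ?_) (ENNReal.sum_le_tsum S)
      by_cases hz : zx P i.2 t (x + latt i.1)
      · rw [if_pos hz]
        exact hlg i.2 t ht.1.le _ v
      · rw [if_neg hz]
        have : sj P i.2 t (x + latt i.1) v = 0 := by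
          by_contra h2
          exact hz (sj_ne h hc ht.1.le h2).1
        rw [this]; simp
    · intro i hi
      by_contra h2
      exact hi (hS i (sj_ne h hc ht.1.le h2).1)
  · intro t ht x
    have hT : 0 < T := ht.1.trans ht.2
    have hmax : max 0 (2 * P.K + (T + 1)) = 2 * P.K + (T + 1) := max_eq_right (by
      have := h.K0; positivity)
    rw [hmax]
    simp_rw [coldS_eq h]
    have hmeas : ∀ i : (ℤ × ℤ) × ℕ, AEMeasurable (fun v => sj P i.2 t (x + latt i.1) v) volume :=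
      fun i => (Meas3.slice (meas3_sj P i.2) t (x + latt i.1)).aemeasurable
    rw [lintegral_tsum hmeas]
    unfold sumW
    refine ENNReal.tsum_le_tsum fun i => ?_
    by_cases hz : zx P i.2 t (x + latt i.1)
    · rw [if_pos hz]
      exact lint_sj_le h hc ht _
    · rw [if_neg hz]
      have : ∀ v, sj P i.2 t (x + latt i.1) v = 0 := by
        intro v
        by_contra h2
        exact hz (sj_ne h hc ht.1.le h2).1
      simp [this]

end Crest.Agent.R68.I
end
end

-- ▼ part R68/IntH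
section

/-!
Row 68, PART I (helper858), module 11: class bound ⟹ integrability; finiteness along flights.
-/

set_option autoImplicit false
open MeasureTheory Set Filter Metric
open scoped ENNReal Topology Real
open Crest.AnalysisR.VecCalc3 Crest.AnalysisR.PDE.Boltzmann

noncomputable section

namespace Crest.Agent.R68.I

open Crest.Agent.R68.A Crest.Agent.R68.K2

variable {P : Par}

lemma poleOk (h : P.Ok) : Pole.Ok P where
  j0 := le_trans (by norm_num) h.j0
  c0 := h.c0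
  c1 := h.c1
  dlc := by
    have h1 := h.kap1
    have h2 := Fuel.Ok.dlp h
    unfold Par.kap at h1
    rwa [le_div_iff₀ h2, one_mul] at h1
  Y0 := h.Y0

lemma pk_div {C : ℝ} (hC : 0 < C) {r : ℝ} (hr : 0 ≤ r) :
    pk (r / C) = ENNReal.ofReal (C ^ (3 / 2 : ℝ)) * pk r := by
  rcases hr.eq_or_lt with h | h
  · rw [← h]
    have h0 : pk 0 = ⊤ := by
      unfold pk
      rw [ENNReal.ofReal_zero, ENNReal.zero_rpow_of_neg (by norm_num)]
    rw [zero_div, h0, ENNReal.mul_top]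
    have : 0 < C ^ (3 / 2 : ℝ) := by positivity
    simpa using this
  · rw [pk_eq (by positivity), pk_eq h, ← ENNReal.ofReal_mul (by positivity)]
    congr 1
    rw [Real.div_rpow h.le hC.le, Real.rpow_neg hC.le (3 / 2), div_inv_eq_mul, mul_comm]

/-- constant of the pole bound -/
def CP (Y : ℝ) : ℝ≥0∞ := ENNReal.ofReal ((10 + 12 * Y) ^ (3 / 2 : ℝ))

/-- `D^{-3/2}` is bounded by finitely many poles -/
lemma Dm_le_Sw (h : P.Ok) {T t : ℝ} (ht : t ∈ Ioo 0 T) {M : ℕ}
    (hM : 2 * (3 * ((P.Y + 2) * (T + P.dl)) + 1) ^ 2 ≤ M) (x : P2) :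
    ∃ (ι : Type) (_ : Fintype ι) (u : ι → R3), Fintype.card ι ≤ M ∧
      ∀ v, Dm P t x v ≤ CP P.Y * Sw u v := by
  classical
  have hO := poleOk h
  have hY := h.Y0
  have hd := Fuel.Ok.dlp h
  set S : Finset ((ℤ × ℤ) × ℝ) := Pole.near P t x ×ˢ ({1, -1} : Finset ℝ) with hS
  refine ⟨S, inferInstance, fun i => uvec P i.1.2 t (x + latt i.1.1), ?_, fun v => ?_⟩
  · have h1 := Pole.card_near_le hO ht.1.le x
    have h2 : (Fintype.card S : ℝ) ≤ M := by
      rw [Fintype.card_coe, hS, Finset.card_product]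
      have h3 : ((({1, -1} : Finset ℝ).card : ℕ) : ℝ) ≤ 2 := by
        exact_mod_cast Finset.card_le_two
      push_cast
      calc ((Pole.near P t x).card : ℝ) * ((({1, -1} : Finset ℝ).card : ℕ) : ℝ)
          ≤ (3 * ((P.Y + 2) * (t + P.dl)) + 1) ^ 2 * 2 := by gcongr
        _ ≤ 2 * (3 * ((P.Y + 2) * (T + P.dl)) + 1) ^ 2 := by
            have h4 := ht.1
            have h5 := ht.2
            have h6 : 3 * ((P.Y + 2) * (t + P.dl)) + 1 ≤ 3 * ((P.Y + 2) * (T + P.dl)) + 1 := by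
              gcongr
            have h7 : 0 ≤ 3 * ((P.Y + 2) * (t + P.dl)) + 1 := by positivity
            nlinarith
        _ ≤ M := hM
    exact_mod_cast h2
  · have hC1 : (1 : ℝ) ≤ 10 + 12 * P.Y := by linarith
    have hCP : 1 ≤ CP P.Y := by
      unfold CP
      rw [ENNReal.one_le_ofReal]
      exact Real.one_le_rpow hC1 (by norm_num)
    rcases Pole.exists_pole hO ht.1.le x v with h1 | ⟨k, hk, s, hs, hle⟩
    · unfold Dm
      rw [h1, ENNReal.ofReal_one, ENNReal.one_rpow]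
      calc (1 : ℝ≥0∞) = 1 * 1 := (one_mul 1).symm
        _ ≤ _ := by gcongr; unfold Sw; exact le_self_add
    · have hmem : ((k, s) : (ℤ × ℤ) × ℝ) ∈ S := by
        rw [hS, Finset.mem_product]
        refine ⟨hk, ?_⟩
        rcases hs with rfl | rfl <;> simp
      calc Dm P t x v = pk (Dw P t x v) := rfl
        _ ≤ pk (‖v - uvec P s t (x + latt k)‖ / (10 + 12 * P.Y)) := by
            apply pk_anti
            rw [div_le_iff₀ (by linarith)]
            linarith
        _ = CP P.Y * pk ‖v - uvec P s t (x + latt k)‖ := pk_div (by linarith) (norm_nonneg _)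
        _ ≤ _ := by
            refine mul_le_mul' le_rfl ?_
            unfold Sw
            refine le_trans ?_ le_add_self
            have hsl := Finset.single_le_sum (s := (Finset.univ : Finset S))
              (f := fun i : S => pk ‖v - uvec P i.1.2 t (x + latt i.1.1)‖)
              (fun _ _ => zero_le) (Finset.mem_univ (⟨(k, s), hmem⟩ : S))
            exact hsl

lemma CP_ne_top (Y : ℝ) : CP Y ≠ ⊤ := ENNReal.ofReal_ne_top

lemma Sw_ne_top {ι : Type} [Fintype ι] (u : ι → R3) {v : R3} (hv : ∀ i, v ≠ u i) : Sw u v ≠ ⊤ := by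
  unfold Sw
  refine ENNReal.add_ne_top.2 ⟨ENNReal.one_ne_top, ?_⟩
  rw [ENNReal.sum_ne_top]
  intro i _
  have : 0 < ‖v - u i‖ := norm_pos_iff.2 (sub_ne_zero.2 (hv i))
  rw [pk_eq this]
  exact ENNReal.ofReal_ne_top

lemma ae_Dm_ne_top (h : P.Ok) {t : ℝ} (ht : 0 < t) (x : P2) : ∀ᵐ v : R3, Dm P t x v ≠ ⊤ := by
  obtain ⟨M, hM⟩ := exists_nat_ge (2 * (3 * ((P.Y + 2) * ((t + 1) + P.dl)) + 1) ^ 2)
  obtain ⟨ι, _, u, -, hu⟩ := Dm_le_Sw h (T := t + 1) ⟨ht, by linarith⟩ hM x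
  have h1 : ∀ᵐ v : R3, ∀ i, v ≠ u i := by
    rw [ae_all_iff]
    intro i
    rw [ae_iff]
    simp
  filter_upwards [h1] with v hv
  exact ne_top_of_le_ne_top (ENNReal.mul_ne_top (CP_ne_top _) (Sw_ne_top u hv)) (hu v)

lemma meas3_coldS (h : P.Ok) : Meas3 (coldS P) :=
  Measurable.add (Fuel.measurable_ofReal_phi h) (ColdM.meas3_warm P)

/-- **integrability from the class bound** -/
theorem int_of_class (h : P.Ok) (hc : ColdPar C.C0 P) {G : ℝ → P2 → R3 → ℝ}
    (hG : Measurable (fun p : ℝ × P2 × R3 => G p.1 p.2.1 p.2.2))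
    (hG0 : ∀ t x v, 0 ≤ t → 0 ≤ G t x v) {T : ℝ} {A : ℝ≥0∞} (hA : A ≠ ⊤)
    (hcl : ∀ t ∈ Ioo 0 T, ∀ x v,
      ENNReal.ofReal (G t x v) ≤ coldS P t x v + A * (Dm P t x v * em v)) (k : ℕ) :
    (∫⁻ p in Ioo 0 T ×ˢ (cellG ×ˢ (Set.univ : Set R3)),
      ENNReal.ofReal ((1 + ‖p.2.2‖ ^ 2) ^ (k / 2 : ℝ) + Real.log (1 + G p.1 p.2.1 p.2.2)) *
        (gainG G p.1 p.2.1 p.2.2 + lossG G p.1 p.2.1 p.2.2)) < ⊤ := by
  obtain ⟨CL, CN, hCL, hCN, h1, h2, h3⟩ := cold_profile h hc T
  obtain ⟨M, hM⟩ := exists_nat_ge (2 * (3 * ((P.Y + 2) * (T + P.dl)) + 1) ^ 2)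
  have hY := h.Y0
  have hmS := meas3_coldS h
  have hGe : Meas3 (fun t x v => ENNReal.ofReal (G t x v)) := ENNReal.measurable_ofReal.comp hG
  refine int_of_profile hG hG0 k (M := M) (R := P.Y + 5) (by positivity)
    (A := A * CP P.Y) (ENNReal.mul_ne_top hA (CP_ne_top _)) (c := coldS P)
    (h := fun t x v => ENNReal.ofReal (G t x v) - coldS P t x v)
    (Ψ := sumW P (w1 CL)) (n := sumW P (w2 CN))
    (fun t _ x => hmS.slice t x) (fun t _ x => (hGe.slice t x).sub (hmS.slice t x)) h1 ?_ h2 h3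
    (fun t _ x v => le_add_tsub) (fin_sum h T hCL hCN)
  intro t ht x
  obtain ⟨ι, inst, u, hcard, hu⟩ := Dm_le_Sw h ht hM x
  refine ⟨ι, inst, u, hcard, fun v => ?_⟩
  calc ENNReal.ofReal (G t x v) - coldS P t x v ≤ A * (Dm P t x v * em v) :=
        tsub_le_iff_left.2 (hcl t ht x v)
    _ ≤ A * ((CP P.Y * Sw u v) * em v) := by gcongr; exact hu v
    _ = _ := by ring

/-! ### a.e. statements by periodicity -/

lemma ae_of_ae_cellG {Q : P2 → Prop} (hm : MeasurableSet {x | Q x})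
    (hp : ∀ x k, Q (x + latt k) ↔ Q x) (h : ∀ᵐ x ∂(volume.restrict cellG), Q x) : ∀ᵐ x : P2, Q x := by
  have h1 : ∫⁻ x, ({x | Q x}ᶜ).indicator (fun _ => (1 : ℝ≥0∞)) x = 0 := by
    rw [lintegral_eq_tsum_cellG, ENNReal.tsum_eq_zero]
    intro k
    have hmi : Measurable fun x : P2 => ({x | Q x}ᶜ).indicator (fun _ => (1 : ℝ≥0∞)) (x + latt k) :=
      (measurable_const.indicator hm.compl).comp (by fun_prop : Measurable fun x : P2 => x + latt k)
    rw [lintegral_eq_zero_iff hmi]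
    filter_upwards [h] with x hx
    have : x + latt k ∉ ({x | Q x}ᶜ : Set P2) := by
      simp only [mem_compl_iff, mem_ofPred_eq, not_not]
      exact (hp x k).2 hx
    simp [indicator_of_notMem this]
  rw [lintegral_indicator hm.compl, setLIntegral_const, one_mul] at h1
  rw [ae_iff]
  exact h1

lemma ae_flight_fin {g : ℝ → P2 → R3 → ℝ≥0∞} (hg : Meas3 g)
    (hper : ∀ t v, PerG (fun x => g t x v)) {T : ℝ}
    (hfin : ∫⁻ p in Ioo 0 T ×ˢ (cellG ×ˢ (Set.univ : Set R3)), g p.1 p.2.1 p.2.2 < ⊤) :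
    ∀ᵐ p : P2 × R3, ∫⁻ s in Ioo 0 T, g s (p.1 + s • bar p.2) p.2 < ⊤ := by
  set J : P2 → R3 → ℝ≥0∞ := fun x v => ∫⁻ s in Ioo 0 T, g s (x + s • bar v) v with hJ
  have hm1 : Measurable fun p : (P2 × R3) × ℝ => g p.2 (p.1.1 + p.2 • bar p.1.2) p.1.2 :=
    hg.comp (by fun_prop) (by fun_prop) (by fun_prop)
  have hJm : Measurable fun p : P2 × R3 => J p.1 p.2 := hm1.lintegral_prod_right'
  have hJs : MeasurableSet {p : P2 × R3 | J p.1 p.2 < ⊤} := measurableSet_lt hJm measurable_const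
  have hJper : ∀ v, PerG (fun x => J x v) := by
    intro v x k
    show J (x + latt k) v = J x v
    refine lintegral_congr fun s => ?_
    have := hper s v (x + s • bar v) k
    rw [show x + latt k + s • bar v = x + s • bar v + latt k by abel]
    exact this
  -- total integral
  have e1 : ∫⁻ v, ∫⁻ x in cellG, J x v =
      ∫⁻ p in Ioo 0 T ×ˢ (cellG ×ˢ (Set.univ : Set R3)), g p.1 p.2.1 p.2.2 := by
    rw [show (volume : Measure (ℝ × P2 × R3)) = volume.prod (volume.prod volume) from rfl,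
      ← Measure.prod_restrict, ← Measure.prod_restrict, Measure.restrict_univ,
      lintegral_prod _ (Measurable.aemeasurable hg)]
    have e2 : ∀ s : ℝ, ∫⁻ q, g s q.1 q.2 ∂((volume : Measure P2).restrict cellG).prod
        (volume : Measure R3) = ∫⁻ v, ∫⁻ x in cellG, g s x v := by
      intro s
      have hms : Measurable fun q : P2 × R3 => g s q.1 q.2 :=
        hg.comp (by fun_prop) (by fun_prop) (by fun_prop)
      rw [lintegral_prod_symm _ hms.aemeasurable]
    simp_rw [e2]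
    have hm3 : Measurable fun q : (ℝ × R3) × P2 => g q.1.1 q.2 q.1.2 :=
      hg.comp (by fun_prop) (by fun_prop) (by fun_prop)
    have hm4 : Measurable fun q : ℝ × R3 => ∫⁻ x in cellG, g q.1 x q.2 := hm3.lintegral_prod_right'
    rw [lintegral_lintegral_swap (f := fun (s : ℝ) (v : R3) => ∫⁻ x in cellG, g s x v)
      hm4.aemeasurable]
    refine lintegral_congr fun v => ?_
    have hm5 : Measurable fun q : P2 × ℝ => g q.2 (q.1 + q.2 • bar v) v :=
      hg.comp (by fun_prop) (by fun_prop) (by fun_prop)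
    rw [hJ]
    simp only
    rw [lintegral_lintegral_swap (f := fun (x : P2) (s : ℝ) => g s (x + s • bar v) v)
      hm5.aemeasurable]
    refine lintegral_congr fun s => ?_
    exact lintegral_cellG_add (g := fun x => g s x v)
      (hg.comp (by fun_prop) (by fun_prop) (by fun_prop)) (hper s v) (s • bar v)
  rw [← e1] at hfin
  have hm6 : Measurable fun v => ∫⁻ x in cellG, J x v := by
    have : Measurable fun q : R3 × P2 => J q.2 q.1 :=
      hJm.comp (by fun_prop : Measurable fun q : R3 × P2 => (q.2, q.1))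
    exact this.lintegral_prod_right'
  have h1 : ∀ᵐ v : R3, ∀ᵐ x : P2, J x v < ⊤ := by
    filter_upwards [ae_lt_top hm6 hfin.ne] with v hv
    have hJv : Measurable fun x => J x v :=
      hJm.comp (by fun_prop : Measurable fun x : P2 => (x, v))
    refine ae_of_ae_cellG (Q := fun x => J x v < ⊤) (measurableSet_lt hJv measurable_const) ?_
      (ae_lt_top hJv hv.ne)
    intro x k
    rw [show J (x + latt k) v = J x v from hJper v x k]
  have h2 : ∀ᵐ x : P2, ∀ᵐ v : R3, J x v < ⊤ :=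
    (Measure.ae_ae_comm (p := fun x v => J x v < ⊤) hJs).2 h1
  exact (Measure.ae_prod_mem_iff_ae_ae_mem hJs).2 h2

end Crest.Agent.R68.I
end
end

-- ▼ part R68/TruncOut
section

/-!
# Row 68, part W (helper475): `TruncOut`, the hypotheses `THyp` of the truncated problem
-/

set_option autoImplicit false
open MeasureTheory Set Filter
open scoped ENNReal NNReal Topology
open Crest.AnalysisR.VecCalc3 Crest.AnalysisR.PDE.Boltzmann

noncomputable section

namespace Crest.Agent.R68.ColdW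

open Crest.Agent.R68
open Crest.Agent.R68.WA (We)

variable {P : Par}

theorem coldjk_le_sh (hC : ColdPar Cold.C0 P) (lam : ℝ → P2 → R3 → ℝ≥0∞) (i : (ℤ × ℤ) × ℕ) {t : ℝ}
    (ht : 0 ≤ t) (x : P2) (v : R3) : coldjk P lam i t x v ≤ sh P t x i v := by
  refine (Cold.coldj_le hC (rateC P lam) ht (x + latt i.1) v).trans ?_
  unfold sh
  refine add_le_add le_rfl ?_
  calc ENNReal.ofReal (min t 1) * warmj P i.2 t (x + latt i.1) v
      ≤ ENNReal.ofReal 1 * warmj P i.2 t (x + latt i.1) v := by gcongr; exact min_le_right _ _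
    _ = _ := by rw [ENNReal.ofReal_one, one_mul]

theorem spillF_lipW {t : ℝ} {x : P2}
    {f f' : (ℤ × ℤ) × ℕ → R3 → ℝ≥0∞} (hm : ∀ i, Measurable (f i)) (hm' : ∀ i, Measurable (f' i))
    (hf : ∀ i v, f i v ≤ sh P t x i v) (hf' : ∀ i v, f' i v ≤ sh P t x i v) (θ : ℝ≥0∞)
    (hd : ∀ i v, f i v ≤ f' i v + θ * sh P t x i v) (v : R3) :
    spillF P t x f f v ≤ spillF P t x f' f' v + 2 * θ * spillF P t x (sh P t x) (sh P t x) v := by
  classical
  by_cases hθ : 1 ≤ θ
  · calc spillF P t x f f v ≤ 1 * spillF P t x (sh P t x) (sh P t x) v := by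
          rw [one_mul]; exact spillF_mono hf hf v
      _ ≤ 2 * θ * spillF P t x (sh P t x) (sh P t x) v := by
          gcongr
          calc (1 : ℝ≥0∞) = 1 * 1 := (one_mul _).symm
            _ ≤ 2 * θ := by gcongr; norm_num
      _ ≤ _ := le_add_self
  push Not at hθ
  have hθt : θ ≠ ⊤ := (hθ.trans ENNReal.one_lt_top).ne
  unfold spillF
  rw [← ENNReal.tsum_mul_left, ← ENNReal.tsum_add]
  refine ENNReal.tsum_le_tsum fun i => ?_
  rw [← ENNReal.tsum_mul_left, ← ENNReal.tsum_add]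
  refine ENNReal.tsum_le_tsum fun i' => ?_
  split_ifs
  · simp
  · have e1 : Qp (f i) (f i') v ≤ Qp (f' i) (f i') v + θ * Qp (sh P t x i) (f i') v := by
      refine (WA.Qp_mono (hd i) (fun _ => le_rfl) v).trans ?_
      rw [A.Qp_add_left (hm' i) (hm i'), WA.Qp_smul_left hθt]
    have e2 : Qp (f' i) (f i') v ≤ Qp (f' i) (f' i') v + θ * Qp (f' i) (sh P t x i') v := by
      refine (WA.Qp_mono (fun _ => le_rfl) (hd i') v).trans ?_
      rw [A.Qp_add_right (hm' i) (hm' i'), WA.Qp_smul_right hθt]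
    have e3 : Qp (sh P t x i) (f i') v ≤ Qp (sh P t x i) (sh P t x i') v :=
      WA.Qp_mono (fun _ => le_rfl) (hf i') v
    have e4 : Qp (f' i) (sh P t x i') v ≤ Qp (sh P t x i) (sh P t x i') v :=
      WA.Qp_mono (hf' i) (fun _ => le_rfl) v
    calc Qp (f i) (f i') v ≤ Qp (f' i) (f' i') v + θ * Qp (f' i) (sh P t x i') v +
          θ * Qp (sh P t x i) (f i') v := e1.trans (add_le_add e2 le_rfl)
      _ ≤ Qp (f' i) (f' i') v + θ * Qp (sh P t x i) (sh P t x i') v +
          θ * Qp (sh P t x i) (sh P t x i') v := by gcongr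
      _ = _ := by ring

/-- the size of the spill is locally bounded on `[T1,∞)` -/
theorem SB_bdd (h : Big P) {T1 : ℝ} (hT1 : 0 < T1) (T : ℝ) :
    ∃ M : ℝ, ∀ t, T1 ≤ t → t ≤ T → CSp P.Y * SB P t ≤ M := by
  have hκ := Fuel.Ok.kap0 h.ok
  have hd := Fuel.Ok.dlp h.ok
  have hsep : ∀ t ∈ Icc T1 T, 0 < W.sep P t := fun t ht => W.sep_pos h.pole (hT1.le.trans ht.1)
  set F : ℝ → ℝ := fun t => CSp P.Y * ((massB P t + NB P t) *
    (cardB P t ^ 2 * (2 / W.sep P t ^ 2) ^ (3 * P.p + 2)) + cardB P t * P.dl ^ 2) with hF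
  have hcon : ContinuousOn F (Icc T1 T) := by
    have c1 : ContinuousOn (fun t => P.K / (t * (1 + P.kap * t))) (Icc T1 T) := by
      apply ContinuousOn.div (by fun_prop) (by fun_prop)
      intro t ht
      have : 0 < t := hT1.trans_le ht.1
      positivity
    have c2 : ContinuousOn (massB P) (Icc T1 T) := by
      unfold massB
      exact ((by fun_prop : ContinuousOn (fun t => (4 + 3 * (P.Y + 2) * t) ^ 2) (Icc T1 T)).mul
        c1).add (by fun_prop)
    have c3 : ContinuousOn (NB P) (Icc T1 T) := by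
      unfold NB
      exact ((by fun_prop : ContinuousOn (fun t => 144 * (1 + t)) (Icc T1 T)).mul
        ((by fun_prop : ContinuousOn (fun t => (4 + 3 * (P.Y + 2) * t) ^ 2) (Icc T1 T)).mul
        c1)).add (by fun_prop)
    have c4 : ContinuousOn (cardB P) (Icc T1 T) := by
      unfold cardB; fun_prop
    have c5 : ContinuousOn (fun t => W.sep P t) (Icc T1 T) := by
      unfold W.sep
      apply ContinuousOn.div (by fun_prop) (by fun_prop)
      intro t ht h0
      have h1 := hsep t ht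
      unfold W.sep at h1
      rw [h0, div_zero] at h1
      exact lt_irrefl _ h1
    have c6 : ContinuousOn (fun t => (2 / W.sep P t ^ 2) ^ (3 * P.p + 2)) (Icc T1 T) := by
      apply ContinuousOn.pow
      apply ContinuousOn.div (by fun_prop) (c5.pow 2)
      intro t ht
      exact (pow_pos (hsep t ht) 2).ne'
    rw [hF]
    exact continuousOn_const.mul (((c2.add c3).mul ((c4.pow 2).mul c6)).add
      (c4.mul continuousOn_const))
  obtain ⟨M, hM⟩ := (isCompact_Icc.image_of_continuousOn hcon).bddAbove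
  refine ⟨M, fun t ht htT => ?_⟩
  refine le_trans ?_ (hM (mem_image_of_mem F ⟨ht, htT⟩))
  have ht0 : 0 < t := hT1.trans_le ht
  have h1 : MS P t ≤ (2 / W.sep P t ^ 2) ^ (3 * P.p + 2) := by
    have := hsep t ⟨ht, htT⟩
    unfold MS
    split_ifs
    · positivity
    · exact le_rfl
  have h2 := massB_nonneg h ht0.le
  have h3 := NB_nonneg h ht0.le
  have h4 : 0 ≤ CSp P.Y := by
    unfold CSp
    have : 0 ≤ (CS (P.Y + 2)).toReal := ENNReal.toReal_nonneg
    linarith
  show CSp P.Y * SB P t ≤ CSp P.Y * ((massB P t + NB P t) *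
    (cardB P t ^ 2 * (2 / W.sep P t ^ 2) ^ (3 * P.p + 2)) + cardB P t * P.dl ^ 2)
  unfold SB
  have h5 : 0 ≤ massB P t + NB P t := add_nonneg h2 h3
  exact mul_le_mul_of_nonneg_left (add_le_add (mul_le_mul_of_nonneg_left
    (mul_le_mul_of_nonneg_left h1 (sq_nonneg _)) h5) le_rfl) h4

/-- **the facts on the cold component for the truncated problem** -/
theorem cfacts (h : Big P) (hC : ColdPar C.C0 P) (hC' : ColdPar Cold.C0 P) {lam T1 : ℝ}
    (hlam : 0 ≤ lam) (hT1 : 0 < T1) : W.CFacts P lam T1 where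
  meas lam hl _ := ColdM.meas3_coldR P hl
  per lam _ _ t v := ColdM.perG_coldR P lam t v
  smeas lam hl _ := ColdM.meas3_coldSpill P hl
  sper lam _ _ t v := Cold.perG_coldSpill P lam t v
  le lam _ _ t x v ht := Cold.coldR_le_coldS hC' h.ok lam (hT1.le.trans ht) x v
  Smeas := I.meas3_coldS h.ok
  Ssupp t x v ht hv := by
    by_contra h0
    have := norm_lt_of_coldS_ne h (hT1.le.trans ht) h0
    linarith
  Sbd T := cold_bd h hC hT1 T
  cb T := by
    obtain ⟨B0, hB0⟩ := ColdL.coldR_lipW hC' h T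
    obtain ⟨M, hM⟩ := SB_bdd h hT1 T
    set Bs : ℝ≥0∞ := ENNReal.ofReal M * ENNReal.ofReal (Real.exp (lam * (max T T1 - T1))) with hBs
    have hBst : Bs ≠ ⊤ := ENNReal.mul_ne_top ENNReal.ofReal_ne_top ENNReal.ofReal_ne_top
    have hsp : ∀ t, T1 ≤ t → t ≤ T → ∀ x v, spillF P t x (sh P t x) (sh P t x) v ≤
        Bs * WA.EW P lam T1 t x v := by
      intro t ht htT x v
      refine (spillF_sh_le h hC (hT1.trans_le ht) x v).trans ?_
      rw [hBs, mul_assoc]
      refine mul_le_mul' (ENNReal.ofReal_le_ofReal (hM t ht htT)) ?_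
      calc Dm P t x v * We v ≤ (1 + Dm P t x v) * We v := by gcongr; exact le_add_self
        _ ≤ ENNReal.ofReal (Real.exp (lam * (t - T1))) * WA.EW P lam T1 t x v :=
            W.one_Dm_le hlam hT1.le ht x v
        _ ≤ _ := by
            gcongr
            exact htT.trans (le_max_left _ _)
    have hms : ∀ t, 0 ≤ t → ∀ x lam', A.Meas3 lam' → ∀ i, Measurable (coldjk P lam' i t x) := by
      intro t _ x lam' hl i
      exact (ColdM.meas3_coldjk P hl i).slice t x
    -- closeness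
    have hcl : ∀ lam lam' : ℝ → P2 → R3 → ℝ≥0∞, (∀ t v, PerG fun x => lam t x v) →
        (∀ t v, PerG fun x => lam' t x v) → (∀ s x v, s < T1 → lam s x v = lam' s x v) →
        ∀ g : ℝ → ℝ≥0∞, Measurable g → (∀ s x v, T1 ≤ s → ‖v‖ < P.Y + 3 →
          lam s x v ≤ lam' s x v + g s ∧ lam' s x v ≤ lam s x v + g s) → ∀ t, T1 ≤ t → t ≤ T →
        ColdL.Close P t lam lam' (fun s _ _ => (Ici T1).indicator g s)
          (fun t _ => ∫⁻ s in Ioo 0 t, (Ici T1).indicator g s) := by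
      intro lam lam' h1 h2 h3 g hg h4 t _ _
      refine ⟨h1, h2, fun s y v _ _ hv => ?_, fun t x v _ _ _ => le_rfl,
        fun s t x v _ hst _ _ => lintegral_mono_set (Ioo_subset_Ioo_right hst)⟩
      rcases lt_or_ge s T1 with hs | hs
      · rw [h3 s y v hs]
        exact ⟨le_self_add, le_self_add⟩
      · rw [indicator_of_mem (show s ∈ Ici T1 from hs)]
        exact h4 s y v hs hv
    have hint : ∀ (g : ℝ → ℝ≥0∞) (t : ℝ), ∫⁻ s in Ioo 0 t, (Ici T1).indicator g s ≤
        ∫⁻ s in Ioo T1 t, g s := by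
      intro g t
      rw [setLIntegral_indicator measurableSet_Ici]
      calc ∫⁻ s in Ici T1 ∩ Ioo 0 t, g s ≤ ∫⁻ s in Ico T1 t, g s :=
            lintegral_mono_set fun s hs => ⟨hs.1, hs.2.2⟩
        _ = _ := by rw [Measure.restrict_congr_set Ioo_ae_eq_Ico]
    refine ⟨Bs.toNNReal + B0 + 2 * B0 * Bs.toNNReal, fun t ht htT => ?_⟩
    have hBe : (((Bs.toNNReal + B0 + 2 * B0 * Bs.toNNReal : ℝ≥0)) : ℝ≥0∞) =
        Bs + B0 + 2 * B0 * Bs := by
      push_cast
      rw [ENNReal.coe_toNNReal hBst]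
    have ht0 : 0 < t := hT1.trans_le ht
    constructor
    · intro lam' hl hp x v
      rw [coldSpill_eq]
      refine (spillF_mono (fun i v => coldjk_le_sh hC' lam' i ht0.le x v)
        (fun i v => coldjk_le_sh hC' lam' i ht0.le x v) v).trans ?_
      refine (hsp t ht htT x v).trans ?_
      gcongr
      rw [hBe, add_assoc]
      exact le_self_add
    · intro l l' hl hp hl' hp' he g hg hd x v
      have h1 := (hB0 l l' _ _ t htT hl hl' (hcl l l' hp hp' he g hg hd t ht htT) t ht0.le le_rfl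
        x v).1
      refine h1.trans ?_
      refine add_le_add le_rfl (mul_le_mul' (mul_le_mul' ?_ (hint g t)) le_rfl)
      rw [hBe]
      calc (B0 : ℝ≥0∞) ≤ Bs + B0 := le_add_self
        _ ≤ _ := le_self_add
    · intro l l' hl hp hl' hp' he g hg hd x v
      have h1 := fun v => (hB0 l l' _ _ t htT hl hl' (hcl l l' hp hp' he g hg hd t ht htT) t
        ht0.le le_rfl x v).2
      rw [coldSpill_eq, coldSpill_eq]
      refine (spillF_lipW (hms t ht0.le x l hl)
        (hms t ht0.le x l' hl') (fun i v => coldjk_le_sh hC' l i ht0.le x v)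
        (fun i v => coldjk_le_sh hC' l' i ht0.le x v) _ (fun i v => h1 v i) v).trans ?_
      refine add_le_add le_rfl ?_
      calc 2 * (B0 * ∫⁻ s in Ioo 0 t, (Ici T1).indicator g s) *
            spillF P t x (sh P t x) (sh P t x) v
          ≤ 2 * (B0 * ∫⁻ s in Ioo T1 t, g s) * (Bs * WA.EW P lam T1 t x v) :=
            mul_le_mul' (mul_le_mul' le_rfl (mul_le_mul' le_rfl (hint g t))) (hsp t ht htT x v)
        _ = (2 * B0 * Bs) * (∫⁻ s in Ioo T1 t, g s) * WA.EW P lam T1 t x v := by ring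
        _ ≤ _ := by
            refine mul_le_mul' (mul_le_mul' ?_ le_rfl) le_rfl
            rw [hBe]
            exact le_add_self

end Crest.Agent.R68.ColdW

namespace Crest.Agent.R68.WP

open Crest.Agent.R68.A (en Meas3)
open Crest.Agent.R68.N
open Crest.Agent.R68.Main0 (H0f Hot)
open Crest.Agent.R68.W (Om damped THyp)
open Crest.Agent.R68.WA (We w1 Mx EW)

/-- **the hypotheses of the truncated problem** -/
theorem TruncOut_holds {Y : ℝ} (hY : 1 ≤ Y) : TruncOut Y := by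
  intro K ey hK hey hey1
  filter_upwards [eventually_ge_atTop 512] with p hp
  intro R
  filter_upwards [ev_ColdPar K Y ey p Cold.C0 hK hY hp, ev_ColdPar K Y ey p C.C0 hK hY hp,
    ev_ParD K Y ey p (by linarith), ev_pos, ev_T1_le (show (0 : ℝ) < 1 / 4 by norm_num)]
    with j0 hC hC' hD hpos hT1
  intro H a hH hA hHb
  have hB : ColdW.Big (par K Y ey p j0) := ColdL.big_of hC hey hC'
  have hT0 : 0 < T1j j0 := hpos.2.2
  refine ⟨a.toReal * Real.exp 50, ?_⟩
  have hm : Measurable fun q : P2 × R3 => H (T1j j0) q.1 q.2 :=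
    hH.meas.comp measurable_const measurable_fst measurable_snd
  refine W.thyp_EW hD (by norm_num) hT0.le (by linarith)
    (mul_nonneg ENNReal.toReal_nonneg (Real.exp_pos _).le)
    (ColdW.cfacts hB hC' hC (by norm_num) hT0) hm (fun v => hH.per (T1j j0) v) ?_ ?_ ?_
  · intro x v
    refine (hHb (T1j j0) ⟨hT0, le_rfl⟩ x v).trans ?_
    unfold Zg
    rw [ENNReal.ofReal_mul ENNReal.toReal_nonneg, ENNReal.ofReal_toReal hA, mul_assoc]
    refine mul_le_mul' le_rfl ?_
    rw [WA.EW_of_nonneg hT0.le, sub_self, mul_zero, neg_zero, Real.exp_zero, ENNReal.ofReal_one,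
      one_mul]
    calc ENNReal.ofReal (gau (1 / 50) (T1j j0) v) * Dm (par K Y ey p j0) (T1j j0) x v
        ≤ (ENNReal.ofReal (Real.exp 50) * We v) * (1 + Dm (par K Y ey p j0) (T1j j0) x v) := by
          gcongr
          · exact WA.gau_le_We (by norm_num) hT1 v
          · exact le_add_self
      _ = _ := by ring
  · exact A.meas3_Lc hH.meas
  · intro t v x k
    show Lc (H t (x + latt k)) v = Lc (H t x) v
    have : H t (x + latt k) = H t x := by funext z; exact hH.per t z x k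
    rw [this]

end Crest.Agent.R68.WP
end
end

-- ▼ part R68/ColdHot
section

/-!
# Row 68, part W (helper153): collisions of the cold component with the hot weight
-/

set_option autoImplicit false
open MeasureTheory Set
open scoped ENNReal NNReal
open Crest.AnalysisR.VecCalc3 Crest.AnalysisR.PDE.Boltzmann

noncomputable section

namespace Crest.Agent.R68.ColdW

open Crest.Agent.R68
open Crest.Agent.R68.WA (We w1 Mx EW exists_CM)
open Crest.Agent.R68.W (CN Qp_cold_EW one_Dm_le Lc_cold_le)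

/-- **cold against hot** -/
theorem cold_hot (Y : ℝ) : ∃ Ch : ℝ, 0 ≤ Ch ∧ ∀ P : Par, Big P → ColdPar C.C0 P →
    DPole.ParD P → P.Y = Y → ∀ (T1 t : ℝ) (x : P2) (c : R3 → ℝ≥0∞) (a : ℝ≥0∞), a ≠ ⊤ →
      0 < T1 → T1 ≤ 1 → T1 ≤ t → Measurable c → (∀ v, c v ≤ a * coldS P t x v) → ∀ v,
        Qp c (EW P (1 / 8) T1 t x) v + Qp (EW P (1 / 8) T1 t x) c v + Mx v * Lc c v ≤
          a * ENNReal.ofReal (Ch * (massB P t + NB P t) * Real.exp (1 / 8 * (t - T1))) *
            EW P (1 / 8) T1 t x v := by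
  obtain ⟨CM, -, hCM⟩ := exists_CM
  set Cn : ℝ≥0 := CN Y (1 / 8) (Y + 2) 0 with hCn
  set Cl : ℝ≥0 := Real.toNNReal (2 * Real.pi * (1 + (Y + 2))) with hCl
  refine ⟨2 * Cn + Cl * CM, by positivity, ?_⟩
  intro P hB hC hPD hPY T1 t x c a ha hT1 hT11 ht mc hc v
  have ht0 : 0 < t := hT1.trans_le ht
  have hYp := hPD.Y
  have hsupp : ∀ y, P.Y + 2 < ‖y‖ → c y = 0 := by
    intro y hy
    have h0 : coldS P t x y = 0 := by
      by_contra h
      exact absurd (norm_lt_of_coldS_ne hB ht0.le h) (not_lt.2 hy.le)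
    have h1 := hc y
    rw [h0, mul_zero] at h1
    exact le_antisymm h1 bot_le
  have hmE : Measurable (EW P (1 / 8) T1 t x) :=
    (WA.measurable_EW hYp (1 / 8) T1).comp (f := fun v : R3 => (t, x, v)) (by fun_prop)
  have hmass : ∫⁻ u, c u ≤ a * ENNReal.ofReal (massB P t) := by
    calc ∫⁻ u, c u ≤ ∫⁻ u, a * coldS P t x u := lintegral_mono hc
      _ = a * ∫⁻ u, coldS P t x u := lintegral_const_mul' _ _ ha
      _ ≤ _ := by gcongr; exact mass_coldS hB ht0 x
  have hnewt : C.newt c v ≤ a * (ENNReal.ofReal (NB P t) * Dm P t x v) := by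
    calc C.newt c v ≤ C.newt (fun u => a * coldS P t x u) v := by
          unfold C.newt
          exact lintegral_mono fun u => by gcongr; exact hc _
      _ = a * C.newt (coldS P t x) v := by
          unfold C.newt
          rw [← lintegral_const_mul' _ _ ha]
          exact lintegral_congr fun u => by ring
      _ ≤ _ := by gcongr; exact newt_coldS hB hC ht0 x v
  have hmB := massB_nonneg hB ht0.le
  have hNB := NB_nonneg hB ht0.le
  set X : ℝ≥0∞ := a * ENNReal.ofReal ((massB P t + NB P t) * Real.exp (1 / 8 * (t - T1))) *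
    EW P (1 / 8) T1 t x v with hX
  have hsum : We v * ((∫⁻ u, c u) + C.newt c v) ≤ X := by
    calc We v * ((∫⁻ u, c u) + C.newt c v)
        ≤ We v * (a * ENNReal.ofReal (massB P t + NB P t) +
            a * (ENNReal.ofReal (massB P t + NB P t) * Dm P t x v)) := by
          gcongr
          · refine hmass.trans ?_
            gcongr
            linarith
          · refine hnewt.trans ?_
            gcongr
            linarith
      _ = a * ENNReal.ofReal (massB P t + NB P t) * ((1 + Dm P t x v) * We v) := by ring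
      _ ≤ a * ENNReal.ofReal (massB P t + NB P t) *
          (ENNReal.ofReal (Real.exp (1 / 8 * (t - T1))) * EW P (1 / 8) T1 t x v) := by
          gcongr ?_ * ?_
          · exact le_rfl
          · exact one_Dm_le (by norm_num) hT1.le ht x v
      _ = X := by
          rw [hX, ENNReal.ofReal_mul (p := massB P t + NB P t) (by positivity)]
          ring
  have hWX : We v * ∫⁻ u, c u ≤ X := by
    refine le_trans ?_ hsum
    gcongr
    exact le_self_add
  have q1 : Qp c (EW P (1 / 8) T1 t x) v ≤ Cn * X := by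
    refine (Qp_cold_EW hPD (by norm_num) hT1.le hT11 ht x mc (by linarith) hsupp v).trans ?_
    rw [hPY, ← hCn]
    gcongr
  have q2 : Qp (EW P (1 / 8) T1 t x) c v ≤ Cn * X := by
    rw [WK.Qp_comm hmE mc]
    exact q1
  have q3 : Mx v * Lc c v ≤ Cl * CM * X := by
    calc Mx v * Lc c v
        ≤ Mx v * (ENNReal.ofReal (2 * Real.pi * (1 + (P.Y + 2))) * w1 v * ∫⁻ u, c u) := by
          gcongr
          exact Lc_cold_le mc hsupp v
      _ = ENNReal.ofReal (2 * Real.pi * (1 + (P.Y + 2))) * (w1 v * Mx v) * ∫⁻ u, c u := by ring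
      _ ≤ ENNReal.ofReal (2 * Real.pi * (1 + (P.Y + 2))) * (CM * We v) * ∫⁻ u, c u := by
          gcongr ?_ * ?_ * ?_
          · exact le_rfl
          · exact (hCM v).2
          · exact le_rfl
      _ = Cl * CM * (We v * ∫⁻ u, c u) := by
          rw [hPY, hCl]
          show ENNReal.ofReal (2 * Real.pi * (1 + (Y + 2))) * (CM * We v) * ∫⁻ u, c u =
            ENNReal.ofReal (2 * Real.pi * (1 + (Y + 2))) * CM * (We v * ∫⁻ u, c u)
          ring
      _ ≤ _ := by gcongr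
  calc Qp c (EW P (1 / 8) T1 t x) v + Qp (EW P (1 / 8) T1 t x) c v + Mx v * Lc c v
      ≤ Cn * X + Cn * X + Cl * CM * X := add_le_add (add_le_add q1 q2) q3
    _ = ((2 * Cn + Cl * CM : ℝ≥0) : ℝ≥0∞) * X := by push_cast; ring
    _ = _ := by
        rw [hX, ← ENNReal.ofReal_coe_nnreal]
        have e : (((2 * Cn + Cl * CM : ℝ≥0) : ℝ)) = 2 * Cn + Cl * CM := by push_cast; ring
        rw [e]
        have e2 : (2 * (Cn : ℝ) + Cl * CM) * (massB P t + NB P t) * Real.exp (1 / 8 * (t - T1)) =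
            (2 * (Cn : ℝ) + Cl * CM) * ((massB P t + NB P t) * Real.exp (1 / 8 * (t - T1))) := by
          ring
        rw [e2, ENNReal.ofReal_mul (p := 2 * (Cn : ℝ) + Cl * CM) (by positivity)]
        ring

end Crest.Agent.R68.ColdW
end
end

-- ▼ part R68/CausOut
section

/-!
# Row 68, PART C: `CausOut_holds` (helper906)
-/

set_option autoImplicit false
open MeasureTheory Set Filter
open scoped ENNReal
open Crest.AnalysisR.VecCalc3 Crest.AnalysisR.PDE.Boltzmann

noncomputable section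

namespace Crest.Agent.R68.WP

open Crest.Agent.R68.A (en Meas3)
open Crest.Agent.R68.N

theorem CausOut_holds (Y : ℝ) (hY : 1 ≤ Y) : CausOut Y := by
  intro K ey hK hey hey1
  filter_upwards [eventually_ge_atTop 512] with p hp
  filter_upwards [ev_ColdPar K Y ey p Cold.C0 hK hY hp,
    ev_Ok K Y ey p (by linarith) (by linarith) hey (by omega),
    tendsto_natCast_atTop_atTop.eventually_ge_atTop K] with j0 hC hOk hKj
  have hB : ColdW.Big (par K Y ey p j0) := ⟨hOk, hp, hY, hKj⟩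
  refine ⟨fun lam hm hp => ⟨ColdM.meas3_coldR _ hm, fun t v => ColdM.perG_coldR _ lam t v,
    ColdM.meas3_coldSpill _ hm, fun t v => Cold.perG_coldSpill _ lam t v,
    fun t x v ht => Cold.coldR_le_coldS hC hOk lam ht x v,
    fun t x v ht => Cold.coldS_ne_top hB ht x v⟩, ?_⟩
  intro lam lam' _ _ _ _ T hT t x v _ htT
  exact ⟨congrFun (congrFun (Cold.coldR_congr (T := T) (fun s y v hs hsT => hT s y v hs hsT) htT) x) v,
    Cold.coldSpill_congr (T := T) (fun s y v hs hsT => hT s y v hs hsT) htT x v⟩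

end Crest.Agent.R68.WP
end
end

-- ▼ part R68/ColdOutA
section

/-!
# Row 68, part W (helper153): assembly of `ColdOut`
-/

set_option autoImplicit false
open MeasureTheory Set Filter
open scoped ENNReal NNReal Topology
open Crest.AnalysisR.VecCalc3 Crest.AnalysisR.PDE.Boltzmann

noncomputable section

namespace Crest.Agent.R68.WP

open Crest.Agent.R68.A (Meas3)
open Crest.Agent.R68.N (Fld PerF)
open Crest.Agent.R68.WA (We w1 Mx EW one_le_w1)
open Crest.Agent.R68.ColdW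

/-- (559) decay of the cold component -/
def DecOut : Prop :=
  ∀ P : Par, Big P → ColdPar Cold.C0 P → ∀ lam : Fld, Meas3 lam → PerF lam →
    ∀ T1 ell T : ℝ, 0 < T1 → 0 < ell → T1 ≤ T →
      (∀ t x v, T1 + ell ≤ t → t ≤ T → ENNReal.ofReal (1 / 2) * w1 v ≤ lam t x v) →
      ∀ (t : ℝ) (x : P2) (v : R3), T1 ≤ t → t ≤ T + 1 →
        coldR P lam t x v ≤ ENNReal.ofReal (al T1 ell t) * coldS P t x v ∧
        ∀ i : (ℤ × ℤ) × ℕ, coldjk P lam i t x v ≤ ENNReal.ofReal (al T1 ell t) *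
          (phij P i.2 t (x + latt i.1) v + warmj P i.2 t (x + latt i.1) v)

/-- (827) size of the spill for `t ≥ T1` -/
def SpOut (K Y ey : ℝ) (p : ℕ) : Prop :=
  ∃ C4 : ℝ, 0 ≤ C4 ∧ ∀ᶠ j0 : ℕ in atTop, ∀ lam : Fld, Meas3 lam → ∀ (t : ℝ) (x : P2)
    (a : ℝ≥0∞), a ≠ ⊤ → T1j j0 ≤ t →
    (∀ (i : (ℤ × ℤ) × ℕ) (v : R3), coldjk (par K Y ey p j0) lam i t x v ≤
      a * (phij (par K Y ey p j0) i.2 t (x + latt i.1) v +
        warmj (par K Y ey p j0) i.2 t (x + latt i.1) v)) → ∀ v : R3,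
    coldSpill (par K Y ey p j0) lam t x v ≤ a * a * ENNReal.ofReal (C4 *
      ((massB (par K Y ey p j0) t + NB (par K Y ey p j0) t) *
        (cardB (par K Y ey p j0) t ^ 2 * MS (par K Y ey p j0) t) +
        cardB (par K Y ey p j0) t * (par K Y ey p j0).dl ^ 2)) *
      (Dm (par K Y ey p j0) t x v * We v)

/-- (835/819) size of `vsR` -/
def VSOut (K Y ey : ℝ) (p : ℕ) : Prop :=
  ∀ C ell S : ℝ, 0 ≤ C → 0 < ell → 0 < S →
    (∀ᶠ j0 : ℕ in atTop, (∫⁻ t in Ioi (T1j j0),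
      ENNReal.ofReal (vsR (par K Y ey p j0) C (T1j j0) ell t)) ≤ ENNReal.ofReal S) ∧
    (∀ᶠ j0 : ℕ in atTop, ∀ t, T1j j0 ≤ t →
      C * (al (T1j j0) ell t * massB (par K Y ey p j0) t) ≤ S) ∧
    (∀ j0 : ℕ, Measurable fun t => ENNReal.ofReal (vsR (par K Y ey p j0) C (T1j j0) ell t))

theorem al_nonneg (T1 ell t : ℝ) : 0 ≤ al T1 ell t := (Real.exp_pos _).le

theorem al_le_one (T1 ell t : ℝ) : al T1 ell t ≤ 1 := by
  unfold al
  rw [Real.exp_le_one_iff]
  have := le_max_left 0 (t - (T1 + ell + 1))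
  linarith

theorem cardB_nonneg (P : Par) (t : ℝ) : 0 ≤ cardB P t := sq_nonneg _

theorem MS_nonneg (P : Par) (t : ℝ) : 0 ≤ MS P t := by
  unfold MS
  split_ifs
  · exact le_rfl
  · positivity

/-- **`ColdOut`** from decay, spill and the size of `vs` -/
theorem ColdOut_of {Y : ℝ} (hY : 1 ≤ Y) (hdec : DecOut)
    (hsp : ∀ K ey : ℝ, 1 ≤ K → 0 < ey → ey ≤ 1 / 100 → ∀ᶠ p : ℕ in atTop, SpOut K Y ey p)
    (hvs : ∀ K ey : ℝ, 1 ≤ K → 0 < ey → ey ≤ 1 / 100 → ∀ᶠ p : ℕ in atTop, VSOut K Y ey p) :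
    ColdOut Y := by
  intro K ey hK hey hey1
  filter_upwards [hsp K ey hK hey hey1, hvs K ey hK hey hey1, eventually_ge_atTop 512]
    with p hsp hvs hp
  intro ell S hell hS
  obtain ⟨C4, hC4, hsp⟩ := hsp
  obtain ⟨Ch, hCh, hhot⟩ := cold_hot Y
  obtain ⟨E1, -, E3⟩ := hvs (Ch + C4) ell S (by positivity) hell hS
  obtain ⟨-, E2, -⟩ := hvs 1 ell S zero_le_one hell hS
  filter_upwards [hsp, E1, E2, ev_pos, ev_T1_le one_pos, ev_ParD K Y ey p (by linarith),
    ev_ColdPar K Y ey p Cold.C0 hK hY hp, ev_ColdPar K Y ey p C.C0 hK hY hp,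
    ev_Ok K Y ey p (by linarith) (by linarith) hey (by omega),
    tendsto_natCast_atTop_atTop.eventually_ge_atTop K]
    with j0 hsp E1 E2 hpos hT11 hPD hCP hCP' hOk hKj
  have hB : Big (par K Y ey p j0) := ⟨hOk, hp, hY, hKj⟩
  set P := par K Y ey p j0 with hP
  have hT1 : 0 < T1j j0 := hpos.2.2
  refine ⟨fun t => ENNReal.ofReal (vsR P (Ch + C4) (T1j j0) ell t), E3 j0, E1, ?_⟩
  intro lam mlam plam T hT hrate
  have hd := hdec P hB hCP lam mlam plam (T1j j0) ell T hT1 hell hT hrate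
  constructor
  · intro t x v ht htT
    set E := EW P (1 / 8) (T1j j0) t x with hE
    set a := ENNReal.ofReal (al (T1j j0) ell t) with ha
    have ha1 : a ≤ 1 := by
      rw [ha, ← ENNReal.ofReal_one]
      exact ENNReal.ofReal_le_ofReal (al_le_one _ _ _)
    have hmc : Measurable (coldR P lam t x) := (ColdM.meas3_coldR _ mlam).slice t x
    have h1 := hhot P hB hCP' hPD rfl (T1j j0) t x (coldR P lam t x) a ENNReal.ofReal_ne_top hT1
      hT11 ht hmc (fun w => (hd t x w ht htT).1) v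
    have h2 := hsp lam mlam t x a ENNReal.ofReal_ne_top ht (fun i w => (hd t x w ht htT).2 i) v
    have ht0 : 0 ≤ t := hT1.le.trans ht
    have hmB := massB_nonneg hB ht0
    have hNB := NB_nonneg hB ht0
    have hcB := cardB_nonneg P t
    have hMS := MS_nonneg P t
    have hdl : 0 ≤ P.dl ^ 2 := sq_nonneg _
    set X : ℝ := (massB P t + NB P t) * (cardB P t ^ 2 * MS P t) + cardB P t * P.dl ^ 2 with hX
    have hX0 : 0 ≤ X := by positivity
    have h3 : coldSpill P lam t x v ≤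
        a * ENNReal.ofReal (C4 * X * Real.exp (1 / 8 * (t - T1j j0))) * E v := by
      refine h2.trans ?_
      calc a * a * ENNReal.ofReal (C4 * X) * (Dm P t x v * We v)
          ≤ 1 * a * ENNReal.ofReal (C4 * X) *
            (ENNReal.ofReal (Real.exp (1 / 8 * (t - T1j j0))) * E v) := by
            refine mul_le_mul' (mul_le_mul' (mul_le_mul' ha1 le_rfl) le_rfl) ?_
            refine le_trans ?_ (W.one_Dm_le (by norm_num) hT1.le ht x v)
            gcongr
            exact le_add_self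
        _ = _ := by
            rw [ENNReal.ofReal_mul (p := C4 * X) (by positivity)]
            ring
    show Qp (coldR P lam t x) E v + Qp E (coldR P lam t x) v + coldSpill P lam t x v +
      Mx v * Lc (coldR P lam t x) v ≤ ENNReal.ofReal (vsR P (Ch + C4) (T1j j0) ell t) * E v
    calc Qp (coldR P lam t x) E v + Qp E (coldR P lam t x) v + coldSpill P lam t x v +
          Mx v * Lc (coldR P lam t x) v
        = (Qp (coldR P lam t x) E v + Qp E (coldR P lam t x) v +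
            Mx v * Lc (coldR P lam t x) v) + coldSpill P lam t x v := by ring
      _ ≤ a * ENNReal.ofReal (Ch * (massB P t + NB P t) * Real.exp (1 / 8 * (t - T1j j0))) * E v +
          a * ENNReal.ofReal (C4 * X * Real.exp (1 / 8 * (t - T1j j0))) * E v := add_le_add h1 h3
      _ = a * ENNReal.ofReal ((Ch * (massB P t + NB P t) + C4 * X) *
            Real.exp (1 / 8 * (t - T1j j0))) * E v := by
          rw [add_mul (Ch * (massB P t + NB P t)), ENNReal.ofReal_add (by positivity)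
            (by positivity)]
          ring
      _ ≤ _ := by
          rw [ha, ← ENNReal.ofReal_mul (al_nonneg _ _ _)]
          gcongr
          unfold vsR VS
          have e1 : Ch * (massB P t + NB P t) + C4 * X ≤
              (Ch + C4) * ((massB P t + NB P t) * (1 + cardB P t ^ 2 * MS P t) +
                cardB P t * P.dl ^ 2) := by
            have k1 : (massB P t + NB P t) * (1 + cardB P t ^ 2 * MS P t) +
                cardB P t * P.dl ^ 2 = (massB P t + NB P t) + X := by rw [hX]; ring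
            rw [k1]
            have k2 : 0 ≤ Ch * X := by positivity
            have k3 : 0 ≤ C4 * (massB P t + NB P t) := by positivity
            nlinarith
          calc al (T1j j0) ell t * ((Ch * (massB P t + NB P t) + C4 * X) *
                Real.exp (1 / 8 * (t - T1j j0)))
              ≤ al (T1j j0) ell t * (((Ch + C4) * ((massB P t + NB P t) *
                (1 + cardB P t ^ 2 * MS P t) + cardB P t * P.dl ^ 2)) *
                Real.exp (1 / 8 * (t - T1j j0))) := by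
                refine mul_le_mul_of_nonneg_left ?_ (al_nonneg _ _ _)
                exact mul_le_mul_of_nonneg_right e1 (Real.exp_pos _).le
            _ = _ := by ring
  · intro t ht htT
    have ht0 : 0 < t := hT1.trans_le ht
    have h4 : ∀ y, ∫⁻ v, coldR P lam t y v ≤ ENNReal.ofReal S := by
      intro y
      calc ∫⁻ v, coldR P lam t y v
          ≤ ∫⁻ v, ENNReal.ofReal (al (T1j j0) ell t) * coldS P t y v :=
            lintegral_mono fun v => (hd t y v ht htT).1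
        _ = ENNReal.ofReal (al (T1j j0) ell t) * ∫⁻ v, coldS P t y v :=
            lintegral_const_mul' _ _ ENNReal.ofReal_ne_top
        _ ≤ ENNReal.ofReal (al (T1j j0) ell t) * ENNReal.ofReal (massB P t) := by
            gcongr; exact mass_coldS hB ht0 y
        _ = ENNReal.ofReal (1 * (al (T1j j0) ell t * massB P t)) := by
            rw [one_mul, ENNReal.ofReal_mul (al_nonneg _ _ _)]
        _ ≤ _ := ENNReal.ofReal_le_ofReal (E2 t ht)
    calc ∫⁻ y in cellG, ∫⁻ v, coldR P lam t y v ≤ ∫⁻ _ in cellG, ENNReal.ofReal S :=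
          lintegral_mono h4
      _ = ENNReal.ofReal S := by
          rw [setLIntegral_const, volume_cellG, mul_one]

end Crest.Agent.R68.WP
end
end

-- ▼ part R68/ColdDec
section

/-!
# Row 68, part W / cold (helper559): exponential decay of the cold component after `T1`

A full loss rate `≥ lam0 s` gives `coldj ≤ e^{-∫_0^t lam0} (phij + warmj)` for every sheet, hence
`coldR P lam ≤ al T1 ell t * coldS P` on `[0, T+1]` if `lam ≥ (1/2)(1+|v|)` on `[T1+ell, T]`.
-/

set_option autoImplicit false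
open MeasureTheory Set Filter
open scoped ENNReal NNReal
open Crest.AnalysisR.VecCalc3 Crest.AnalysisR.PDE.Boltzmann

noncomputable section

namespace Crest.Agent.R68.ColdW

open Crest.Agent.R68
open Crest.Agent.R68.A (en Meas3)

/-- the damping factor of a rate depending on time only -/
def eD (lam0 : ℝ → ℝ≥0∞) (s t : ℝ) : ℝ≥0∞ := en (∫⁻ r in Ioo s t, lam0 r)

theorem eD_le_one (lam0 : ℝ → ℝ≥0∞) (s t : ℝ) : eD lam0 s t ≤ 1 := A.en_le_one _

theorem eD_ne_top (lam0 : ℝ → ℝ≥0∞) (s t : ℝ) : eD lam0 s t ≠ ⊤ := A.en_ne_top _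

theorem eD_mul {lam0 : ℝ → ℝ≥0∞} {s t : ℝ} (hs : 0 < s) (hst : s ≤ t) :
    eD lam0 s t * eD lam0 0 s = eD lam0 0 t := by
  unfold eD
  rw [← A.en_add]
  congr 1
  have h1 : Ioo 0 s ∪ Ico s t = Ioo 0 t := Ioo_union_Ico_eq_Ioo hs hst
  rw [← h1, lintegral_union measurableSet_Ico, add_comm]
  · congr 1
    exact setLIntegral_congr Ioo_ae_eq_Ico
  · rw [Set.disjoint_left]
    rintro r ⟨_, h2⟩ ⟨h3, _⟩
    linarith

theorem damp_le_eD {Λ : ℝ → P2 → R3 → ℝ≥0∞} {lam0 : ℝ → ℝ≥0∞} {s t : ℝ}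
    (hΛ : ∀ r x v, s < r → r < t → lam0 r ≤ Λ r x v) (x : P2) (v : R3) :
    damp Λ s t x v ≤ eD lam0 s t := by
  unfold damp eD
  refine A.en_antitone (setLIntegral_mono' measurableSet_Ioo fun r hr => ?_)
  exact hΛ r _ v hr.1 hr.2

theorem damp_zero (s t : ℝ) (x : P2) (v : R3) : damp (fun _ _ _ => 0) s t x v = 1 := by
  unfold damp
  simp

open scoped Classical in
theorem gainj_smul (P : Par) (j : ℕ) {e : ℝ≥0∞} (he : e ≠ ⊤) {c c' : ℝ → P2 → R3 → ℝ≥0∞} {t : ℝ}
    {x : P2} (hc : ∀ z, c t x z ≤ e * c' t x z) (v : R3) :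
    gainj P j c t x v ≤ e * (e * gainj P j c' t x v) := by
  unfold gainj
  split_ifs
  · refine (A.Qp_mono hc hc v).trans ?_
    rw [A.Qp_const_mul_left he, A.Qp_const_mul_right he]
  · exact zero_le

/-- decay of the Picard iterates of one sheet -/
theorem itj_dec (P : Par) (j : ℕ) {Λ : ℝ → P2 → R3 → ℝ≥0∞} {lam0 : ℝ → ℝ≥0∞} {T : ℝ}
    (hΛ : ∀ s x v, 0 < s → s < T → lam0 s ≤ Λ s x v) (n : ℕ) :
    ∀ t, 0 ≤ t → t ≤ T → ∀ x v,
      itj P j Λ n t x v ≤ eD lam0 0 t * itj P j (fun _ _ _ => 0) n t x v := by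
  induction n with
  | zero => intro t _ _ x v; exact zero_le
  | succ n ih =>
    intro t ht htT x v
    simp only [itj]
    rw [mul_add]
    apply add_le_add
    · rw [damp_zero, mul_one, mul_comm]
      refine mul_le_mul' ?_ le_rfl
      exact damp_le_eD (fun r y z hr hrt => hΛ r y z hr (hrt.trans_le htT)) x v
    · unfold DuhD
      rw [← lintegral_const_mul' _ _ (eD_ne_top lam0 0 t)]
      refine setLIntegral_mono' measurableSet_Ioo fun s hs => ?_
      rw [damp_zero, one_mul]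
      have h1 := gainj_smul P j (eD_ne_top lam0 0 s) (c := itj P j Λ n)
        (c' := itj P j (fun _ _ _ => 0) n) (t := s) (x := x - (t - s) • bar v)
        (fun z => ih s hs.1.le (hs.2.le.trans htT) _ z) v
      have h2 : damp Λ s t x v ≤ eD lam0 s t :=
        damp_le_eD (fun r y z hr hrt => hΛ r y z (hs.1.trans hr) (hrt.trans_le htT)) x v
      calc damp Λ s t x v * gainj P j (itj P j Λ n) s (x - (t - s) • bar v) v
          ≤ eD lam0 s t * (eD lam0 0 s * (eD lam0 0 s *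
              gainj P j (itj P j (fun _ _ _ => 0) n) s (x - (t - s) • bar v) v)) :=
            mul_le_mul' h2 h1
        _ ≤ eD lam0 s t * (eD lam0 0 s * (1 *
              gainj P j (itj P j (fun _ _ _ => 0) n) s (x - (t - s) • bar v) v)) := by
            gcongr
            exact eD_le_one _ _ _
        _ = (eD lam0 s t * eD lam0 0 s) *
              gainj P j (itj P j (fun _ _ _ => 0) n) s (x - (t - s) • bar v) v := by ring
        _ = _ := by rw [eD_mul hs.1 hs.2.le]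

/-- **decay of one sheet** -/
theorem coldj_dec {P : Par} (hC : ColdPar Cold.C0 P) (j : ℕ) {Λ : ℝ → P2 → R3 → ℝ≥0∞}
    {lam0 : ℝ → ℝ≥0∞} {T : ℝ} (hΛ : ∀ s x v, 0 < s → s < T → lam0 s ≤ Λ s x v) {t : ℝ}
    (ht : 0 ≤ t) (htT : t ≤ T) (x : P2) (v : R3) :
    coldj P j Λ t x v ≤ eD lam0 0 t * (phij P j t x v + warmj P j t x v) := by
  unfold coldj
  refine iSup_le fun n => (itj_dec P j hΛ n t ht htT x v).trans ?_
  gcongr
  have h1 : itj P j (fun _ _ _ => 0) n t x v ≤ coldj P j (fun _ _ _ => 0) t x v :=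
    le_iSup (fun n => itj P j (fun _ _ _ => 0) n t x v) n
  refine (h1.trans (Cold.coldj_le hC _ ht x v)).trans ?_
  gcongr
  refine (mul_le_mul' (ENNReal.ofReal_le_ofReal (q := 1) (min_le_right _ _)) le_rfl).trans ?_
  simp

theorem phiE_eq_tsum {P : Par} (hP : P.Ok) (t : ℝ) (x : P2) (v : R3) :
    phiE P t x v = ∑' k : ℤ × ℤ, ∑' j : ℕ, R68.phij P j t (x + latt k) v := by
  unfold phiE
  rw [Fuel.ofReal_phi hP]
  refine tsum_congr fun k => tsum_congr fun j => ?_
  exact (phij_eq hP j t _ v).symm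

theorem coldL_dec {P : Par} (hP : P.Ok) (hC : ColdPar Cold.C0 P) {Λ : ℝ → P2 → R3 → ℝ≥0∞}
    {lam0 : ℝ → ℝ≥0∞} {T : ℝ} (hΛ : ∀ s x v, 0 < s → s < T → lam0 s ≤ Λ s x v) {t : ℝ}
    (ht : 0 ≤ t) (htT : t ≤ T) (x : P2) (v : R3) :
    coldL P Λ t x v ≤ eD lam0 0 t * coldS P t x v := by
  unfold coldL coldS warm
  rw [phiE_eq_tsum hP, ← ENNReal.tsum_add, ← ENNReal.tsum_mul_left]
  refine ENNReal.tsum_le_tsum fun k => ?_
  rw [← ENNReal.tsum_add, ← ENNReal.tsum_mul_left]
  exact ENNReal.tsum_le_tsum fun j => coldj_dec hC j hΛ ht htT _ v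

theorem itc_dec {P : Par} (hP : P.Ok) (hC : ColdPar Cold.C0 P) {lam : ℝ → P2 → R3 → ℝ≥0∞}
    {lam0 : ℝ → ℝ≥0∞} {T : ℝ} (hlam : ∀ s x v, 0 < s → s < T → lam0 s ≤ lam s x v) (n : ℕ) {t : ℝ}
    (ht : 0 ≤ t) (htT : t ≤ T) (x : P2) (v : R3) :
    itc P lam n t x v ≤ eD lam0 0 t * coldS P t x v := by
  cases n with
  | zero => exact zero_le
  | succ n =>
    exact coldL_dec hP hC (fun s y z hs hsT => (hlam s y z hs hsT).trans le_add_self) ht htT x v

/-- **decay of the cold component** -/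
theorem coldR_dec {P : Par} (hP : P.Ok) (hC : ColdPar Cold.C0 P) {lam : ℝ → P2 → R3 → ℝ≥0∞}
    {lam0 : ℝ → ℝ≥0∞} {T : ℝ} (hlam : ∀ s x v, 0 < s → s < T → lam0 s ≤ lam s x v) {t : ℝ}
    (ht : 0 ≤ t) (htT : t ≤ T) (x : P2) (v : R3) :
    coldR P lam t x v ≤ eD lam0 0 t * coldS P t x v := by
  unfold coldR
  refine limsup_le_of_le (by isBoundedDefault) ?_
  exact Eventually.of_forall fun n => itc_dec hP hC hlam n ht htT x v

/-- **decay of one image of a sheet** -/
theorem coldjk_dec {P : Par} (hC : ColdPar Cold.C0 P) {lam : ℝ → P2 → R3 → ℝ≥0∞}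
    {lam0 : ℝ → ℝ≥0∞} {T : ℝ} (hlam : ∀ s x v, 0 < s → s < T → lam0 s ≤ lam s x v)
    (i : (ℤ × ℤ) × ℕ) {t : ℝ} (ht : 0 ≤ t) (htT : t ≤ T) (x : P2) (v : R3) :
    coldjk P lam i t x v ≤ eD lam0 0 t *
      (R68.phij P i.2 t (x + latt i.1) v + warmj P i.2 t (x + latt i.1) v) := by
  unfold coldjk
  exact coldj_dec hC i.2 (fun s y z hs hsT => (hlam s y z hs hsT).trans le_add_self) ht htT _ v

/-! ### the final form -/

open scoped Classical in
/-- rate `1/2` on `[T1 + ell, T]` -/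
def lamT (T1 ell T : ℝ) (s : ℝ) : ℝ≥0∞ :=
  if T1 + ell ≤ s ∧ s ≤ T then ENNReal.ofReal (1 / 2) else 0

theorem lamT_le {T1 ell T : ℝ} {lam : ℝ → P2 → R3 → ℝ≥0∞}
    (hlam : ∀ t x v, T1 + ell ≤ t → t ≤ T → ENNReal.ofReal (1 / 2) * WA.w1 v ≤ lam t x v) (s : ℝ)
    (x : P2) (v : R3) : lamT T1 ell T s ≤ lam s x v := by
  unfold lamT
  split_ifs with h
  · refine le_trans ?_ (hlam s x v h.1 h.2)
    calc ENNReal.ofReal (1 / 2) = ENNReal.ofReal (1 / 2) * 1 := by rw [mul_one]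
      _ ≤ ENNReal.ofReal (1 / 2) * WA.w1 v := by gcongr; exact WA.one_le_w1 v
  · exact zero_le

theorem eD_lamT_le {T1 ell T t : ℝ} (h0 : 0 < T1 + ell) (htT : t ≤ T + 1) :
    eD (lamT T1 ell T) 0 t ≤ ENNReal.ofReal (al T1 ell t) := by
  unfold eD al
  rw [← A.en_coe_ofReal (by positivity)]
  refine A.en_antitone ?_
  rcases le_total (t - (T1 + ell + 1)) 0 with h1 | h1
  · rw [max_eq_left h1, mul_zero, ENNReal.ofReal_zero]; exact zero_le
  · rw [max_eq_right h1]
    have h2 : Ico (T1 + ell) (t - 1) ⊆ Ioo 0 t := by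
      intro s hs
      exact ⟨h0.trans_le hs.1, by linarith [hs.2]⟩
    calc ENNReal.ofReal (1 / 2 * (t - (T1 + ell + 1)))
        = ENNReal.ofReal (1 / 2) * volume (Ico (T1 + ell) (t - 1)) := by
          rw [Real.volume_Ico, ← ENNReal.ofReal_mul (by norm_num)]
          congr 1
          ring
      _ = ∫⁻ _ in Ico (T1 + ell) (t - 1), ENNReal.ofReal (1 / 2) := by
          rw [setLIntegral_const]
      _ ≤ ∫⁻ r in Ico (T1 + ell) (t - 1), lamT T1 ell T r := by
          refine setLIntegral_mono' measurableSet_Ico fun r hr => ?_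
          unfold lamT
          rw [if_pos ⟨hr.1, by linarith [hr.2]⟩]
      _ ≤ ∫⁻ r in Ioo 0 t, lamT T1 ell T r := lintegral_mono_set h2

/-- **FINAL FORM, one image of a sheet** -/
theorem coldjk_al {P : Par} (hC : ColdPar Cold.C0 P) {T1 ell T : ℝ} (h0 : 0 < T1 + ell)
    {lam : ℝ → P2 → R3 → ℝ≥0∞}
    (hlam : ∀ t x v, T1 + ell ≤ t → t ≤ T → ENNReal.ofReal (1 / 2) * WA.w1 v ≤ lam t x v)
    (i : (ℤ × ℤ) × ℕ) {t : ℝ} (ht : 0 ≤ t) (htT : t ≤ T + 1) (x : P2) (v : R3) :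
    coldjk P lam i t x v ≤ ENNReal.ofReal (al T1 ell t) *
      (R68.phij P i.2 t (x + latt i.1) v + warmj P i.2 t (x + latt i.1) v) := by
  refine (coldjk_dec hC (lam0 := lamT T1 ell T) (T := t)
    (fun s y z _ _ => lamT_le hlam s y z) i ht le_rfl x v).trans ?_
  gcongr
  exact eD_lamT_le h0 htT

/-- **FINAL FORM, the cold component** -/
theorem coldR_al {P : Par} (hP : P.Ok) (hC : ColdPar Cold.C0 P) {T1 ell T : ℝ}
    (h0 : 0 < T1 + ell) {lam : ℝ → P2 → R3 → ℝ≥0∞}
    (hlam : ∀ t x v, T1 + ell ≤ t → t ≤ T → ENNReal.ofReal (1 / 2) * WA.w1 v ≤ lam t x v)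
    {t : ℝ} (ht : 0 ≤ t) (htT : t ≤ T + 1) (x : P2) (v : R3) :
    coldR P lam t x v ≤ ENNReal.ofReal (al T1 ell t) * coldS P t x v := by
  refine (coldR_dec hP hC (lam0 := lamT T1 ell T) (T := t)
    (fun s y z _ _ => lamT_le hlam s y z) ht le_rfl x v).trans ?_
  gcongr
  exact eD_lamT_le h0 htT

end Crest.Agent.R68.ColdW
end
end

-- ▼ part R68/ColdVS2
section

/-!
# Row 68, part W (helper779 for helper827): real analysis of the explicit function `vsR`

`vs_lint_le` (E1), `vs_mass_le` (E2), `measurable_vsR` (E3).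
-/

set_option autoImplicit false
open MeasureTheory Set Filter
open scoped Topology ENNReal

noncomputable section

namespace Crest.Agent.R68.ColdW

open Crest.Agent.R68

namespace VS2

/-- `(1+t)^n e^{-t/8}` is bounded -/
lemma vs2_pow_exp (n : ℕ) {t : ℝ} (ht : 0 ≤ t) :
    (1 + t) ^ n * Real.exp (-(t / 8)) ≤ 8 ^ n * n.factorial * Real.exp (1 / 8) := by
  have h := Real.pow_div_factorial_le_exp ((1 + t) / 8) (by positivity) n
  have hf : (0 : ℝ) < n.factorial := by exact_mod_cast n.factorial_pos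
  rw [div_le_iff₀ hf, div_pow, div_le_iff₀ (by positivity)] at h
  calc (1 + t) ^ n * Real.exp (-(t / 8))
      ≤ (Real.exp ((1 + t) / 8) * n.factorial * 8 ^ n) * Real.exp (-(t / 8)) := by gcongr
    _ = 8 ^ n * n.factorial * (Real.exp ((1 + t) / 8) * Real.exp (-(t / 8))) := by ring
    _ = _ := by rw [← Real.exp_add]; congr 2; ring

/-- good indices -/
structure VGood (j0 : ℕ) : Prop where
  j1 : 1 ≤ j0
  d1 : dlj j0 ≤ 1
  l1 : 1 ≤ ellj j0

lemma VGood.d0 {j0 : ℕ} (h : VGood j0) : 0 < dlj j0 := dlj_pos h.j1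
lemma VGood.T0 {j0 : ℕ} (h : VGood j0) : 0 < T1j j0 := T1j_pos h.j1
lemma VGood.T1 {j0 : ℕ} (h : VGood j0) : T1j j0 ≤ 1 :=
  Real.rpow_le_one h.d0.le h.d1 (by norm_num)

lemma ev_VGood : ∀ᶠ j0 : ℕ in atTop, VGood j0 := by
  filter_upwards [eventually_ge_atTop 1, ev_dl_le one_pos, ev_ell_ge 1] with j0 h1 h2 h3
  exact ⟨h1, h2, h3⟩

/-- the small quantity -/
def vsE (K : ℝ) (j0 : ℕ) : ℝ := K * (dlj j0 ^ (1 / 4 : ℝ) * ellj j0 ^ 3) + dlj j0 ^ 2

lemma vsE_nonneg {K : ℝ} (hK : 0 ≤ K) {j0 : ℕ} (h : VGood j0) : 0 ≤ vsE K j0 := by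
  have h1 := h.d0
  have h2 : 0 < ellj j0 := by linarith [h.l1]
  unfold vsE; positivity

lemma tendsto_vsE (K : ℝ) : Tendsto (vsE K) atTop (𝓝 0) := by
  have h1 := (tendsto_rpow_mul_ell (s := 1 / 4) (by norm_num) 3).const_mul K
  have h2 := tendsto_dlj.pow 2
  have h3 := h1.add h2
  simp only [mul_zero, ne_eq, OfNat.ofNat_ne_zero, not_false_eq_true, zero_pow, add_zero] at h3
  exact h3

lemma ev_vsE_le (K : ℝ) (M : ℝ) {ε : ℝ} (hε : 0 < ε) :
    ∀ᶠ j0 : ℕ in atTop, M * vsE K j0 ≤ ε := by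
  have h1 : Tendsto (fun j0 => M * vsE K j0) atTop (𝓝 0) := by
    simpa using (tendsto_vsE K).const_mul M
  exact h1.eventually (ge_mem_nhds hε)

lemma vs2_F {K Y ey : ℝ} {p j0 : ℕ} (hK : 0 ≤ K) (h : VGood j0) {t : ℝ} (ht : T1j j0 ≤ t) :
    K / (t * (1 + (par K Y ey p j0).kap * t)) ≤ K * (dlj j0 ^ (1 / 4 : ℝ) * ellj j0 ^ 3) := by
  have hd := h.d0
  have hl : 0 < ellj j0 := by linarith [h.l1]
  have hT := h.T0
  have ht0 : 0 < t := hT.trans_le ht
  have hk : (par K Y ey p j0).kap = (ellj j0)⁻¹ ^ 3 / dlj j0 := rfl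
  rw [hk]
  set κ := (ellj j0)⁻¹ ^ 3 / dlj j0 with hκ
  have hκ0 : 0 < κ := by positivity
  have h1 : κ * T1j j0 ^ 2 ≤ t * (1 + κ * t) := by
    have : T1j j0 ^ 2 ≤ t ^ 2 := by gcongr
    nlinarith
  have h2 : (dlj j0 ^ (1 / 4 : ℝ) * ellj j0 ^ 3) * (κ * T1j j0 ^ 2) = 1 := by
    have e1 : T1j j0 ^ 2 = dlj j0 ^ (3 / 4 : ℝ) := by
      unfold T1j
      rw [← Real.rpow_natCast, ← Real.rpow_mul hd.le]; norm_num
    have e2 : dlj j0 ^ (1 / 4 : ℝ) * dlj j0 ^ (3 / 4 : ℝ) = dlj j0 := by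
      rw [← Real.rpow_add hd]; norm_num
    rw [e1, hκ]
    calc (dlj j0 ^ (1 / 4 : ℝ) * ellj j0 ^ 3) * ((ellj j0)⁻¹ ^ 3 / dlj j0 * dlj j0 ^ (3 / 4 : ℝ))
        = (dlj j0 ^ (1 / 4 : ℝ) * dlj j0 ^ (3 / 4 : ℝ)) / dlj j0 * (ellj j0 * (ellj j0)⁻¹) ^ 3 := by
          ring
      _ = 1 := by rw [e2, div_self hd.ne', mul_inv_cancel₀ hl.ne']; norm_num
  have h3 : 0 < dlj j0 ^ (1 / 4 : ℝ) * ellj j0 ^ 3 := by positivity
  rw [div_le_iff₀ (by positivity)]
  calc K = K * ((dlj j0 ^ (1 / 4 : ℝ) * ellj j0 ^ 3) * (κ * T1j j0 ^ 2)) := by rw [h2, mul_one]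
    _ ≤ K * ((dlj j0 ^ (1 / 4 : ℝ) * ellj j0 ^ 3) * (t * (1 + κ * t))) := by gcongr
    _ = _ := by ring

/-- the polynomial constant -/
def vsC (Y : ℝ) : ℝ := 10 * (Y + 1)

lemma vs2_p1 {Y t : ℝ} (hY : 0 ≤ Y) (ht : 0 ≤ t) :
    (4 + 3 * (Y + 2) * t) ^ 2 ≤ vsC Y ^ 2 * (1 + t) ^ 2 := by
  rw [← mul_pow]
  have h1 : 4 + 3 * (Y + 2) * t ≤ vsC Y * (1 + t) := by
    unfold vsC; nlinarith [mul_nonneg hY ht]
  gcongr

lemma vs2_p2 {Y t d : ℝ} (hY : 0 ≤ Y) (ht : 0 ≤ t) (hd : 0 ≤ d) (hd1 : d ≤ 1) :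
    (3 * ((2 * Y + 1) * (t + d)) + 1) ^ 2 ≤ vsC Y ^ 2 * (1 + t) ^ 2 := by
  rw [← mul_pow]
  have h1 : 3 * ((2 * Y + 1) * (t + d)) + 1 ≤ vsC Y * (1 + t) := by
    have h2 : (2 * Y + 1) * d ≤ 2 * Y + 1 := by nlinarith
    unfold vsC; nlinarith [mul_nonneg hY ht]
  gcongr

lemma vs2_massB {K Y ey : ℝ} {p j0 : ℕ} (hK : 0 ≤ K) (hY : 0 ≤ Y) (h : VGood j0) {t : ℝ}
    (ht : T1j j0 ≤ t) :
    massB (par K Y ey p j0) t ≤ vsC Y ^ 2 * (1 + t) ^ 3 * vsE K j0 := by
  have hd := h.d0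
  have ht0 : 0 < t := h.T0.trans_le ht
  have hF := vs2_F (Y := Y) (ey := ey) (p := p) hK h ht
  have h1 := vs2_p1 hY ht0.le
  have h2 := vs2_p2 hY ht0.le hd.le h.d1
  have hd100 : dlj j0 ^ 100 ≤ dlj j0 ^ 2 := pow_le_pow_of_le_one hd.le h.d1 (by norm_num)
  have hk0 : 0 < (par K Y ey p j0).kap := by
    have hl : 0 < ellj j0 := by linarith [h.l1]
    have hk : (par K Y ey p j0).kap = (ellj j0)⁻¹ ^ 3 / dlj j0 := rfl
    rw [hk]; positivity
  have hF0 : 0 ≤ K / (t * (1 + (par K Y ey p j0).kap * t)) := by positivity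
  unfold massB
  rw [par_Y, par_K, par_dl]
  calc (4 + 3 * (Y + 2) * t) ^ 2 * (K / (t * (1 + (par K Y ey p j0).kap * t))) +
        (3 * ((2 * Y + 1) * (t + dlj j0)) + 1) ^ 2 * dlj j0 ^ 100
      ≤ (vsC Y ^ 2 * (1 + t) ^ 2) * (K * (dlj j0 ^ (1 / 4 : ℝ) * ellj j0 ^ 3)) +
        (vsC Y ^ 2 * (1 + t) ^ 2) * dlj j0 ^ 2 := by
        gcongr
    _ = vsC Y ^ 2 * (1 + t) ^ 2 * vsE K j0 := by unfold vsE; ring
    _ ≤ vsC Y ^ 2 * (1 + t) ^ 3 * vsE K j0 := by
        have := vsE_nonneg hK h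
        have h4 : (1 + t) ^ 2 ≤ (1 + t) ^ 3 := pow_le_pow_right₀ (by linarith) (by norm_num)
        gcongr

lemma vs2_NB {K Y ey : ℝ} {p j0 : ℕ} (hK : 0 ≤ K) (hY : 0 ≤ Y) (h : VGood j0) {t : ℝ}
    (ht : T1j j0 ≤ t) :
    NB (par K Y ey p j0) t ≤ 144 * (vsC Y ^ 2 * (1 + t) ^ 3 * vsE K j0) := by
  have hd := h.d0
  have ht0 : 0 < t := h.T0.trans_le ht
  have hF := vs2_F (Y := Y) (ey := ey) (p := p) hK h ht
  have h1 := vs2_p1 hY ht0.le
  have h2 := vs2_p2 hY ht0.le hd.le h.d1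
  have hk0 : 0 < (par K Y ey p j0).kap := by
    have hl : 0 < ellj j0 := by linarith [h.l1]
    have hk : (par K Y ey p j0).kap = (ellj j0)⁻¹ ^ 3 / dlj j0 := rfl
    rw [hk]; positivity
  have hF0 : 0 ≤ K / (t * (1 + (par K Y ey p j0).kap * t)) := by positivity
  have h5 : vsC Y ^ 2 * (1 + t) ^ 2 * dlj j0 ^ 2 ≤ 144 * (vsC Y ^ 2 * (1 + t) ^ 3 * dlj j0 ^ 2) := by
    have h4 : (1 + t) ^ 2 ≤ 144 * (1 + t) ^ 3 := by
      have : (1 + t) ^ 2 ≤ (1 + t) ^ 3 := pow_le_pow_right₀ (by linarith) (by norm_num)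
      have h5 : 0 ≤ (1 + t) ^ 3 := by positivity
      linarith
    calc vsC Y ^ 2 * (1 + t) ^ 2 * dlj j0 ^ 2 ≤ vsC Y ^ 2 * (144 * (1 + t) ^ 3) * dlj j0 ^ 2 := by
          gcongr
      _ = _ := by ring
  unfold NB
  rw [par_Y, par_K, par_dl]
  calc 144 * (1 + t) * ((4 + 3 * (Y + 2) * t) ^ 2 * (K / (t * (1 + (par K Y ey p j0).kap * t)))) +
        (3 * ((2 * Y + 1) * (t + dlj j0)) + 1) ^ 2 * dlj j0 ^ 2
      ≤ 144 * (1 + t) * ((vsC Y ^ 2 * (1 + t) ^ 2) * (K * (dlj j0 ^ (1 / 4 : ℝ) * ellj j0 ^ 3))) +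
        (vsC Y ^ 2 * (1 + t) ^ 2) * dlj j0 ^ 2 := by
        gcongr
    _ ≤ 144 * (1 + t) * ((vsC Y ^ 2 * (1 + t) ^ 2) * (K * (dlj j0 ^ (1 / 4 : ℝ) * ellj j0 ^ 3))) +
        144 * (vsC Y ^ 2 * (1 + t) ^ 3 * dlj j0 ^ 2) := by gcongr
    _ = _ := by unfold vsE; ring

lemma vs2_cardB {K Y ey : ℝ} {p j0 : ℕ} (hY : 0 ≤ Y) (h : VGood j0) {t : ℝ}
    (ht : 0 ≤ t) : cardB (par K Y ey p j0) t ≤ vsC Y ^ 2 * (1 + t) ^ 2 := by
  unfold cardB
  rw [par_Y, par_dl]
  exact vs2_p2 hY ht h.d0.le h.d1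

lemma cardB_nonneg (P : Par) (t : ℝ) : 0 ≤ cardB P t := by unfold cardB; positivity

lemma MS_nonneg (P : Par) (t : ℝ) : 0 ≤ MS P t := by
  unfold MS; split_ifs <;> positivity

/-- the exponential factors -/
lemma al_mul_exp_le {T1 ell t : ℝ} (hT1 : T1 ≤ 1) :
    al T1 ell t * Real.exp (1 / 8 * (t - T1)) ≤ Real.exp ((ell + 1) / 2 + 3 / 8) *
      Real.exp (-(3 / 8 * t)) := by
  unfold al
  rw [← Real.exp_add, ← Real.exp_add]
  apply Real.exp_le_exp.2
  have := le_max_right 0 (t - (T1 + ell + 1))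
  linarith

lemma al_nonneg (T1 ell t : ℝ) : 0 ≤ al T1 ell t := (Real.exp_pos _).le

lemma al_le {T1 ell t : ℝ} (hT1 : T1 ≤ 1) :
    al T1 ell t ≤ Real.exp ((ell + 1) / 2 + 1 / 2) * Real.exp (-(1 / 2 * t)) := by
  unfold al
  rw [← Real.exp_add]
  apply Real.exp_le_exp.2
  have := le_max_right 0 (t - (T1 + ell + 1))
  linarith

/-- no crossing until `t = L ℓ` -/
lemma ev_MS_zero (K Y ey : ℝ) (p : ℕ) (hY : 0 ≤ Y) (L : ℝ) (hL : 0 ≤ L) :
    ∀ᶠ j0 : ℕ in atTop, ∀ t, 0 ≤ t → t ≤ L * ellj j0 → MS (par K Y ey p j0) t = 0 := by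
  have h1 : Tendsto (fun j0 : ℕ => 16 * (2 * Y + 1) * ((1 + L) * (dlj j0 * ellj j0 +
      L * (ellj j0)⁻¹))) atTop (𝓝 0) := by
    have e1 := tendsto_rpow_mul_ell (s := 1) one_pos 1
    have e2 : Tendsto (fun j0 : ℕ => L * (ellj j0)⁻¹) atTop (𝓝 0) := by
      simpa using (tendsto_inv_atTop_zero.comp tendsto_ellj).const_mul L
    have e3 := ((e1.add e2).const_mul (1 + L)).const_mul (16 * (2 * Y + 1))
    simpa using e3
  filter_upwards [h1.eventually (gt_mem_nhds one_pos), ev_VGood] with j0 h2 h3 t ht htL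
  have hd := h3.d0
  have hd1 := h3.d1
  have hl1 := h3.l1
  have hl : 0 < ellj j0 := by linarith
  have hc0 : 0 < (ellj j0)⁻¹ ^ 3 := by positivity
  unfold MS
  rw [if_pos]
  unfold W.sep
  rw [par_Y, par_dl, par_c]
  have hden : 0 < 16 * (2 * Y + 1) * (1 + t) * (dlj j0 + (ellj j0)⁻¹ ^ 3 * t) := by positivity
  rw [lt_div_iff₀ hden]
  have h4 : 16 * (2 * Y + 1) * (1 + t) * (dlj j0 + (ellj j0)⁻¹ ^ 3 * t) < 1 := by
    refine lt_of_le_of_lt ?_ h2
    have e1 : 1 + t ≤ (1 + L) * ellj j0 := by nlinarith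
    have e2 : dlj j0 + (ellj j0)⁻¹ ^ 3 * t ≤ dlj j0 + (ellj j0)⁻¹ ^ 3 * (L * ellj j0) := by gcongr
    calc 16 * (2 * Y + 1) * (1 + t) * (dlj j0 + (ellj j0)⁻¹ ^ 3 * t)
        ≤ 16 * (2 * Y + 1) * ((1 + L) * ellj j0) *
          (dlj j0 + (ellj j0)⁻¹ ^ 3 * (L * ellj j0)) := by gcongr
      _ = 16 * (2 * Y + 1) * ((1 + L) * (dlj j0 * ellj j0 +
            L * (ellj j0)⁻¹ * (ellj j0 * (ellj j0)⁻¹) ^ 2)) := by ring
      _ = _ := by rw [mul_inv_cancel₀ hl.ne']; ring
  calc dlj j0 * (16 * (2 * Y + 1) * (1 + t) * (dlj j0 + (ellj j0)⁻¹ ^ 3 * t))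
      < dlj j0 * 1 := by gcongr
    _ = dlj j0 := mul_one _

/-- crude bound of `MS` -/
lemma MS_le {K Y ey : ℝ} {p j0 : ℕ} (hY : 0 ≤ Y) (h : VGood j0) {t : ℝ} (ht : 0 ≤ t) :
    MS (par K Y ey p j0) t ≤ (512 * (2 * Y + 1) ^ 2) ^ (3 * p + 2) *
      (1 + t) ^ (4 * (3 * p + 2)) * Real.exp (2 * (3 * p + 2) * ellj j0) := by
  have hd := h.d0
  have hd1 := h.d1
  have hl1 := h.l1
  have hl : 0 < ellj j0 := by linarith
  have hc0 : 0 < (ellj j0)⁻¹ ^ 3 := by positivity
  have hc1 : (ellj j0)⁻¹ ^ 3 ≤ 1 := pow_le_one₀ (by positivity) (inv_le_one_of_one_le₀ hl1)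
  unfold MS
  split_ifs with hif
  · positivity
  unfold W.sep
  rw [par_Y, par_dl, par_c, par_p]
  have hden : 0 < 16 * (2 * Y + 1) * (1 + t) * (dlj j0 + (ellj j0)⁻¹ ^ 3 * t) := by positivity
  have h1 : 16 * (2 * Y + 1) * (1 + t) * (dlj j0 + (ellj j0)⁻¹ ^ 3 * t) ≤
      16 * (2 * Y + 1) * (1 + t) ^ 2 := by
    have : dlj j0 + (ellj j0)⁻¹ ^ 3 * t ≤ 1 + t := by nlinarith
    calc 16 * (2 * Y + 1) * (1 + t) * (dlj j0 + (ellj j0)⁻¹ ^ 3 * t)
        ≤ 16 * (2 * Y + 1) * (1 + t) * (1 + t) := by gcongr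
      _ = _ := by ring
  have h2 : 2 / (dlj j0 / (16 * (2 * Y + 1) * (1 + t) * (dlj j0 + (ellj j0)⁻¹ ^ 3 * t))) ^ 2 ≤
      512 * (2 * Y + 1) ^ 2 * (1 + t) ^ 4 * Real.exp (2 * ellj j0) := by
    have e1 : Real.exp (2 * ellj j0) = (dlj j0 ^ 2)⁻¹ := by
      rw [dlj_eq_exp h.j1, ← Real.exp_nat_mul, ← Real.exp_neg]; congr 1; push_cast; ring
    rw [div_pow, div_div_eq_mul_div, e1, div_eq_mul_inv]
    have e2 : 2 * (16 * (2 * Y + 1) * (1 + t) * (dlj j0 + (ellj j0)⁻¹ ^ 3 * t)) ^ 2 ≤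
        512 * (2 * Y + 1) ^ 2 * (1 + t) ^ 4 := by
      calc 2 * (16 * (2 * Y + 1) * (1 + t) * (dlj j0 + (ellj j0)⁻¹ ^ 3 * t)) ^ 2
          ≤ 2 * (16 * (2 * Y + 1) * (1 + t) ^ 2) ^ 2 := by gcongr
        _ = _ := by ring
    gcongr
  calc (2 / (dlj j0 / (16 * (2 * Y + 1) * (1 + t) * (dlj j0 + (ellj j0)⁻¹ ^ 3 * t))) ^ 2) ^
        (3 * p + 2)
      ≤ (512 * (2 * Y + 1) ^ 2 * (1 + t) ^ 4 * Real.exp (2 * ellj j0)) ^ (3 * p + 2) := by
        gcongr
    _ = _ := by
        rw [mul_pow, mul_pow, ← pow_mul, ← Real.exp_nat_mul]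
        congr 2
        push_cast; ring

lemma VS_nonneg {K Y ey : ℝ} {p j0 : ℕ} (hK : 0 ≤ K) (hY : 0 ≤ Y) {C : ℝ} (hC : 0 ≤ C)
    (h : VGood j0) {t : ℝ} (ht : 0 ≤ t) : 0 ≤ VS (par K Y ey p j0) C t := by
  have hd := h.d0
  have hl : 0 < ellj j0 := by linarith [h.l1]
  have hk0 : 0 < (par K Y ey p j0).kap := by
    have hk : (par K Y ey p j0).kap = (ellj j0)⁻¹ ^ 3 / dlj j0 := rfl
    rw [hk]; positivity
  have h1 : 0 ≤ massB (par K Y ey p j0) t := by
    unfold massB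
    rw [par_Y, par_K, par_dl]; positivity
  have h2 : 0 ≤ NB (par K Y ey p j0) t := by
    unfold NB
    rw [par_Y, par_K, par_dl]; positivity
  have h3 := MS_nonneg (par K Y ey p j0) t
  have h4 := cardB_nonneg (par K Y ey p j0) t
  unfold VS
  positivity

/-- main bound: `vsR ≤ M vsE e^{-t/8}` -/
theorem ev_vsR_le (K Y ey C ell : ℝ) (p : ℕ) (hK : 0 ≤ K) (hY : 0 ≤ Y) (hC : 0 ≤ C) :
    ∃ M : ℝ, 0 ≤ M ∧ ∀ᶠ j0 : ℕ in atTop, ∀ t, T1j j0 ≤ t →
      vsR (par K Y ey p j0) C (T1j j0) ell t ≤ M * vsE K j0 * Real.exp (-(t / 8)) := by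
  set m := 3 * p + 2 with hm
  set E := vsC Y with hE
  have hE1 : 1 ≤ E := by rw [hE]; unfold vsC; linarith
  set M0 := Real.exp ((ell + 1) / 2 + 3 / 8) with hM0
  set A7 : ℝ := 8 ^ 7 * (7 : ℕ).factorial * Real.exp (1 / 8) with hA7
  set B7 : ℝ := 8 ^ (4 * m + 7) * (4 * m + 7).factorial * Real.exp (1 / 8) with hB7
  set D : ℝ := (512 * (2 * Y + 1) ^ 2) ^ m with hD
  have hM00 : 0 ≤ M0 := (Real.exp_pos _).le
  refine ⟨M0 * (C * (146 * E ^ 6)) * (A7 + D * B7), by positivity, ?_⟩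
  filter_upwards [ev_MS_zero K Y ey p hY (16 * m) (by positivity), ev_VGood,
    ev_vsE_le K 1 one_pos] with j0 h1 h h6 t ht
  rw [one_mul] at h6
  have hd := h.d0
  have hd1 := h.d1
  have hT0 := h.T0
  have hT1 := h.T1
  have ht0 : 0 < t := hT0.trans_le ht
  have hη := vsE_nonneg hK h
  have hl : 0 < ellj j0 := by linarith [h.l1]
  -- bound of VS
  have hMS := MS_nonneg (par K Y ey p j0) t
  have hmass := vs2_massB (ey := ey) (p := p) hK hY h ht
  have hNB := vs2_NB (ey := ey) (p := p) hK hY h ht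
  have hcard := vs2_cardB (K := K) (ey := ey) (p := p) hY h ht0.le
  have hcard0 := cardB_nonneg (par K Y ey p j0) t
  have hd2 : dlj j0 ^ 2 ≤ vsE K j0 := by
    unfold vsE
    have : 0 ≤ K * (dlj j0 ^ (1 / 4 : ℝ) * ellj j0 ^ 3) := by positivity
    linarith
  have h1t : 1 ≤ 1 + t := by linarith
  have hVS : VS (par K Y ey p j0) C t ≤
      C * (146 * E ^ 6 * ((1 + t) ^ 7 * (1 + MS (par K Y ey p j0) t)) * vsE K j0) := by
    unfold VS
    rw [par_dl]
    apply mul_le_mul_of_nonneg_left _ hC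
    calc (massB (par K Y ey p j0) t + NB (par K Y ey p j0) t) *
          (1 + cardB (par K Y ey p j0) t ^ 2 * MS (par K Y ey p j0) t) +
          cardB (par K Y ey p j0) t * dlj j0 ^ 2
        ≤ (E ^ 2 * (1 + t) ^ 3 * vsE K j0 + 144 * (E ^ 2 * (1 + t) ^ 3 * vsE K j0)) *
          (1 + (E ^ 2 * (1 + t) ^ 2) ^ 2 * MS (par K Y ey p j0) t) +
          (E ^ 2 * (1 + t) ^ 2) * vsE K j0 := by gcongr
      _ = (145 * E ^ 2 * (1 + t) ^ 3 + E ^ 2 * (1 + t) ^ 2) * vsE K j0 +
          145 * E ^ 6 * (1 + t) ^ 7 * MS (par K Y ey p j0) t * vsE K j0 := by ring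
      _ ≤ (145 * E ^ 6 * (1 + t) ^ 7 + E ^ 6 * (1 + t) ^ 7) * vsE K j0 +
          146 * E ^ 6 * (1 + t) ^ 7 * MS (par K Y ey p j0) t * vsE K j0 := by
          have e1 : E ^ 2 ≤ E ^ 6 := pow_le_pow_right₀ hE1 (by norm_num)
          have e2 : (1 + t) ^ 3 ≤ (1 + t) ^ 7 := pow_le_pow_right₀ h1t (by norm_num)
          have e3 : (1 + t) ^ 2 ≤ (1 + t) ^ 7 := pow_le_pow_right₀ h1t (by norm_num)
          gcongr
          norm_num
      _ = _ := by ring
  -- the crossing part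
  have hX : Real.exp (-(3 / 8 * t)) * ((1 + t) ^ 7 * (1 + MS (par K Y ey p j0) t)) ≤
      (A7 + D * B7) * Real.exp (-(t / 8)) := by
    have e0 : Real.exp (-(3 / 8 * t)) = Real.exp (-(t / 8)) * Real.exp (-(t / 8)) *
        Real.exp (-(t / 8)) := by
      rw [← Real.exp_add, ← Real.exp_add]; congr 1; ring
    have e8 : Real.exp (-(t / 8)) ≤ 1 := Real.exp_le_one_iff.2 (by linarith)
    have e80 := Real.exp_pos (-(t / 8))
    have p1 : Real.exp (-(3 / 8 * t)) * (1 + t) ^ 7 ≤ A7 * Real.exp (-(t / 8)) := by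
      have := vs2_pow_exp 7 ht0.le
      rw [e0]
      calc Real.exp (-(t / 8)) * Real.exp (-(t / 8)) * Real.exp (-(t / 8)) * (1 + t) ^ 7
          = ((1 + t) ^ 7 * Real.exp (-(t / 8))) * Real.exp (-(t / 8)) * Real.exp (-(t / 8)) := by
            ring
        _ ≤ A7 * Real.exp (-(t / 8)) * 1 := by gcongr
        _ = _ := mul_one _
    have p2 : Real.exp (-(3 / 8 * t)) * (1 + t) ^ 7 * MS (par K Y ey p j0) t ≤
        D * B7 * Real.exp (-(t / 8)) := by
      by_cases hc : t ≤ 16 * m * ellj j0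
      · rw [h1 t ht0.le hc, mul_zero]; positivity
      · push Not at hc
        have q1 := MS_le (K := K) (ey := ey) (p := p) hY h ht0.le
        rw [← hm, ← hD] at q1
        have q2 := vs2_pow_exp (4 * m + 7) ht0.le
        have q3 : Real.exp (-(t / 8)) * Real.exp (2 * (3 * p + 2) * ellj j0) ≤ 1 := by
          rw [← Real.exp_add]
          apply Real.exp_le_one_iff.2
          have : (m : ℝ) = 3 * p + 2 := by rw [hm]; push_cast; ring
          rw [this] at hc
          linarith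
        rw [e0]
        calc Real.exp (-(t / 8)) * Real.exp (-(t / 8)) * Real.exp (-(t / 8)) * (1 + t) ^ 7 *
              MS (par K Y ey p j0) t
            ≤ Real.exp (-(t / 8)) * Real.exp (-(t / 8)) * Real.exp (-(t / 8)) * (1 + t) ^ 7 *
              (D * (1 + t) ^ (4 * m) * Real.exp (2 * (3 * p + 2) * ellj j0)) := by gcongr
          _ = D * ((1 + t) ^ (4 * m + 7) * Real.exp (-(t / 8))) *
              (Real.exp (-(t / 8)) * Real.exp (2 * (3 * p + 2) * ellj j0)) *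
              Real.exp (-(t / 8)) := by rw [pow_add]; ring
          _ ≤ D * B7 * 1 * Real.exp (-(t / 8)) := by gcongr
          _ = _ := by ring
    calc Real.exp (-(3 / 8 * t)) * ((1 + t) ^ 7 * (1 + MS (par K Y ey p j0) t))
        = Real.exp (-(3 / 8 * t)) * (1 + t) ^ 7 +
          Real.exp (-(3 / 8 * t)) * (1 + t) ^ 7 * MS (par K Y ey p j0) t := by ring
      _ ≤ A7 * Real.exp (-(t / 8)) + D * B7 * Real.exp (-(t / 8)) := add_le_add p1 p2
      _ = _ := by ring
  have hVS0 : 0 ≤ VS (par K Y ey p j0) C t := VS_nonneg hK hY hC h ht0.le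
  unfold vsR
  calc al (T1j j0) ell t * Real.exp (1 / 8 * (t - T1j j0)) * VS (par K Y ey p j0) C t
      ≤ (M0 * Real.exp (-(3 / 8 * t))) *
        (C * (146 * E ^ 6 * ((1 + t) ^ 7 * (1 + MS (par K Y ey p j0) t)) * vsE K j0)) := by
        have := al_mul_exp_le (ell := ell) (t := t) hT1
        gcongr
    _ = M0 * (C * (146 * E ^ 6)) * (Real.exp (-(3 / 8 * t)) *
          ((1 + t) ^ 7 * (1 + MS (par K Y ey p j0) t))) * vsE K j0 := by ring
    _ ≤ M0 * (C * (146 * E ^ 6)) * ((A7 + D * B7) * Real.exp (-(t / 8))) * vsE K j0 := by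
        gcongr
    _ = _ := by ring

/-- (E1) -/
theorem vs_lint_le (K Y ey C ell S : ℝ) (p : ℕ) (hK : 0 ≤ K) (hY : 0 ≤ Y) (hC : 0 ≤ C)
    (hS : 0 < S) : ∀ᶠ j0 : ℕ in atTop,
      (∫⁻ t in Ioi (T1j j0), ENNReal.ofReal (vsR (par K Y ey p j0) C (T1j j0) ell t)) ≤
        ENNReal.ofReal S := by
  obtain ⟨M, hM, h1⟩ := ev_vsR_le K Y ey C ell p hK hY hC
  filter_upwards [h1, ev_VGood, ev_vsE_le K (8 * M) hS] with j0 h2 h h3
  have hT0 := h.T0
  have hη := vsE_nonneg hK h
  calc (∫⁻ t in Ioi (T1j j0), ENNReal.ofReal (vsR (par K Y ey p j0) C (T1j j0) ell t))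
      ≤ ∫⁻ t in Ioi (T1j j0), ENNReal.ofReal (M * vsE K j0 * Real.exp (-(t / 8))) := by
        apply setLIntegral_mono (by fun_prop)
        intro t ht
        exact ENNReal.ofReal_le_ofReal (h2 t (le_of_lt ht))
    _ ≤ ∫⁻ t in Ioi (0 : ℝ), ENNReal.ofReal (M * vsE K j0 * Real.exp (-(t / 8))) :=
        lintegral_mono_set (Ioi_subset_Ioi hT0.le)
    _ = ENNReal.ofReal (∫ t in Ioi (0 : ℝ), M * vsE K j0 * Real.exp (-(t / 8))) := by
        rw [ofReal_integral_eq_lintegral_ofReal]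
        · apply Integrable.const_mul
          have := integrableOn_exp_mul_Ioi (a := -(1 / 8)) (by norm_num) 0
          refine this.congr ?_
          filter_upwards with t
          congr 1; ring
        · filter_upwards with t
          positivity
    _ = ENNReal.ofReal (8 * M * vsE K j0) := by
        congr 1
        rw [integral_const_mul]
        have e1 : ∫ t in Ioi (0 : ℝ), Real.exp (-(t / 8)) = 8 := by
          have := integral_exp_mul_Ioi (a := -(1 / 8)) (by norm_num) 0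
          calc ∫ t in Ioi (0 : ℝ), Real.exp (-(t / 8)) = ∫ t in Ioi (0 : ℝ),
                Real.exp (-(1 / 8) * t) := by congr 1; ext t; congr 1; ring
            _ = 8 := by rw [this]; norm_num
        rw [e1]; ring
    _ ≤ ENNReal.ofReal S := ENNReal.ofReal_le_ofReal h3

/-- (E2) -/
theorem vs_mass_le (K Y ey C ell S : ℝ) (p : ℕ) (hK : 0 ≤ K) (hY : 0 ≤ Y) (hC : 0 ≤ C)
    (hS : 0 < S) : ∀ᶠ j0 : ℕ in atTop, ∀ t, T1j j0 ≤ t →
      C * (al (T1j j0) ell t * massB (par K Y ey p j0) t) ≤ S := by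
  set E := vsC Y with hE
  set M0 := Real.exp ((ell + 1) / 2 + 1 / 2) with hM0
  set A3 : ℝ := 8 ^ 3 * (3 : ℕ).factorial * Real.exp (1 / 8) with hA3
  have hM00 : 0 ≤ M0 := (Real.exp_pos _).le
  filter_upwards [ev_VGood, ev_vsE_le K (C * (M0 * (E ^ 2 * A3))) hS]
    with j0 h h3 t ht
  have ht0 : 0 < t := h.T0.trans_le ht
  have hη := vsE_nonneg hK h
  have hmass := vs2_massB (ey := ey) (p := p) hK hY h ht
  have hal := al_le (ell := ell) (t := t) h.T1
  have hal0 := al_nonneg (T1j j0) ell t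
  have h4 := vs2_pow_exp 3 ht0.le
  have h5 : Real.exp (-(1 / 2 * t)) ≤ Real.exp (-(t / 8)) := Real.exp_le_exp.2 (by linarith)
  refine le_trans ?_ h3
  calc C * (al (T1j j0) ell t * massB (par K Y ey p j0) t)
      ≤ C * ((M0 * Real.exp (-(t / 8))) * (E ^ 2 * (1 + t) ^ 3 * vsE K j0)) := by
        apply mul_le_mul_of_nonneg_left _ hC
        calc al (T1j j0) ell t * massB (par K Y ey p j0) t
            ≤ al (T1j j0) ell t * (E ^ 2 * (1 + t) ^ 3 * vsE K j0) := by gcongr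
          _ ≤ _ := by
              have : al (T1j j0) ell t ≤ M0 * Real.exp (-(t / 8)) :=
                hal.trans (by gcongr)
              gcongr
    _ = C * (M0 * (E ^ 2 * ((1 + t) ^ 3 * Real.exp (-(t / 8))))) * vsE K j0 := by ring
    _ ≤ C * (M0 * (E ^ 2 * A3)) * vsE K j0 := by gcongr

end VS2

/-- (E3) -/
theorem measurable_vsR (P : Par) (C T1 ell : ℝ) :
    Measurable fun t => ENNReal.ofReal (vsR P C T1 ell t) := by
  apply ENNReal.measurable_ofReal.comp
  have hsep : Measurable fun t => W.sep P t := by unfold W.sep; fun_prop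
  have hMS : Measurable fun t => MS P t := by
    unfold MS
    apply Measurable.ite (measurableSet_lt measurable_const hsep) measurable_const
    exact ((measurable_const.div (hsep.pow_const 2)).pow_const _)
  have hmass : Measurable fun t => massB P t := by unfold massB; fun_prop
  have hNB : Measurable fun t => NB P t := by unfold NB; fun_prop
  have hcard : Measurable fun t => cardB P t := by unfold cardB; fun_prop
  have hal : Measurable fun t => al T1 ell t := by unfold al; fun_prop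
  unfold vsR VS
  fun_prop

/-- (E1), form of helper835 -/
theorem vsR_lint {K Y C ell S : ℝ} (ey : ℝ) (p : ℕ) (hK : 1 ≤ K) (hY : 1 ≤ Y) (hC : 0 ≤ C)
    (_hell : 0 < ell) (hS : 0 < S) : ∀ᶠ j0 : ℕ in atTop,
      ∫⁻ t in Ioi (T1j j0), ENNReal.ofReal (vsR (par K Y ey p j0) C (T1j j0) ell t) ≤
        ENNReal.ofReal S :=
  VS2.vs_lint_le K Y ey C ell S p (by linarith) (by linarith) hC hS

/-- (E2), form of helper835 -/
theorem al_massB {K Y C ell S : ℝ} (ey : ℝ) (p : ℕ) (hK : 1 ≤ K) (hY : 1 ≤ Y) (hC : 0 ≤ C)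
    (_hell : 0 < ell) (hS : 0 < S) : ∀ᶠ j0 : ℕ in atTop, ∀ t, T1j j0 ≤ t →
      C * (al (T1j j0) ell t * massB (par K Y ey p j0) t) ≤ S :=
  VS2.vs_mass_le K Y ey C ell S p (by linarith) (by linarith) hC hS

end Crest.Agent.R68.ColdW
end
end

-- ▼ part R68/ColdOut
section

/-!
# Row 68, part W: `ColdOut` (assembly by helper153 of the work of 827, 559, 779, 906, 585)
-/

set_option autoImplicit false
open MeasureTheory Set Filter
open scoped ENNReal NNReal Topology
open Crest.AnalysisR.VecCalc3 Crest.AnalysisR.PDE.Boltzmann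

noncomputable section

namespace Crest.Agent.R68.WP

open Crest.Agent.R68.A (Meas3)
open Crest.Agent.R68.N (Fld PerF)
open Crest.Agent.R68.ColdW

theorem decOut : DecOut := fun _P hB hC _lam _ _ _T1 _ell _T h1 h2 _ hlam t x v ht htT =>
  ⟨coldR_al hB.ok hC (by linarith) hlam (by linarith) htT x v,
    fun i => coldjk_al hC (by linarith) hlam i (by linarith) htT x v⟩

theorem spOut {K Y ey : ℝ} {p : ℕ} (hK : 1 ≤ K) (hY : 1 ≤ Y) (hey : 0 < ey) (hp : 512 ≤ p) :
    SpOut K Y ey p := by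
  have hCS : 0 ≤ CSp Y := by unfold CSp; positivity
  refine ⟨CSp Y, hCS, ?_⟩
  filter_upwards [ev_pos, ev_ColdPar K Y ey p C.C0 hK hY hp,
    ev_Ok K Y ey p (by linarith) (by linarith) hey (by omega),
    tendsto_natCast_atTop_atTop.eventually_ge_atTop K] with j0 hpos hCP hOk hKj
  have hB : Big (par K Y ey p j0) := ⟨hOk, hp, hY, hKj⟩
  intro lam _ t x a ha ht hi v
  have h := spillF_le hB hCP (hpos.2.2.trans_le ht) x ha ha hi hi v
  refine h.trans (le_of_eq ?_)
  rw [mul_assoc (a * a)]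
  rfl

theorem vsOut {K Y ey : ℝ} {p : ℕ} (hK : 1 ≤ K) (hY : 1 ≤ Y) : VSOut K Y ey p :=
  fun _C _ell _S hC hell hS => ⟨vsR_lint ey p hK hY hC hell hS, al_massB ey p hK hY hC hell hS,
    fun _j0 => measurable_vsR _ _ _ _⟩

/-- **`ColdOut`** -/
theorem ColdOut_holds {Y : ℝ} (hY : 1 ≤ Y) : ColdOut Y := by
  refine ColdOut_of hY decOut ?_ ?_
  · intro K ey hK hey _
    filter_upwards [eventually_ge_atTop 512] with p hp
    exact spOut hK hY hey hp
  · intro K ey hK _ _
    exact Eventually.of_forall fun p => vsOut hK hY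

end Crest.Agent.R68.WP
end
end

-- ▼ part R68/ColdMild
section

/-!
# Row 68, PART C (helper819): C7 = integral (mild) form of the cold equation along flights
-/

set_option autoImplicit false
open MeasureTheory Set Filter
open scoped ENNReal Topology
open Crest.AnalysisR.VecCalc3 Crest.AnalysisR.PDE.Boltzmann

noncomputable section

namespace Crest.Agent.R68.ColdMild

open Crest.Agent.R68.A (Meas3 en measurable_en)
open Crest.Agent.R68.I (nn expo_integral pos_back)

variable {P : Par}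

/-- restriction of a field to the flight starting in `(0,x,v)` -/
theorem measurable_flight {f : ℝ → P2 → R3 → ℝ≥0∞} (hf : Meas3 f) (x : P2) (v : R3) :
    Measurable (fun s : ℝ => f s (x + s • bar v) v) := by
  have h1 : Measurable (fun s : ℝ => ((s, x + s • bar v, v) : ℝ × P2 × R3)) := by fun_prop
  have h2 : Measurable ((fun z : ℝ × P2 × R3 => f z.1 z.2.1 z.2.2) ∘
      fun s : ℝ => ((s, x + s • bar v, v) : ℝ × P2 × R3)) := Measurable.comp hf h1
  exact h2

theorem damp_flight (Λ : ℝ → P2 → R3 → ℝ≥0∞) (r s : ℝ) (x : P2) (v : R3) :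
    damp Λ r s (x + s • bar v) v = en (nn (fun r => Λ r (x + r • bar v) v) r s) := by
  unfold damp nn
  congr 1
  refine lintegral_congr fun r' => ?_
  rw [pos_back]

theorem DuhD_flight (Λ q : ℝ → P2 → R3 → ℝ≥0∞) (s : ℝ) (x : P2) (v : R3) :
    DuhD Λ q s (x + s • bar v) v = ∫⁻ r in Ioo 0 s,
      en (nn (fun r => Λ r (x + r • bar v) v) r s) * q r (x + r • bar v) v := by
  unfold DuhD
  refine lintegral_congr fun r => ?_
  rw [damp_flight, pos_back]

theorem phiE_flight (P : Par) (s : ℝ) (x : P2) (v : R3) :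
    phiE P s (x + s • bar v) v = phiE P 0 x v := by
  unfold phiE
  rw [Fuel.phi_transport P s, add_sub_cancel_right]



end Crest.Agent.R68.ColdMild
end
end

-- ▼ part R68/ColdMildOut
section

/-!
# Row 68, PART C (helper585): `ColdMildOut_holds` = (C7), integral form of the cold equation along
every flight on which the external rate is integrable
-/

set_option autoImplicit false
open MeasureTheory Set Filter
open scoped ENNReal Topology
open Crest.AnalysisR.VecCalc3 Crest.AnalysisR.PDE.Boltzmann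

noncomputable section

namespace Crest.Agent.R68.ColdMild

open Crest.Agent.R68.A (Meas3 en measurable_en)
open Crest.Agent.R68.I (nn expo_integral pos_back)

variable {P : Par}

/-- exponential form ⟹ integral form when the rate is integrable only on the (forward invariant)
set where the solution lives -/
theorem expo_cut {ν g : ℝ → ℝ≥0∞} (hν : Measurable ν) (hg : Measurable g) {A : Set ℝ}
    (hA : MeasurableSet A) (hup : ∀ s ∈ A, ∀ r, s ≤ r → r ∈ A) {t : ℝ} (ht : 0 ≤ t)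
    (hfin : nn (A.indicator ν) 0 t ≠ ⊤) (y0 : ℝ≥0∞) (h0 : y0 ≠ 0 → (0 : ℝ) ∈ A)
    (hg0 : ∀ s, 0 ≤ s → g s ≠ 0 → s ∈ A) {y : ℝ → ℝ≥0∞}
    (hy : ∀ s, 0 ≤ s → y s = y0 * en (nn ν 0 s) + ∫⁻ r in Ioo 0 s, en (nn ν r s) * g r)
    (hy0 : ∀ s, 0 ≤ s → y s ≠ 0 → s ∈ A) :
    y t + ∫⁻ s in Ioo 0 t, y s * ν s = y0 + ∫⁻ s in Ioo 0 t, g s := by
  have hnn : ∀ r ∈ A, ∀ s, nn (A.indicator ν) r s = nn ν r s := by
    intro r hr s
    unfold nn
    refine setLIntegral_congr_fun measurableSet_Ioo fun u hu => ?_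
    exact indicator_of_mem (hup r hr u hu.1.le) ν
  have hy' : ∀ s, 0 ≤ s → y s = y0 * en (nn (A.indicator ν) 0 s) +
      ∫⁻ r in Ioo 0 s, en (nn (A.indicator ν) r s) * g r := by
    intro s hs
    rw [hy s hs]
    congr 1
    · by_cases hz : y0 = 0
      · rw [hz, zero_mul, zero_mul]
      · rw [hnn 0 (h0 hz)]
    · refine setLIntegral_congr_fun measurableSet_Ioo fun r hr => ?_
      by_cases hz : g r = 0
      · simp only [hz, mul_zero]
      · simp only [hnn r (hg0 r hr.1.le hz)]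
  have h1 := expo_integral (hν.indicator hA) hg ht hfin y0 (y := y)
    (by
      filter_upwards [ae_restrict_mem measurableSet_Ioo] with s hs
      exact hy' s hs.1.le) (hy' t ht)
  rw [← h1]
  congr 1
  refine setLIntegral_congr_fun measurableSet_Ioo fun s hs => ?_
  by_cases hz : y s = 0
  · simp only [hz, zero_mul]
  · simp only [indicator_of_mem (hy0 s hs.1.le hz) ν]

/-- times at which the flight is inside the support of one of the sheets -/
def Live (P : Par) (x : P2) (v : R3) : Set ℝ :=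
  {s | 0 ≤ s ∧ ∃ (k : ℤ × ℤ) (j : ℕ), Cold.Sup P j s (x + s • bar v + latt k) v}

theorem live_up {x : P2} {v : R3} {s : ℝ} (hs : s ∈ Live P x v) {r : ℝ} (hr : s ≤ r) :
    r ∈ Live P x v := by
  obtain ⟨h0, k, j, h⟩ := hs
  refine ⟨h0.trans hr, k, j, ColdL.Sup_mono hr ?_⟩
  rw [show x + r • bar v + latt k - (r - s) • bar v = x + s • bar v + latt k by
    rw [sub_smul]; abel]
  exact h

theorem measurableSet_live (x : P2) (v : R3) : MeasurableSet (Live P x v) := by
  have : OrdConnected (Live P x v) := ⟨fun a ha b _ c hc => live_up ha hc.1⟩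
  exact this.measurableSet

theorem live_of_sheet (hC : ColdPar Cold.C0 P) {Λ : ℝ → P2 → R3 → ℝ≥0∞} {x : P2} {v : R3} {s : ℝ}
    (hs : 0 ≤ s) {k : ℤ × ℤ} {j : ℕ} (h : coldj P j Λ s (x + s • bar v + latt k) v ≠ 0) :
    s ∈ Live P x v := ⟨hs, k, j, Cold.coldj_sup hC hs h⟩

theorem live_of_coldL (hC : ColdPar Cold.C0 P) {Λ : ℝ → P2 → R3 → ℝ≥0∞} {x : P2} {v : R3} {s : ℝ}
    (hs : 0 ≤ s) (h : coldL P Λ s (x + s • bar v) v ≠ 0) : s ∈ Live P x v := by
  by_contra hcon
  apply h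
  unfold coldL
  simp only [ENNReal.tsum_eq_zero]
  intro k j
  by_contra h1
  exact hcon (live_of_sheet hC hs h1)

theorem live_of_phiE (hC : ColdPar Cold.C0 P) (hok : P.Ok) {x : P2} {v : R3}
    (h : phiE P 0 x v ≠ 0) : (0 : ℝ) ∈ Live P x v := by
  by_contra hcon
  apply h
  rw [ColdC.phiE_eq hok]
  simp only [ENNReal.tsum_eq_zero]
  intro k j
  by_contra h1
  refine hcon ⟨le_rfl, k, j, ?_⟩
  rw [zero_smul, add_zero]
  exact Cold.Sup.of_phij hC le_rfl h1

theorem live_of_gain (hC : ColdPar Cold.C0 P) {lam : ℝ → P2 → R3 → ℝ≥0∞} {x : P2} {v : R3} {s : ℝ}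
    (hs : 0 ≤ s) (h : coldGain P lam s (x + s • bar v) v ≠ 0) : s ∈ Live P x v := by
  by_contra hcon
  apply h
  unfold coldGain
  simp only [ENNReal.tsum_eq_zero]
  intro i
  by_cases hg : s ≤ tauj P.p i.2 ∧ Zj P i.2 1 s (x + s • bar v + latt i.1) v
  · rw [if_pos hg]
    by_contra h1
    obtain ⟨u, hu⟩ := Cold.exists_ne_of_Qp_ne h1
    unfold coldjk at hu
    exact hcon ⟨hs, i.1, i.2, ColdL.sup_of_gate hs hg.1 hg.2 ((Cold.coldj_sup hC hs hu).pos hC)⟩
  · rw [if_neg hg]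

theorem coldS_per (P : Par) (t : ℝ) (x : P2) (k : ℤ × ℤ) (v : R3) :
    coldS P t (x + latt k) v = coldS P t x v := by
  unfold coldS phiE
  have h1 : warm P t (x + latt k) v = warm P t x v := ColdM.perG_warm P t v x k
  have h2 : phi P t (x + latt k) v = phi P t x v := Fuel.perG_phi P t v x k
  rw [h1, h2]

theorem coldS_ne_of_live (hC : ColdPar Cold.C0 P) (hK : 0 < P.K) {x : P2} {v : R3} {s : ℝ}
    (hs : s ∈ Live P x v) : coldS P s (x + s • bar v) v ≠ 0 := by
  obtain ⟨_, k, j, h⟩ := hs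
  have h1 := ColdC.coldS_ne_of_Ztj hK (h.tight hC)
  rwa [coldS_per] at h1

/-- the rate of the cold component is integrable over the live part of a flight -/
theorem live_fin (hC : ColdPar Cold.C0 P) (hB : ColdW.Big P) (hK : 0 < P.K)
    {lam : ℝ → P2 → R3 → ℝ≥0∞} (hlam : Meas3 lam) {t : ℝ} (x : P2) (v : R3)
    (hfin : (∫⁻ s in Ioo 0 t, lam s (x + s • bar v) v) ≠ ⊤) :
    nn ((Live P x v).indicator fun s => rateC P lam s (x + s • bar v) v) 0 t ≠ ⊤ := by
  unfold nn
  refine ne_top_of_le_ne_top (b := (∫⁻ _ in Ioo 0 t, ENNReal.ofReal (ColdW.LcB P t)) +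
    ∫⁻ s in Ioo 0 t, lam s (x + s • bar v) v) ?_ ?_
  · refine ENNReal.add_ne_top.2 ⟨?_, hfin⟩
    rw [lintegral_const, Measure.restrict_apply_univ, Real.volume_Ioo]
    exact ENNReal.mul_ne_top ENNReal.ofReal_ne_top ENNReal.ofReal_ne_top
  · rw [← lintegral_add_left measurable_const]
    refine setLIntegral_mono' measurableSet_Ioo fun s hs => ?_
    by_cases hl : s ∈ Live P x v
    · rw [indicator_of_mem hl]
      unfold rateC
      refine add_le_add ?_ le_rfl
      calc Lc (coldR P lam s (x + s • bar v)) v ≤ Lc (coldS P s (x + s • bar v)) v :=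
            A.Lc_mono (fun z => Cold.coldR_le_coldS hC hB.ok lam hs.1.le _ z) v
        _ ≤ ENNReal.ofReal (ColdW.LcB P s) := ColdW.Lc_coldS_all hB hs.1.le
            (coldS_ne_of_live hC hK hl)
        _ ≤ _ := ENNReal.ofReal_le_ofReal (ColdW.LcB_mono hB hs.1.le hs.2.le)
    · rw [indicator_of_notMem hl]
      exact zero_le

/-- **(C7)** along every flight on which the external rate is integrable -/
theorem coldR_mild (hC : ColdPar Cold.C0 P) (hB : ColdW.Big P) (hK : 0 < P.K)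
    {lam : ℝ → P2 → R3 → ℝ≥0∞} (hlam : Meas3 lam) (hper : ∀ t v, PerG (fun x => lam t x v))
    {t : ℝ} (ht : 0 ≤ t) (x : P2) (v : R3)
    (hfin : (∫⁻ s in Ioo 0 t, lam s (x + s • bar v) v) ≠ ⊤) :
    coldR P lam t (x + t • bar v) v +
      (∫⁻ s in Ioo 0 t, rateC P lam s (x + s • bar v) v * coldR P lam s (x + s • bar v) v) +
      (∫⁻ s in Ioo 0 t, coldSpill P lam s (x + s • bar v) v) =
    phiE P 0 x v +
      ∫⁻ s in Ioo 0 t, Qp (coldR P lam s (x + s • bar v)) (coldR P lam s (x + s • bar v)) v := by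
  have hR := ColdM.meas3_rateC P hlam
  have hG := ColdM.meas3_coldGain P hlam
  have hy : ∀ s, 0 ≤ s → coldR P lam s (x + s • bar v) v =
      phiE P 0 x v * en (nn (fun r => rateC P lam r (x + r • bar v) v) 0 s) +
      ∫⁻ r in Ioo 0 s, en (nn (fun r => rateC P lam r (x + r • bar v) v) r s) *
        coldGain P lam r (x + r • bar v) v := by
    intro s hs
    rw [ColdC.coldR_duh hC hB hK hlam hper hs, phiE_flight, damp_flight, DuhD_flight]
  have h1 := expo_cut (ν := fun r => rateC P lam r (x + r • bar v) v)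
    (g := fun r => coldGain P lam r (x + r • bar v) v) (measurable_flight hR x v)
    (measurable_flight hG x v) (measurableSet_live (P := P) x v)
    (fun s hs r hr => live_up hs hr) ht (live_fin hC hB hK hlam x v hfin) (phiE P 0 x v)
    (fun h => live_of_phiE hC hB.ok h) (fun s hs h => live_of_gain hC hs h)
    (y := fun s => coldR P lam s (x + s • bar v) v) hy
    (fun s hs h => live_of_coldL hC hs (Λ := rateC P lam)
      (by rwa [← ColdC.coldR_eq_coldL hC hB hK hlam hs]))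
  have h2 : ∫⁻ s in Ioo 0 t, Qp (coldR P lam s (x + s • bar v))
      (coldR P lam s (x + s • bar v)) v =
      (∫⁻ s in Ioo 0 t, coldGain P lam s (x + s • bar v) v) +
        ∫⁻ s in Ioo 0 t, coldSpill P lam s (x + s • bar v) v := by
    rw [← lintegral_add_left (measurable_flight hG x v)]
    refine setLIntegral_congr_fun measurableSet_Ioo fun s hs => ?_
    exact ColdC.Qp_coldR hC hB hK hlam hs.1.le _ v
  rw [h2, ← add_assoc, ← h1]
  congr 2
  refine lintegral_congr fun s => ?_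
  exact mul_comm _ _

end Crest.Agent.R68.ColdMild

namespace Crest.Agent.R68.WP

open Crest.Agent.R68.A (en Meas3)
open Crest.Agent.R68.N

theorem ColdMildOut_holds (Y : ℝ) (hY : 1 ≤ Y) : ColdMildOut Y := by
  intro K ey hK hey hey1
  filter_upwards [eventually_ge_atTop 512] with p hp
  filter_upwards [ev_ColdPar K Y ey p Cold.C0 hK hY hp,
    ev_Ok K Y ey p (by linarith) (by linarith) hey (by omega),
    tendsto_natCast_atTop_atTop.eventually_ge_atTop K] with j0 hC hOk hKj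
  have hB : ColdW.Big (par K Y ey p j0) := ⟨hOk, hp, hY, hKj⟩
  have hKp : 0 < (par K Y ey p j0).K := lt_of_lt_of_le one_pos hC.K
  intro lam hm hper t x v ht hfin
  exact ColdMild.coldR_mild hC hB hKp hm hper ht x v hfin

end Crest.Agent.R68.WP
end
end

-- ▼ part R68/IntI
section

/-!
Row 68, PART I (helper858), module 12: class bound + mild form in `[0,∞]` ⟹ `MildGOn`, `MildG`.
-/

set_option autoImplicit false
open MeasureTheory Set Filter Metric
open scoped ENNReal Topology Real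
open Crest.AnalysisR.VecCalc3 Crest.AnalysisR.PDE.Boltzmann

noncomputable section

namespace Crest.Agent.R68.I

open Crest.Agent.R68.A Crest.Agent.R68.K2

variable {P : Par}

/-- mild form in `[0,∞]` up to time `TT` -/
def MildE (F : ℝ → P2 → R3 → ℝ≥0∞) (TT : ℝ) : Prop :=
  ∀ t ∈ Icc 0 TT, ∀ᵐ p : P2 × R3,
    F t (p.1 + t • bar p.2) p.2 +
      ∫⁻ s in Ioo 0 t, Lc (F s (p.1 + s • bar p.2)) p.2 * F s (p.1 + s • bar p.2) p.2 =
    F 0 p.1 p.2 +
      ∫⁻ s in Ioo 0 t, Qp (F s (p.1 + s • bar p.2)) (F s (p.1 + s • bar p.2)) p.2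

/-! ### replacing `f` by `ofReal (toReal f)` -/

lemma Qp_eq_zero_left {f g : R3 → ℝ≥0∞} (hf : Measurable f) (hg : Measurable g)
    (h : f =ᵐ[volume] 0) (v : R3) : Qp f g v = 0 := by
  rw [Qp_carleman' hf hg]
  have : ∫⁻ u, ENNReal.ofReal ‖u - v‖⁻¹ * f u * planeInt g v (‖u - v‖⁻¹ • (u - v)) = ∫⁻ _u : R3, 0 := by
    refine lintegral_congr_ae ?_
    filter_upwards [h] with u hu
    rw [hu]; simp
  rw [this]; simp

lemma Qp_eq_zero_right {f g : R3 → ℝ≥0∞} (hf : Measurable f) (hg : Measurable g)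
    (h : g =ᵐ[volume] 0) (v : R3) : Qp f g v = 0 := by
  rw [Qp_comm hf hg]; exact Qp_eq_zero_left hg hf h v

lemma Qp_congr_ae {f f' : R3 → ℝ≥0∞} (hf : Measurable f) (hf' : Measurable f')
    (hle : ∀ v, f' v ≤ f v) (h : f =ᵐ[volume] f') (v : R3) : Qp f f v = Qp f' f' v := by
  set d : R3 → ℝ≥0∞ := fun v => f v - f' v with hd
  have hdm : Measurable d := hf.sub hf'
  have hd0 : d =ᵐ[volume] 0 := by
    filter_upwards [h] with v hv
    simp [hd, hv]
  have hfd : f = fun z => f' z + d z := by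
    funext z
    exact (add_tsub_cancel_of_le (hle z)).symm
  have e1 : Qp f f v = Qp f' f' v + Qp f' d v + (Qp d f' v + Qp d d v) := by
    have hmm : Measurable fun z => f' z + d z := hf'.add hdm
    conv_lhs => rw [hfd]
    rw [Qp_add_left hf' hmm, Qp_add_right hf' hf', Qp_add_right hdm hf']
  rw [e1, Qp_eq_zero_right hf' hdm hd0, Qp_eq_zero_left hdm hf' hd0, Qp_eq_zero_left hdm hdm hd0]
  simp

lemma Lc_congr_ae {f f' : R3 → ℝ≥0∞} (h : f =ᵐ[volume] f') (v : R3) : Lc f v = Lc f' v := by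
  unfold Lc
  refine lintegral_congr_ae ?_
  filter_upwards [h] with vs hvs
  rw [hvs]

lemma ofReal_toReal_le (a : ℝ≥0∞) : ENNReal.ofReal a.toReal ≤ a := ENNReal.ofReal_toReal_le

/-! ### a.e. finiteness in the class -/

lemma sumW_lt_top (h : P.Ok) {T t : ℝ} (ht : t ∈ Ioo 0 T) (x : P2) {CN : ℝ} :
    sumW P (w2 CN) t x < ⊤ := by
  classical
  obtain ⟨M, hM⟩ := exists_overlap h T
  obtain ⟨S, -, hS⟩ := hM t ht x
  unfold sumW
  rw [tsum_eq_sum (s := S)]
  · rw [ENNReal.sum_lt_top]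
    intro i _
    split_ifs
    · unfold w2; exact ENNReal.ofReal_lt_top
    · simp
  · intro i hi
    rw [if_neg fun hz => hi (hS i hz)]

lemma ae_coldS_ne_top (h : P.Ok) (hc : ColdPar C.C0 P) {t : ℝ} (ht : 0 < t) (x : P2) :
    ∀ᵐ v : R3, coldS P t x v ≠ ⊤ := by
  obtain ⟨CL, CN, -, -, -, -, h3⟩ := cold_profile h hc (t + 1)
  have ht' : t ∈ Ioo 0 (t + 1) := ⟨ht, by linarith⟩
  have h4 := (h3 t ht' x).trans_lt (sumW_lt_top h ht' x)
  filter_upwards [ae_lt_top ((meas3_coldS h).slice t x) h4.ne] with v hv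
  exact hv.ne

lemma ae_ne_top_of_class (h : P.Ok) (hc : ColdPar C.C0 P) {F : ℝ → P2 → R3 → ℝ≥0∞} {A : ℝ≥0∞}
    (hA : A ≠ ⊤) {t : ℝ} (ht : 0 < t) {x : P2}
    (hcl : ∀ v, F t x v ≤ coldS P t x v + A * (Dm P t x v * em v)) : ∀ᵐ v : R3, F t x v ≠ ⊤ := by
  filter_upwards [ae_coldS_ne_top h hc ht x, ae_Dm_ne_top h ht x] with v h1 h2
  refine ne_top_of_le_ne_top (ENNReal.add_ne_top.2 ⟨h1, ENNReal.mul_ne_top hA
    (ENNReal.mul_ne_top h2 ?_)⟩) (hcl v)
  unfold em; exact ENNReal.ofReal_ne_top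

/-! ### the theorem -/

theorem mildGOn_of_class (h : P.Ok) (hc : ColdPar C.C0 P) {F : ℝ → P2 → R3 → ℝ≥0∞}
    (hF : Meas3 F) (hper : ∀ t v, PerG (fun x => F t x v)) {G0 : P2 → R3 → ℝ} {R TT : ℝ}
    (hG0 : DatumG G0 R) (h0 : ∀ x v, F 0 x v = ENNReal.ofReal (G0 x v)) {A : ℝ≥0∞} (hA : A ≠ ⊤)
    (hcl : ∀ t ∈ Ioo 0 TT, ∀ x v, F t x v ≤ coldS P t x v + A * (Dm P t x v * em v))
    (hmild : MildE F TT) :
    MildGOn (fun t x v => (F t x v).toReal) G0 R TT := by
  set G : ℝ → P2 → R3 → ℝ := fun t x v => (F t x v).toReal with hG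
  have hGm : Measurable (fun p : ℝ × P2 × R3 => G p.1 p.2.1 p.2.2) :=
    ENNReal.measurable_toReal.comp hF
  have hG0' : ∀ t x v, 0 ≤ t → 0 ≤ G t x v := fun _ _ _ _ => ENNReal.toReal_nonneg
  have hclG : ∀ t ∈ Ioo 0 TT, ∀ x v,
      ENNReal.ofReal (G t x v) ≤ coldS P t x v + A * (Dm P t x v * em v) :=
    fun t ht x v => (ofReal_toReal_le _).trans (hcl t ht x v)
  have hint := int_of_class h hc hGm hG0' hA hclG
  have hGe : Meas3 (fun t x v => ENNReal.ofReal (G t x v)) := ENNReal.measurable_ofReal.comp hGm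
  -- gain and loss of G in terms of F
  have hgain : ∀ s ∈ Ioo 0 TT, ∀ y v, gainG G s y v = Qp (F s y) (F s y) v := by
    intro s hs y v
    unfold gainG
    refine (Qp_congr_ae (hF.slice s y) (hGe.slice s y) (fun z => ofReal_toReal_le _) ?_ v).symm
    filter_upwards [ae_ne_top_of_class h hc hA hs.1 (hcl s hs y)] with z hz
    exact (ENNReal.ofReal_toReal hz).symm
  have hLc : ∀ s ∈ Ioo 0 TT, ∀ y v, Lc (fun z => ENNReal.ofReal (G s y z)) v = Lc (F s y) v := by
    intro s hs y v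
    refine Lc_congr_ae ?_ v
    filter_upwards [ae_ne_top_of_class h hc hA hs.1 (hcl s hs y)] with z hz
    exact ENNReal.ofReal_toReal hz
  have hgm : Meas3 (fun s y v => gainG G s y v) := meas3_Qp hGe hGe
  have hlm : Meas3 (fun s y v => lossG G s y v) := Measurable.mul hGe (meas3_Lc hGe)
  have hGper : ∀ t v, PerG (fun x => G t x v) := by
    intro t v x k
    show (F t (x + latt k) v).toReal = (F t x v).toReal
    rw [show F t (x + latt k) v = F t x v from hper t v x k]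
  have hgper : ∀ t v, PerG (fun x => gainG G t x v + lossG G t x v) := by
    intro t v x k
    have e : ∀ z, G t (x + latt k) z = G t x z := fun z => hGper t z x k
    show gainG G t (x + latt k) v + lossG G t (x + latt k) v = gainG G t x v + lossG G t x v
    unfold gainG lossG
    simp_rw [e]
  -- finiteness along flights
  have hfin0 : ∫⁻ p in Ioo 0 TT ×ˢ (cellG ×ˢ (Set.univ : Set R3)),
      (gainG G p.1 p.2.1 p.2.2 + lossG G p.1 p.2.1 p.2.2) < ⊤ := by
    refine lt_of_le_of_lt ?_ (hint 0)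
    refine setLIntegral_mono' (measurableSet_Ioo.prod
      (measurableSet_cellG.prod MeasurableSet.univ)) fun p hp => ?_
    have hone : (1 : ℝ≥0∞) ≤ ENNReal.ofReal ((1 + ‖p.2.2‖ ^ 2) ^ ((0 : ℕ) / 2 : ℝ) +
        Real.log (1 + G p.1 p.2.1 p.2.2)) := by
      rw [ENNReal.one_le_ofReal]
      have h1 : 0 ≤ Real.log (1 + G p.1 p.2.1 p.2.2) :=
        Real.log_nonneg (by have := hG0' p.1 p.2.1 p.2.2 hp.1.1.le; linarith)
      simp only [Nat.cast_zero, zero_div, Real.rpow_zero]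
      linarith
    calc _ = 1 * (gainG G p.1 p.2.1 p.2.2 + lossG G p.1 p.2.1 p.2.2) := (one_mul _).symm
      _ ≤ _ := by gcongr
  have hfl := ae_flight_fin (g := fun s y v => gainG G s y v + lossG G s y v)
    (Measurable.add hgm hlm) hgper hfin0
  refine ⟨hG0, hGm, hG0', hGper, ?_, ?_, hint⟩
  · intro x v
    show (F 0 x v).toReal = G0 x v
    rw [h0, ENNReal.toReal_ofReal (hG0.nonneg x v)]
  · intro t ht htT
    -- finiteness of F along flights
    have hFm : MeasurableSet {z : ℝ × P2 × R3 | F z.1 z.2.1 z.2.2 ≠ ⊤} := by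
      have : {z : ℝ × P2 × R3 | F z.1 z.2.1 z.2.2 ≠ ⊤} =
          ((fun z : ℝ × P2 × R3 => F z.1 z.2.1 z.2.2) ⁻¹' {⊤})ᶜ := by ext z; simp
      rw [this]
      exact (hF (measurableSet_singleton _)).compl
    have hFae : ∀ s ∈ Ioo 0 t, ∀ᵐ p : P2 × R3, F s p.1 p.2 ≠ ⊤ := by
      intro s hs
      have hs' : s ∈ Ioo 0 TT := ⟨hs.1, hs.2.trans_le htT⟩
      have hms : MeasurableSet {p : P2 × R3 | F s p.1 p.2 ≠ ⊤} :=
        (by fun_prop : Measurable fun p : P2 × R3 => (s, p.1, p.2)) hFm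
      refine (Measure.ae_prod_mem_iff_ae_ae_mem hms).2 (Eventually.of_forall fun x => ?_)
      exact ae_ne_top_of_class h hc hA hs.1 (hcl s hs' x)
    have hFfl := ae_flight3 (Q := fun s x v => F s x v ≠ ⊤) (T := t) hFm hFae
    filter_upwards [hmild t ⟨ht, htT⟩, hfl, hFfl] with p hp hp2 hp3
    obtain ⟨x, v⟩ := p
    simp only at hp hp2 hp3 ⊢
    have mgn : Measurable fun s : ℝ => gainG G s (x + s • bar v) v :=
      hgm.comp (by fun_prop) (by fun_prop) (by fun_prop)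
    have mls : Measurable fun s : ℝ => lossG G s (x + s • bar v) v :=
      hlm.comp (by fun_prop) (by fun_prop) (by fun_prop)
    have hsub : ∀ f : ℝ → ℝ≥0∞, ∫⁻ s in Ioo 0 t, f s ≤ ∫⁻ s in Ioo 0 TT, f s := fun f =>
      lintegral_mono_set (Ioo_subset_Ioo_right htT)
    have hgf : ∫⁻ s in Ioo 0 t, gainG G s (x + s • bar v) v ≠ ⊤ := by
      refine ne_top_of_le_ne_top hp2.ne ((lintegral_mono fun s => ?_).trans (hsub _))
      exact le_self_add
    have hlf : ∫⁻ s in Ioo 0 t, lossG G s (x + s • bar v) v ≠ ⊤ := by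
      refine ne_top_of_le_ne_top hp2.ne ((lintegral_mono fun s => ?_).trans (hsub _))
      exact le_add_self
    have e1 : ∫⁻ s in Ioo 0 t, Qp (F s (x + s • bar v)) (F s (x + s • bar v)) v =
        ∫⁻ s in Ioo 0 t, gainG G s (x + s • bar v) v := by
      refine setLIntegral_congr_fun measurableSet_Ioo fun s hs => ?_
      exact (hgain s ⟨hs.1, hs.2.trans_le htT⟩ _ _).symm
    have e2 : ∫⁻ s in Ioo 0 t, Lc (F s (x + s • bar v)) v * F s (x + s • bar v) v =
        ∫⁻ s in Ioo 0 t, lossG G s (x + s • bar v) v := by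
      refine setLIntegral_congr_fun_ae measurableSet_Ioo ?_
      have hae2 : ∀ᵐ s : ℝ, s ∈ Ioo 0 t → F s (x + s • bar v) v ≠ ⊤ :=
        (ae_restrict_iff' measurableSet_Ioo).1 hp3
      filter_upwards [hae2] with s hs hst
      unfold lossG
      rw [hLc s ⟨hst.1, hst.2.trans_le htT⟩, show ENNReal.ofReal (G s (x + s • bar v) v) =
        F s (x + s • bar v) v from ENNReal.ofReal_toReal (hs hst), mul_comm]
    rw [e1, e2, h0] at hp
    -- to real numbers
    have hFt : F t (x + t • bar v) v ≠ ⊤ := by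
      intro hcon
      rw [hcon, top_add] at hp
      exact (ENNReal.add_ne_top.2 ⟨ENNReal.ofReal_ne_top, hgf⟩) hp.symm
    have hr := congrArg ENNReal.toReal hp
    rw [ENNReal.toReal_add hFt hlf, ENNReal.toReal_add ENNReal.ofReal_ne_top hgf,
      ENNReal.toReal_ofReal (hG0.nonneg x v)] at hr
    have hgae : ∀ᵐ s ∂(volume.restrict (Ioo 0 t)), gainG G s (x + s • bar v) v < ⊤ :=
      ae_lt_top mgn hgf
    have hlae : ∀ᵐ s ∂(volume.restrict (Ioo 0 t)), lossG G s (x + s • bar v) v < ⊤ :=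
      ae_lt_top mls hlf
    rw [← integral_toReal mgn.aemeasurable hgae, ← integral_toReal mls.aemeasurable hlae] at hr
    rw [intervalIntegral.integral_of_le ht, integral_Ioc_eq_integral_Ioo, integral_sub
      (integrable_toReal_of_lintegral_ne_top mgn.aemeasurable hgf)
      (integrable_toReal_of_lintegral_ne_top mls.aemeasurable hlf)]
    show (F t (x + t • bar v) v).toReal = _
    linarith


end Crest.Agent.R68.I
end
end

-- ▼ part R68/IntOut
section

/-!
# Row 68, PART I (helper858), module 13: `IntOut`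
-/

set_option autoImplicit false
open MeasureTheory Set Filter
open scoped ENNReal NNReal Topology
open Crest.AnalysisR.VecCalc3 Crest.AnalysisR.PDE.Boltzmann

noncomputable section

namespace Crest.Agent.R68.WP

open Crest.Agent.R68.A (en Meas3 meas3_Lc Lc_add)

theorem IntOut_holds {Y : ℝ} (hY : 1 ≤ Y) : IntOut Y := by
  intro K ey hK hey _
  filter_upwards [eventually_ge_atTop 512] with p hp
  filter_upwards [ev_Ok K Y ey p (by linarith) (by linarith) hey (by omega),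
    ev_ColdPar K Y ey p C.C0 hK hY hp] with j0 hok hcp
  intro F G0 R T hT hFm hper hG0 h0 hcl hmild
  obtain ⟨A, hA, hcl⟩ := hcl
  refine I.mildGOn_of_class hok hcp hFm hper hG0 h0 hA
    (fun t ht x v => hcl t ⟨ht.1, ht.2.le⟩ x v) ?_
  intro t ht
  filter_upwards [hmild t ht] with q hq
  rw [h0]
  exact hq

end Crest.Agent.R68.WP
end
end

-- ▼ part R68/ASize

/-!
# Row 68, PART W (helper418): `WP.SizeOut` (loss rate of the cold majorant)
-/

set_option autoImplicit false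
open MeasureTheory Set Filter
open scoped ENNReal NNReal Topology
open Crest.AnalysisR.VecCalc3 Crest.AnalysisR.PDE.Boltzmann

noncomputable section

namespace Crest.Agent.R68.WP

open Crest.Agent.R68.N
open Crest.Agent.R68.WA (w1)

theorem ev_eq_w1 (v : R3) : ev v = w1 v := by
  unfold ev w1
  rw [ENNReal.ofReal_add zero_le_one (norm_nonneg v), ENNReal.ofReal_one]

/-- **`SizeOut`** -/
theorem SizeOut_holds {Y : ℝ} (hY : 1 ≤ Y) : SizeOut Y := by
  intro K ey hK hey hey1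
  filter_upwards [KC.kOut hY hey KC.warmSize_holds KC.measurable_warm_v K 0 hK le_rfl,
    eventually_ge_atTop 512] with p hk hp
  filter_upwards [hk, ev_ColdPar K Y ey p C.C0 hK hY hp, ev_pos] with j0 hk hCP hpos
  obtain ⟨CK, hk, -⟩ := hk
  obtain ⟨-, -, hT1⟩ := hpos
  refine ⟨⟨CK, hk.ne, fun t ht x v => ?_⟩, fun T => ?_⟩
  · have h1 := hk.lM2 t ht x v
    rw [ev_eq_w1] at h1
    refine le_trans ?_ h1
    gcongr
    refine WA.Lc_mono (fun z => ?_) v
    calc coldS (par K Y ey p j0) t x z = 1 * coldS (par K Y ey p j0) t x z := (one_mul _).symm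
      _ ≤ 2 * coldS (par K Y ey p j0) t x z := by gcongr; exact one_le_two
  · have hB := ColdW.Big.of hCP (by exact hey)
    obtain ⟨B1, hB1⟩ := ColdW.cold_bd hB hCP hT1 T
    refine ⟨ENNReal.ofReal (4 * Real.pi) * (ENNReal.ofReal (Y + 3) * B1),
      ENNReal.mul_ne_top ENNReal.ofReal_ne_top
        (ENNReal.mul_ne_top ENNReal.ofReal_ne_top ENNReal.coe_ne_top), fun t ht htT x v => ?_⟩
    have ht0 : 0 ≤ t := hT1.le.trans ht
    refine (WA.Lc_le _ v).trans ?_
    have h2 : ∫⁻ z, w1 z * coldS (par K Y ey p j0) t x z ≤ ENNReal.ofReal (Y + 3) * B1 := by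
      calc ∫⁻ z, w1 z * coldS (par K Y ey p j0) t x z
          ≤ ∫⁻ z, ENNReal.ofReal (Y + 3) * coldS (par K Y ey p j0) t x z := by
            refine lintegral_mono fun z => ?_
            by_cases h0 : coldS (par K Y ey p j0) t x z = 0
            · rw [h0, mul_zero, mul_zero]
            · have h3 := ColdW.norm_lt_of_coldS_ne hB ht0 h0
              have h4 : (par K Y ey p j0).Y = Y := rfl
              rw [h4] at h3
              refine mul_le_mul' ?_ le_rfl
              unfold w1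
              exact ENNReal.ofReal_le_ofReal (by linarith)
        _ = ENNReal.ofReal (Y + 3) * ∫⁻ z, coldS (par K Y ey p j0) t x z := by
            rw [lintegral_const_mul' _ _ ENNReal.ofReal_ne_top]
        _ ≤ _ := by gcongr; exact (hB1 t ht htT x).1
    calc ENNReal.ofReal (4 * Real.pi) * w1 v * ∫⁻ z, w1 z * coldS (par K Y ey p j0) t x z
        ≤ ENNReal.ofReal (4 * Real.pi) * w1 v * (ENNReal.ofReal (Y + 3) * B1) := by gcongr
      _ = _ := by ring

end Crest.Agent.R68.WP
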