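import Crest.Agent.R68.K1b

/-!
# Row 68, PART K3 (helper819): Duhamel integrals of the weights
-/

set_option autoImplicit false
open MeasureTheory Set
open scoped ENNReal
open Crest.AnalysisR.VecCalc3 Crest.AnalysisR.PDE.Boltzmann

noncomputable section

namespace Crest.Agent.R68.K

/-- general principle: if the source along the flight is `≤ ofReal (f s) * W` with constant `W` -/
theorem Duh_le_of (q : ℝ → P2 → R3 → ℝ≥0∞) {t : ℝ} (x : P2) (v : R3) (f : ℝ → ℝ≥0∞)
    (W : ℝ≥0∞) (hf : Measurable f)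
    (h : ∀ s ∈ Ioo 0 t, q s (x - (t - s) • bar v) v ≤ f s * W) {C : ℝ≥0∞}
    (hC : ∫⁻ s in Ioo 0 t, f s ≤ C) : Duh q t x v ≤ C * W := by
  unfold Duh
  calc ∫⁻ s in Ioo 0 t, q s (x - (t - s) • bar v) v ≤ ∫⁻ s in Ioo 0 t, f s * W :=
        setLIntegral_mono' measurableSet_Ioo h
    _ = (∫⁻ s in Ioo 0 t, f s) * W := lintegral_mul_const _ hf
    _ ≤ C * W := by gcongr

/-- hot x hot and loss terms: the factor `1+|v|` -/
theorem Duh_lin_B1 (P : Par) {Lam rh g b : ℝ} (hL : 0 < Lam) (hb : 0 ≤ b)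
    {t : ℝ} (ht : 0 < t) (ht1 : t ≤ 1) (x : P2) (v : R3) :
    Duh (fun s x v => ENNReal.ofReal (1 + ‖v‖) * B1 P Lam rh g b s x v) t x v ≤
      ENNReal.ofReal (16 * t ^ (3 / 4 : ℝ)) * B1 P Lam rh g b t x v := by
  apply Duh_le_of _ x v
    (fun s => ENNReal.ofReal ((1 + ‖v‖) * Real.exp (-((√t - √s) / 100) * ‖v‖ ^ 2))) _ _ _
    (lintegral_absorb ht ht1 v)
  · fun_prop
  · intro s hs
    rw [ENNReal.ofReal_mul (by positivity), mul_assoc]
    gcongr
    exact B1_flight' P hL hb hs.1.le hs.2.le x v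


/-- `∫_0^t s^{b-1} t^{-b} ds = 1/b` -/
theorem lintegral_rpow_le {b t : ℝ} (hb : 0 < b) (ht : 0 < t) :
    ∫⁻ s in Ioo 0 t, ENNReal.ofReal (1 / s * (s / t) ^ b) ≤ ENNReal.ofReal (1 / b) := by
  have h0 : ∀ s ∈ Ioo 0 t, ENNReal.ofReal (1 / s * (s / t) ^ b) =
      ENNReal.ofReal (t ^ (-b) * s ^ (b - 1)) := by
    intro s hs
    congr 1
    have hs0 := hs.1
    rw [Real.div_rpow hs0.le ht.le, Real.rpow_sub hs0, Real.rpow_one, Real.rpow_neg ht.le]
    field_simp
  rw [setLIntegral_congr_fun measurableSet_Ioo h0]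
  have hint : IntervalIntegrable (fun s : ℝ => s ^ (b - 1)) volume 0 t :=
    intervalIntegral.intervalIntegrable_rpow' (by linarith)
  have h1 : ∫⁻ s in Ioo 0 t, ENNReal.ofReal (t ^ (-b) * s ^ (b - 1)) =
      ENNReal.ofReal (∫ s in (0 : ℝ)..t, t ^ (-b) * s ^ (b - 1)) := by
    have hint2 := hint.const_mul (t ^ (-b))
    rw [intervalIntegrable_iff_integrableOn_Ioc_of_le ht.le] at hint2
    rw [intervalIntegral.integral_of_le ht.le, restrict_Ioo_eq_restrict_Ioc]
    rw [ofReal_integral_eq_lintegral_ofReal hint2]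
    rw [Filter.EventuallyLE, ae_restrict_iff' measurableSet_Ioc]
    filter_upwards with s hs
    have := hs.1
    positivity
  rw [h1, intervalIntegral.integral_const_mul, integral_rpow (Or.inl (by linarith))]
  apply ENNReal.ofReal_le_ofReal
  rw [sub_add_cancel, Real.zero_rpow hb.ne', sub_zero, Real.rpow_neg ht.le]
  have : 0 < t ^ b := Real.rpow_pos_of_pos ht _
  apply le_of_eq
  field_simp

theorem Duh_rate_B2 (P : Par) {g1 g2 b : ℝ} (hb : 0 < b) (hg : 0 ≤ g2)
    {t : ℝ} (ht : 0 < t) (x : P2) (v : R3) :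
    Duh (fun s x v => ENNReal.ofReal (1 / s) * B2 P g1 g2 b s x v) t x v ≤
      ENNReal.ofReal (1 / b) * B2 P g1 g2 b t x v := by
  apply Duh_le_of _ x v
    (fun s => ENNReal.ofReal (1 / s * (s / t) ^ b)) _ _ _ (lintegral_rpow_le hb ht)
  · fun_prop
  · intro s hs
    have hs0 := hs.1
    rw [ENNReal.ofReal_mul (by positivity), mul_assoc]
    gcongr
    exact B2_flight P hg hs.1 hs.2.le x v

/-- real-variable lemma: with `θ(s) ≤ Θ - (t-s)`, `s ≤ θ(s)`:
`θ⁻¹ min(1,θ/ρ)^b ≤ ρ⁻¹` and, if `Θ ≤ ρ`, `≤ (Θ-(t-s))^{b-1}/ρ^b` -/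
theorem f_le_inv {θ ρ b : ℝ} (hθ : 0 < θ) (hρ : 0 < ρ) (hb : 1 ≤ b) :
    θ⁻¹ * (min 1 (θ / ρ)) ^ b ≤ ρ⁻¹ := by
  have h0 : 0 ≤ min 1 (θ / ρ) := le_min zero_le_one (by positivity)
  have h1 : (min 1 (θ / ρ)) ^ b ≤ min 1 (θ / ρ) := by
    have h00 : 0 < min 1 (θ / ρ) := lt_min zero_lt_one (by positivity)
    have := Real.rpow_le_rpow_of_exponent_ge h00 (min_le_left _ _) hb
    rwa [Real.rpow_one] at this
  have h2 : min 1 (θ / ρ) ≤ θ / ρ := min_le_right _ _
  calc θ⁻¹ * (min 1 (θ / ρ)) ^ b ≤ θ⁻¹ * (θ / ρ) := by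
        apply mul_le_mul_of_nonneg_left (h1.trans h2) (by positivity)
    _ = ρ⁻¹ := by field_simp

theorem f_le_pow {θ θ' ρ b : ℝ} (hθ : 0 < θ) (hθ' : θ ≤ θ') (hρ : 0 < ρ) (hb : 1 ≤ b) :
    θ⁻¹ * (min 1 (θ / ρ)) ^ b ≤ θ' ^ (b - 1) / ρ ^ b := by
  have h0 : 0 ≤ min 1 (θ / ρ) := le_min zero_le_one (by positivity)
  have h1 : (min 1 (θ / ρ)) ^ b ≤ (θ / ρ) ^ b :=
    Real.rpow_le_rpow h0 (min_le_right _ _) (by linarith)
  calc θ⁻¹ * (min 1 (θ / ρ)) ^ b ≤ θ⁻¹ * (θ / ρ) ^ b :=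
        mul_le_mul_of_nonneg_left h1 (by positivity)
    _ = θ ^ (b - 1) / ρ ^ b := by
        rw [Real.div_rpow hθ.le hρ.le, Real.rpow_sub hθ, Real.rpow_one]
        field_simp
    _ ≤ θ' ^ (b - 1) / ρ ^ b := by
        apply div_le_div_of_nonneg_right _ (by positivity)
        exact Real.rpow_le_rpow hθ.le hθ' (by linarith)

/-- the rate integral -/
theorem lintegral_rate {Lam b ρ t : ℝ} (hL : 0 < Lam) (hb : 1 ≤ b) (hρ : 0 < ρ) (ht : 0 < t)
    (x : P2) (v : R3) :
    ∫⁻ s in Ioo 0 t, ENNReal.ofReal ((Th Lam s (x - (t - s) • bar v) v)⁻¹ *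
        (min 1 (Th Lam s (x - (t - s) • bar v) v / ρ)) ^ b) ≤
      ENNReal.ofReal ((1 / b + t / ρ) * (min 1 (Th Lam t x v / ρ)) ^ b) := by
  set Θ := Th Lam t x v with hΘ
  have hb0 : 0 < b := by linarith
  have hΘt : t ≤ Θ := le_Th hL.le x v
  have hΘ0 : 0 < Θ := lt_of_lt_of_le ht hΘt
  have hTs : ∀ s ∈ Ioo 0 t, 0 < Th Lam s (x - (t - s) • bar v) v := fun s hs =>
    lt_of_lt_of_le hs.1 (le_Th hL.le _ v)
  have hTs' : ∀ s ∈ Ioo 0 t, Th Lam s (x - (t - s) • bar v) v ≤ Θ - (t - s) := by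
    intro s hs
    have := Th_flight hL hs.1.le hs.2.le x v
    linarith
  rcases le_or_gt Θ ρ with hc | hc
  · -- power regime
    have h1 : ∀ s ∈ Ioo 0 t, ENNReal.ofReal ((Th Lam s (x - (t - s) • bar v) v)⁻¹ *
        (min 1 (Th Lam s (x - (t - s) • bar v) v / ρ)) ^ b) ≤
        ENNReal.ofReal ((s + (Θ - t)) ^ (b - 1) / ρ ^ b) := by
      intro s hs
      apply ENNReal.ofReal_le_ofReal
      apply f_le_pow (hTs s hs) _ hρ hb
      have := hTs' s hs
      linarith
    refine (setLIntegral_mono' measurableSet_Ioo h1).trans ?_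
    have hcont : IntervalIntegrable (fun s : ℝ => (s + (Θ - t)) ^ (b - 1) / ρ ^ b) volume 0 t := by
      apply ContinuousOn.intervalIntegrable
      apply ContinuousOn.div_const
      apply ContinuousOn.rpow_const (by fun_prop)
      intro s _
      right; linarith
    have h2 : ∫⁻ s in Ioo 0 t, ENNReal.ofReal ((s + (Θ - t)) ^ (b - 1) / ρ ^ b) =
        ENNReal.ofReal (∫ s in (0 : ℝ)..t, (s + (Θ - t)) ^ (b - 1) / ρ ^ b) := by
      rw [intervalIntegrable_iff_integrableOn_Ioc_of_le ht.le] at hcont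
      rw [intervalIntegral.integral_of_le ht.le, restrict_Ioo_eq_restrict_Ioc]
      rw [ofReal_integral_eq_lintegral_ofReal hcont]
      rw [Filter.EventuallyLE, ae_restrict_iff' measurableSet_Ioc]
      filter_upwards with s hs
      have h3 : 0 ≤ s + (Θ - t) := by linarith [hs.1]
      positivity
    rw [h2]
    apply ENNReal.ofReal_le_ofReal
    rw [intervalIntegral.integral_div]
    have h4 : ∫ s in (0 : ℝ)..t, (s + (Θ - t)) ^ (b - 1) = (Θ ^ b - (Θ - t) ^ b) / b := by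
      rw [intervalIntegral.integral_comp_add_right (fun s : ℝ => s ^ (b - 1)) (Θ - t)]
      rw [integral_rpow (Or.inl (by linarith))]
      simp
    rw [h4]
    have h5 : min 1 (Θ / ρ) = Θ / ρ := min_eq_right (by rw [div_le_one hρ]; exact hc)
    rw [h5, Real.div_rpow hΘ0.le hρ.le]
    have h6 : 0 ≤ (Θ - t) ^ b := Real.rpow_nonneg (by linarith) _
    have h7 : 0 < ρ ^ b := Real.rpow_pos_of_pos hρ _
    have h8 : 0 < Θ ^ b := Real.rpow_pos_of_pos hΘ0 _
    calc (Θ ^ b - (Θ - t) ^ b) / b / ρ ^ b ≤ Θ ^ b / b / ρ ^ b := by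
          gcongr; linarith
      _ = 1 / b * (Θ ^ b / ρ ^ b) := by field_simp
      _ ≤ (1 / b + t / ρ) * (Θ ^ b / ρ ^ b) := by
          apply mul_le_mul_of_nonneg_right _ (by positivity)
          have : 0 ≤ t / ρ := by positivity
          linarith
  · have h1 : ∀ s ∈ Ioo 0 t, ENNReal.ofReal ((Th Lam s (x - (t - s) • bar v) v)⁻¹ *
        (min 1 (Th Lam s (x - (t - s) • bar v) v / ρ)) ^ b) ≤ ENNReal.ofReal ρ⁻¹ := by
      intro s hs
      apply ENNReal.ofReal_le_ofReal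
      exact f_le_inv (hTs s hs) hρ hb
    refine (setLIntegral_mono' measurableSet_Ioo h1).trans ?_
    have h5 : min 1 (Θ / ρ) = 1 := min_eq_left (by rw [one_le_div hρ]; exact hc.le)
    rw [h5, Real.one_rpow, mul_one]
    simp only [lintegral_const, Measure.restrict_apply MeasurableSet.univ, univ_inter,
      Real.volume_Ioo, sub_zero]
    rw [← ENNReal.ofReal_mul (by positivity)]
    apply ENNReal.ofReal_le_ofReal
    have h9 : 0 ≤ 1 / b := by positivity
    have : ρ⁻¹ * t = t / ρ := by field_simp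
    rw [this]; linarith

theorem measurable_Th (Lam : ℝ) : Measurable fun p : ℝ × P2 × R3 => Th Lam p.1 p.2.1 p.2.2 := by
  unfold Th
  have := measurable_distG
  fun_prop

/-- sources with the fuel rate: `ρ(s,x) Θ(s,x,v) ≤ C1 (1 + s|v|²)`. -/
theorem Duh_rate_B1 (P : Par) {Lam rh g b T C1 : ℝ} (hL : 0 < Lam) (hb : 1 ≤ b) (hrh : 0 < rh)
    (hC1 : 0 ≤ C1)
    (ρ : ℝ → P2 → ℝ)
    (hρ : ∀ s x v, 0 < s → s ≤ T → ρ s x * Th Lam s x v ≤ C1 * (1 + s * ‖v‖ ^ 2))
    {t : ℝ} (ht : 0 < t) (htT : t ≤ T) (x : P2) (v : R3) :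
    Duh (fun s x v => ENNReal.ofReal (ρ s x) * B1 P Lam rh g b s x v) t x v ≤
      ENNReal.ofReal (C1 * (1 / b + T / rh ^ 2 + 400 * √T)) * B1 P Lam rh g b t x v := by
  have hb0 : 0 < b := by linarith
  have hrh2 : 0 < rh ^ 2 := by positivity
  set Θ := Th Lam t x v with hΘ
  set Φ : ℝ := (min 1 (Θ / rh ^ 2)) ^ b with hΦ
  have hTs : ∀ s ∈ Ioo 0 t, 0 < Th Lam s (x - (t - s) • bar v) v := fun s hs =>
    lt_of_lt_of_le hs.1 (le_Th hL.le _ v)
  have hΦ0 : 0 ≤ Φ := Real.rpow_nonneg (minTh_nonneg hL.le ht.le x v) _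
  have hmain : Duh (fun s x v => ENNReal.ofReal (ρ s x) * B1 P Lam rh g b s x v) t x v ≤
      ENNReal.ofReal (C1 * (1 / b + T / rh ^ 2 + 400 * √T) * Φ) *
        (ENNReal.ofReal (gau g t v) * Dm P t x v) := by
    apply Duh_le_of _ x v
      (fun s => ENNReal.ofReal C1 * ENNReal.ofReal ((Th Lam s (x - (t - s) • bar v) v)⁻¹ *
          (min 1 (Th Lam s (x - (t - s) • bar v) v / rh ^ 2)) ^ b) +
        ENNReal.ofReal (C1 * Φ) *
          ENNReal.ofReal (‖v‖ ^ 2 * Real.exp (-((√t - √s) / 100) * ‖v‖ ^ 2))) _ _ _ _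
    · have h1 : Measurable fun s : ℝ => Th Lam s (x - (t - s) • bar v) v := by
        have hm : Measurable fun s : ℝ => (s, x - (t - s) • bar v, v) := by fun_prop
        exact (measurable_Th Lam).comp hm
      fun_prop
    · intro s hs
      have hT0 := hTs s hs
      set θ := Th Lam s (x - (t - s) • bar v) v with hθ
      have hρs := hρ s (x - (t - s) • bar v) v hs.1 (hs.2.le.trans htT)
      rw [← hθ] at hρs
      have hρ1 : ρ s (x - (t - s) • bar v) ≤ C1 * (1 + s * ‖v‖ ^ 2) * θ⁻¹ := by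
        rw [← div_eq_mul_inv, le_div_iff₀ hT0]; exact hρs
      have hmin : 0 ≤ (min 1 (θ / rh ^ 2)) ^ b :=
        Real.rpow_nonneg (le_min zero_le_one (by positivity)) _
      have hminΦ : (min 1 (θ / rh ^ 2)) ^ b ≤ Φ := minTh_flight hL hb0.le hs.1.le hs.2.le x v
      have hsθ : s * θ⁻¹ ≤ 1 := by
        rw [← div_eq_mul_inv, div_le_one hT0]
        exact le_Th hL.le _ v
      rw [B1_eq, b1, ← hθ, gau_flight (s := s) (t := t) v]
      set e := Real.exp (-((√t - √s) / 100) * ‖v‖ ^ 2) with he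
      have he0 : 0 < e := Real.exp_pos _
      have he1 : e ≤ 1 := exp_absorb_le_one hs.2.le v
      have hg0 := gau_pos g t v
      have hreal : ρ s (x - (t - s) • bar v) * ((min 1 (θ / rh ^ 2)) ^ b * (gau g t v * e)) ≤
          (C1 * (θ⁻¹ * (min 1 (θ / rh ^ 2)) ^ b) + C1 * Φ * (‖v‖ ^ 2 * e)) * gau g t v := by
        have h1 : ρ s (x - (t - s) • bar v) * ((min 1 (θ / rh ^ 2)) ^ b * (gau g t v * e)) ≤
            C1 * (1 + s * ‖v‖ ^ 2) * θ⁻¹ * ((min 1 (θ / rh ^ 2)) ^ b * (gau g t v * e)) :=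
          mul_le_mul_of_nonneg_right hρ1 (by positivity)
        refine h1.trans ?_
        have h2 : C1 * (1 + s * ‖v‖ ^ 2) * θ⁻¹ * ((min 1 (θ / rh ^ 2)) ^ b * (gau g t v * e)) =
            (C1 * (θ⁻¹ * (min 1 (θ / rh ^ 2)) ^ b) * e +
              C1 * ((s * θ⁻¹) * (min 1 (θ / rh ^ 2)) ^ b) * (‖v‖ ^ 2 * e)) * gau g t v := by ring
        rw [h2]
        apply mul_le_mul_of_nonneg_right _ hg0.le
        apply add_le_add
        · exact mul_le_of_le_one_right (by positivity) he1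
        · apply mul_le_mul_of_nonneg_right _ (by positivity)
          apply mul_le_mul_of_nonneg_left _ hC1
          calc s * θ⁻¹ * (min 1 (θ / rh ^ 2)) ^ b ≤ 1 * Φ := by
                apply mul_le_mul hsθ hminΦ hmin zero_le_one
            _ = Φ := one_mul _
      rcases le_or_gt 0 (ρ s (x - (t - s) • bar v)) with hρ0 | hρ0
      · rw [← mul_assoc, ← ENNReal.ofReal_mul hρ0]
        have hD := Dm_flight P hs.1.le hs.2.le x v
        calc _ ≤ ENNReal.ofReal ((C1 * (θ⁻¹ * (min 1 (θ / rh ^ 2)) ^ b) +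
              C1 * Φ * (‖v‖ ^ 2 * e)) * gau g t v) * Dm P t x v :=
              mul_le_mul' (ENNReal.ofReal_le_ofReal hreal) hD
          _ = _ := by
              rw [ENNReal.ofReal_mul (by positivity), ENNReal.ofReal_add (by positivity)
                (by positivity), ENNReal.ofReal_mul hC1, ENNReal.ofReal_mul (p := C1 * Φ)
                (by positivity)]
              ring
      · rw [ENNReal.ofReal_of_nonpos hρ0.le, zero_mul]
        exact bot_le
    · rw [lintegral_add_left]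
      · rw [lintegral_const_mul' _ _ ENNReal.ofReal_ne_top,
          lintegral_const_mul' _ _ ENNReal.ofReal_ne_top]
        have h1 := lintegral_rate hL hb hrh2 ht x v
        have h2 := lintegral_absorb_sq ht v
        have hsq : √t ≤ √T := Real.sqrt_le_sqrt htT
        calc _ ≤ ENNReal.ofReal C1 * ENNReal.ofReal ((1 / b + t / rh ^ 2) * Φ) +
              ENNReal.ofReal (C1 * Φ) * ENNReal.ofReal (200 * √t) := by gcongr
          _ = ENNReal.ofReal (C1 * ((1 / b + t / rh ^ 2) * Φ) + C1 * Φ * (200 * √t)) := by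
              rw [← ENNReal.ofReal_mul hC1, ← ENNReal.ofReal_mul (by positivity),
                ← ENNReal.ofReal_add (by positivity) (by positivity)]
          _ ≤ _ := by
              apply ENNReal.ofReal_le_ofReal
              have hCΦ : 0 ≤ C1 * Φ := by positivity
              have h3 : C1 * ((1 / b + t / rh ^ 2) * Φ) + C1 * Φ * (200 * √t) =
                  (C1 * Φ) * (1 / b + t / rh ^ 2 + 200 * √t) := by ring
              have h4 : C1 * (1 / b + T / rh ^ 2 + 400 * √T) * Φ =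
                  (C1 * Φ) * (1 / b + T / rh ^ 2 + 400 * √T) := by ring
              rw [h3, h4]
              apply mul_le_mul_of_nonneg_left _ hCΦ
              have h5 : t / rh ^ 2 ≤ T / rh ^ 2 := by gcongr
              have h6 : 0 ≤ √T := Real.sqrt_nonneg _
              linarith
      · have h1 : Measurable fun s : ℝ => Th Lam s (x - (t - s) • bar v) v := by
          have hm : Measurable fun s : ℝ => (s, x - (t - s) • bar v, v) := by fun_prop
          exact (measurable_Th Lam).comp hm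
        fun_prop
  refine hmain.trans (le_of_eq ?_)
  have hT0 : 0 < T := lt_of_lt_of_le ht htT
  rw [B1_eq, b1, ENNReal.ofReal_mul (by positivity), ← hΘ, ← hΦ, ENNReal.ofReal_mul hΦ0]
  ring

end Crest.Agent.R68.K
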