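import Crest.Agent.R68.CNewt2
import Crest.Agent.R68.K3
import Crest.Agent.R68.K1a
import Crest.Agent.R68.NHyp
import Crest.Agent.R68.A3Main
import Crest.Agent.R68.IKInp
import Crest.Agent.R68.Defs
import Crest.Agent.R68.FDat2
import Crest.Agent.R68.NAlg
import Crest.Agent.R68.IKOut
import Crest.Agent.R68.KWarm
import Crest.Agent.R68.Main0
import Crest.Agent.R68.CSize4
import Crest.Agent.R68.CGauss
import Crest.Agent.R68.A2

-- ▼ part R68/A3Zone
section

/-!
# Row 68, PART A (helper418): sources born in collisions with the fuel, envelope `B1`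
-/

set_option autoImplicit false
open MeasureTheory Set
open scoped ENNReal
open Crest.AnalysisR.VecCalc3 Crest.AnalysisR.PDE.Boltzmann

noncomputable section

namespace Crest.Agent.R68.A

open Crest.Agent.R68.Fuel

variable {P : Par}

/-- at most one image is visible on `[0,T]` -/
theorem vis_sub (h : P.Ok) {T : ℝ}
    (hT : (1 + P.Y) * P.dl + (P.c + P.Y + etaj P.p P.j0) * T < 7 / 20) {t : ℝ} (ht : 0 ≤ t)
    (htT : t ≤ T) (x : P2) : (vis P t x).Subsingleton := by
  apply vis_subsingleton h ht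
  refine lt_of_le_of_lt ?_ hT
  have h1 := h.c0
  have h2 := h.Y0
  have h3 : 0 ≤ etaj P.p P.j0 := (etaj_pos _ _).le
  gcongr

/-- the density rate in the zone -/
theorem rho_cases (h : P.Ok) (hY : 1 ≤ P.Y) {T : ℝ}
    (hT : (1 + P.Y) * P.dl + (P.c + P.Y + etaj P.p P.j0) * T < 7 / 20) {t : ℝ} (ht : 0 < t)
    (htT : t ≤ T) (x : P2) :
    C.rho P t x = 0 ∨ ∃ k : ℤ × ℤ, |lab P t (x + latt k)| ≤ 2 * P.dl ∧
      |(x + latt k).2| ≤ 2 * P.Y * (t + rr (lab P t (x + latt k))) ∧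
      C.rho P t x ≤ ENNReal.ofReal (P.K / (t + rr (lab P t (x + latt k)))) := by
  have hs := vis_sub h hT ht.le htT x
  rcases hs.eq_empty_or_singleton with he | ⟨k, hk⟩
  · left
    unfold C.rho
    rw [he]; simp
  · right
    have hkm : k ∈ vis P t x := by rw [hk]; exact mem_singleton k
    have hz := C.vis_zone h hY ht.le hkm
    refine ⟨k, hz.1, hz.2, ?_⟩
    apply C.rho_le_of_zone hs
    intro l hl
    rw [hk, mem_singleton_iff] at hl
    subst hl
    unfold dens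
    have hr := rr_nonneg (lab P t (x + latt l))
    have hK := h.K0
    have hc := h.c0
    have hd := Ok.dlp h
    apply div_le_div_of_nonneg_left hK (by positivity)
    have h1 : 0 ≤ P.c * t / P.dl := by positivity
    nlinarith

theorem rho_ne_top (h : P.Ok) (hY : 1 ≤ P.Y) {T : ℝ}
    (hT : (1 + P.Y) * P.dl + (P.c + P.Y + etaj P.p P.j0) * T < 7 / 20) {t : ℝ} (ht : 0 < t)
    (htT : t ≤ T) (x : P2) : C.rho P t x ≠ ⊤ := by
  rcases rho_cases h hY hT ht htT x with h1 | ⟨k, -, -, h3⟩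
  · rw [h1]; simp
  · exact ne_top_of_le_ne_top ENNReal.ofReal_ne_top h3


/-- the fuel rate against `Θ` -/
theorem rho_mul_Th (h : P.Ok) (hY : 1 ≤ P.Y) {T Lam : ℝ} (hT1 : T ≤ 1) (hL : 100 * P.Y ^ 2 ≤ Lam)
    (hT : (1 + P.Y) * P.dl + (P.c + P.Y + etaj P.p P.j0) * T < 7 / 20) {t : ℝ} (ht : 0 < t)
    (htT : t ≤ T) (x : P2) (v : R3) :
    (C.rho P t x).toReal * Th Lam t x v ≤ 2 * P.K * (1 + t * ‖v‖ ^ 2) := by
  have hK := h.K0
  have hL0 : 0 ≤ Lam := by nlinarith
  have hTh := K.Th_nonneg hL0 ht.le x v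
  rcases rho_cases h hY hT ht htT x with h1 | ⟨k, h1, h2, h3⟩
  · rw [h1, ENNReal.toReal_zero, zero_mul]; positivity
  · set r := rr (lab P t (x + latt k)) with hr
    have hr0 : 0 ≤ r := rr_nonneg _
    have hle : (C.rho P t x).toReal ≤ P.K / (t + r) :=
      ENNReal.toReal_le_of_le_ofReal (by positivity) h3
    have hj : 2 ≤ P.j0 := le_trans (by norm_num) h.j0
    have hTh2 := K.Th_fuel P hY h.c0.le h.c1 hj hL ht.le (htT.trans hT1) x k v h1 h2
    calc (C.rho P t x).toReal * Th Lam t x v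
        ≤ P.K / (t + r) * ((t + r) * (2 + t * ‖v‖ ^ 2)) :=
          mul_le_mul hle hTh2 hTh (by positivity)
      _ = P.K * (2 + t * ‖v‖ ^ 2) := by field_simp
      _ ≤ 2 * P.K * (1 + t * ‖v‖ ^ 2) := by
          have : 0 ≤ P.K * (t * ‖v‖ ^ 2) := by positivity
          linarith

/-- in the fuel zone `Θ` is small -/
theorem Th_small_of_rho (h : P.Ok) (hY : 1 ≤ P.Y) {T Lam : ℝ} (hT1 : T ≤ 1)
    (hL : 100 * P.Y ^ 2 ≤ Lam)
    (hT : (1 + P.Y) * P.dl + (P.c + P.Y + etaj P.p P.j0) * T < 7 / 20) {t : ℝ} (ht : 0 < t)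
    (htT : t ≤ T) (x : P2) (v : R3) (hne : C.rho P t x ≠ 0) :
    Th Lam t x v ≤ (T + 4 * P.dl ^ 2) * (2 + ‖v‖ ^ 2) := by
  rcases rho_cases h hY hT ht htT x with h1 | ⟨k, h1, h2, h3⟩
  · exact absurd h1 hne
  · have hj : 2 ≤ P.j0 := le_trans (by norm_num) h.j0
    have hTh2 := K.Th_fuel P hY h.c0.le h.c1 hj hL ht.le (htT.trans hT1) x k v h1 h2
    have hd := Ok.dlp h
    have hr : rr (lab P t (x + latt k)) ≤ 4 * P.dl ^ 2 := by
      unfold rr
      rw [← sq_abs]
      calc |lab P t (x + latt k)| ^ 2 ≤ (2 * P.dl) ^ 2 := pow_le_pow_left₀ (abs_nonneg _) h1 2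
        _ = _ := by ring
    have hr0 : 0 ≤ rr (lab P t (x + latt k)) := rr_nonneg _
    have hT0 : 0 < T := lt_of_lt_of_le ht htT
    refine hTh2.trans (mul_le_mul (by linarith) ?_ (by positivity) (by positivity))
    have : t * ‖v‖ ^ 2 ≤ 1 * ‖v‖ ^ 2 := by
      gcongr
      exact htT.trans hT1
    linarith

/-- **(c)** Duhamel integral of a source born in collisions with the fuel -/
theorem Duh_fuel_B1 (h : P.Ok) (hY : 1 ≤ P.Y) {T Lam rh g b Cq : ℝ} (hT1 : T ≤ 1)
    (hL : 100 * P.Y ^ 2 ≤ Lam) (hb : 1 ≤ b) (hrh : 0 < rh) (hC : 0 ≤ Cq)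
    (hT : (1 + P.Y) * P.dl + (P.c + P.Y + etaj P.p P.j0) * T < 7 / 20)
    {q : ℝ → P2 → R3 → ℝ≥0∞}
    (hq : ∀ s, 0 < s → s < T → ∀ y z,
      q s y z ≤ ENNReal.ofReal Cq * C.rho P s y * B1 P Lam rh g b s y z)
    {t : ℝ} (ht : 0 < t) (htT : t ≤ T) (x : P2) (v : R3) :
    Duh q t x v ≤
      ENNReal.ofReal (2 * P.K * Cq * (1 / b + T / rh ^ 2 + 400 * √T)) * B1 P Lam rh g b t x v := by
  have hK := h.K0
  have hL0 : 0 < Lam := by nlinarith
  have h1 := K.Duh_rate_B1 P (g := g) hL0 hb hrh (C1 := 2 * P.K * Cq) (by positivity)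
    (fun s y => Cq * (C.rho P s y).toReal) (T := T) (fun s y z hs hsT => by
      have h2 := rho_mul_Th h hY hT1 hL hT hs hsT y z
      calc Cq * (C.rho P s y).toReal * Th Lam s y z
          = Cq * ((C.rho P s y).toReal * Th Lam s y z) := by ring
        _ ≤ Cq * (2 * P.K * (1 + s * ‖z‖ ^ 2)) := by gcongr
        _ = _ := by ring) ht htT x v
  refine le_trans ?_ h1
  unfold Duh
  refine setLIntegral_mono' measurableSet_Ioo fun s hs => ?_
  refine (hq s hs.1 (lt_of_lt_of_le hs.2 htT) _ _).trans (le_of_eq ?_)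
  show _ = ENNReal.ofReal (Cq * (C.rho P s (x - (t - s) • bar v)).toReal) * _
  rw [ENNReal.ofReal_mul hC, ENNReal.ofReal_toReal
    (rho_ne_top h hY hT hs.1 (hs.2.le.trans htT) _)]

/-- `(2+r)^b e^{-hr} ≤ e^{2h} (b/h)^b` -/
theorem poly_exp_le {r b h : ℝ} (hr : 0 ≤ r) (hb : 0 < b) (hh : 0 < h) :
    (2 + r) ^ b * Real.exp (-(h * r)) ≤ Real.exp (2 * h) * (b / h) ^ b := by
  have h1 : h * (2 + r) / b ≤ Real.exp (h * (2 + r) / b) := by
    have := Real.add_one_le_exp (h * (2 + r) / b); linarith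
  have h2 : (h * (2 + r) / b) ^ b ≤ Real.exp (h * (2 + r)) := by
    calc (h * (2 + r) / b) ^ b ≤ (Real.exp (h * (2 + r) / b)) ^ b :=
          Real.rpow_le_rpow (by positivity) h1 hb.le
      _ = Real.exp (h * (2 + r)) := by rw [← Real.exp_mul, div_mul_cancel₀ _ hb.ne']
  have h3 : (2 + r) ^ b = (h * (2 + r) / b) ^ b * (b / h) ^ b := by
    rw [← Real.mul_rpow (by positivity) (by positivity)]
    congr 1
    field_simp
  rw [h3]
  calc (h * (2 + r) / b) ^ b * (b / h) ^ b * Real.exp (-(h * r))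
      ≤ Real.exp (h * (2 + r)) * (b / h) ^ b * Real.exp (-(h * r)) := by gcongr
    _ = (Real.exp (h * (2 + r)) * Real.exp (-(h * r))) * (b / h) ^ b := by ring
    _ = Real.exp (2 * h) * (b / h) ^ b := by
        rw [← Real.exp_add]
        congr 2
        ring

/-- Duhamel integral of a source born in collisions with the fuel: smallness in a weaker norm -/
theorem Duh_fuel_small (h : P.Ok) (hY : 1 ≤ P.Y) {T Lam rh g g' b Cq ε : ℝ} (hT1 : T ≤ 1)
    (hL : 100 * P.Y ^ 2 ≤ Lam) (hb : 1 ≤ b) (hrh : 0 < rh) (hC : 0 ≤ Cq) (hg : g' < g)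
    (hT : (1 + P.Y) * P.dl + (P.c + P.Y + etaj P.p P.j0) * T < 7 / 20)
    (hε : T + 4 * P.dl ^ 2 ≤ ε * rh ^ 2)
    {q : ℝ → P2 → R3 → ℝ≥0∞}
    (hq : ∀ s, 0 < s → s < T → ∀ y z,
      q s y z ≤ ENNReal.ofReal Cq * C.rho P s y * B1 P Lam rh g b s y z)
    {t : ℝ} (ht : 0 < t) (htT : t ≤ T) (x : P2) (v : R3) :
    Duh q t x v ≤
      ENNReal.ofReal (2 * P.K * Cq * ε ^ b *
        (Real.exp (2 * (g - g')) * (b / (g - g')) ^ b)) *
        (ENNReal.ofReal (gau g' t v) * Dm P t x v) := by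
  have hK := h.K0
  have hL0 : 0 < Lam := by nlinarith
  have hgg : 0 < g - g' := by linarith
  have hd := Ok.dlp h
  have hT0 : 0 < T := lt_of_lt_of_le ht htT
  have hε0 : 0 ≤ ε := by
    have : 0 ≤ ε * rh ^ 2 := le_trans (by positivity) hε
    exact nonneg_of_mul_nonneg_left this (by positivity)
  set Cb : ℝ := Real.exp (2 * (g - g')) * (b / (g - g')) ^ b with hCb
  have hCb0 : 0 ≤ Cb := by positivity
  have key : ∀ s ∈ Ioo 0 t, q s (x - (t - s) • bar v) v ≤
      ENNReal.ofReal (2 * P.K * Cq * ε ^ (b - 1) * Cb / rh ^ 2) *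
        (ENNReal.ofReal (gau g' t v) * Dm P t x v) := by
    intro s hs
    set y := x - (t - s) • bar v with hy
    have hsT : s < T := lt_of_lt_of_le hs.2 htT
    refine (hq s hs.1 hsT y v).trans ?_
    by_cases h0 : C.rho P s y = 0
    · rw [h0]; simp
    have hTh0 : 0 ≤ Th Lam s y v := K.Th_nonneg hL0.le hs.1.le y v
    have h1 := rho_mul_Th h hY hT1 hL hT hs.1 hsT.le y v
    have h2 := Th_small_of_rho h hY hT1 hL hT hs.1 hsT.le y v h0
    have hne := rho_ne_top h hY hT hs.1 hsT.le y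
    have hm0 : 0 ≤ min 1 (Th Lam s y v / rh ^ 2) := le_min zero_le_one (by positivity)
    set m := min 1 (Th Lam s y v / rh ^ 2) with hm
    have hm1 : m ≤ Th Lam s y v / rh ^ 2 := min_le_right _ _
    have hm2 : m ≤ ε * (2 + ‖v‖ ^ 2) := by
      refine hm1.trans ?_
      rw [div_le_iff₀ (by positivity)]
      calc Th Lam s y v ≤ (T + 4 * P.dl ^ 2) * (2 + ‖v‖ ^ 2) := h2
        _ ≤ (ε * rh ^ 2) * (2 + ‖v‖ ^ 2) := by gcongr
        _ = _ := by ring
    have hmb : m ^ b ≤ Th Lam s y v / rh ^ 2 * (ε * (2 + ‖v‖ ^ 2)) ^ (b - 1) := by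
      rcases hm0.eq_or_lt with h3 | h3
      · rw [← h3, Real.zero_rpow (by linarith)]
        positivity
      · have : m ^ b = m * m ^ (b - 1) := by
          rw [Real.rpow_sub h3, Real.rpow_one]
          field_simp
        rw [this]
        apply mul_le_mul hm1 (Real.rpow_le_rpow hm0 hm2 (by linarith)) (by positivity)
          (by positivity)
    have hsv : s * ‖v‖ ^ 2 ≤ ‖v‖ ^ 2 := by
      have : s * ‖v‖ ^ 2 ≤ 1 * ‖v‖ ^ 2 := by gcongr; linarith
      linarith
    have hreal : (C.rho P s y).toReal * m ^ b ≤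
        2 * P.K * ε ^ (b - 1) / rh ^ 2 * (2 + ‖v‖ ^ 2) ^ b := by
      have h2v : (0 : ℝ) < 2 + ‖v‖ ^ 2 := by positivity
      calc (C.rho P s y).toReal * m ^ b
          ≤ (C.rho P s y).toReal * (Th Lam s y v / rh ^ 2 * (ε * (2 + ‖v‖ ^ 2)) ^ (b - 1)) := by
            gcongr
        _ = ((C.rho P s y).toReal * Th Lam s y v) / rh ^ 2 *
            (ε * (2 + ‖v‖ ^ 2)) ^ (b - 1) := by ring
        _ ≤ (2 * P.K * (1 + s * ‖v‖ ^ 2)) / rh ^ 2 * (ε * (2 + ‖v‖ ^ 2)) ^ (b - 1) := by gcongr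
        _ ≤ (2 * P.K * (2 + ‖v‖ ^ 2)) / rh ^ 2 * (ε * (2 + ‖v‖ ^ 2)) ^ (b - 1) := by
            gcongr
            linarith
        _ = 2 * P.K * ε ^ (b - 1) / rh ^ 2 * ((2 + ‖v‖ ^ 2) * (2 + ‖v‖ ^ 2) ^ (b - 1)) := by
            rw [Real.mul_rpow hε0 h2v.le]; ring
        _ = _ := by
            congr 1
            rw [Real.rpow_sub h2v, Real.rpow_one]
            field_simp
    have hgau : (2 + ‖v‖ ^ 2) ^ b * gau g s v ≤ Cb * gau g' t v := by
      have h4 : gau g s v ≤ Real.exp (-((g - g') * ‖v‖ ^ 2)) * gau g' t v := by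
        unfold gau
        rw [← Real.exp_add]
        apply Real.exp_le_exp.2
        have h5 : √s ≤ √t := Real.sqrt_le_sqrt hs.2.le
        nlinarith [sq_nonneg ‖v‖, mul_le_mul_of_nonneg_right h5 (sq_nonneg ‖v‖)]
      have h6 : 0 ≤ gau g' t v := (Real.exp_pos _).le
      calc (2 + ‖v‖ ^ 2) ^ b * gau g s v
          ≤ (2 + ‖v‖ ^ 2) ^ b * (Real.exp (-((g - g') * ‖v‖ ^ 2)) * gau g' t v) := by gcongr
        _ = ((2 + ‖v‖ ^ 2) ^ b * Real.exp (-((g - g') * ‖v‖ ^ 2))) * gau g' t v := by ring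
        _ ≤ Cb * gau g' t v := by
            gcongr
            exact poly_exp_le (sq_nonneg _) (by linarith) hgg
    have hfin : Cq * ((C.rho P s y).toReal * (m ^ b * gau g s v)) ≤
        2 * P.K * Cq * ε ^ (b - 1) * Cb / rh ^ 2 * gau g' t v := by
      have h6 : 0 ≤ gau g s v := (Real.exp_pos _).le
      calc Cq * ((C.rho P s y).toReal * (m ^ b * gau g s v))
          = Cq * (((C.rho P s y).toReal * m ^ b) * gau g s v) := by ring
        _ ≤ Cq * ((2 * P.K * ε ^ (b - 1) / rh ^ 2 * (2 + ‖v‖ ^ 2) ^ b) * gau g s v) := by gcongr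
        _ = 2 * P.K * Cq * ε ^ (b - 1) / rh ^ 2 * ((2 + ‖v‖ ^ 2) ^ b * gau g s v) := by ring
        _ ≤ 2 * P.K * Cq * ε ^ (b - 1) / rh ^ 2 * (Cb * gau g' t v) := by gcongr
        _ = _ := by ring
    have hmb0 : 0 ≤ m ^ b := Real.rpow_nonneg hm0 _
    have hg0 : 0 ≤ gau g s v := (Real.exp_pos _).le
    calc ENNReal.ofReal Cq * C.rho P s y * B1 P Lam rh g b s y v
        = ENNReal.ofReal (Cq * ((C.rho P s y).toReal * (m ^ b * gau g s v))) *
            Dm P s y v := by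
          rw [ENNReal.ofReal_mul hC, ENNReal.ofReal_mul ENNReal.toReal_nonneg,
            ENNReal.ofReal_toReal hne]
          unfold B1
          rw [← hm]
          ring
      _ ≤ ENNReal.ofReal (2 * P.K * Cq * ε ^ (b - 1) * Cb / rh ^ 2 * gau g' t v) *
            Dm P t x v := by
          gcongr
          exact K.Dm_flight P hs.1.le hs.2.le x v
      _ = _ := by
          rw [ENNReal.ofReal_mul (by positivity), mul_assoc]
  unfold Duh
  calc ∫⁻ s in Ioo 0 t, q s (x - (t - s) • bar v) v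
      ≤ ∫⁻ _ in Ioo 0 t, ENNReal.ofReal (2 * P.K * Cq * ε ^ (b - 1) * Cb / rh ^ 2) *
        (ENNReal.ofReal (gau g' t v) * Dm P t x v) := setLIntegral_mono' measurableSet_Ioo key
    _ = ENNReal.ofReal (2 * P.K * Cq * ε ^ (b - 1) * Cb / rh ^ 2 * t) *
        (ENNReal.ofReal (gau g' t v) * Dm P t x v) := by
        rw [setLIntegral_const, Real.volume_Ioo, sub_zero, ENNReal.ofReal_mul (by positivity)]
        ring
    _ ≤ _ := by
        refine mul_le_mul' (ENNReal.ofReal_le_ofReal ?_) le_rfl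
        have h7 : t ≤ ε * rh ^ 2 := by
          have : 0 ≤ 4 * P.dl ^ 2 := by positivity
          linarith
        have hε1 : 0 < ε := by
          rcases hε0.eq_or_lt with h8 | h8
          · rw [← h8, zero_mul] at h7; linarith
          · exact h8
        calc 2 * P.K * Cq * ε ^ (b - 1) * Cb / rh ^ 2 * t
            ≤ 2 * P.K * Cq * ε ^ (b - 1) * Cb / rh ^ 2 * (ε * rh ^ 2) := by gcongr
          _ = 2 * P.K * Cq * (ε ^ (b - 1) * ε) * Cb := by field_simp
          _ = 2 * P.K * Cq * ε ^ b * Cb := by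
            congr 2
            rw [Real.rpow_sub hε1, Real.rpow_one]
            field_simp

end Crest.Agent.R68.A
end
end

-- ▼ part R68/KC2
section

/-!
# R68 / KC2 (helper819): `B1 ≤ C (t+|x|)^β Z_{g0}` and absorption of powers of `|x|/t` in `EE`
-/

set_option autoImplicit false
open MeasureTheory Set Filter
open scoped ENNReal Topology
open Crest.AnalysisR.VecCalc3 Crest.AnalysisR.PDE.Boltzmann

noncomputable section

namespace Crest.Agent.R68.KC

open Crest.Agent.R68.N (tx Zg EE)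

variable {P : Par}

/-- `(1 + c m)^b e^{-κ m²}` is bounded -/
theorem exists_poly_exp {κ : ℝ} (hκ : 0 < κ) (b : ℝ) (hb : 0 ≤ b) :
    ∃ C : ℝ, 0 < C ∧ ∀ m : ℝ, 0 ≤ m → (1 + m) ^ b * Real.exp (-κ * m ^ 2) ≤ C := by
  obtain ⟨n, hn⟩ := exists_nat_ge b
  -- (1+m)^n e^{-κ m²} ≤ (1+m)^n n!/(κ' (1+m))^n * e^{κ'(1+m) - κ m²}
  refine ⟨(n.factorial : ℝ) * Real.exp (1 + 1 / (4 * κ)), by positivity, fun m hm => ?_⟩
  have h1 : (1 + m) ^ b ≤ (1 + m) ^ (n : ℝ) :=
    Real.rpow_le_rpow_of_exponent_le (by linarith) hn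
  rw [Real.rpow_natCast] at h1
  have h2 : (1 + m) ^ n ≤ n.factorial * Real.exp (1 + m) := by
    have := Real.pow_div_factorial_le_exp (1 + m) (by positivity) n
    rw [div_le_iff₀ (by positivity)] at this
    linarith
  have h3 : Real.exp (1 + m) * Real.exp (-κ * m ^ 2) ≤ Real.exp (1 + 1 / (4 * κ)) := by
    rw [← Real.exp_add]
    apply Real.exp_le_exp.2
    have h4 : m - κ * m ^ 2 ≤ 1 / (4 * κ) := by
      rw [le_div_iff₀ (by positivity)]
      nlinarith [sq_nonneg (2 * κ * m - 1)]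
    linarith
  calc (1 + m) ^ b * Real.exp (-κ * m ^ 2)
      ≤ (n.factorial * Real.exp (1 + m)) * Real.exp (-κ * m ^ 2) :=
        mul_le_mul_of_nonneg_right (h1.trans h2) (Real.exp_pos _).le
    _ = n.factorial * (Real.exp (1 + m) * Real.exp (-κ * m ^ 2)) := by ring
    _ ≤ _ := mul_le_mul_of_nonneg_left h3 (by positivity)

theorem gau_split (γ g0 t : ℝ) (v : R3) :
    gau γ t v = gau g0 t v * Real.exp (-(γ - g0) * ‖v‖ ^ 2) := by
  unfold gau
  rw [← Real.exp_add]
  congr 1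
  ring

/-- `Θ ≤ (t+|x|)(1 + 2(1+|v|)²/Λ)` -/
theorem Th_le {Lam t : ℝ} (hL : 0 < Lam) (ht : 0 ≤ t) (ht1 : t ≤ 1) (x : P2) (v : R3) :
    Th Lam t x v ≤ (t + distG x) * (1 + 2 * (1 + ‖v‖) ^ 2 / Lam) := by
  have hd0 := distG_nonneg x
  have hd1 := distG_le_one x
  have hv := norm_nonneg v
  unfold Th
  have h1 : (distG x + t * ‖v‖) ^ 2 ≤ (t + distG x) * (2 * (1 + ‖v‖) ^ 2) := by
    have h2 : distG x + t * ‖v‖ ≤ (t + distG x) * (1 + ‖v‖) := by nlinarith
    have h3 : (distG x + t * ‖v‖) ^ 2 ≤ ((t + distG x) * (1 + ‖v‖)) ^ 2 :=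
      pow_le_pow_left₀ (by positivity) h2 2
    have h4 : (t + distG x) ^ 2 ≤ 2 * (t + distG x) := by nlinarith
    have h5 : ((t + distG x) * (1 + ‖v‖)) ^ 2 = (t + distG x) ^ 2 * (1 + ‖v‖) ^ 2 := by ring
    rw [h5] at h3
    have h6 := mul_le_mul_of_nonneg_right h4 (sq_nonneg (1 + ‖v‖))
    linarith
  have h7 : (distG x + t * ‖v‖) ^ 2 / Lam ≤ (t + distG x) * (2 * (1 + ‖v‖) ^ 2 / Lam) := by
    rw [← mul_div_assoc]
    exact div_le_div_of_nonneg_right h1 hL.le
  nlinarith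

/-- **621's item**: `B1 ≤ C (t+|x|)^β Z_{g0}` for `g0 < γ`, `β ≤ b` -/
theorem B1_le_Zg {Lam rh γ g0 b β : ℝ} (hL : 0 < Lam) (hr : 0 < rh) (hg : g0 < γ) (hb : 0 ≤ b)
    (hβ : β ≤ b) (hβ0 : 0 ≤ β) :
    ∃ C : ℝ≥0∞, C ≠ ⊤ ∧ ∀ t : ℝ, 0 ≤ t → t ≤ 1 → ∀ (x : P2) (v : R3),
      B1 P Lam rh γ b t x v ≤ C * tx β t x * Zg P g0 t x v := by
  obtain ⟨C0, hC0, hC⟩ := exists_poly_exp (sub_pos.2 hg) (2 * b) (by positivity)
  set A : ℝ := ((1 + 2 / Lam) / rh ^ 2) ^ b * 2 ^ (b - β) with hA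
  have hA0 : 0 ≤ A := by positivity
  refine ⟨ENNReal.ofReal (A * C0), ENNReal.ofReal_ne_top, fun t ht ht1 x v => ?_⟩
  have hd0 := distG_nonneg x
  have hd1 := distG_le_one x
  have hv := norm_nonneg v
  unfold B1 tx Zg
  rw [← mul_assoc, ← ENNReal.ofReal_mul (by positivity), ← ENNReal.ofReal_mul (by positivity)]
  refine mul_le_mul_left (ENNReal.ofReal_le_ofReal ?_) _
  have hTh0 : 0 ≤ Th Lam t x v := by unfold Th; positivity
  have h1 : (min 1 (Th Lam t x v / rh ^ 2)) ^ b ≤ A * (t + distG x) ^ β * (1 + ‖v‖) ^ (2 * b) := by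
    have h2 : min 1 (Th Lam t x v / rh ^ 2) ≤
        ((1 + 2 / Lam) / rh ^ 2) * ((t + distG x) * (1 + ‖v‖) ^ 2) := by
      refine (min_le_right _ _).trans ?_
      rw [div_le_iff₀ (by positivity)]
      have h3 : ((1 + 2 / Lam) / rh ^ 2) * ((t + distG x) * (1 + ‖v‖) ^ 2) * rh ^ 2 =
          (1 + 2 / Lam) * ((t + distG x) * (1 + ‖v‖) ^ 2) := by field_simp
      rw [h3]
      refine (Th_le hL ht ht1 x v).trans ?_
      have h4 : (1 : ℝ) ≤ (1 + ‖v‖) ^ 2 := by nlinarith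
      have h5 : 1 + 2 * (1 + ‖v‖) ^ 2 / Lam ≤ (1 + 2 / Lam) * (1 + ‖v‖) ^ 2 := by
        have : 2 * (1 + ‖v‖) ^ 2 / Lam = 2 / Lam * (1 + ‖v‖) ^ 2 := by ring
        rw [this]; linarith
      calc (t + distG x) * (1 + 2 * (1 + ‖v‖) ^ 2 / Lam)
          ≤ (t + distG x) * ((1 + 2 / Lam) * (1 + ‖v‖) ^ 2) :=
            mul_le_mul_of_nonneg_left h5 (by positivity)
        _ = _ := by ring
    have h6 : 0 ≤ min 1 (Th Lam t x v / rh ^ 2) := le_min zero_le_one (by positivity)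
    refine (Real.rpow_le_rpow h6 h2 hb).trans ?_
    rw [Real.mul_rpow (by positivity) (by positivity), Real.mul_rpow (by positivity) (by positivity)]
    have h7 : ((1 + ‖v‖) ^ 2) ^ b = (1 + ‖v‖) ^ (2 * b) := by
      rw [← Real.rpow_natCast, ← Real.rpow_mul (by positivity)]; norm_num
    rw [h7]
    have h8 : (t + distG x) ^ b ≤ 2 ^ (b - β) * (t + distG x) ^ β := by
      rcases (by positivity : 0 ≤ t + distG x).eq_or_lt with h9 | h9
      · rw [← h9]
        rcases hb.eq_or_lt with h10 | h10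
        · have h11 : β = 0 := le_antisymm (by rw [h10]; exact hβ) hβ0
          rw [← h10, h11]; norm_num
        · rw [Real.zero_rpow h10.ne']; positivity
      · have h10 : (t + distG x) ^ b = (t + distG x) ^ (b - β) * (t + distG x) ^ β := by
          rw [← Real.rpow_add h9]; congr 1; ring
        rw [h10]
        apply mul_le_mul_of_nonneg_right _ (by positivity)
        exact Real.rpow_le_rpow (by positivity) (by linarith) (by linarith)
    calc ((1 + 2 / Lam) / rh ^ 2) ^ b * ((t + distG x) ^ b * (1 + ‖v‖) ^ (2 * b))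
        ≤ ((1 + 2 / Lam) / rh ^ 2) ^ b * ((2 ^ (b - β) * (t + distG x) ^ β) * (1 + ‖v‖) ^ (2 * b)) := by
          gcongr
      _ = _ := by rw [hA]; ring
  rw [gau_split γ g0]
  have h20 := hC ‖v‖ hv
  have h21 : 0 ≤ gau g0 t v := (Real.exp_pos _).le
  calc (min 1 (Th Lam t x v / rh ^ 2)) ^ b * (gau g0 t v * Real.exp (-(γ - g0) * ‖v‖ ^ 2))
      ≤ (A * (t + distG x) ^ β * (1 + ‖v‖) ^ (2 * b)) *
        (gau g0 t v * Real.exp (-(γ - g0) * ‖v‖ ^ 2)) :=
        mul_le_mul_of_nonneg_right h1 (by positivity)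
    _ = A * (t + distG x) ^ β * gau g0 t v *
        ((1 + ‖v‖) ^ (2 * b) * Real.exp (-(γ - g0) * ‖v‖ ^ 2)) := by ring
    _ ≤ A * (t + distG x) ^ β * gau g0 t v * C0 :=
        mul_le_mul_of_nonneg_left h20 (by positivity)
    _ = _ := by ring


end Crest.Agent.R68.KC
end
end

-- ▼ part R68/A3Inst
section

/-!
# Row 68, PART A (helper418): `AInp` for the envelope `B1`
-/

set_option autoImplicit false
open MeasureTheory Set Filter
open scoped ENNReal Topology Real
open Crest.AnalysisR.VecCalc3 Crest.AnalysisR.PDE.Boltzmann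

noncomputable section

namespace Crest.Agent.R68.A

open Crest.Agent.R68.N
open Crest.Agent.R68.DPole (ParD)
open Crest.Agent.R68.KC (WSz CN Cm CN_pos Cm_pos newt_coldS_le mass_coldS_le coldS_supp
  measurable_phiE phiE_supp Lc_cold' ev_mul ParD_of_Ok)
open Crest.Agent.R68.C (newt)

/-- measurable version of `B1` -/
def Wb (P : Par) (Lam rh g b : ℝ) : Fld := fun t x v =>
  ENNReal.ofReal ((min 1 (Th Lam t x v / rh ^ 2)) ^ b * gau g t v) *
    (if 0 ≤ t then Dm P t x v else 1)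

theorem Wb_eq (P : Par) (Lam rh g b : ℝ) {t : ℝ} (ht : 0 ≤ t) (x : P2) (v : R3) :
    Wb P Lam rh g b t x v = B1 P Lam rh g b t x v := by
  unfold Wb B1
  rw [if_pos ht]

theorem Wb_slice (P : Par) (Lam rh g b : ℝ) {t : ℝ} (ht : 0 ≤ t) (x : P2) :
    Wb P Lam rh g b t x = B1 P Lam rh g b t x := funext fun v => Wb_eq P Lam rh g b ht x v

theorem meas3_Wb {P : Par} (hY : 0 < P.Y) (Lam rh g b : ℝ) : Meas3 (Wb P Lam rh g b) := by
  have h1 := K.measurable_Th Lam
  have h2 := DPole.measurable_Dm (P := P) hY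
  unfold Meas3 Wb
  refine Measurable.mul ?_ h2
  unfold gau
  refine ENNReal.measurable_ofReal.comp (Measurable.mul ?_ ?_)
  · exact ((measurable_const.min (h1.div_const _)).pow_const b)
  · fun_prop

/-- constant of Part A -/
def cKA (P : Par) (g : ℝ) : ℝ :=
  K4.CC P.Y g g (P.Y + 5) * (2 * CN P) + 2 * π * (P.Y + 5) * (2 * Cm P) + K4.CQ P.Y g + K4.CL P.Y g

/-- constant of the fuel gain -/
def cqA (Y g : ℝ) : ℝ := K4.CC Y g g (Y + 5) * 288

/-- constant of the spill against `B1` -/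
def cWA (Lam b q : ℝ) : ℝ := 2 ^ q * (1 + (2 * (1 + Lam)) ^ b)

theorem cqA_nonneg (Y g : ℝ) : 0 ≤ cqA Y g := by
  have := K4.CC_nonneg Y g g (Y + 5)
  unfold cqA; positivity

theorem tx_le {q : ℝ} (hq : 0 ≤ q) {t : ℝ} (ht : 0 ≤ t) (ht1 : t ≤ 1) (x : P2) :
    tx q t x ≤ ENNReal.ofReal (2 ^ q) := by
  unfold tx
  refine ENNReal.ofReal_le_ofReal (Real.rpow_le_rpow ?_ ?_ hq)
  · have := distG_nonneg x; linarith
  · have := distG_le_one x; linarith

/-- `(t+|x|)^q e^{-|v|²} ≤ C B1` -/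
theorem tx_mul_exp_le_B1 (P : Par) {Lam rh g b q : ℝ} (hL : 0 < Lam) (hrh : 0 < rh) (hrh1 : rh ≤ 1)
    (hb : 0 ≤ b) (hg : g ≤ 1) (hq : 2 * b ≤ q) {t : ℝ} (ht : 0 ≤ t) (ht1 : t ≤ 1) (x : P2) (v : R3) :
    tx q t x * ENNReal.ofReal (Real.exp (-‖v‖ ^ 2)) ≤
      ENNReal.ofReal (cWA Lam b q) * B1 P Lam rh g b t x v := by
  have hd0 := distG_nonneg x
  have hd1 := distG_le_one x
  have hv := norm_nonneg v
  have hTh0 : 0 ≤ Th Lam t x v := K.Th_nonneg hL.le ht x v
  have hbase : (t + distG x) ^ 2 ≤ 2 * (1 + Lam) * Th Lam t x v := by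
    have h1 : t ≤ Th Lam t x v := K.le_Th hL.le x v
    have h2 : distG x ^ 2 ≤ Lam * Th Lam t x v := by
      unfold Th
      rw [mul_add, mul_div_cancel₀ _ hL.ne']
      have h3 : 0 ≤ Lam * t := by positivity
      have h4 : distG x ^ 2 ≤ (distG x + t * ‖v‖) ^ 2 := by
        apply pow_le_pow_left₀ hd0
        have : 0 ≤ t * ‖v‖ := by positivity
        linarith
      linarith
    nlinarith [sq_nonneg (t - distG x)]
  have hmain : (t + distG x) ^ q ≤ cWA Lam b q * (min 1 (Th Lam t x v / rh ^ 2)) ^ b := by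
    have hs : 0 ≤ t + distG x := by positivity
    have hq0 : 0 ≤ q := by linarith
    have hC1 : (1 : ℝ) ≤ 1 + (2 * (1 + Lam)) ^ b := by
      have : 0 ≤ (2 * (1 + Lam)) ^ b := by positivity
      linarith
    unfold cWA
    rcases le_or_gt 1 (Th Lam t x v / rh ^ 2) with h3 | h3
    · rw [min_eq_left h3, Real.one_rpow, mul_one]
      calc (t + distG x) ^ q ≤ 2 ^ q := Real.rpow_le_rpow hs (by linarith) hq0
        _ ≤ 2 ^ q * (1 + (2 * (1 + Lam)) ^ b) := le_mul_of_one_le_right (by positivity) hC1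
    · rw [min_eq_right h3.le]
      rcases hs.eq_or_lt with h5 | h5
      · rw [← h5]
        rcases hq0.eq_or_lt with h6 | h6
        · have hb0 : b = 0 := by linarith
          rw [← h6, hb0]
          simp only [Real.rpow_zero]
          norm_num
        · rw [Real.zero_rpow h6.ne']
          positivity
      · have e1 : (t + distG x) ^ q = (t + distG x) ^ (q - 2 * b) * ((t + distG x) ^ 2) ^ b := by
          rw [← Real.rpow_natCast (t + distG x) 2, ← Real.rpow_mul h5.le, ← Real.rpow_add h5]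
          congr 1
          push_cast
          ring
        have e2 : (t + distG x) ^ (q - 2 * b) ≤ 2 ^ q := by
          calc (t + distG x) ^ (q - 2 * b) ≤ 2 ^ (q - 2 * b) :=
                Real.rpow_le_rpow h5.le (by linarith) (by linarith)
            _ ≤ 2 ^ q := Real.rpow_le_rpow_of_exponent_le (by norm_num) (by linarith)
        have e3 : Th Lam t x v ≤ Th Lam t x v / rh ^ 2 := by
          rw [le_div_iff₀ (by positivity)]
          have : rh ^ 2 ≤ 1 := pow_le_one₀ hrh.le hrh1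
          nlinarith
        rw [e1]
        calc (t + distG x) ^ (q - 2 * b) * ((t + distG x) ^ 2) ^ b
            ≤ 2 ^ q * (2 * (1 + Lam) * Th Lam t x v) ^ b := by gcongr
          _ = 2 ^ q * ((2 * (1 + Lam)) ^ b * (Th Lam t x v) ^ b) := by
              rw [Real.mul_rpow (by positivity) hTh0]
          _ ≤ 2 ^ q * ((1 + (2 * (1 + Lam)) ^ b) * (Th Lam t x v / rh ^ 2) ^ b) := by
              gcongr
              linarith
          _ = _ := by ring
  have h3 : Real.exp (-‖v‖ ^ 2) ≤ gau g t v := by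
    unfold gau
    apply Real.exp_le_exp.2
    have : 0 ≤ √t := Real.sqrt_nonneg t
    nlinarith [sq_nonneg ‖v‖, mul_nonneg this (sq_nonneg ‖v‖)]
  have hC0 : 0 ≤ cWA Lam b q := by unfold cWA; positivity
  have hm0 : 0 ≤ (min 1 (Th Lam t x v / rh ^ 2)) ^ b :=
    Real.rpow_nonneg (le_min zero_le_one (by positivity)) _
  unfold tx
  calc ENNReal.ofReal ((t + distG x) ^ q) * ENNReal.ofReal (Real.exp (-‖v‖ ^ 2))
      = ENNReal.ofReal ((t + distG x) ^ q * Real.exp (-‖v‖ ^ 2)) :=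
        (ENNReal.ofReal_mul (by positivity)).symm
    _ ≤ ENNReal.ofReal (cWA Lam b q * ((min 1 (Th Lam t x v / rh ^ 2)) ^ b * gau g t v)) := by
        apply ENNReal.ofReal_le_ofReal
        rw [← mul_assoc]
        exact mul_le_mul hmain h3 (Real.exp_pos _).le (by positivity)
    _ = ENNReal.ofReal (cWA Lam b q) *
        ENNReal.ofReal ((min 1 (Th Lam t x v / rh ^ 2)) ^ b * gau g t v) :=
        ENNReal.ofReal_mul hC0
    _ ≤ _ := by
        unfold B1
        gcongr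
        exact le_mul_of_one_le_right zero_le (K.one_le_Dm P t x v)

/-- the linear gain of `B1` -/
theorem Gf_B1_le {P : Par} (h : P.Ok) {Lam rh g b : ℝ} (hrh : 0 < rh) (hb : 1 ≤ b)
    (hg : 1 / 50 ≤ g) (hLb : 8 * b * (b + 1) ≤ g * Lam) {t : ℝ} (ht : 0 ≤ t) (ht1 : t ≤ 1)
    (x : P2) (v : R3) :
    Qp (phiE P t x) (B1 P Lam rh g b t x) v + Qp (B1 P Lam rh g b t x) (phiE P t x) v ≤
      ENNReal.ofReal (cqA P.Y g) * C.rho P t x * B1 P Lam rh g b t x v := by
  have hP := ParD_of_Ok h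
  have h1 := K4.Qp_cold_B1 hP ht ht1 (Lam := Lam) (rh := rh) (g := g) (b := b) (R := P.Y + 5) hg hrh
    hb hLb (c := phiE P t x) (measurable_phiE h t x) (fun y hy => phiE_supp h hy) x v
    (N := ENNReal.ofReal (144 * (1 + t)) * C.rho P t x) (C.newt_phi_le h ht x v)
  refine h1.trans ?_
  unfold cqA
  rw [ENNReal.ofReal_mul (K4.CC_nonneg _ _ _ _)]
  have h2 : ENNReal.ofReal (144 * (1 + t)) ≤ ENNReal.ofReal 288 :=
    ENNReal.ofReal_le_ofReal (by linarith)
  calc _ ≤ ENNReal.ofReal (K4.CC P.Y g g (P.Y + 5)) * (ENNReal.ofReal 288 * C.rho P t x) *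
        B1 P Lam rh g b t x v := by gcongr
    _ = _ := by ring

/-- **`AInp` for `B1`** -/
theorem aInp {P : Par} (h : P.Ok) (hY : 1 ≤ P.Y) {T Lam rh g b q : ℝ} (hT0 : 0 < T) (hT1 : T ≤ 1)
    (hT : (1 + P.Y) * P.dl + (P.c + P.Y + etaj P.p P.j0) * T < 7 / 20)
    (hW : WSz P T) (hWm : ∀ t x, Measurable (warm P t x))
    (hL : 100 * P.Y ^ 2 ≤ Lam) (hb : 1 ≤ b) (hg : 1 / 50 ≤ g) (hg1 : g ≤ 1)
    (hLb : 8 * b * (b + 1) ≤ g * Lam) (hrh : 0 < rh) (hrh1 : rh ≤ 1) (hq : 2 * b ≤ q) :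
    AInp P T (fun t x v => 2 * coldS P t x v) (Wb P Lam rh g b) q g (ENNReal.ofReal (cKA P g))
      (ENNReal.ofReal (cWA Lam b q))
      (ENNReal.ofReal (2 * P.K * cqA P.Y g * (1 / b + T / rh ^ 2 + 400 * √T)))
      (ENNReal.ofReal (16 * T ^ (3 / 4 : ℝ))) (ENNReal.ofReal (2 ^ q)) := by
  have hP := ParD_of_Ok h
  have hK := h.K0
  have hL0 : 0 < Lam := by nlinarith
  have hCN := (CN_pos h).le
  have hCm := (Cm_pos h).le
  have e2 := K4.CC_nonneg P.Y g g (P.Y + 5)
  have e3 := K4.CQ_nonneg P.Y g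
  have e5 := K4.CL_nonneg P.Y g
  have hR : 1 ≤ P.Y + 5 := by linarith
  have hπ := Real.pi_pos
  have p2 : 0 ≤ K4.CC P.Y g g (P.Y + 5) * (2 * CN P) := by positivity
  have p3 : 0 ≤ 2 * π * (P.Y + 5) * (2 * Cm P) := by positivity
  have p5 : 0 ≤ 2 * π * (P.Y + 5) := by positivity
  have hSm : ∀ t x, Measurable (fun v => 2 * coldS P t x v) := fun t x =>
    ((measurable_phiE h t x).add (hWm t x)).const_mul 2
  have hS0 : ∀ t ∈ Ioc 0 T, ∀ x v, P.Y + 5 < ‖v‖ → 2 * coldS P t x v = 0 := fun t ht x v hv => by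
    rw [coldS_supp h hW ht.1.le ht.2 hv, mul_zero]
  have hSN : ∀ t ∈ Ioc 0 T, ∀ x v, ∫⁻ u, 2 * coldS P t x u * ENNReal.ofReal ‖v - u‖⁻¹ ≤
      ENNReal.ofReal (2 * CN P / t) * Dm P t x v := fun t ht x v => by
    have h1 : ∫⁻ u, 2 * coldS P t x u * ENNReal.ofReal ‖v - u‖⁻¹ = 2 * newt (coldS P t x) v := by
      unfold C.newt
      rw [← lintegral_const_mul' _ _ (by norm_num)]
      exact lintegral_congr fun u => mul_assoc _ _ _
    rw [h1]
    calc 2 * newt (coldS P t x) v ≤ ENNReal.ofReal 2 * (ENNReal.ofReal (CN P / t) * Dm P t x v) := by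
          rw [show ENNReal.ofReal 2 = 2 by norm_num]
          exact mul_le_mul_right (newt_coldS_le h hT1 hW ht.1 ht.2 x v) _
      _ = _ := by
          rw [← mul_assoc, ← ENNReal.ofReal_mul (by norm_num), mul_div_assoc]
  have hSM : ∀ t ∈ Ioc 0 T, ∀ x, ∫⁻ u, 2 * coldS P t x u ≤ ENNReal.ofReal (2 * Cm P / t) :=
    fun t ht x => by
    rw [lintegral_const_mul' _ _ (by norm_num)]
    calc 2 * ∫⁻ u, coldS P t x u ≤ ENNReal.ofReal 2 * ENNReal.ofReal (Cm P / t) := by
          rw [show ENNReal.ofReal 2 = 2 by norm_num]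
          exact mul_le_mul_right (mass_coldS_le h hT1 hW ht.1 ht.2 x) _
      _ = _ := by rw [← ENNReal.ofReal_mul (by norm_num), mul_div_assoc]
  have hmono : ∀ {a : ℝ} {X : ℝ≥0∞}, a ≤ cKA P g →
      ENNReal.ofReal a * X ≤ ENNReal.ofReal (cKA P g) * X := fun ha =>
    mul_le_mul_left (ENNReal.ofReal_le_ofReal ha) _
  refine ⟨ENNReal.ofReal_ne_top, ENNReal.ofReal_ne_top, ENNReal.ofReal_ne_top,
    meas3_Wb h.Y0 _ _ _ _, fun t ht x => tx_le (by linarith) ht.1.le (ht.2.trans hT1) x,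
    ?_, ?_, ?_, ?_, ?_, ?_, ?_, ?_⟩
  · -- qMW
    intro t ht x v
    have ht1 : t ≤ 1 := ht.2.trans hT1
    have ht0 := ht.1
    rw [Wb_slice P Lam rh g b ht0.le x]
    have h1 := K4.Qp_cold_B1 hP ht.1.le ht1 (Lam := Lam) (rh := rh) (b := b) hg hrh hb hLb
      (hSm t x) (hS0 t ht x) x v (hSN t ht x v)
    refine le_self_add.trans (h1.trans ?_)
    rw [mul_assoc, mul_assoc]
    calc ENNReal.ofReal (K4.CC P.Y g g (P.Y + 5)) *
          (ENNReal.ofReal (2 * CN P / t) * B1 P Lam rh g b t x v)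
        = ENNReal.ofReal (K4.CC P.Y g g (P.Y + 5) * (2 * CN P)) *
          (ENNReal.ofReal (1 / t) * B1 P Lam rh g b t x v) := by
          rw [← mul_assoc, ← mul_assoc, ← ENNReal.ofReal_mul e2, ← ENNReal.ofReal_mul p2]
          congr 2
          ring
      _ ≤ _ := hmono (by unfold cKA; linarith)
  · -- lM
    intro t ht x v
    have ht0 := ht.1
    have h1 := Lc_cold' hR (hS0 t ht x) v
    refine h1.trans ?_
    calc ENNReal.ofReal (2 * π * (P.Y + 5)) * ev v * ∫⁻ u, 2 * coldS P t x u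
        ≤ ENNReal.ofReal (2 * π * (P.Y + 5)) * ev v * ENNReal.ofReal (2 * Cm P / t) :=
          mul_le_mul_right (hSM t ht x) _
      _ = ENNReal.ofReal (2 * π * (P.Y + 5)) * ENNReal.ofReal (2 * Cm P / t) * ev v := by ring
      _ = ENNReal.ofReal (2 * π * (P.Y + 5) * (2 * Cm P)) * (ENNReal.ofReal (1 / t) * ev v) := by
          rw [← mul_assoc, ← ENNReal.ofReal_mul p5, ← ENNReal.ofReal_mul p3]
          congr 2
          ring
      _ ≤ ENNReal.ofReal (cKA P g) * (ENNReal.ofReal (1 / t) * ev v) :=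
          hmono (by unfold cKA; linarith)
      _ = _ := by ring
  · -- qWW
    intro t ht x v
    rw [Wb_slice P Lam rh g b ht.1.le x]
    refine (K4.Qp_B1_B1 hP ht.1.le (ht.2.trans hT1) hg hrh hb hLb x v).trans ?_
    rw [ev_mul _ e3, mul_assoc, mul_assoc]
    exact hmono (by unfold cKA; linarith)
  · -- lW
    intro t ht x v
    rw [Wb_slice P Lam rh g b ht.1.le x]
    refine (K4.Lc_B1 hP ht.1.le (ht.2.trans hT1) hL0.le (by linarith) hg x v).trans ?_
    rw [ev_mul _ e5]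
    exact hmono (by unfold cKA; linarith)
  · -- sW
    intro t ht x v
    rw [Wb_eq P Lam rh g b ht.1.le x]
    exact tx_mul_exp_le_B1 P hL0 hrh hrh1 (by linarith) hg1 hq ht.1.le (ht.2.trans hT1) x v
  · -- WZ
    intro t ht x v
    rw [Wb_eq P Lam rh g b ht.1.le x]
    exact K4.B1_le_Zw P hL0.le ht.1.le (by linarith) x v
  · -- TW
    intro t ht x v
    rw [Wb_eq P Lam rh g b ht.1.le x]
    unfold TT
    refine (Dam_le_Duh _ _ t x v).trans ?_
    refine Duh_fuel_B1 h hY hT1 hL hb hrh (cqA_nonneg _ _) hT (fun s hs hsT y z => ?_) ht.1 ht.2 x v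
    unfold Gf
    rw [Wb_slice P Lam rh g b hs.le y]
    exact Gf_B1_le h hrh hb hg hLb hs.le (hsT.le.trans hT1) y z
  · -- ab
    intro t ht x v
    rw [Wb_eq P Lam rh g b ht.1.le x]
    have h1 := K.Duh_lin_B1 P (Lam := Lam) (rh := rh) (g := g) (b := b) hL0 (by linarith) ht.1
      (ht.2.trans hT1) x v
    have h2 : Duh (fun s y z => ev z * Wb P Lam rh g b s y z) t x v =
        Duh (fun s x v => ENNReal.ofReal (1 + ‖v‖) * B1 P Lam rh g b s x v) t x v := by
      unfold Duh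
      refine setLIntegral_congr_fun measurableSet_Ioo fun s hs => ?_
      simp only
      rw [Wb_eq P Lam rh g b hs.1.le, ENNReal.ofReal_add zero_le_one (norm_nonneg _),
        ENNReal.ofReal_one]
      rfl
    rw [h2]
    refine h1.trans ?_
    gcongr
    · exact ht.1.le
    · exact ht.2

end Crest.Agent.R68.A
end
end

-- ▼ part R68/A3Bg
section

/-!
# Row 68, PART A (helper418): the background datum and its envelope
-/

set_option autoImplicit false
open MeasureTheory Set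
open scoped ENNReal
open Crest.AnalysisR.VecCalc3 Crest.AnalysisR.PDE.Boltzmann

noncomputable section

namespace Crest.Agent.R68.A

open Crest.Agent.R68.Fuel (bg bg_le bg_nonneg)

theorem maxwellian_le_exp (v : R3) : maxwellian v ≤ Real.exp (-‖v‖ ^ 2 / 2) :=
  Fuel.maxwellian_le v

/-- the distance factor along a flight -/
theorem distG_flight_le {t : ℝ} (ht : 0 ≤ t) (x : P2) (v : R3) :
    distG (x - t • bar v) ≤ distG x + t * ‖v‖ := by
  have h := distG_le_add x (-(t • bar v))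
  rw [norm_neg, norm_smul, Real.norm_of_nonneg ht, ← sub_eq_add_neg] at h
  have h2 := mul_le_mul_of_nonneg_left (K.norm_bar_le v) ht
  linarith

/-- outside the transported hole `Θ ≥ r_h²/Λ` -/
theorem Th_lower {Lam t rh : ℝ} (hL : 0 < Lam) (ht : 0 ≤ t) (hrh : 0 < rh) (x : P2) (v : R3)
    (h : rh < distG (x - t • bar v)) : 1 / Lam ≤ Th Lam t x v / rh ^ 2 := by
  have h1 := distG_flight_le ht x v
  have h2 : rh < distG x + t * ‖v‖ := lt_of_lt_of_le h h1
  have h3 : rh ^ 2 ≤ (distG x + t * ‖v‖) ^ 2 := by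
    apply pow_le_pow_left₀ hrh.le h2.le
  unfold Th
  rw [div_le_div_iff₀ hL (by positivity), add_mul, div_mul_cancel₀ _ hL.ne']
  nlinarith

/-- **(a)** the freely transported background is below `Lam^b * B1` -/
theorem bg_le_B1 (P : Par) {Lam rh g b t R : ℝ} (hL : 1 ≤ Lam) (hrh : 0 < rh)
    (hb : 0 ≤ b) (hg : g ≤ 1 / 2) (ht : 0 ≤ t) (x : P2) (v : R3) :
    ENNReal.ofReal (bg rh R (x - t • bar v) v) ≤
      ENNReal.ofReal (Lam ^ b) * B1 P Lam rh g b t x v := by
  by_cases hin : ‖v‖ < R ∧ rh < distG (x - t • bar v)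
  · have hT := Th_lower (by linarith : 0 < Lam) ht hrh x v hin.2
    have hmin : 1 / Lam ≤ min 1 (Th Lam t x v / rh ^ 2) :=
      le_min (by rw [div_le_one (by linarith)]; exact hL) hT
    have hpow : (1 / Lam) ^ b ≤ (min 1 (Th Lam t x v / rh ^ 2)) ^ b :=
      Real.rpow_le_rpow (by positivity) hmin hb
    have hgau : Real.exp (-‖v‖ ^ 2 / 2) ≤ gau g t v := by
      unfold gau
      apply Real.exp_le_exp.2
      have : 0 ≤ √t := Real.sqrt_nonneg t
      nlinarith [sq_nonneg ‖v‖, mul_nonneg this (sq_nonneg ‖v‖)]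
    have h1 : bg rh R (x - t • bar v) v ≤
        Lam ^ b * ((min 1 (Th Lam t x v / rh ^ 2)) ^ b * gau g t v) := by
      have e1 : Lam ^ b * (1 / Lam) ^ b = 1 := by
        rw [← Real.mul_rpow (by linarith) (by positivity), mul_one_div_cancel (by linarith),
          Real.one_rpow]
      calc bg rh R (x - t • bar v) v ≤ maxwellian v := bg_le _ _ _ _
        _ ≤ Real.exp (-‖v‖ ^ 2 / 2) := maxwellian_le_exp v
        _ ≤ gau g t v := hgau
        _ = Lam ^ b * ((1 / Lam) ^ b * gau g t v) := by rw [← mul_assoc, e1, one_mul]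
        _ ≤ _ := by
          have : 0 ≤ gau g t v := (Real.exp_pos _).le
          gcongr
    calc ENNReal.ofReal (bg rh R (x - t • bar v) v)
        ≤ ENNReal.ofReal (Lam ^ b * ((min 1 (Th Lam t x v / rh ^ 2)) ^ b * gau g t v)) :=
          ENNReal.ofReal_le_ofReal h1
      _ = ENNReal.ofReal (Lam ^ b) *
          ENNReal.ofReal ((min 1 (Th Lam t x v / rh ^ 2)) ^ b * gau g t v) :=
          ENNReal.ofReal_mul (by positivity)
      _ ≤ ENNReal.ofReal (Lam ^ b) * B1 P Lam rh g b t x v := by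
          unfold B1
          gcongr
          exact le_mul_of_one_le_right zero_le (K.one_le_Dm P t x v)
  · have : bg rh R (x - t • bar v) v = 0 := by
      unfold bg
      rw [if_neg hin]
    rw [this, ENNReal.ofReal_zero]
    exact zero_le

end Crest.Agent.R68.A
end
end

-- ▼ part R68/IColdInp
section

/-!
# Row 68 (helper585): the cold component fulfils the hypotheses of Part N

`ColdOut P` collects the theorems of Part C (statements of `ColdIface`) for one `P`;
`coldInp` is the structure `N.ColdInp` with `Mc = 2 coldS`, `Wm = warm`, `V = Y + 5`,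
`q = p / 32`.
-/

set_option autoImplicit false
open MeasureTheory Set Filter
open scoped ENNReal Topology
open Crest.AnalysisR.VecCalc3 Crest.AnalysisR.PDE.Boltzmann

noncomputable section

namespace Crest.Agent.R68.N

open Crest.Agent.R68.A (en Meas3)

/-- the theorems of Part C, for one set of parameters -/
structure ColdOut (P : Par) : Prop where
  meas : ∀ lam : Fld, Meas3 lam → PerF lam → Meas3 (coldR P lam)
  measS : ∀ lam : Fld, Meas3 lam → PerF lam → Meas3 (coldSpill P lam)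
  measW : Meas3 (warm P)
  per : ∀ lam : Fld, Meas3 lam → PerF lam → PerF (coldR P lam)
  le : ∀ lam : Fld, Meas3 lam → PerF lam → ∀ t x v, 0 ≤ t →
    coldR P lam t x v ≤ phiE P t x v + ENNReal.ofReal (min t 1) * warm P t x v
  supp : ∀ t x v, 0 ≤ t → P.Y + 5 < ‖v‖ → warm P t x v = 0
  le_T1 : ∀ lam : Fld, Meas3 lam → PerF lam → ∀ t x v, 0 ≤ t → t ≤ P.dl ^ (3 / 8 : ℝ) →
    coldR P lam t x v ≤ phiE P t x v +
      ENNReal.ofReal (t * distG x ^ (P.p / 32)) * warm P t x v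
  phi_le : ∀ lam : Fld, Meas3 lam → PerF lam → ∀ t x v, 0 ≤ t → t ≤ P.dl ^ (3 / 8 : ℝ) →
    phiE P t x v ≤ coldR P lam t x v +
      (ENNReal.ofReal (t * distG x ^ (P.p / 32)) +
        ∫⁻ s in Ioo 0 t, lam s (x - (t - s) • bar v) v) * phiE P t x v
  lip : ∀ lam lam' g : Fld, Meas3 lam → PerF lam → Meas3 lam' → PerF lam' →
    ∀ (T : ℝ) (Δ : ℝ → P2 → ℝ≥0∞), T ≤ P.dl ^ (3 / 8 : ℝ) →
    (∀ t x v, 0 < t → t < T → ‖v‖ < P.Y + 3 → lam t x v ≤ lam' t x v + g t x v ∧
      lam' t x v ≤ lam t x v + g t x v) →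
    (∀ t x v, 0 < t → t ≤ T → ‖v‖ < P.Y + 3 →
      ∫⁻ s in Ioo 0 t, g s (x - (t - s) • bar v) v ≤ Δ t x) →
    (∀ s t x v, 0 < s → s ≤ t → t ≤ T → ‖v‖ < P.Y + 3 → Δ s (x - (t - s) • bar v) ≤ Δ t x) →
    ∀ t x v, 0 < t → t ≤ T →
      coldR P lam t x v ≤ coldR P lam' t x v + 2 * Δ t x * coldS P t x v ∧
      coldSpill P lam t x v ≤ coldSpill P lam' t x v +
        Δ t x * ENNReal.ofReal (distG x ^ (P.p / 32) * Real.exp (-‖v‖ ^ 2))

/-! ### periodicity and support of the majorants -/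

theorem perF_phiE (P : Par) : PerF (phiE P) := by
  intro t v x k
  show ENNReal.ofReal (phi P t (x + latt k) v) = ENNReal.ofReal (phi P t x v)
  congr 1
  exact Fuel.perG_phi P t v x k

theorem perF_coldSpill (P : Par) (lam : Fld) : PerF (coldSpill P lam) := by
  classical
  intro t v x l
  show coldSpill P lam t (x + latt l) v = coldSpill P lam t x v
  have h1 : ∀ i : (ℤ × ℤ) × ℕ, ∀ z, coldjk P lam i t (x + latt l) z =
      coldjk P lam (i.1 + l, i.2) t x z := by
    intro i z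
    unfold coldjk
    rw [add_assoc, ← latt_add, add_comm l i.1]
  have h2 : ∀ i : (ℤ × ℤ) × ℕ, coldjk P lam i t (x + latt l) =
      coldjk P lam (i.1 + l, i.2) t x := fun i => funext (h1 i)
  have h3 : ∀ i : (ℤ × ℤ) × ℕ, x + latt l + latt i.1 = x + latt (i.1 + l) := by
    intro i
    rw [add_assoc, ← latt_add, add_comm l i.1]
  unfold coldSpill
  let e : ((ℤ × ℤ) × ℕ) ≃ ((ℤ × ℤ) × ℕ) := (Equiv.addRight l).prodCongr (Equiv.refl ℕ)
  symm
  rw [← e.tsum_eq]
  refine tsum_congr fun i => ?_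
  rw [← e.tsum_eq]
  refine tsum_congr fun i' => ?_
  have e1 : ∀ i : (ℤ × ℤ) × ℕ, e i = (i.1 + l, i.2) := fun i => rfl
  rw [h2 i, h2 i', h3 i, e1, e1]
  have e2 : (i = i') ↔ (((i.1 + l, i.2) : (ℤ × ℤ) × ℕ) = (i'.1 + l, i'.2)) := by
    constructor
    · rintro rfl; rfl
    · intro h
      have ha := congrArg Prod.fst h
      have hb := congrArg Prod.snd h
      simp only at ha hb
      exact Prod.ext (add_right_cancel ha) hb
  refine Eq.trans ?_ (if_congr (⟨fun h => ⟨e2.2 h.1, h.2⟩, fun h => ⟨e2.1 h.1, h.2⟩⟩ :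
    ((((i.1 + l, i.2) : (ℤ × ℤ) × ℕ) = (i'.1 + l, i'.2)) ∧ t ≤ tauj P.p i.2 ∧
      Zj P i.2 1 t (x + latt (i.1 + l)) v) ↔ (i = i' ∧ t ≤ tauj P.p i.2 ∧
      Zj P i.2 1 t (x + latt (i.1 + l)) v)) rfl rfl)
  rfl

theorem phiE_zero (P : Par) (h : P.Ok) {t : ℝ} {x : P2} {v : R3} (hv : P.Y + 5 < ‖v‖) :
    phiE P t x v = 0 := by
  unfold phiE; rw [C.phi_eq_zero_of_norm h hv]; simp

theorem tx_ge (q : ℕ) {t : ℝ} (ht : 0 ≤ t) (x : P2) :
    ENNReal.ofReal (distG x ^ q) ≤ tx (q : ℝ) t x := by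
  unfold tx
  apply ENNReal.ofReal_le_ofReal
  rw [Real.rpow_natCast]
  exact pow_le_pow_left₀ (distG_nonneg x) (by linarith) q

/-- `∫_0^t Del ≤ t Del(t)` along flights -/
theorem lint_mono_fl {V T : ℝ} {Del : ℝ → P2 → ℝ≥0∞} (hD : MonoFl V T Del) {t : ℝ} (_ht : 0 < t)
    (htT : t ≤ T) (x : P2) {v : R3} (hv : ‖v‖ ≤ V) :
    ∫⁻ s in Ioo 0 t, Del s (x - (t - s) • bar v) ≤ ENNReal.ofReal t * Del t x := by
  calc ∫⁻ s in Ioo 0 t, Del s (x - (t - s) • bar v)
      ≤ ∫⁻ _ in Ioo 0 t, Del t x := by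
        refine setLIntegral_mono' measurableSet_Ioo fun s hs => ?_
        exact hD s t hs.1 hs.2.le htT x v hv
    _ = _ := by
        rw [lintegral_const, Measure.restrict_apply_univ, Real.volume_Ioo, sub_zero, mul_comm]

/-- **the hypotheses of Part N on the cold component** -/
theorem coldInp (P : Par) (h : P.Ok) (hC : ColdOut P) {T : ℝ} (hT : T ≤ P.dl ^ (3 / 8 : ℝ)) :
    ColdInp P T (P.Y + 5) (coldR P) (coldSpill P) (fun t x v => 2 * coldS P t x v)
      (warm P) 2 ((P.p / 32 : ℕ) : ℝ) where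
  measC := hC.meas
  measS := hC.measS
  perC := hC.per
  perS := fun lam _ _ => perF_coldSpill P lam
  measM := by
    have h1 : Meas3 (phiE P) := (Fuel.measurable_phi h).ennreal_ofReal
    exact (h1.add hC.measW).const_mul 2
  measW := hC.measW
  W_le := fun t _ x v => by
    show warm P t x v ≤ 2 * (phiE P t x v + warm P t x v)
    calc warm P t x v ≤ phiE P t x v + warm P t x v := le_add_self
      _ = 1 * (phiE P t x v + warm P t x v) := (one_mul _).symm
      _ ≤ _ := by gcongr; norm_num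
  CC_ne := by norm_num
  supp := fun t ht x v hv => by
    show 2 * (phiE P t x v + warm P t x v) = 0
    rw [hC.supp t x v ht.1.le hv, phiE_zero P h hv]
    simp
  phi_le := fun t _ x v => by
    show phiE P t x v ≤ 2 * (phiE P t x v + warm P t x v)
    calc phiE P t x v ≤ phiE P t x v + warm P t x v := le_self_add
      _ = 1 * (phiE P t x v + warm P t x v) := (one_mul _).symm
      _ ≤ _ := by gcongr; norm_num
  le := fun lam hm hp t ht x v => by
    show coldR P lam t x v ≤ 2 * (phiE P t x v + warm P t x v)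
    calc coldR P lam t x v ≤ phiE P t x v + ENNReal.ofReal (min t 1) * warm P t x v :=
          hC.le lam hm hp t x v ht.1.le
      _ ≤ phiE P t x v + 1 * warm P t x v := by
          gcongr
          rw [← ENNReal.ofReal_one]
          exact ENNReal.ofReal_le_ofReal (min_le_right _ _)
      _ = 1 * (phiE P t x v + warm P t x v) := by rw [one_mul, one_mul]
      _ ≤ _ := by gcongr; norm_num
  lip := fun lam lam' hm hp hm' hp' Del hDm hD hdd t ht x v => by
    have hL := hC.lip lam lam' (fun s y _ => Del s y) hm hp hm' hp' T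
      (fun t x => ENNReal.ofReal t * Del t x) hT
      (fun s y w hs0 hsT hw => dd_le_iff.1 (hdd s ⟨hs0, hsT.le⟩ y w (by linarith)))
      (fun s y w hs0 hsT hw => lint_mono_fl hD hs0 hsT y (by linarith))
      (fun s r y w hs0 hsr hrT hw => by
        gcongr
        exact hD s r hs0 hsr hrT y w (by linarith))
    have hL' := hC.lip lam' lam (fun s y _ => Del s y) hm' hp' hm hp T
      (fun t x => ENNReal.ofReal t * Del t x) hT
      (fun s y w hs0 hsT hw => (dd_le_iff.1 (hdd s ⟨hs0, hsT.le⟩ y w (by linarith))).symm)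
      (fun s y w hs0 hsT hw => lint_mono_fl hD hs0 hsT y (by linarith))
      (fun s r y w hs0 hsr hrT hw => by
        gcongr
        exact hD s r hs0 hsr hrT y w (by linarith))
    have key : ∀ c c' : ℝ≥0∞, c ≤ c' + 2 * (ENNReal.ofReal t * Del t x) * coldS P t x v →
        c ≤ c' + 2 * ENNReal.ofReal t * Del t x * (2 * coldS P t x v) := by
      intro c c' hc
      refine hc.trans ?_
      gcongr c' + ?_
      calc 2 * (ENNReal.ofReal t * Del t x) * coldS P t x v
          = 1 * (2 * ENNReal.ofReal t * Del t x * coldS P t x v) := by ring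
        _ ≤ 2 * (2 * ENNReal.ofReal t * Del t x * coldS P t x v) := by gcongr; norm_num
        _ = _ := by ring
    exact dd_le (key _ _ (hL t x v ht.1 ht.2).1) (key _ _ (hL' t x v ht.1 ht.2).1)
  lip0 := fun lam hm hp Del hDm hD hle t ht x v => by
    have hT1 : t ≤ P.dl ^ (3 / 8 : ℝ) := ht.2.trans hT
    have h1 := hC.le_T1 lam hm hp t x v ht.1.le hT1
    have h2 := hC.phi_le lam hm hp t x v ht.1.le hT1
    have htx := tx_ge (P.p / 32) ht.1.le x
    have hW : ∀ c : ℝ≥0∞, c * (ENNReal.ofReal t * ((Del t x + tx ((P.p / 32 : ℕ) : ℝ) t x) *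
        (2 * (phiE P t x v + warm P t x v)))) ≤
        c * ENNReal.ofReal t * ((Del t x + tx ((P.p / 32 : ℕ) : ℝ) t x) *
          (2 * coldS P t x v) + warm P t x v) := by
      intro c
      rw [mul_assoc]
      gcongr
      exact le_self_add
    have hc : ENNReal.ofReal (t * distG x ^ (P.p / 32)) ≤
        ENNReal.ofReal t * tx ((P.p / 32 : ℕ) : ℝ) t x := by
      rw [ENNReal.ofReal_mul ht.1.le]
      gcongr
    refine dd_le ?_ ?_
    · refine h1.trans ?_
      gcongr _ + ?_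
      calc ENNReal.ofReal (t * distG x ^ (P.p / 32)) * warm P t x v
          ≤ (ENNReal.ofReal t * tx ((P.p / 32 : ℕ) : ℝ) t x) * (phiE P t x v + warm P t x v) := by
            gcongr
            exact le_add_self
        _ = 1 * (ENNReal.ofReal t * (tx ((P.p / 32 : ℕ) : ℝ) t x *
            (1 * (phiE P t x v + warm P t x v)))) := by ring
        _ ≤ 2 * (ENNReal.ofReal t * ((Del t x + tx ((P.p / 32 : ℕ) : ℝ) t x) *
            (2 * (phiE P t x v + warm P t x v)))) := by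
            gcongr
            · norm_num
            · exact le_add_self
            · norm_num
        _ ≤ _ := hW 2
    · by_cases hv : ‖v‖ ≤ P.Y + 5
      · refine h2.trans ?_
        gcongr _ + ?_
        have h3 : ∫⁻ s in Ioo 0 t, lam s (x - (t - s) • bar v) v ≤ ENNReal.ofReal t * Del t x := by
          refine le_trans ?_ (lint_mono_fl hD ht.1 ht.2 x hv)
          refine setLIntegral_mono' measurableSet_Ioo fun s hs => ?_
          exact hle s ⟨hs.1, hs.2.le.trans ht.2⟩ _ v hv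
        calc (ENNReal.ofReal (t * distG x ^ (P.p / 32)) +
            ∫⁻ s in Ioo 0 t, lam s (x - (t - s) • bar v) v) * phiE P t x v
            ≤ (ENNReal.ofReal t * tx ((P.p / 32 : ℕ) : ℝ) t x + ENNReal.ofReal t * Del t x) *
              (phiE P t x v + warm P t x v) := by
              gcongr
              exact le_self_add
          _ = 1 * (ENNReal.ofReal t * ((Del t x + tx ((P.p / 32 : ℕ) : ℝ) t x) *
              (1 * (phiE P t x v + warm P t x v)))) := by ring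
          _ ≤ 2 * (ENNReal.ofReal t * ((Del t x + tx ((P.p / 32 : ℕ) : ℝ) t x) *
              (2 * (phiE P t x v + warm P t x v)))) := by
              gcongr
              · norm_num
              · norm_num
          _ ≤ _ := hW 2
      · rw [phiE_zero P h (not_le.1 hv)]
        exact zero_le
  spill := fun lam lam' hm hp hm' hp' Del hDm hD hdd t ht x v => by
    have hL := hC.lip lam lam' (fun s y _ => Del s y) hm hp hm' hp' T
      (fun t x => ENNReal.ofReal t * Del t x) hT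
      (fun s y w hs0 hsT hw => dd_le_iff.1 (hdd s ⟨hs0, hsT.le⟩ y w (by linarith)))
      (fun s y w hs0 hsT hw => lint_mono_fl hD hs0 hsT y (by linarith))
      (fun s r y w hs0 hsr hrT hw => by
        gcongr
        exact hD s r hs0 hsr hrT y w (by linarith))
    have hL' := hC.lip lam' lam (fun s y _ => Del s y) hm' hp' hm hp T
      (fun t x => ENNReal.ofReal t * Del t x) hT
      (fun s y w hs0 hsT hw => (dd_le_iff.1 (hdd s ⟨hs0, hsT.le⟩ y w (by linarith))).symm)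
      (fun s y w hs0 hsT hw => lint_mono_fl hD hs0 hsT y (by linarith))
      (fun s r y w hs0 hsr hrT hw => by
        gcongr
        exact hD s r hs0 hsr hrT y w (by linarith))
    have key : ∀ c c' : ℝ≥0∞, c ≤ c' + (ENNReal.ofReal t * Del t x) *
        ENNReal.ofReal (distG x ^ (P.p / 32) * Real.exp (-‖v‖ ^ 2)) →
        c ≤ c' + 2 * ENNReal.ofReal t * Del t x * tx ((P.p / 32 : ℕ) : ℝ) t x *
          ENNReal.ofReal (Real.exp (-‖v‖ ^ 2)) := by
      intro c c' hc
      refine hc.trans ?_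
      gcongr c' + ?_
      rw [ENNReal.ofReal_mul (pow_nonneg (distG_nonneg x) _)]
      calc (ENNReal.ofReal t * Del t x) * (ENNReal.ofReal (distG x ^ (P.p / 32)) *
            ENNReal.ofReal (Real.exp (-‖v‖ ^ 2)))
          ≤ (ENNReal.ofReal t * Del t x) * (tx ((P.p / 32 : ℕ) : ℝ) t x *
            ENNReal.ofReal (Real.exp (-‖v‖ ^ 2))) := by
            gcongr
            exact tx_ge _ ht.1.le x
        _ = 1 * (ENNReal.ofReal t * Del t x * tx ((P.p / 32 : ℕ) : ℝ) t x *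
            ENNReal.ofReal (Real.exp (-‖v‖ ^ 2))) := by ring
        _ ≤ 2 * (ENNReal.ofReal t * Del t x * tx ((P.p / 32 : ℕ) : ℝ) t x *
            ENNReal.ofReal (Real.exp (-‖v‖ ^ 2))) := by gcongr; norm_num
        _ = _ := by ring
    exact dd_le (key _ _ (hL t x v ht.1 ht.2).2) (key _ _ (hL' t x v ht.1 ht.2).2)

end Crest.Agent.R68.N
end
end

-- ▼ part R68/A3Close
section

/-!
# Row 68, PART A (helper418): closeness of the unburnt solution to the transported background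
-/

set_option autoImplicit false
open MeasureTheory Set Filter
open scoped ENNReal Topology Real
open Crest.AnalysisR.VecCalc3 Crest.AnalysisR.PDE.Boltzmann

noncomputable section

namespace Crest.Agent.R68.A

open Crest.Agent.R68.N
open Crest.Agent.R68.KC (WSz Lc_cold' ev_mul ParD_of_Ok measurable_phiE phiE_supp warm_supp
  newt_warm)
open Crest.Agent.R68.Fuel (vis)

/-- **(b')** the spill in the form `|x|^n e^{-|v|²}` against `B1` -/
theorem Duh_dist_pow_le (P : Par) {Lam rh g b : ℝ} {n : ℕ} (hL : 1 ≤ Lam) (hrh : 0 < rh)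
    (hrh1 : rh ≤ 1) (hb : 0 < b) (hn : 2 * b ≤ n) (hg : g ≤ 1) {t : ℝ} (ht : 0 ≤ t) (x : P2)
    (v : R3) :
    Duh (fun _ y z => ENNReal.ofReal (distG y ^ n * Real.exp (-‖z‖ ^ 2))) t x v ≤
      ENNReal.ofReal (t * (1 + Lam ^ b)) * B1 P Lam rh g b t x v := by
  set z := distG x + t * ‖v‖ with hz
  have hz0 : 0 ≤ z := by
    have := distG_nonneg x
    positivity
  set C : ℝ := 1 + Lam ^ b with hC
  have hC0 : 0 ≤ C := by positivity
  have hTh0 : 0 ≤ Th Lam t x v := K.Th_nonneg (by linarith) ht x v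
  have hzTh : z ^ 2 ≤ Lam * Th Lam t x v := by
    unfold Th
    rw [mul_add, mul_div_cancel₀ _ (by linarith : Lam ≠ 0)]
    have : 0 ≤ Lam * t := by positivity
    linarith
  have key : ∀ s ∈ Ioo 0 t, ENNReal.ofReal (distG (x - (t - s) • bar v) ^ n *
      Real.exp (-‖v‖ ^ 2)) ≤ ENNReal.ofReal C * B1 P Lam rh g b t x v := by
    intro s hs
    set y := x - (t - s) • bar v with hy
    have hy0 : 0 ≤ distG y := distG_nonneg y
    have hy1 : distG y ≤ 1 := distG_le_one y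
    have hyz : distG y ≤ z := by
      have h := distG_le_add x (-((t - s) • bar v))
      rw [norm_neg, norm_smul, Real.norm_of_nonneg (by linarith [hs.2]), ← sub_eq_add_neg] at h
      have h2 : (t - s) * ‖bar v‖ ≤ t * ‖v‖ :=
        mul_le_mul (by linarith [hs.1]) (K.norm_bar_le v) (norm_nonneg _) ht
      linarith
    have h2 : distG y ^ n ≤ C * (min 1 (Th Lam t x v / rh ^ 2)) ^ b := by
      rcases le_or_gt 1 (Th Lam t x v / rh ^ 2) with h3 | h3
      · rw [min_eq_left h3, Real.one_rpow, mul_one]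
        have h4 : distG y ^ n ≤ 1 := pow_le_one₀ hy0 hy1
        have h5 : 0 ≤ Lam ^ b := by positivity
        linarith
      · rw [min_eq_right h3.le]
        have h4 : Th Lam t x v ≤ Th Lam t x v / rh ^ 2 := by
          rw [le_div_iff₀ (by positivity)]
          have : rh ^ 2 ≤ 1 := pow_le_one₀ hrh.le hrh1
          nlinarith
        have h5 : distG y ^ n ≤ (z ^ 2) ^ b := by
          have hn0 : n ≠ 0 := by
            rintro rfl
            simp at hn
            linarith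
          rcases hy0.eq_or_lt with h6 | h6
          · rw [← h6, zero_pow hn0]; positivity
          · calc distG y ^ n = distG y ^ (n : ℝ) := (Real.rpow_natCast _ _).symm
              _ ≤ distG y ^ (2 * b) := Real.rpow_le_rpow_of_exponent_ge h6 hy1 hn
              _ ≤ z ^ (2 * b) := Real.rpow_le_rpow hy0 hyz (by positivity)
              _ = (z ^ 2) ^ b := by
                rw [← Real.rpow_natCast z 2, ← Real.rpow_mul hz0]
                norm_num
        calc distG y ^ n ≤ (z ^ 2) ^ b := h5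
          _ ≤ (Lam * Th Lam t x v) ^ b := by gcongr
          _ = Lam ^ b * (Th Lam t x v) ^ b := by rw [Real.mul_rpow (by linarith) hTh0]
          _ ≤ C * (Th Lam t x v / rh ^ 2) ^ b := by
              apply mul_le_mul _ _ (by positivity) hC0
              · rw [hC]; linarith
              · exact Real.rpow_le_rpow hTh0 h4 hb.le
    have h3 : Real.exp (-‖v‖ ^ 2) ≤ gau g t v := by
      unfold gau
      apply Real.exp_le_exp.2
      have : 0 ≤ √t := Real.sqrt_nonneg t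
      nlinarith [sq_nonneg ‖v‖, mul_nonneg this (sq_nonneg ‖v‖)]
    have hm0 : 0 ≤ (min 1 (Th Lam t x v / rh ^ 2)) ^ b :=
      Real.rpow_nonneg (le_min zero_le_one (by positivity)) _
    calc ENNReal.ofReal (distG y ^ n * Real.exp (-‖v‖ ^ 2))
        ≤ ENNReal.ofReal (C * ((min 1 (Th Lam t x v / rh ^ 2)) ^ b * gau g t v)) := by
          apply ENNReal.ofReal_le_ofReal
          rw [← mul_assoc]
          apply mul_le_mul h2 h3 (Real.exp_pos _).le (by positivity)
      _ = ENNReal.ofReal C * ENNReal.ofReal ((min 1 (Th Lam t x v / rh ^ 2)) ^ b * gau g t v) :=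
          ENNReal.ofReal_mul hC0
      _ ≤ ENNReal.ofReal C * B1 P Lam rh g b t x v := by
          unfold B1
          gcongr
          exact le_mul_of_one_le_right zero_le (K.one_le_Dm P t x v)
  unfold Duh
  calc ∫⁻ s in Ioo 0 t, ENNReal.ofReal (distG (x - (t - s) • bar v) ^ n * Real.exp (-‖v‖ ^ 2))
      ≤ ∫⁻ _ in Ioo 0 t, ENNReal.ofReal C * B1 P Lam rh g b t x v :=
        setLIntegral_mono' measurableSet_Ioo key
    _ = ENNReal.ofReal (t * C) * B1 P Lam rh g b t x v := by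
        rw [setLIntegral_const, Real.volume_Ioo, sub_zero, ENNReal.ofReal_mul ht]
        ring

/-- the spill bound of Part C -/
def SpillOut (P : Par) : Prop :=
  ∀ lam : Fld, Meas3 lam → PerF lam → ∀ t x v, 0 ≤ t → t ≤ P.dl ^ (3 / 8 : ℝ) →
    coldSpill P lam t x v ≤ ENNReal.ofReal (distG x ^ (P.p / 32) * Real.exp (-‖v‖ ^ 2))

/-- background particles do not meet the fuel on `[0,T]` -/
theorem vis_empty {P : Par} (h : P.Ok) {T R rh : ℝ} (hTR : T * R ≤ rh / 2)
    (hz : (1 + P.Y) * P.dl + (P.c + P.Y + etaj P.p P.j0) * T < rh / 2) {s t : ℝ} (hs : 0 ≤ s)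
    (hst : s ≤ t) (htT : t ≤ T) {x : P2} {v : R3} (hv : ‖v‖ < R)
    (hx : rh < distG (x - t • bar v)) : vis P s (x - (t - s) • bar v) = ∅ := by
  rw [eq_empty_iff_forall_notMem]
  intro k hk
  have h1 := Fuel.norm_of_vis h hs hk
  set y := x - (t - s) • bar v with hy
  have h2 : distG y ≤ ‖y + latt k‖ := distG_le y k
  have h3 : distG (y + -(s • bar v)) ≤ distG y + ‖-(s • bar v)‖ := distG_le_add y _
  have h4 : y + -(s • bar v) = x - t • bar v := by
    rw [hy, sub_smul]; abel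
  rw [h4, norm_neg, norm_smul, Real.norm_of_nonneg hs] at h3
  have h5 : s * ‖bar v‖ ≤ T * R :=
    mul_le_mul (hst.trans htT) ((K.norm_bar_le v).trans hv.le) (norm_nonneg _) (hs.trans (hst.trans htT))
  have h6 : (P.c + P.Y + etaj P.p P.j0) * s ≤ (P.c + P.Y + etaj P.p P.j0) * T := by
    have h7 := h.c0
    have h8 := h.Y0
    have h9 : 0 ≤ etaj P.p P.j0 := (Fuel.etaj_pos _ _).le
    have h10 := hst.trans htT
    gcongr
  linarith

/-- `(1+|v|) M(v) ≤ 2 Z_{g'}` -/
theorem ev_mul_maxw_le (P : Par) {g' : ℝ} (hg' : g' ≤ 1 / 20) {t : ℝ} (x : P2)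
    (v : R3) {rh R : ℝ} (y : P2) :
    ev v * ENNReal.ofReal (Fuel.bg rh R y v) ≤ 2 * Zg P g' t x v := by
  have h1 : Fuel.bg rh R y v ≤ Real.exp (-‖v‖ ^ 2 / 2) := (Fuel.bg_le _ _ _ _).trans
    (Fuel.maxwellian_le v)
  have hv := norm_nonneg v
  have h2 : (1 + ‖v‖) * Real.exp (-‖v‖ ^ 2 / 2) ≤ 2 * gau g' t v := by
    have h3 : 1 + ‖v‖ ≤ 2 * Real.exp (9 / 20 * ‖v‖ ^ 2) := by
      have h4 := Real.add_one_le_exp (9 / 20 * ‖v‖ ^ 2)
      nlinarith [sq_nonneg (‖v‖ - 5 / 9)]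
    have h5 : Real.exp (-‖v‖ ^ 2 / 20) ≤ gau g' t v := by
      unfold gau
      apply Real.exp_le_exp.2
      have : 0 ≤ √t := Real.sqrt_nonneg t
      nlinarith [sq_nonneg ‖v‖, mul_nonneg this (sq_nonneg ‖v‖)]
    calc (1 + ‖v‖) * Real.exp (-‖v‖ ^ 2 / 2)
        ≤ (2 * Real.exp (9 / 20 * ‖v‖ ^ 2)) * Real.exp (-‖v‖ ^ 2 / 2) := by gcongr
      _ = 2 * Real.exp (-‖v‖ ^ 2 / 20) := by
          rw [mul_assoc, ← Real.exp_add]
          congr 2
          ring
      _ ≤ _ := by gcongr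
  have h0 : 0 ≤ gau g' t v := (Real.exp_pos _).le
  unfold ev Zg
  rw [K4.one_add_ofReal]
  calc ENNReal.ofReal (1 + ‖v‖) * ENNReal.ofReal (Fuel.bg rh R y v)
      = ENNReal.ofReal ((1 + ‖v‖) * Fuel.bg rh R y v) :=
        (ENNReal.ofReal_mul (by positivity)).symm
    _ ≤ ENNReal.ofReal (2 * gau g' t v) := by
        apply ENNReal.ofReal_le_ofReal
        refine le_trans ?_ h2
        gcongr
    _ = 2 * ENNReal.ofReal (gau g' t v) := by
        rw [ENNReal.ofReal_mul (by norm_num)]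
        norm_num
    _ ≤ 2 * (ENNReal.ofReal (gau g' t v) * Dm P t x v) := by
        gcongr
        exact le_mul_of_one_le_right zero_le (K.one_le_Dm P t x v)

/-- the constant in the closeness estimate -/
def cClose (P : Par) (T Lam g g' b r ε1 : ℝ) : ℝ :=
  T * (1 + Lam ^ b) +
    r * (2 * P.K * cqA P.Y g * ε1 ^ b * (Real.exp (2 * (g - g')) * (b / (g - g')) ^ b)) +
    r * (K4.CC P.Y g g (P.Y + 5) * (16 * T ^ (3 / 4 : ℝ))) +
    r ^ 2 * (cKA P g * (16 * T ^ (3 / 4 : ℝ))) +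
    2 * (T * (2 * π * (P.Y + 5) + r * cKA P g))

theorem gau_mono' {g g' : ℝ} (h : g' ≤ g) (t : ℝ) (v : R3) : gau g t v ≤ gau g' t v := by
  unfold gau
  refine Real.exp_le_exp.2 ?_
  nlinarith [sq_nonneg ‖v‖]

theorem cKA_nonneg {P : Par} (h : P.Ok) (g : ℝ) : 0 ≤ cKA P g := by
  have hCN := (KC.CN_pos h).le
  have hCm := (KC.Cm_pos h).le
  have e2 := K4.CC_nonneg P.Y g g (P.Y + 5)
  have e3 := K4.CQ_nonneg P.Y g
  have e5 := K4.CL_nonneg P.Y g
  have hY := h.Y0
  have hπ := Real.pi_pos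
  unfold cKA
  positivity

/-- **closeness of the unburnt solution to the transported background** -/
theorem close_thm {P : Par} (h : P.Ok) (hY : 1 ≤ P.Y) {T Lam rh g g' b q R : ℝ} (hT0 : 0 < T)
    (hT1 : T ≤ 1) (hTd : T ≤ P.dl ^ (3 / 8 : ℝ))
    (hT : (1 + P.Y) * P.dl + (P.c + P.Y + etaj P.p P.j0) * T < 7 / 20)
    (hCo : ColdOut P) (hSp : SpillOut P) (hW : WSz P T)
    (hL : 100 * P.Y ^ 2 ≤ Lam) (hb : 1 ≤ b) (hg : 1 / 50 ≤ g) (hg1 : g ≤ 1)
    (hLb : 8 * b * (b + 1) ≤ g * Lam) (hrh : 0 < rh) (hrh1 : rh ≤ 1) (hq : 2 * b ≤ q)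
    (hn : 2 * b ≤ ((P.p / 32 : ℕ) : ℝ)) (hgg : g' < g) (hg' : g' ≤ 1 / 20)
    (hTR : T * R ≤ rh / 2)
    (hz : (1 + P.Y) * P.dl + (P.c + P.Y + etaj P.p P.j0) * T < rh / 2)
    {ε1 : ℝ} (hε1 : T + 4 * P.dl ^ 2 ≤ ε1 * rh ^ 2)
    {H : Fld} (hH : HotSol P (coldR P) (coldSpill P)
      (fun x v => ENNReal.ofReal (Fuel.bg rh R x v)) T H)
    {r : ℝ} (hr : 0 ≤ r)
    (hle : ∀ t ∈ Ioc 0 T, ∀ x v, H t x v ≤ ENNReal.ofReal r * Wb P Lam rh g b t x v) :
    ∀ t ∈ Ioc 0 T, ∀ x v,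
      dd (H t x v) (ENNReal.ofReal (Fuel.bg rh R (x - t • bar v) v)) ≤
        ENNReal.ofReal (cClose P T Lam g g' b r ε1) * Zg P g' t x v := by
  intro t ht x v
  have hWm : ∀ t x, Measurable (warm P t x) := fun t x => hCo.measW.slice t x
  have hA := aInp h hY hT0 hT1 hT hW hWm hL hb hg hg1 hLb hrh hrh1 hq
  have hP := ParD_of_Ok h
  have hK := h.K0
  have hL0 : 0 < Lam := by nlinarith
  have hL1 : 1 ≤ Lam := by nlinarith
  have hcK := cKA_nonneg h g
  have hCC := K4.CC_nonneg P.Y g g (P.Y + 5)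
  have hcq := cqA_nonneg P.Y g
  have hd := Fuel.Ok.dlp h
  have hπ := Real.pi_pos
  have hgg0 : 0 < g - g' := by linarith
  have hε0 : 0 ≤ ε1 := by
    have : 0 ≤ ε1 * rh ^ 2 := le_trans (by positivity) hε1
    exact nonneg_of_mul_nonneg_left this (by positivity)
  have ht0 := ht.1
  have ht1 : t ≤ 1 := ht.2.trans hT1
  set W := Wb P Lam rh g b with hWdef
  set θ2 : ℝ≥0∞ := ENNReal.ofReal (16 * T ^ (3 / 4 : ℝ)) with hθ2
  set CKe : ℝ≥0∞ := ENNReal.ofReal (cKA P g) with hCKe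
  have hZ : W t x v ≤ Zg P g' t x v := by
    refine (hA.WZ t ht x v).trans ?_
    unfold Zg
    gcongr
    exact gau_mono' hgg.le t v
  have mH := hH.meas
  have pH := hH.per
  have mL := meas3_LcF mH
  have pL := perF_LcF pH
  have mphi : Meas3 (phiE P) := (Fuel.measurable_phi h).ennreal_ofReal
  -- positivity of the constant
  have hcpos : 0 < cClose P T Lam g g' b r ε1 := by
    unfold cClose
    have : 0 < T * (1 + Lam ^ b) := by positivity
    have h2 : 0 ≤ P.Y := h.Y0.le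
    positivity
  rcases (K.Dw_nonneg P t ht0.le x v).eq_or_lt with hD | hD
  · have hDm : Dm P t x v = ⊤ := by
      unfold Dm
      rw [← hD, ENNReal.ofReal_zero]
      exact ENNReal.zero_rpow_of_neg (by norm_num)
    unfold Zg
    rw [hDm, ENNReal.mul_top, ENNReal.mul_top]
    · exact le_top
    · exact (ENNReal.ofReal_pos.2 hcpos).ne'
    · exact (ENNReal.ofReal_pos.2 (Real.exp_pos _)).ne'
  set lam := LcF H with hlam
  have mc : Meas3 (coldR P lam) := hCo.meas _ mL pL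
  have ms : Meas3 (coldSpill P lam) := hCo.measS _ mL pL
  set a := acc (lossH (coldR P lam) H) 0 t x v with ha
  set H0' := ENNReal.ofReal (Fuel.bg rh R (x - t • bar v) v) with hH0'
  have heq : H t x v = en a * H0' + Dam (lossH (coldR P lam) H)
      (gainH (coldR P lam) (coldSpill P lam) H) t x v := hH.eqn t ht x v hD
  -- the gain
  have hcold : ∀ s ∈ Ioc 0 T, ∀ y z, coldR P lam s y z ≤ phiE P s y z + warm P s y z := by
    intro s hs y z
    refine (hCo.le lam mL pL s y z hs.1.le).trans ?_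
    gcongr
    refine mul_le_of_le_one_left' ?_
    rw [← ENNReal.ofReal_one]
    exact ENNReal.ofReal_le_ofReal (min_le_right _ _)
  have hDW : Duh W t x v ≤ θ2 * W t x v := by
    refine le_trans ?_ (hA.ab t ht x v)
    exact Duh_mono_on fun s _ => le_ev_mul _ _
  have g1 : Duh (coldSpill P lam) t x v ≤
      ENNReal.ofReal (T * (1 + Lam ^ b)) * Zg P g' t x v := by
    refine le_trans (Duh_mono_on (q' := fun _ y z =>
      ENNReal.ofReal (distG y ^ (P.p / 32) * Real.exp (-‖z‖ ^ 2))) fun s hs =>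
      hSp lam mL pL s _ v hs.1.le ((hs.2.le.trans ht.2).trans hTd)) ?_
    refine (Duh_dist_pow_le P hL1 hrh hrh1 (by linarith) hn hg1 ht0.le x v).trans ?_
    rw [← Wb_eq P Lam rh g b ht0.le x]
    gcongr
    exact ht.2
  have g2 : Duh (fun s y z => Qp (coldR P lam s y) (H s y) z + Qp (H s y) (coldR P lam s y) z)
      t x v ≤ (ENNReal.ofReal (r * (2 * P.K * cqA P.Y g * ε1 ^ b *
        (Real.exp (2 * (g - g')) * (b / (g - g')) ^ b))) +
        ENNReal.ofReal (r * (K4.CC P.Y g g (P.Y + 5) * (16 * T ^ (3 / 4 : ℝ))))) *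
        Zg P g' t x v := by
    have hpt : ∀ s ∈ Ioo 0 t, Qp (coldR P lam s (x - (t - s) • bar v))
        (H s (x - (t - s) • bar v)) v + Qp (H s (x - (t - s) • bar v))
        (coldR P lam s (x - (t - s) • bar v)) v ≤
        ENNReal.ofReal r * Gf P W s (x - (t - s) • bar v) v +
        ENNReal.ofReal (r * K4.CC P.Y g g (P.Y + 5)) * W s (x - (t - s) • bar v) v := by
      intro s hs
      have hs' : s ∈ Ioc 0 T := ⟨hs.1, hs.2.le.trans ht.2⟩
      set y := x - (t - s) • bar v with hy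
      have hphm := measurable_phiE h s y
      have hwm := hWm s y
      have hWs : Measurable (W s y) := (meas3_Wb h.Y0 Lam rh g b).slice s y
      have e1 : Qp (coldR P lam s y) (H s y) v ≤ ENNReal.ofReal r *
          (Qp (phiE P s y) (W s y) v + Qp (warm P s y) (W s y) v) := by
        calc Qp (coldR P lam s y) (H s y) v
            ≤ Qp (fun z => phiE P s y z + warm P s y z) (fun z => ENNReal.ofReal r * W s y z) v :=
              Qp_mono (fun z => hcold s hs' y z) (fun z => hle s hs' y z) v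
          _ = _ := by
              rw [Qp_const_mul_right ENNReal.ofReal_ne_top, Qp_add_left hphm hWs]
      have e2 : Qp (H s y) (coldR P lam s y) v ≤ ENNReal.ofReal r *
          (Qp (W s y) (phiE P s y) v + Qp (W s y) (warm P s y) v) := by
        calc Qp (H s y) (coldR P lam s y) v
            ≤ Qp (fun z => ENNReal.ofReal r * W s y z) (fun z => phiE P s y z + warm P s y z) v :=
              Qp_mono (fun z => hle s hs' y z) (fun z => hcold s hs' y z) v
          _ = _ := by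
              have hpw : Measurable (fun z => phiE P s y z + warm P s y z) := hphm.add hwm
              rw [Qp_const_mul_left ENNReal.ofReal_ne_top, Qp_comm hWs hpw,
                Qp_add_left hphm hWs, Qp_comm hphm hWs, Qp_comm hwm hWs]
      have e3 : Qp (warm P s y) (W s y) v + Qp (W s y) (warm P s y) v ≤
          ENNReal.ofReal (K4.CC P.Y g g (P.Y + 5)) * W s y v := by
        rw [hWdef, Wb_slice P Lam rh g b hs.1.le y]
        have h1 := K4.Qp_cold_B1 hP hs.1.le (hs'.2.trans hT1) (Lam := Lam) (rh := rh) (b := b)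
          (R := P.Y + 5) hg hrh hb hLb hwm
          (fun z hz => warm_supp hW hs.1.le hs'.2 (by linarith)) y v (N := 1)
          (by rw [one_mul]; exact newt_warm hW hs.1.le hs'.2 y v)
        rwa [mul_one] at h1
      calc _ ≤ ENNReal.ofReal r *
            (Qp (phiE P s y) (W s y) v + Qp (warm P s y) (W s y) v) + ENNReal.ofReal r *
          (Qp (W s y) (phiE P s y) v + Qp (W s y) (warm P s y) v) := add_le_add e1 e2
        _ = ENNReal.ofReal r * Gf P W s y v + ENNReal.ofReal r *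
            (Qp (warm P s y) (W s y) v + Qp (W s y) (warm P s y) v) := by
            unfold Gf; ring
        _ ≤ ENNReal.ofReal r * Gf P W s y v + ENNReal.ofReal r *
            (ENNReal.ofReal (K4.CC P.Y g g (P.Y + 5)) * W s y v) := by gcongr
        _ = _ := by rw [ENNReal.ofReal_mul hr]; ring
    have mG : Meas3 (Gf P W) := meas3_Gf mphi (meas3_Wb h.Y0 Lam rh g b)
    have hG : Duh (Gf P W) t x v ≤ ENNReal.ofReal (2 * P.K * cqA P.Y g * ε1 ^ b *
        (Real.exp (2 * (g - g')) * (b / (g - g')) ^ b)) * Zg P g' t x v := by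
      refine Duh_fuel_small h hY hT1 hL hb hrh hcq hgg hT hε1 (fun s hs hsT y z => ?_) ht.1 ht.2 x v
      unfold Gf
      rw [hWdef, Wb_slice P Lam rh g b hs.le y]
      exact Gf_B1_le h hrh hb hg hLb hs.le (hsT.le.trans hT1) y z
    refine (Duh_mono_on (q' := fun s y z => ENNReal.ofReal r * Gf P W s y z +
      ENNReal.ofReal (r * K4.CC P.Y g g (P.Y + 5)) * W s y z) hpt).trans ?_
    rw [Duh_add (mG.const_mul _), Duh_const_mul ENNReal.ofReal_ne_top,
      Duh_const_mul ENNReal.ofReal_ne_top, add_mul]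
    refine add_le_add ?_ ?_
    · rw [ENNReal.ofReal_mul hr, mul_assoc]
      exact mul_le_mul_right hG _
    · calc ENNReal.ofReal (r * K4.CC P.Y g g (P.Y + 5)) * Duh W t x v
          ≤ ENNReal.ofReal (r * K4.CC P.Y g g (P.Y + 5)) * (θ2 * Zg P g' t x v) := by
            gcongr
            exact hDW.trans (mul_le_mul_right hZ _)
        _ = _ := by
            rw [hθ2, ← mul_assoc, ← ENNReal.ofReal_mul (by positivity)]
            congr 2
            ring
  have g3 : Duh (fun s y z => Qp (H s y) (H s y) z) t x v ≤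
      ENNReal.ofReal (r ^ 2 * (cKA P g * (16 * T ^ (3 / 4 : ℝ)))) * Zg P g' t x v := by
    have hpt : ∀ s ∈ Ioo 0 t, Qp (H s (x - (t - s) • bar v)) (H s (x - (t - s) • bar v)) v ≤
        ENNReal.ofReal (r ^ 2 * cKA P g) *
          (ev v * W s (x - (t - s) • bar v) v) := by
      intro s hs
      have hs' : s ∈ Ioc 0 T := ⟨hs.1, hs.2.le.trans ht.2⟩
      set y := x - (t - s) • bar v with hy
      calc Qp (H s y) (H s y) v
          ≤ Qp (fun z => ENNReal.ofReal r * W s y z) (fun z => ENNReal.ofReal r * W s y z) v :=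
            Qp_mono (fun z => hle s hs' y z) (fun z => hle s hs' y z) v
        _ = ENNReal.ofReal r * (ENNReal.ofReal r * Qp (W s y) (W s y) v) := by
            rw [Qp_const_mul_left ENNReal.ofReal_ne_top, Qp_const_mul_right ENNReal.ofReal_ne_top]
        _ ≤ ENNReal.ofReal r * (ENNReal.ofReal r * (CKe * ev v * W s y v)) := by
            gcongr
            exact hA.qWW s hs' y v
        _ = _ := by
            rw [hCKe, pow_two, ENNReal.ofReal_mul (by positivity), ENNReal.ofReal_mul hr]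
            ring
    refine (Duh_mono_on (q' := fun s y z => ENNReal.ofReal (r ^ 2 * cKA P g) *
      (ev z * W s y z)) hpt).trans ?_
    rw [Duh_const_mul ENNReal.ofReal_ne_top]
    calc ENNReal.ofReal (r ^ 2 * cKA P g) * Duh (fun s y z => ev z * W s y z) t x v
        ≤ ENNReal.ofReal (r ^ 2 * cKA P g) * (θ2 * Zg P g' t x v) := by
          gcongr
          exact (hA.ab t ht x v).trans (mul_le_mul_right hZ _)
      _ = _ := by
          rw [hθ2, ← mul_assoc, ← ENNReal.ofReal_mul (by positivity)]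
          congr 2
          ring
  have hgain : Duh (gainH (coldR P lam) (coldSpill P lam) H) t x v =
      Duh (coldSpill P lam) t x v +
      Duh (fun s y z => Qp (coldR P lam s y) (H s y) z + Qp (H s y) (coldR P lam s y) z) t x v +
      Duh (fun s y z => Qp (H s y) (H s y) z) t x v := by
    have m1 : Meas3 (fun s y z => Qp (coldR P lam s y) (H s y) z +
        Qp (H s y) (coldR P lam s y) z) := (meas3_Qp mc mH).add (meas3_Qp mH mc)
    rw [← Duh_add ms, ← Duh_add (ms.add m1)]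
    unfold Duh
    refine lintegral_congr fun s => ?_
    unfold gainH
    ring
  -- the loss
  have hloss : a * H0' ≤ ENNReal.ofReal (2 * (T * (2 * π * (P.Y + 5) + r * cKA P g))) *
      Zg P g' t x v := by
    by_cases hb0 : ‖v‖ < R ∧ rh < distG (x - t • bar v)
    swap
    · have : H0' = 0 := by
        rw [hH0']
        unfold Fuel.bg
        rw [if_neg hb0, ENNReal.ofReal_zero]
      rw [this, mul_zero]
      exact zero_le
    have hpt : ∀ s ∈ Ioo 0 t, lossH (coldR P lam) H s (x - (t - s) • bar v) v ≤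
        ENNReal.ofReal (2 * π * (P.Y + 5) + r * cKA P g) * ev v := by
      intro s hs
      have hs' : s ∈ Ioc 0 T := ⟨hs.1, hs.2.le.trans ht.2⟩
      have hve := vis_empty h hTR hz hs.1.le hs.2.le ht.2 hb0.1 hb0.2
      set y := x - (t - s) • bar v with hy
      have hphm := measurable_phiE h s y
      have hwm := hWm s y
      have hrho : C.rho P s y = 0 := by
        unfold C.rho
        rw [hve]; simp
      have hphi0 : Lc (phiE P s y) v = 0 := by
        have h1 := Lc_cold' (R := P.Y + 5) (by linarith) (c := phiE P s y)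
          (fun z hz => phiE_supp h hz) v
        have h2 : ∫⁻ u, phiE P s y u = 0 := by
          have h3 := C.density_phi h hs.1.le y
          rw [hrho, mul_zero] at h3
          exact le_antisymm h3 zero_le
        rw [h2, mul_zero] at h1
        exact le_antisymm h1 zero_le
      have hwarm : Lc (warm P s y) v ≤ ENNReal.ofReal (2 * π * (P.Y + 5)) * ev v := by
        have h1 := Lc_cold' (R := P.Y + 5) (by linarith) (c := warm P s y)
          (fun z hz => warm_supp hW hs.1.le hs'.2 (by linarith)) v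
        refine h1.trans ?_
        calc ENNReal.ofReal (2 * π * (P.Y + 5)) * ev v * ∫⁻ u, warm P s y u
            ≤ ENNReal.ofReal (2 * π * (P.Y + 5)) * ev v * 1 := by
              gcongr
              exact hW.mass s hs.1.le hs'.2 y
          _ = _ := mul_one _
      have hhot : Lc (H s y) v ≤ ENNReal.ofReal (r * cKA P g) * ev v := by
        refine (LcF_le hA ENNReal.ofReal_ne_top hle hs' y v).trans (le_of_eq ?_)
        rw [ENNReal.ofReal_mul hr]
      unfold lossH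
      calc Lc (fun z => coldR P lam s y z + H s y z) v
          ≤ Lc (fun z => (phiE P s y z + warm P s y z) + H s y z) v :=
            Lc_mono (fun z => add_le_add (hcold s hs' y z) le_rfl) v
        _ = Lc (phiE P s y) v + Lc (warm P s y) v + Lc (H s y) v := by
            have hpw : Measurable (fun z => phiE P s y z + warm P s y z) := hphm.add hwm
            rw [Lc_add hpw v, Lc_add hphm v]
        _ ≤ 0 + ENNReal.ofReal (2 * π * (P.Y + 5)) * ev v +
            ENNReal.ofReal (r * cKA P g) * ev v := by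
            gcongr
            exact hphi0.le
        _ = _ := by
            have hYp := h.Y0
            rw [ENNReal.ofReal_add (by positivity) (by positivity)]
            ring
    have ha' : a ≤ ENNReal.ofReal (T * (2 * π * (P.Y + 5) + r * cKA P g)) * ev v := by
      have hYp := h.Y0
      rw [ha]
      unfold acc
      calc _ ≤ ∫⁻ _ in Ioo 0 t, ENNReal.ofReal (2 * π * (P.Y + 5) + r * cKA P g) * ev v :=
            setLIntegral_mono_ae' measurableSet_Ioo (Eventually.of_forall hpt)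
        _ = ENNReal.ofReal t * (ENNReal.ofReal (2 * π * (P.Y + 5) + r * cKA P g) * ev v) := by
            rw [setLIntegral_const, Real.volume_Ioo, sub_zero]; ring
        _ ≤ ENNReal.ofReal T * (ENNReal.ofReal (2 * π * (P.Y + 5) + r * cKA P g) * ev v) := by
            gcongr
            exact ht.2
        _ = _ := by rw [ENNReal.ofReal_mul hT0.le]; ring
    have hYp := h.Y0
    calc a * H0' ≤ ENNReal.ofReal (T * (2 * π * (P.Y + 5) + r * cKA P g)) * ev v * H0' := by
          gcongr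
      _ = ENNReal.ofReal (T * (2 * π * (P.Y + 5) + r * cKA P g)) * (ev v * H0') := by ring
      _ ≤ ENNReal.ofReal (T * (2 * π * (P.Y + 5) + r * cKA P g)) * (2 * Zg P g' t x v) :=
          mul_le_mul_right (ev_mul_maxw_le P hg' x v _) _
      _ = _ := by
          rw [ENNReal.ofReal_mul (p := 2) (by norm_num)]
          norm_num
          ring
  -- conclusion
  have htot : dd (H t x v) H0' ≤
      Duh (gainH (coldR P lam) (coldSpill P lam) H) t x v + a * H0' := by
    apply dd_le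
    · rw [heq]
      calc en a * H0' + Dam (lossH (coldR P lam) H)
            (gainH (coldR P lam) (coldSpill P lam) H) t x v
          ≤ 1 * H0' + Duh (gainH (coldR P lam) (coldSpill P lam) H) t x v :=
            add_le_add (mul_le_mul' (en_le_one _) le_rfl) (Dam_le_Duh _ _ t x v)
        _ ≤ H0' + (Duh (gainH (coldR P lam) (coldSpill P lam) H) t x v + a * H0') := by
            rw [one_mul]
            gcongr
            exact le_self_add
    · calc H0' = 1 * H0' := (one_mul _).symm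
        _ ≤ (en a + a) * H0' := mul_le_mul' (one_le_en_add a) le_rfl
        _ = en a * H0' + a * H0' := add_mul _ _ _
        _ ≤ H t x v + (Duh (gainH (coldR P lam) (coldSpill P lam) H) t x v + a * H0') := by
            rw [heq]
            exact add_le_add le_self_add le_add_self
  refine htot.trans ?_
  rw [hgain]
  have hYp := h.Y0
  have c1 : 0 ≤ T * (1 + Lam ^ b) := by positivity
  have c2 : 0 ≤ r * (2 * P.K * cqA P.Y g * ε1 ^ b *
    (Real.exp (2 * (g - g')) * (b / (g - g')) ^ b)) := by positivity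
  have c3 : 0 ≤ r * (K4.CC P.Y g g (P.Y + 5) * (16 * T ^ (3 / 4 : ℝ))) := by positivity
  have c4 : 0 ≤ r ^ 2 * (cKA P g * (16 * T ^ (3 / 4 : ℝ))) := by positivity
  have c5 : 0 ≤ 2 * (T * (2 * π * (P.Y + 5) + r * cKA P g)) := by positivity
  unfold cClose
  rw [ENNReal.ofReal_add (by positivity) c5, ENNReal.ofReal_add (by positivity) c4,
    ENNReal.ofReal_add (by positivity) c3, ENNReal.ofReal_add c1 c2]
  simp only [add_mul]
  calc _ ≤ ENNReal.ofReal (T * (1 + Lam ^ b)) * Zg P g' t x v + (ENNReal.ofReal (r * (2 * P.K *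
        cqA P.Y g * ε1 ^ b * (Real.exp (2 * (g - g')) * (b / (g - g')) ^ b))) +
        ENNReal.ofReal (r * (K4.CC P.Y g g (P.Y + 5) * (16 * T ^ (3 / 4 : ℝ))))) *
        Zg P g' t x v + ENNReal.ofReal (r ^ 2 * (cKA P g * (16 * T ^ (3 / 4 : ℝ)))) *
        Zg P g' t x v + ENNReal.ofReal (2 * (T * (2 * π * (P.Y + 5) + r * cKA P g))) *
        Zg P g' t x v := add_le_add (add_le_add (add_le_add g1 g2) g3) hloss
    _ = _ := by ring

end Crest.Agent.R68.A
end
end

-- ▼ part R68/CKOut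
section

/-!
# R68 / CKOut (helper819): the Prop `Main0.CKOut` from Part C (`N.ColdOut`) and `WarmSize`
-/

set_option autoImplicit false
open MeasureTheory Set Filter
open scoped ENNReal Topology Real
open Crest.AnalysisR.VecCalc3 Crest.AnalysisR.PDE.Boltzmann

noncomputable section

namespace Crest.Agent.R68.KC

open Crest.Agent.R68.N (Fld tx Zg EE ev ez2 KInp ColdInp ColdOut coldInp MonoFl dd)

/-- comparison of the factors `(t+|x|)^q` -/
theorem tx_le_tx {T : ℝ} (hT : T ≤ 1) {q q' : ℝ} (hq : 0 ≤ q) (hqq : q ≤ q') {t : ℝ}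
    (ht : t ∈ Ioc 0 T) (x : P2) : tx q' t x ≤ ENNReal.ofReal (2 ^ (q' - q)) * tx q t x := by
  unfold tx
  rw [← ENNReal.ofReal_mul (by positivity)]
  apply ENNReal.ofReal_le_ofReal
  have hd0 := distG_nonneg x
  have hd1 := distG_le_one x
  have ht0 := ht.1
  have ht1 := ht.2.trans hT
  have h9 : 0 < t + distG x := by linarith
  have h10 : (t + distG x) ^ q' = (t + distG x) ^ (q' - q) * (t + distG x) ^ q := by
    rw [← Real.rpow_add h9]; congr 1; ring
  rw [h10]
  apply mul_le_mul_of_nonneg_right _ (by positivity)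
  exact Real.rpow_le_rpow (by positivity) (by linarith) (by linarith)

/-- `ColdInp` is monotone in the exponent `q` -/
theorem ColdInp_mono_q {P : Par} {T V : ℝ} {Cf Sf : Fld → Fld} {Mc Wm : Fld} {CC : ℝ≥0∞} {q q' : ℝ}
    (hT : T ≤ 1) (hq : 0 ≤ q) (hqq : q ≤ q') (h : ColdInp P T V Cf Sf Mc Wm CC q') :
    ColdInp P T V Cf Sf Mc Wm (CC * ENNReal.ofReal (2 ^ (q' - q))) q := by
  have h2 : (1 : ℝ≥0∞) ≤ ENNReal.ofReal (2 ^ (q' - q)) := by
    rw [← ENNReal.ofReal_one]
    exact ENNReal.ofReal_le_ofReal (Real.one_le_rpow (by norm_num) (by linarith))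
  set c := ENNReal.ofReal (2 ^ (q' - q)) with hc
  exact
  { measC := h.measC
    measS := h.measS
    perC := h.perC
    perS := h.perS
    measM := h.measM
    measW := h.measW
    W_le := h.W_le
    CC_ne := ENNReal.mul_ne_top h.CC_ne ENNReal.ofReal_ne_top
    supp := h.supp
    phi_le := h.phi_le
    le := h.le
    lip := fun lam lam' h1 h1' h3 h3' Del h4 h5 h6 t ht x v => by
      refine (h.lip lam lam' h1 h1' h3 h3' Del h4 h5 h6 t ht x v).trans ?_
      calc CC * ENNReal.ofReal t * Del t x * Mc t x v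
          = CC * 1 * ENNReal.ofReal t * Del t x * Mc t x v := by rw [mul_one]
        _ ≤ CC * c * ENNReal.ofReal t * Del t x * Mc t x v := by gcongr
    lip0 := fun lam h1 h1' Del h4 h5 h6 t ht x v => by
      refine (h.lip0 lam h1 h1' Del h4 h5 h6 t ht x v).trans ?_
      have h7 := tx_le_tx hT hq hqq ht x
      calc CC * ENNReal.ofReal t * ((Del t x + tx q' t x) * Mc t x v + Wm t x v)
          ≤ CC * ENNReal.ofReal t * ((c * Del t x + c * tx q t x) * Mc t x v + c * Wm t x v) := by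
            gcongr
            · exact le_mul_of_one_le_left zero_le h2
            · exact le_mul_of_one_le_left zero_le h2
        _ = _ := by ring
    spill := fun lam lam' h1 h1' h3 h3' Del h4 h5 h6 t ht x v => by
      refine (h.spill lam lam' h1 h1' h3 h3' Del h4 h5 h6 t ht x v).trans ?_
      have h7 := tx_le_tx hT hq hqq ht x
      calc CC * ENNReal.ofReal t * Del t x * tx q' t x * ENNReal.ofReal (Real.exp (-‖v‖ ^ 2))
          ≤ CC * ENNReal.ofReal t * Del t x * (c * tx q t x) *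
            ENNReal.ofReal (Real.exp (-‖v‖ ^ 2)) := by gcongr
        _ = _ := by ring }

/-- Part C for the final parameters: `N.ColdOut` (585) -/
def ColdOutAll (Y : ℝ) : Prop :=
  ∀ K ey : ℝ, 1 ≤ K → 0 < ey → ey ≤ 1 / 100 → ∀ᶠ p : ℕ in atTop, ∀ᶠ j0 : ℕ in atTop,
    ColdOut (par K Y ey p j0)

/-- (c1) of 418: the constants do not depend on `j0` -/
theorem coldInp_ev {Y : ℝ} (hY : 1 ≤ Y) (hC : ColdOutAll Y) (K ey q : ℝ) (hK : 1 ≤ K)
    (hey : 0 < ey) (hey1 : ey ≤ 1 / 100) (hq : 0 ≤ q) :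
    ∀ᶠ p : ℕ in atTop, ∀ᶠ j0 : ℕ in atTop,
      ColdInp (par K Y ey p j0) (T1j j0) (Y + 5) (coldR (par K Y ey p j0))
        (coldSpill (par K Y ey p j0)) (fun t x v => 2 * coldS (par K Y ey p j0) t x v)
        (warm (par K Y ey p j0)) (2 * ENNReal.ofReal (2 ^ (((p / 32 : ℕ) : ℝ) - q))) q := by
  obtain ⟨n, hn⟩ := exists_nat_ge q
  filter_upwards [hC K ey hK hey hey1, eventually_ge_atTop (32 * (n + 1) + 512)] with p hCp hp
  have hp2 : n + 1 ≤ p / 32 := by omega
  filter_upwards [hCp, ev_Ok K Y ey p (by linarith) (by linarith) hey (by omega),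
    ev_T1_le one_pos] with j0 hCj hOk hT1
  have hqn : q ≤ ((p / 32 : ℕ) : ℝ) := by
    have : ((n + 1 : ℕ) : ℝ) ≤ ((p / 32 : ℕ) : ℝ) := by exact_mod_cast hp2
    push_cast at this ⊢
    linarith
  have h1 := coldInp (par K Y ey p j0) hOk hCj (T := T1j j0) le_rfl
  exact ColdInp_mono_q hT1 hq hqn h1

/-- the form of `Main0.CKOut` -/
theorem ckOut {Y : ℝ} (hY : 1 ≤ Y) (hC : ColdOutAll Y) (hws : WarmSize) (K ey q : ℝ) (hK : 1 ≤ K)
    (hey : 0 < ey) (hey1 : ey ≤ 1 / 100) (hq : 0 ≤ q) :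
    ∀ᶠ p : ℕ in atTop, ∀ᶠ j0 : ℕ in atTop,
      ∃ (V : ℝ) (Mc Wm : Fld) (CC CK : ℝ≥0∞), 0 ≤ V ∧
        ColdInp (par K Y ey p j0) (T1j j0) V (coldR (par K Y ey p j0))
          (coldSpill (par K Y ey p j0)) Mc Wm CC q ∧
        KInp (par K Y ey p j0) (T1j j0) Mc Wm q (1 / 10) (1 / 25) (1 / 25) CK ∧
        KInp (par K Y ey p j0) (T1j j0) Mc Wm q (1 / 50 + 1 / 50) (1 / 50) (1 / 50) CK := by
  filter_upwards [coldInp_ev hY hC K ey q hK hey hey1 hq,
    kOut hY hey hws measurable_warm_v K q hK hq] with p h1 h2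
  filter_upwards [h1, h2] with j0 h3 h4
  obtain ⟨CK, h5, h6⟩ := h4
  exact ⟨Y + 5, _, _, _, CK, by linarith, h3, h5, h6⟩

/-- **`Main0.CKOut`** from Part C and `WarmSize` -/
theorem CKOut_of {Y : ℝ} (hY : 1 ≤ Y) (hC : ColdOutAll Y) (hws : WarmSize) : Main0.CKOut Y :=
  ⟨1, fun K hK _ ey q hey hey1 hq => ckOut hY hC hws K ey q hK hey hey1 hq⟩

end Crest.Agent.R68.KC
end
end

-- ▼ part R68/AOut
section

/-!
# Row 68, PART A (helper418): `Main0.AOut`
-/

set_option autoImplicit false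
open MeasureTheory Set Filter
open scoped ENNReal Topology Real
open Crest.AnalysisR.VecCalc3 Crest.AnalysisR.PDE.Boltzmann

noncomputable section

namespace Crest.Agent.R68.A

open Crest.Agent.R68.N
open Crest.Agent.R68.KC (WSz WarmSize ColdOutAll coldInp_ev distG_pow_le_one)
open Crest.Agent.R68.Main0 (H0f Hot)

/-- existence for fixed parameters -/
theorem solve_thm {P : Par} (h : P.Ok) (hY : 1 ≤ P.Y) {T Lam rh g b q R : ℝ} (hT0 : 0 < T)
    (hT1 : T ≤ 1) (hTd : T ≤ P.dl ^ (3 / 8 : ℝ))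
    (hT : (1 + P.Y) * P.dl + (P.c + P.Y + etaj P.p P.j0) * T < 7 / 20)
    (hCo : ColdOut P) (hSp : SpillOut P) (hW : WSz P T)
    (hL : 100 * P.Y ^ 2 ≤ Lam) (hb : 1 ≤ b) (hg : 1 / 50 ≤ g) (hg1 : g ≤ 1 / 2)
    (hLb : 8 * b * (b + 1) ≤ g * Lam) (hrh : 0 < rh) (hrh1 : rh ≤ 1) (hq : 2 * b ≤ q)
    (hn : 2 * b ≤ ((P.p / 32 : ℕ) : ℝ)) {CC : ℝ≥0∞}
    (hC : ColdInp P T (P.Y + 5) (coldR P) (coldSpill P) (fun t x v => 2 * coldS P t x v)
      (warm P) CC q)
    {r : ℝ} (hr : 2 + 4 * Lam ^ b ≤ r)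
    (hθ1 : 2 * P.K * cqA P.Y g * (1 / b + T / rh ^ 2 + 400 * √T) ≤ 1 / 4)
    (hθ2 : cTot CC (ENNReal.ofReal (cKA P g)) (ENNReal.ofReal (cWA Lam b q))
      (1 + ENNReal.ofReal (P.Y + 5)) (ENNReal.ofReal (2 ^ q)) (ENNReal.ofReal r) *
      ENNReal.ofReal (16 * T ^ (3 / 4 : ℝ)) ≤ ENNReal.ofReal (1 / 4)) :
    ∃ H : Fld, HotSol P (coldR P) (coldSpill P)
      (fun x v => ENNReal.ofReal (Fuel.bg rh R x v)) T H ∧
      ∀ t ∈ Ioc 0 T, ∀ x v, H t x v ≤ ENNReal.ofReal r * Wb P Lam rh g b t x v := by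
  have hWm : ∀ t x, Measurable (warm P t x) := fun t x => hCo.measW.slice t x
  have hL0 : 0 < Lam := by nlinarith
  have hL1 : 1 ≤ Lam := by nlinarith
  have hA := aInp h hY hT0 hT1 hT hW hWm hL hb hg (by linarith) hLb hrh hrh1 hq
  have hLb0 : 0 ≤ Lam ^ b := by positivity
  have hr0 : 0 < r := by linarith
  refine exists_HotSol (ρ := ENNReal.ofReal r) (A0 := ENNReal.ofReal (Lam ^ b))
    (θ3 := ENNReal.ofReal (1 + Lam ^ b)) hC hA hT1 (Fuel.measurable_phi h).ennreal_ofReal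
    (perF_phiE P) (ENNReal.measurable_ofReal.comp (Fuel.measurable_bg _ _)) ?_
    ENNReal.ofReal_ne_top (ENNReal.ofReal_pos.2 hr0).ne' ?_ ?_ ?_ ?_
  · intro v x k
    have h1 : Fuel.bg rh R (x + latt k) v = Fuel.bg rh R x v := Fuel.perG_bg rh R v x k
    show ENNReal.ofReal (Fuel.bg rh R (x + latt k) v) = ENNReal.ofReal (Fuel.bg rh R x v)
    rw [h1]
  · rw [← ENNReal.ofReal_add (by positivity) (by positivity)]
    have h2 : (2⁻¹ : ℝ≥0∞) = ENNReal.ofReal (1 / 2) := by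
      rw [one_div, ENNReal.ofReal_inv_of_pos (by norm_num)]
      norm_num
    rw [h2, ← ENNReal.ofReal_mul (by norm_num)]
    apply ENNReal.ofReal_le_ofReal
    linarith
  · intro t ht x v
    rw [Wb_eq P Lam rh g b ht.1.le x v]
    exact bg_le_B1 P hL1 hrh (by linarith) hg1 ht.1.le x v
  · intro t ht x v
    have hz : Meas3 (fun _ _ _ => 0 : Fld) := measurable_const
    have hzp : PerF (fun _ _ _ => 0 : Fld) := fun _ _ _ _ => rfl
    rw [Wb_eq P Lam rh g b ht.1.le x v]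
    refine le_trans (Duh_mono_on (q' := fun _ y z =>
      ENNReal.ofReal (distG y ^ (P.p / 32) * Real.exp (-‖z‖ ^ 2))) fun s hs =>
      hSp _ (meas3_LcF hz) (perF_LcF hzp) s _ v hs.1.le ((hs.2.le.trans ht.2).trans hTd)) ?_
    have hb0 : 0 < b := by linarith
    have hg2 : g ≤ 1 := by linarith
    refine (Duh_dist_pow_le P (Lam := Lam) (rh := rh) (g := g) (b := b) hL1 hrh hrh1 hb0 hn hg2
      ht.1.le x v).trans ?_
    gcongr
    have h3 : t ≤ 1 := ht.2.trans hT1
    have h4 : 0 ≤ 1 + Lam ^ b := by positivity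
    nlinarith [ht.1]
  · calc _ ≤ ENNReal.ofReal (1 / 4) + ENNReal.ofReal (1 / 4) :=
          add_le_add (ENNReal.ofReal_le_ofReal hθ1) hθ2
      _ = 2⁻¹ := by
          rw [← ENNReal.ofReal_add (by norm_num) (by norm_num)]
          norm_num
          rw [one_div, ENNReal.ofReal_inv_of_pos (by norm_num)]
          norm_num

/-- the spill bound of Part C for the final parameters -/
def SpillOutAll (Y : ℝ) : Prop :=
  ∀ K ey : ℝ, 1 ≤ K → 0 < ey → ey ≤ 1 / 100 → ∀ᶠ p : ℕ in atTop, ∀ᶠ j0 : ℕ in atTop,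
    SpillOut (par K Y ey p j0)

/-! ### elementary limits -/

theorem ev_T1_pow {ε : ℝ} (hε : 0 < ε) : ∀ᶠ j0 : ℕ in atTop, T1j j0 ^ (3 / 4 : ℝ) ≤ ε := by
  filter_upwards [ev_T1_le (show 0 < ε ^ (4 / 3 : ℝ) by positivity), ev_pos] with j0 h1 h2
  calc T1j j0 ^ (3 / 4 : ℝ) ≤ (ε ^ (4 / 3 : ℝ)) ^ (3 / 4 : ℝ) :=
        Real.rpow_le_rpow h2.2.2.le h1 (by norm_num)
    _ = ε := by
        rw [← Real.rpow_mul hε.le]
        norm_num

theorem ev_T1_sqrt {ε : ℝ} (hε : 0 < ε) : ∀ᶠ j0 : ℕ in atTop, √(T1j j0) ≤ ε := by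
  filter_upwards [ev_T1_le (show 0 < ε ^ 2 by positivity)] with j0 h1
  calc √(T1j j0) ≤ √(ε ^ 2) := Real.sqrt_le_sqrt h1
    _ = ε := Real.sqrt_sq hε.le

/-- a constant times `T1^{3/4}` is small -/
theorem ev_mul_T1_pow (A : ℝ) {ε : ℝ} (hε : 0 < ε) :
    ∀ᶠ j0 : ℕ in atTop, A * (16 * T1j j0 ^ (3 / 4 : ℝ)) ≤ ε := by
  have h0 : 0 < ε / (16 * (|A| + 1)) := by positivity
  filter_upwards [ev_T1_pow h0, ev_pos] with j0 h1 h2
  have h3 : 0 ≤ T1j j0 ^ (3 / 4 : ℝ) := Real.rpow_nonneg h2.2.2.le _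
  calc A * (16 * T1j j0 ^ (3 / 4 : ℝ)) ≤ (|A| + 1) * (16 * T1j j0 ^ (3 / 4 : ℝ)) := by
        gcongr
        have := le_abs_self A
        linarith
    _ ≤ (|A| + 1) * (16 * (ε / (16 * (|A| + 1)))) := by gcongr
    _ = ε := by field_simp

theorem ev_mul_T1 (A : ℝ) {ε : ℝ} (hε : 0 < ε) : ∀ᶠ j0 : ℕ in atTop, A * T1j j0 ≤ ε := by
  have h0 : 0 < ε / (|A| + 1) := by positivity
  filter_upwards [ev_T1_le h0, ev_pos] with j0 h1 h2
  have h3 := h2.2.2.le
  calc A * T1j j0 ≤ (|A| + 1) * T1j j0 := by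
        gcongr
        have := le_abs_self A
        linarith
    _ ≤ (|A| + 1) * (ε / (|A| + 1)) := by gcongr
    _ = ε := by field_simp

theorem cTot_ne_top {CC CK CW EV X ρ : ℝ≥0∞} (h1 : CC ≠ ⊤) (h2 : CK ≠ ⊤) (h3 : CW ≠ ⊤)
    (h4 : EV ≠ ⊤) (h5 : X ≠ ⊤) (h6 : ρ ≠ ⊤) : cTot CC CK CW EV X ρ ≠ ⊤ := by
  lift CC to NNReal using h1
  lift CK to NNReal using h2
  lift CW to NNReal using h3
  lift EV to NNReal using h4
  lift X to NNReal using h5
  lift ρ to NNReal using h6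
  unfold cTot cL0 cB
  norm_cast
  exact ENNReal.coe_ne_top

/-- `2K C (1/b + T/rh² + 400√T) ≤ 1/4` -/
theorem ev_theta1 {A b : ℝ} (hA : 0 ≤ A) (hb : 0 < b) (hAb : 8 * A ≤ b) :
    ∀ᶠ j0 : ℕ in atTop, A * (1 / b + T1j j0 / rhj j0 ^ 2 + 400 * √(T1j j0)) ≤ 1 / 4 := by
  have h0 : 0 < 1 / (16 * (A + 1)) := by positivity
  have h0' : 0 < 1 / (6400 * (A + 1)) := by positivity
  filter_upwards [ev_T1_rh2 h0, ev_T1_sqrt h0', ev_pos] with j0 h1 h2 h3
  have h4 : T1j j0 / rhj j0 ^ 2 ≤ 1 / (16 * (A + 1)) := by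
    rw [div_le_iff₀ (pow_pos h3.2.1 2)]
    exact h1
  have h5 : A * (1 / b) ≤ 1 / 8 := by
    rw [mul_one_div, div_le_iff₀ hb]
    linarith
  have h6 : A * (1 / (16 * (A + 1))) ≤ 1 / 16 := by
    rw [mul_one_div, div_le_div_iff₀ (by positivity) (by norm_num)]
    linarith
  have h7 : A * (400 * (1 / (6400 * (A + 1)))) ≤ 1 / 16 := by
    have e : A * (400 * (1 / (6400 * (A + 1)))) = A * (1 / (16 * (A + 1))) := by
      field_simp
      ring
    rw [e]
    exact h6
  calc A * (1 / b + T1j j0 / rhj j0 ^ 2 + 400 * √(T1j j0))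
      ≤ A * (1 / b + 1 / (16 * (A + 1)) + 400 * (1 / (6400 * (A + 1)))) := by gcongr
    _ = A * (1 / b) + A * (1 / (16 * (A + 1))) + A * (400 * (1 / (6400 * (A + 1)))) := by ring
    _ ≤ 1 / 4 := by linarith

/-- **`Main0.AOut`** -/
theorem AOut_of {Y : ℝ} (hY : 1 ≤ Y) (hC : ColdOutAll Y) (hws : WarmSize) (hsp : SpillOutAll Y) :
    Main0.AOut Y := by
  refine ⟨1, fun K hK _ ey β hey hey1 hβ => ?_⟩
  obtain ⟨Cw, hCw⟩ := hws
  -- the exponents
  set g : ℝ := 1 / 8 with hgdef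
  set A1 : ℝ := 2 * K * cqA Y g with hA1
  have hA10 : 0 ≤ A1 := by
    have := cqA_nonneg Y g
    positivity
  set b : ℝ := 1 + β + 8 * A1 with hb
  have hb1 : 1 ≤ b := by rw [hb]; linarith
  set Lam : ℝ := 100 * Y ^ 2 + 64 * b * (b + 1) with hLam
  have hLamY : 100 * Y ^ 2 ≤ Lam := by rw [hLam]; nlinarith
  have hLb : 8 * b * (b + 1) ≤ g * Lam := by rw [hgdef, hLam]; nlinarith [sq_nonneg Y]
  have hLam0 : 0 < Lam := by nlinarith
  set q : ℝ := 2 * b with hq
  set r : ℝ := 2 + 4 * Lam ^ b with hr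
  have hr0 : 0 < r := by rw [hr]; positivity
  obtain ⟨n, hn⟩ := exists_nat_ge (2 * b)
  filter_upwards [coldInp_ev hY hC K ey q hK hey hey1 (by positivity), hC K ey hK hey hey1,
    hsp K ey hK hey hey1, eventually_ge_atTop (32 * (n + 1) + 512)] with p hCI hCO hSpO hp
  intro R ε hε
  have hp1 : 512 ≤ p := by omega
  have hp2 : n + 1 ≤ p / 32 := by omega
  -- constants independent of `j0`
  set cK : ℝ := cKA (par K Y ey p 1) g with hcK
  have hcK' : ∀ j0, cKA (par K Y ey p j0) g = cK := fun _ => rfl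
  set CC : ℝ≥0∞ := 2 * ENNReal.ofReal (2 ^ (((p / 32 : ℕ) : ℝ) - q)) with hCC
  have hCCT : CC ≠ ⊤ := ENNReal.mul_ne_top (by norm_num) ENNReal.ofReal_ne_top
  set Ct : ℝ≥0∞ := cTot CC (ENNReal.ofReal cK) (ENNReal.ofReal (cWA Lam b q))
      (1 + ENNReal.ofReal (Y + 5)) (ENNReal.ofReal (2 ^ q)) (ENNReal.ofReal r) with hCt
  have hCtT : Ct ≠ ⊤ := cTot_ne_top hCCT ENNReal.ofReal_ne_top ENNReal.ofReal_ne_top
    (ENNReal.add_ne_top.2 ⟨ENNReal.one_ne_top, ENNReal.ofReal_ne_top⟩) ENNReal.ofReal_ne_top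
    ENNReal.ofReal_ne_top
  -- the smallness parameter
  set g' : ℝ := 1 / 20 with hg'
  set D1 : ℝ := Real.exp (2 * (g - g')) * (b / (g - g')) ^ b with hD1
  have hgg : 0 < g - g' := by rw [hgdef, hg']; norm_num
  have hD10 : 0 ≤ D1 := by rw [hD1]; positivity
  set D2 : ℝ := r * (A1 * D1) with hD2
  have hD20 : 0 ≤ D2 := by rw [hD2]; positivity
  set ε1 : ℝ := min 1 (ε / (5 * (D2 + 1))) with hε1
  have hε10 : 0 < ε1 := by rw [hε1]; exact lt_min one_pos (by positivity)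
  have hε11 : ε1 ≤ 1 := min_le_left _ _
  have hε12 : D2 * ε1 ^ b ≤ ε / 5 := by
    have h1 : ε1 ^ b ≤ ε1 := by
      calc ε1 ^ b ≤ ε1 ^ (1 : ℝ) := Real.rpow_le_rpow_of_exponent_ge hε10 hε11 hb1
        _ = ε1 := Real.rpow_one _
    have h2 : ε1 ≤ ε / (5 * (D2 + 1)) := min_le_right _ _
    calc D2 * ε1 ^ b ≤ D2 * (ε / (5 * (D2 + 1))) := by gcongr; exact h1.trans h2
      _ ≤ (D2 + 1) * (ε / (5 * (D2 + 1))) := by gcongr; linarith
      _ = ε / 5 := by field_simp
  have hε5 : 0 < ε / 5 := by positivity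
  filter_upwards [hCI, hCO, hSpO,
    ev_Ok K Y ey p (by linarith) (by linarith) hey (by omega),
    ev_ColdPar K Y ey p Cw hK hY hp1, ev_T1_le one_pos, ev_rh_le one_pos, ev_pos,
    ev_one_image K Y ey p (by linarith), ev_theta1 (b := b) hA10 (by linarith) (by rw [hb]; linarith),
    ev_mul_T1_pow Ct.toReal (show (0 : ℝ) < 1 / 4 by norm_num),
    ev_T1_rh2 (show 0 < ε1 / 2 by positivity), ev_dl_rh 2 (show 0 < ε1 / 2 by positivity),
    ev_T1_R R (show (0 : ℝ) < 1 / 2 by norm_num), ev_T1_R (Y + 2) (show (0 : ℝ) < 1 / 8 by norm_num),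
    ev_dl_rh (1 + Y) (show (0 : ℝ) < 1 / 8 by norm_num), ev_c_le K Y ey p one_pos,
    ev_mul_T1 (1 + Lam ^ b) hε5, ev_mul_T1_pow (r * K4.CC Y g g (Y + 5)) hε5,
    ev_mul_T1_pow (r ^ 2 * cK) hε5,
    ev_mul_T1 (2 * (2 * π * (Y + 5) + r * cK)) hε5] with j0 a1 a2 a3 a4 a5 a6 a7 a8 a9 a10 a11 a12
      a13 a14 a15 a16 a17 a18 a19 a20 a21
  obtain ⟨hdl, hrh, hT0⟩ := a8
  set P := par K Y ey p j0 with hP
  have hPY : P.Y = Y := rfl
  have hPK : P.K = K := rfl
  have hTd : T1j j0 ≤ P.dl ^ (3 / 8 : ℝ) := le_rfl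
  have hW : WSz P (T1j j0) := WSz.of fun t x ht hT => by
    obtain ⟨h1, h2, h3⟩ := hCw P a5 t x ht (hT.trans hTd)
    refine ⟨h1, h2.trans (distG_pow_le_one _ x), fun v => (h3 v).trans ?_⟩
    calc _ ≤ 1 * Dm P t x v := mul_le_mul_left (distG_pow_le_one _ x) _
      _ = _ := one_mul _
  have hTz := a9 (T1j j0) hT0.le le_rfl
  have hnp : 2 * b ≤ ((P.p / 32 : ℕ) : ℝ) := by
    have h1 : ((n + 1 : ℕ) : ℝ) ≤ ((P.p / 32 : ℕ) : ℝ) := by exact_mod_cast hp2
    push_cast at h1 ⊢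
    linarith
  have hθ2 : cTot CC (ENNReal.ofReal (cKA P g)) (ENNReal.ofReal (cWA Lam b q))
      (1 + ENNReal.ofReal (P.Y + 5)) (ENNReal.ofReal (2 ^ q)) (ENNReal.ofReal r) *
      ENNReal.ofReal (16 * T1j j0 ^ (3 / 4 : ℝ)) ≤ ENNReal.ofReal (1 / 4) := by
    rw [hcK' j0]
    change Ct * _ ≤ _
    rw [← ENNReal.ofReal_toReal hCtT, ← ENNReal.ofReal_mul ENNReal.toReal_nonneg]
    exact ENNReal.ofReal_le_ofReal a11
  obtain ⟨H, hH, hle⟩ := solve_thm (R := R) a4 hY hT0 a6 hTd hTz a2 a3 hW hLamY hb1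
    (by rw [hgdef]; norm_num) (by rw [hgdef]; norm_num) hLb hrh a7 (le_refl q) hnp a1 le_rfl
    a10 hθ2
  obtain ⟨C0, hC0, hB1⟩ := KC.B1_le_Zg (P := P) (Lam := Lam) (rh := rhj j0) (γ := g) (g0 := 1 / 10)
    (b := b) (β := β) hLam0 hrh (by rw [hgdef]; norm_num) (by linarith)
    (by rw [hb]; linarith) hβ
  refine ⟨H, ENNReal.ofReal r * C0, hH, ENNReal.mul_ne_top ENNReal.ofReal_ne_top hC0, ?_, ?_⟩
  · intro t ht x v
    refine (hle t ht x v).trans ?_
    rw [Wb_eq P Lam (rhj j0) g b ht.1.le x v]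
    calc ENNReal.ofReal r * B1 P Lam (rhj j0) g b t x v
        ≤ ENNReal.ofReal r * (C0 * tx β t x * Zg P (1 / 10) t x v) := by
          gcongr
          exact hB1 t ht.1.le (ht.2.trans a6) x v
      _ = _ := by ring
  · -- closeness
    have hε1' : T1j j0 + 4 * P.dl ^ 2 ≤ ε1 * rhj j0 ^ 2 := by
      have h1 : 4 * P.dl ^ 2 ≤ (ε1 / 2 * rhj j0) ^ 2 := by
        have h2 : 0 ≤ 2 * dlj j0 := by positivity
        calc 4 * P.dl ^ 2 = (2 * dlj j0) ^ 2 := by
              show 4 * (dlj j0) ^ 2 = _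
              ring
          _ ≤ (ε1 / 2 * rhj j0) ^ 2 := pow_le_pow_left₀ h2 a13 2
      have h3 : (ε1 / 2 * rhj j0) ^ 2 ≤ ε1 / 2 * rhj j0 ^ 2 := by
        rw [mul_pow]
        have : (ε1 / 2) ^ 2 ≤ ε1 / 2 := by nlinarith
        have h4 : 0 ≤ rhj j0 ^ 2 := by positivity
        gcongr
      linarith
    have hzz : (1 + P.Y) * P.dl + (P.c + P.Y + etaj P.p P.j0) * T1j j0 < rhj j0 / 2 := by
      have h1 : (1 + P.Y) * P.dl ≤ 1 / 8 * rhj j0 := a16
      have h2 : (P.c + P.Y + etaj P.p P.j0) * T1j j0 ≤ T1j j0 * (Y + 2) := by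
        have h3 := Fuel.etaj_le_one P.p P.j0
        rw [mul_comm]
        apply mul_le_mul_of_nonneg_left _ hT0.le
        rw [hPY]
        linarith
      linarith
    have hcl := close_thm (q := q) (g' := g') (ε1 := ε1) a4 hY hT0 a6 hTd hTz a2 a3 hW hLamY hb1
      (by rw [hgdef]; norm_num) (by rw [hgdef]; norm_num) hLb hrh a7 (le_refl q) hnp
      (by linarith) le_rfl (by linarith) hzz hε1' hH hr0.le hle
    intro t ht x v
    refine (hcl t ht x v).trans ?_
    gcongr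
    show cClose P (T1j j0) Lam g g' b r ε1 ≤ ε
    unfold cClose
    rw [hcK' j0, hPY, hPK]
    have e1 : T1j j0 * (1 + Lam ^ b) ≤ ε / 5 := by rw [mul_comm]; exact a18
    have e2 : r * (2 * K * cqA Y g * ε1 ^ b * (Real.exp (2 * (g - g')) * (b / (g - g')) ^ b)) ≤
        ε / 5 := by
      have : r * (2 * K * cqA Y g * ε1 ^ b * (Real.exp (2 * (g - g')) * (b / (g - g')) ^ b)) =
          D2 * ε1 ^ b := by rw [hD2, hA1, hD1]; ring
      rw [this]; exact hε12
    have e3 : r * (K4.CC Y g g (Y + 5) * (16 * T1j j0 ^ (3 / 4 : ℝ))) ≤ ε / 5 := by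
      rw [← mul_assoc]; exact a19
    have e4 : r ^ 2 * (cK * (16 * T1j j0 ^ (3 / 4 : ℝ))) ≤ ε / 5 := by
      rw [← mul_assoc]; exact a20
    have e5 : 2 * (T1j j0 * (2 * π * (Y + 5) + r * cK)) ≤ ε / 5 := by
      have : 2 * (T1j j0 * (2 * π * (Y + 5) + r * cK)) =
          2 * (2 * π * (Y + 5) + r * cK) * T1j j0 := by ring
      rw [this]; exact a21
    linarith

end Crest.Agent.R68.A
end
end

-- ▼ part R68/ColdSpill

/-!
# Row 68, PART C (helper150): the spill (cold-cold collisions whose products are hot)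
-/

set_option autoImplicit false
open MeasureTheory Set
open scoped ENNReal
open Crest.AnalysisR.VecCalc3 Crest.AnalysisR.PDE.Boltzmann

noncomputable section

namespace Crest.Agent.R68.ColdSp

open Crest.Agent.R68

variable {P : Par}

/-! ### scalar estimates -/

theorem two_pow_ge {p : ℕ} (hp : 2 ≤ p) : (p : ℝ) - 1 ≤ 2 ^ (p - 2) := by
  obtain ⟨n, rfl⟩ := Nat.exists_eq_add_of_le hp
  have h1 : n < 2 ^ n := Nat.lt_two_pow_self
  have h2 : n + 1 ≤ 2 ^ n := h1
  have h3 : ((n + 1 : ℕ) : ℝ) ≤ ((2 ^ n : ℕ) : ℝ) := by exact_mod_cast h2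
  simp only [Nat.add_sub_cancel_left]
  push_cast at h3 ⊢
  linarith

theorem big_pow {p : ℕ} (hp : 512 ≤ p) {m : ℝ} (hm : 401 ≤ m) :
    16 * (4 * (p : ℝ) + 6) * m ≤ m ^ p := by
  have hp2 : (512 : ℝ) ≤ p := by exact_mod_cast hp
  have h1 : m ^ p = m * (m * m ^ (p - 2)) := by
    rw [← pow_succ', ← pow_succ']
    congr 1; omega
  have h2 : (p : ℝ) - 1 ≤ m ^ (p - 2) :=
    (two_pow_ge (by omega)).trans (pow_le_pow_left₀ (by norm_num) (by linarith) _)
  have h3 : 401 * ((p : ℝ) - 1) ≤ m * m ^ (p - 2) :=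
    mul_le_mul hm h2 (by linarith) (by linarith)
  rw [h1]
  have h4 : 16 * (4 * (p : ℝ) + 6) ≤ m * m ^ (p - 2) := by linarith
  nlinarith

theorem CG_le : C.CG ≤ 1000 := by
  unfold C.CG
  have hpi := Real.pi_lt_d2
  have hpi0 := Real.pi_pos
  have h2 : (4 * Real.pi) ^ (3 / 2 : ℝ) ≤ (16 : ℝ) ^ (3 / 2 : ℝ) :=
    Real.rpow_le_rpow (by positivity) (by linarith) (by norm_num)
  have h3 : (16 : ℝ) ^ (3 / 2 : ℝ) = 64 := by
    rw [show (16 : ℝ) = 4 ^ (2 : ℝ) by norm_num, ← Real.rpow_mul (by norm_num)]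
    norm_num
  rw [h3] at h2
  have h4 := Real.rpow_nonneg (show (0:ℝ) ≤ 4 * Real.pi by positivity) (3 / 2 : ℝ)
  calc 2 * Real.pi * (4 * Real.pi) ^ (3 / 2 : ℝ) ≤ 2 * 3.15 * 64 := by
        apply mul_le_mul (by linarith) h2 h4 (by norm_num)
    _ ≤ 1000 := by norm_num

set_option maxHeartbeats 1600000 in
/-- the scalar spill estimate -/
theorem tiny {p : ℕ} (hp : 512 ≤ p) {m b η ρ K a R : ℝ} (hm : 401 ≤ m) (hb : b = m⁻¹)
    (hη : η = b ^ p) (hρ : ρ = b ^ (p / 2)) (hK : 0 ≤ K) (hKm : K ≤ m) (ha : ρ ≤ a)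
    (hR : R ^ 2 ≤ 2 * a ^ 2 + m) :
    C.CG * (K / (b * η ^ 3)) * (√2 * η) ^ 3 * (a + √2 * η) *
        (K / (b * η ^ 3) * Real.exp (-a ^ 2 / (4 * η ^ 2))) ≤
      b ^ p * Real.exp (-2 * m) * Real.exp (-R ^ 2) := by
  have hm0 : 0 < m := by linarith
  have hb0 : 0 < b := by rw [hb]; positivity
  have hb1 : b ≤ 1 := by rw [hb]; exact inv_le_one_of_one_le₀ (by linarith)
  have hbm : b * m = 1 := by rw [hb]; exact inv_mul_cancel₀ hm0.ne'
  have hη0 : 0 < η := by rw [hη]; positivity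
  have hρ0 : 0 < ρ := by rw [hρ]; positivity
  have ha0 : 0 < a := lt_of_lt_of_le hρ0 ha
  have hηρ : η ≤ ρ := by rw [hη, hρ]; exact pow_le_pow_of_le_one hb0.le hb1 (by omega)
  have hη1 : η ≤ 1 / 401 := by
    rw [hη]
    calc b ^ p ≤ b ^ 1 := pow_le_pow_of_le_one hb0.le hb1 (by omega)
      _ = m⁻¹ := by rw [pow_one, hb]
      _ ≤ _ := by rw [← one_div]; exact one_div_le_one_div_of_le (by norm_num) hm
  have hηm : η * m ^ p = 1 := by rw [hη, ← mul_pow, hbm, one_pow]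
  -- `y`
  obtain ⟨y, hy⟩ : ∃ y, y = a ^ 2 / (16 * η ^ 2) := ⟨_, rfl⟩
  have hy0 : 0 ≤ y := by rw [hy]; positivity
  have ha2 : b ^ p ≤ a ^ 2 := by
    calc b ^ p ≤ b ^ (2 * (p / 2)) := pow_le_pow_of_le_one hb0.le hb1 (by omega)
      _ = ρ ^ 2 := by rw [hρ, ← pow_mul, mul_comm]
      _ ≤ a ^ 2 := by gcongr
  have hym : m ^ p / 16 ≤ y := by
    rw [hy, div_le_div_iff₀ (by norm_num) (by positivity)]
    have h1 : m ^ p * η ^ 2 = b ^ p := by
      calc m ^ p * η ^ 2 = (η * m ^ p) * η := by ring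
        _ = b ^ p := by rw [hηm, one_mul, hη]
    nlinarith
  have hbig := big_pow hp hm
  have hy2 : (4 * (p : ℝ) + 6) * m ≤ y := by linarith
  have hηs : 16 * η ^ 2 ≤ 1 / 10000 := by nlinarith
  have hya : 10000 * a ^ 2 ≤ y := by
    rw [hy, le_div_iff₀ (by positivity)]
    nlinarith [sq_nonneg a]
  -- sqrt
  have hs2 : √2 ≤ 3 / 2 := by
    rw [Real.sqrt_le_left (by norm_num)]; norm_num
  have hs0 : 0 ≤ √2 := Real.sqrt_nonneg 2
  -- the exponential split
  have hexp : Real.exp (-a ^ 2 / (4 * η ^ 2)) =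
      Real.exp (-y) * (Real.exp (-y) * (Real.exp (-y) * Real.exp (-y))) := by
    rw [← Real.exp_add, ← Real.exp_add, ← Real.exp_add]
    congr 1
    rw [hy]; field_simp; ring
  have e1 : a * Real.exp (-y) ≤ 1 := by
    have h1 : a ≤ Real.exp y := by
      have h2 := Real.add_one_le_exp y
      nlinarith [sq_nonneg (a - 1)]
    calc a * Real.exp (-y) ≤ Real.exp y * Real.exp (-y) := by gcongr
      _ = 1 := by rw [← Real.exp_add]; simp
  have e2 : Real.exp (-y) ≤ Real.exp (-R ^ 2) * Real.exp m := by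
    rw [← Real.exp_add]
    apply Real.exp_le_exp.2
    nlinarith [sq_nonneg a]
  have e3 : Real.exp (-y) ≤ Real.exp (-(3 * m)) := by
    apply Real.exp_le_exp.2
    have : 3 * m ≤ (4 * (p : ℝ) + 6) * m := by
      apply mul_le_mul_of_nonneg_right _ hm0.le
      have : (0 : ℝ) ≤ p := Nat.cast_nonneg p
      linarith
    linarith
  have e4 : Real.exp (-y) ≤ b ^ (4 * p + 6) := by
    have h1 : m ≤ Real.exp m := by have := Real.add_one_le_exp m; linarith
    have h2 : m ^ (4 * p + 6) ≤ Real.exp y := by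
      calc m ^ (4 * p + 6) ≤ Real.exp m ^ (4 * p + 6) := pow_le_pow_left₀ hm0.le h1 _
        _ = Real.exp ((4 * (p : ℝ) + 6) * m) := by
          rw [← Real.exp_nat_mul]; push_cast; ring_nf
        _ ≤ _ := Real.exp_le_exp.2 hy2
    rw [Real.exp_neg, hb, inv_pow]
    exact inv_anti₀ (by positivity) h2
  have hCG := CG_le
  have hCG0 := C.CG_pos
  -- polynomial factor
  have hpoly : C.CG * (K / (b * η ^ 3)) * (√2 * η) ^ 3 * (K / (b * η ^ 3)) * b ^ (4 * p + 6) * 3 ≤
      b ^ p := by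
    have h1 : C.CG * (K / (b * η ^ 3)) * (√2 * η) ^ 3 * (K / (b * η ^ 3)) * b ^ (4 * p + 6) * 3 =
        (3 * C.CG * √2 ^ 3) * (K * b) ^ 2 * b ^ 2 * (b ^ p * (b ^ p / η) ^ 3) := by
      have : b ^ (4 * p + 6) = b ^ 6 * (b ^ p) ^ 4 := by
        rw [← pow_mul, ← pow_add]; congr 1; ring
      rw [this]
      field_simp
    rw [h1, hη, div_self (by positivity), one_pow, mul_one]
    have h2 : (K * b) ^ 2 ≤ 1 := by
      have : K * b ≤ 1 := by
        rw [← hbm, mul_comm]; exact mul_le_mul_of_nonneg_left hKm hb0.le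
      exact pow_le_one₀ (by positivity) this
    have h3 : 3 * C.CG * √2 ^ 3 ≤ m ^ 2 := by
      have h4 : √2 ^ 3 ≤ 4 := by
        calc √2 ^ 3 ≤ (3 / 2) ^ 3 := pow_le_pow_left₀ hs0 hs2 3
          _ ≤ 4 := by norm_num
      nlinarith [pow_nonneg hs0 3]
    have h5 : m ^ 2 * b ^ 2 = 1 := by rw [← mul_pow, mul_comm m b, hbm, one_pow]
    calc (3 * C.CG * √2 ^ 3) * (K * b) ^ 2 * b ^ 2 * b ^ p ≤ m ^ 2 * 1 * b ^ 2 * b ^ p := by
          gcongr
      _ = b ^ p := by rw [mul_one, h5, one_mul]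
  have hA0 : 0 ≤ K / (b * η ^ 3) := by positivity
  calc C.CG * (K / (b * η ^ 3)) * (√2 * η) ^ 3 * (a + √2 * η) *
        (K / (b * η ^ 3) * Real.exp (-a ^ 2 / (4 * η ^ 2)))
      ≤ C.CG * (K / (b * η ^ 3)) * (√2 * η) ^ 3 * (3 * a) *
        (K / (b * η ^ 3) * Real.exp (-a ^ 2 / (4 * η ^ 2))) := by
        gcongr
        nlinarith
    _ = C.CG * (K / (b * η ^ 3)) * (√2 * η) ^ 3 * (K / (b * η ^ 3)) * 3 *
        (a * Real.exp (-y)) * (Real.exp (-y) * (Real.exp (-y) * Real.exp (-y))) := by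
        rw [hexp]; ring
    _ ≤ C.CG * (K / (b * η ^ 3)) * (√2 * η) ^ 3 * (K / (b * η ^ 3)) * 3 *
        1 * ((Real.exp (-R ^ 2) * Real.exp m) * (Real.exp (-(3 * m)) * b ^ (4 * p + 6))) := by
        gcongr
    _ = (C.CG * (K / (b * η ^ 3)) * (√2 * η) ^ 3 * (K / (b * η ^ 3)) * b ^ (4 * p + 6) * 3) *
        (Real.exp m * Real.exp (-(3 * m)) * Real.exp (-R ^ 2)) := by ring
    _ ≤ b ^ p * (Real.exp m * Real.exp (-(3 * m)) * Real.exp (-R ^ 2)) := by gcongr
    _ = b ^ p * Real.exp (-2 * m) * Real.exp (-R ^ 2) := by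
        rw [← Real.exp_add, ← mul_assoc]
        congr 3; ring

/-! ### one sheet: the own spill -/

theorem gaussj_eq_gs (P : Par) (j : ℕ) (t : ℝ) (x : P2) :
    gaussj P j t x = C.gs (P.K / (bj j * etaj P.p j ^ 3)) (√2 * etaj P.p j)
      (uvec P (wj j) t x) := by
  funext v
  unfold gaussj C.gs
  have h : 2 * (√2 * etaj P.p j) ^ 2 = 4 * etaj P.p j ^ 2 := by
    rw [mul_pow, Real.sq_sqrt (by norm_num)]; ring
  rw [h]

/-- `bj⁻¹` is large -/
theorem m_facts (h : ColdPar C.C0 P) {j : ℕ} (hj : P.j0 ≤ j) :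
    401 ≤ (bj j)⁻¹ ∧ P.K ≤ (bj j)⁻¹ ∧ 2 * (P.Y + 3) ^ 2 ≤ (bj j)⁻¹ := by
  have hb := C.bj_pos j
  have h0 := C.bj_small' h hj (n := 0) (by norm_num)
  have h1 := C.bj_small' h hj (n := 1) (by norm_num)
  have h2 := C.bj_small' h hj (n := 2) (by norm_num)
  have hK := h.K
  have hY := h.Y
  have hinv : (bj j)⁻¹ * bj j = 1 := inv_mul_cancel₀ hb.ne'
  have key : ∀ X : ℝ, X * bj j ≤ 1 → X ≤ (bj j)⁻¹ := by
    intro X hX
    rw [← one_div, le_div_iff₀ hb]
    exact hX
  refine ⟨key _ ?_, key _ ?_, key _ ?_⟩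
  · rw [pow_zero] at h0; nlinarith
  · rw [pow_one] at h1
    have : P.K * bj j ≤ 10 ^ 13 * (P.K + P.Y) * bj j := by
      apply mul_le_mul_of_nonneg_right _ hb.le
      nlinarith
    linarith
  · have : 2 * (P.Y + 3) ^ 2 * bj j ≤ 10 ^ 13 * (P.K + P.Y) ^ 2 * bj j := by
      apply mul_le_mul_of_nonneg_right _ hb.le
      nlinarith
    linarith

/-- **own spill of one sheet**, all times -/
theorem own_spill (h : ColdPar C.C0 P) {j : ℕ} {t : ℝ} (ht : 0 ≤ t) {x : P2}
    (hz : C.LZ P j t x) {v : R3} (hv : rhoj P.p j ≤ ‖v - uvec P (wj j) t x‖) :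
    Qp (gaussj P j t x) (gaussj P j t x) v ≤
      ENNReal.ofReal (bj j ^ P.p * Real.exp (-2 * (bj j)⁻¹) * Real.exp (-‖v‖ ^ 2)) := by
  have hj := hz.1
  obtain ⟨hm1, hm2, hm3⟩ := m_facts h hj
  have hb := C.bj_pos j
  have hK := h.K
  have hη : 0 < etaj P.p j := by rw [C.etaj_eq]; positivity
  have hu := C.norm_uvec_le h ht hz
  have hY := h.Y
  have hA : 0 ≤ P.K / (bj j * etaj P.p j ^ 3) := by positivity
  have hηs : 0 < √2 * etaj P.p j := by positivity
  have hR : ‖v‖ ^ 2 ≤ 2 * ‖v - uvec P (wj j) t x‖ ^ 2 + (bj j)⁻¹ := by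
    have h1 : ‖v‖ ≤ ‖v - uvec P (wj j) t x‖ + ‖uvec P (wj j) t x‖ := by
      calc ‖v‖ = ‖(v - uvec P (wj j) t x) + uvec P (wj j) t x‖ := by congr 1; abel
        _ ≤ _ := norm_add_le _ _
    have h2 : ‖uvec P (wj j) t x‖ ^ 2 ≤ (P.Y + 3) ^ 2 := by
      apply pow_le_pow_left₀ (norm_nonneg _) (by linarith)
    nlinarith [norm_nonneg v, norm_nonneg (v - uvec P (wj j) t x), norm_nonneg (uvec P (wj j) t x),
      sq_nonneg (‖v - uvec P (wj j) t x‖ - ‖uvec P (wj j) t x‖)]
  have ht := tiny h.p (m := (bj j)⁻¹) (b := bj j) (η := etaj P.p j) (ρ := rhoj P.p j) (K := P.K)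
    (a := ‖v - uvec P (wj j) t x‖) (R := ‖v‖) hm1 (inv_inv _).symm rfl rfl (by linarith) hm2 hv hR
  rw [gaussj_eq_gs, C.Qp_gs hA]
  calc C.gs (P.K / (bj j * etaj P.p j ^ 3)) (√2 * etaj P.p j) (uvec P (wj j) t x) v *
        Lc (C.gs (P.K / (bj j * etaj P.p j ^ 3)) (√2 * etaj P.p j) (uvec P (wj j) t x)) v
      ≤ C.gs (P.K / (bj j * etaj P.p j ^ 3)) (√2 * etaj P.p j) (uvec P (wj j) t x) v *
        ENNReal.ofReal (C.CG * (P.K / (bj j * etaj P.p j ^ 3)) * (√2 * etaj P.p j) ^ 3 *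
          (‖v - uvec P (wj j) t x‖ + √2 * etaj P.p j)) := by
        gcongr
        exact C.Lc_gs_le hA hηs _ _
    _ = ENNReal.ofReal (C.CG * (P.K / (bj j * etaj P.p j ^ 3)) * (√2 * etaj P.p j) ^ 3 *
          (‖v - uvec P (wj j) t x‖ + √2 * etaj P.p j) *
          (P.K / (bj j * etaj P.p j ^ 3) *
            Real.exp (-‖v - uvec P (wj j) t x‖ ^ 2 / (4 * etaj P.p j ^ 2)))) := by
        unfold C.gs
        rw [← ENNReal.ofReal_mul (by positivity)]
        have h3 : 2 * (√2 * etaj P.p j) ^ 2 = 4 * etaj P.p j ^ 2 := by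
          rw [mul_pow, Real.sq_sqrt (by norm_num)]; ring
        rw [h3]
        congr 1; ring
    _ ≤ _ := ENNReal.ofReal_le_ofReal ht

/-! ### the spill functional -/

/-- index set: image and lane -/
abbrev Ix : Type := (ℤ × ℤ) × ℕ

open scoped Classical in
/-- the spill of a family of densities `F i` (`i` = (image, lane)) at `(t,x)` -/
def spillF (P : Par) (t : ℝ) (x : P2) (F : Ix → R3 → ℝ≥0∞) (v : R3) : ℝ≥0∞ :=
  ∑' i : Ix, ∑' i' : Ix,
    if i = i' ∧ t ≤ tauj P.p i.2 ∧ Zj P i.2 1 t (x + latt i.1) v then 0 else Qp (F i) (F i') v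

theorem coldSpill_eq (P : Par) (lam : ℝ → P2 → R3 → ℝ≥0∞) (t : ℝ) (x : P2) (v : R3) :
    coldSpill P lam t x v = spillF P t x (fun i => coldjk P lam i t x) v := rfl

/-- the bound of the spill -/
def spB (P : Par) (x : P2) (v : R3) : ℝ≥0∞ :=
  ENNReal.ofReal (distG x ^ (P.p / 32) * Real.exp (-(distG x)⁻¹) * Real.exp (-‖v‖ ^ 2))

theorem spB_le_pow (P : Par) (x : P2) (v : R3) :
    spB P x v ≤ ENNReal.ofReal (distG x ^ (P.p / 32) * Real.exp (-‖v‖ ^ 2)) := by
  unfold spB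
  apply ENNReal.ofReal_le_ofReal
  have h1 := distG_nonneg x
  have h2 : Real.exp (-(distG x)⁻¹) ≤ 1 := by
    rw [Real.exp_le_one_iff]
    have := inv_nonneg.2 h1
    linarith
  have h3 : 0 ≤ distG x ^ (P.p / 32) := by positivity
  calc distG x ^ (P.p / 32) * Real.exp (-(distG x)⁻¹) * Real.exp (-‖v‖ ^ 2)
      ≤ distG x ^ (P.p / 32) * 1 * Real.exp (-‖v‖ ^ 2) := by gcongr
    _ = _ := by rw [mul_one]


/-- the visible sheet is at distance `≥ bj` from the lattice -/
theorem bj_le_distG (h : ColdPar C.C0 P) {j : ℕ} {t : ℝ} (ht : 0 ≤ t)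
    (htT : t ≤ P.dl ^ (3 / 8 : ℝ)) {x : P2} {k : ℤ × ℤ} (hz : C.LZ P j t (x + latt k)) :
    bj j ≤ distG x := by
  have h1 := C.lab_sq_ge h hz
  have h2 := C.lab_le_distG h ht htT hz
  have hb := C.bj_pos j
  have h3 := C.bj_small0 h hz.1
  refine le_trans ?_ h2
  have h4 : bj j ^ 2 ≤ |lab P t (x + latt k)| ^ 2 := by
    rw [sq_abs]
    nlinarith
  exact le_of_sq_le_sq h4 (abs_nonneg _) |> fun h => h

/-- own spill against `spB` -/
theorem own_spill_le (h : ColdPar C.C0 P) {j : ℕ} {t : ℝ} (ht : 0 ≤ t)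
    (htT : t ≤ P.dl ^ (3 / 8 : ℝ)) {x : P2} {k : ℤ × ℤ} (hz : C.LZ P j t (x + latt k)) {v : R3}
    (hv : rhoj P.p j ≤ ‖v - uvec P (wj j) t (x + latt k)‖) :
    Qp (gaussj P j t (x + latt k)) (gaussj P j t (x + latt k)) v ≤
      ENNReal.ofReal (1 / 100) * spB P x v := by
  refine (own_spill h ht hz hv).trans ?_
  unfold spB
  rw [← ENNReal.ofReal_mul (by norm_num)]
  apply ENNReal.ofReal_le_ofReal
  have hb := C.bj_pos j
  have hb1 := C.bj_le_one j
  obtain ⟨hm1, -, -⟩ := m_facts h hz.1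
  have hd := bj_le_distG h ht htT hz
  have hd0 : 0 < distG x := lt_of_lt_of_le hb hd
  have h1 : bj j ^ P.p ≤ distG x ^ (P.p / 32) := by
    calc bj j ^ P.p ≤ bj j ^ (P.p / 32) := pow_le_pow_of_le_one hb.le hb1 (Nat.div_le_self _ _)
      _ ≤ _ := pow_le_pow_left₀ hb.le hd _
  have h2 : Real.exp (-2 * (bj j)⁻¹) ≤ 1 / 100 * Real.exp (-(distG x)⁻¹) := by
    have h3 : (distG x)⁻¹ ≤ (bj j)⁻¹ := inv_anti₀ hb hd
    have h4 : Real.exp (-(bj j)⁻¹) ≤ 1 / 100 := by
      rw [Real.exp_neg, ← one_div]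
      apply one_div_le_one_div_of_le (by norm_num)
      have := Real.add_one_le_exp (bj j)⁻¹
      linarith
    calc Real.exp (-2 * (bj j)⁻¹) = Real.exp (-(bj j)⁻¹) * Real.exp (-(bj j)⁻¹) := by
          rw [← Real.exp_add]; congr 1; ring
      _ ≤ 1 / 100 * Real.exp (-(distG x)⁻¹) := by
          gcongr
  calc bj j ^ P.p * Real.exp (-2 * (bj j)⁻¹) * Real.exp (-‖v‖ ^ 2)
      ≤ distG x ^ (P.p / 32) * (1 / 100 * Real.exp (-(distG x)⁻¹)) * Real.exp (-‖v‖ ^ 2) := by
        gcongr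
    _ = _ := by ring

theorem Qp_zero_left {f : R3 → ℝ≥0∞} (hf : ∀ v, f v = 0) (g : R3 → ℝ≥0∞) (v : R3) :
    Qp f g v = 0 := by
  unfold Qp; simp [hf]

theorem Qp_zero_right (f : R3 → ℝ≥0∞) {g : R3 → ℝ≥0∞} (hg : ∀ v, g v = 0) (v : R3) :
    Qp f g v = 0 := by
  unfold Qp; simp [hg]

theorem spillF_none {t : ℝ} {x : P2} {F : Ix → R3 → ℝ≥0∞} (hF : ∀ i v, F i v = 0) (v : R3) :
    spillF P t x F v = 0 := by
  unfold spillF
  simp only [ENNReal.tsum_eq_zero]
  intro i i'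
  split_ifs
  · rfl
  · exact Qp_zero_left (hF i) _ v

open scoped Classical in
theorem spillF_single {t : ℝ} {x : P2} {F : Ix → R3 → ℝ≥0∞} (i0 : Ix)
    (hF : ∀ i, i ≠ i0 → ∀ v, F i v = 0) (v : R3) :
    spillF P t x F v = if t ≤ tauj P.p i0.2 ∧ Zj P i0.2 1 t (x + latt i0.1) v then 0 else
      Qp (F i0) (F i0) v := by
  unfold spillF
  rw [tsum_eq_single i0, tsum_eq_single i0]
  · simp
  · intro i' hi'
    rw [if_neg fun h => hi' h.1.symm]
    exact Qp_zero_right _ (hF i' hi') v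
  · intro i hi
    rw [ENNReal.tsum_eq_zero]
    intro i'
    split_ifs
    · rfl
    · exact Qp_zero_left (hF i hi) _ v

/-- majorant of one sheet of the cold component -/
def cS (P : Par) (t : ℝ) (x : P2) (i : Ix) (v : R3) : ℝ≥0∞ :=
  phij P i.2 t (x + latt i.1) v + warmj P i.2 t (x + latt i.1) v

theorem cS_ne (h : ColdPar C.C0 P) (hey : 0 < P.ey) {t : ℝ} (ht : 0 ≤ t) {x : P2} {i : Ix} {v : R3}
    (hc : cS P t x i v ≠ 0) : C.LZ P i.2 t (x + latt i.1) := by
  by_contra hz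
  apply hc
  unfold cS
  rw [C.warmj_eq_zero hz, add_zero]
  by_contra h1
  exact hz (C.LZ_of_Ztj (ColdW.Ztj_of_phij (C.CP.ok h hey) h.p ht h1))

theorem cS_le (h : ColdPar C.C0 P) (hey : 0 < P.ey) {t : ℝ} (ht : 0 ≤ t) (x : P2) (i : Ix) (v : R3) :
    cS P t x i v ≤ 2 * gaussj P i.2 t (x + latt i.1) v := by
  unfold cS
  rw [two_mul]
  apply add_le_add (ColdW.phij_le_gaussj (C.CP.ok h hey) _ ht _ _)
  unfold warmj
  split_ifs
  · calc ENNReal.ofReal (kapj P.p i.2) * gaussj P i.2 t (x + latt i.1) v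
        ≤ 1 * gaussj P i.2 t (x + latt i.1) v := by
          gcongr
          rw [ENNReal.ofReal_le_one]
          exact (ColdW.kapj_le h.p _).trans (pow_le_one₀ (C.bj_pos _).le (C.bj_le_one _))
      _ = _ := one_mul _
  · exact zero_le

theorem not_Zj (h : ColdPar C.C0 P) {j : ℕ} {t : ℝ} (ht : 0 ≤ t)
    (htT : t ≤ P.dl ^ (3 / 8 : ℝ)) {x : P2} (hz : C.LZ P j t x) {v : R3}
    (hn : ¬ (t ≤ tauj P.p j ∧ Zj P j 1 t x v)) : rhoj P.p j ≤ ‖v - uvec P (wj j) t x‖ := by
  have h1 : t ≤ tauj P.p j := by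
    have h2 := C.CP.T1_le h
    have h3 : 1 / (40 * (P.K + P.Y)) ≤ 1 := by
      rw [div_le_one (by linarith [h.K, h.Y])]; linarith [h.K, h.Y]
    linarith [ColdW.one_le_tauj P.p j]
  by_contra hv
  push Not at hv
  apply hn
  refine ⟨h1, hz.1, C.lab_mem_laneE h hz, ?_, by rwa [one_mul]⟩
  have hE := C.lab_mem_laneE h hz
  have hr : 0 < rr (lab P t x) := by unfold rr; have := hE.1; positivity
  have hs := C.slack_small2 h hz.1 (n := 2) (by norm_num)
  have hb := C.bj_pos j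
  have hb1 := C.bj_le_one j
  have h4 : bj j ^ 2 / 10 ^ 6 ≤ 1 / 2 := by
    have := pow_le_one₀ (n := 2) hb.le hb1
    rw [div_le_iff₀ (by norm_num)]; linarith
  refine lt_of_le_of_lt hz.2.2 ?_
  apply mul_lt_mul_of_pos_right _ (by linarith)
  linarith [h.Y]

/-- **(C6)** spill on `[0,T1]` -/
theorem spillF_le (h : ColdPar C.C0 P) (hey : 0 < P.ey) {t : ℝ} (ht : 0 ≤ t)
    (htT : t ≤ P.dl ^ (3 / 8 : ℝ)) (x : P2) {F : Ix → R3 → ℝ≥0∞}
    (hF : ∀ i v, F i v ≤ cS P t x i v) (v : R3) : spillF P t x F v ≤ spB P x v := by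
  have hF0 : ∀ i v, F i v ≠ 0 → C.LZ P i.2 t (x + latt i.1) := by
    intro i v hi
    apply cS_ne h hey ht (v := v)
    intro h0
    apply hi
    have := hF i v
    rw [h0] at this
    exact le_antisymm this zero_le
  by_cases hex : ∃ i v, F i v ≠ 0
  · obtain ⟨i0, v0, h0⟩ := hex
    have hz := hF0 i0 v0 h0
    have hsingle : ∀ i, i ≠ i0 → ∀ v, F i v = 0 := by
      intro i hi v
      by_contra h1
      have h2 := C.LZ_unique h ht htT (hF0 i v h1) hz
      exact hi (Prod.ext h2.1 h2.2)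
    rw [spillF_single i0 hsingle]
    split_ifs with hc
    · exact zero_le
    · have hv := not_Zj h ht htT hz hc
      have h1 := own_spill_le h ht htT hz hv
      calc Qp (F i0) (F i0) v
          ≤ Qp (fun v => 2 * gaussj P i0.2 t (x + latt i0.1) v)
              (fun v => 2 * gaussj P i0.2 t (x + latt i0.1) v) v :=
            C.Qp_mono (fun v => (hF i0 v).trans (cS_le h hey ht x i0 v))
              (fun v => (hF i0 v).trans (cS_le h hey ht x i0 v)) v
        _ = 2 * 2 * Qp (gaussj P i0.2 t (x + latt i0.1)) (gaussj P i0.2 t (x + latt i0.1)) v :=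
            C.Qp_const_mul (by norm_num) (by norm_num) _ _ v
        _ ≤ 2 * 2 * (ENNReal.ofReal (1 / 100) * spB P x v) := by gcongr
        _ = ENNReal.ofReal (4 / 100) * spB P x v := by
            rw [← mul_assoc]
            congr 1
            rw [show (2 : ℝ≥0∞) * 2 = ENNReal.ofReal 4 by norm_num,
              ← ENNReal.ofReal_mul (by norm_num)]
            norm_num
        _ ≤ 1 * spB P x v := by
            gcongr
            rw [ENNReal.ofReal_le_one]; norm_num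
        _ = _ := one_mul _
  · push Not at hex
    rw [spillF_none hex]
    exact zero_le

theorem measurable_gaussj (P : Par) (j : ℕ) (t : ℝ) (x : P2) : Measurable (gaussj P j t x) := by
  rw [gaussj_eq_gs]
  exact C.measurable_gs _ _ _

/-- **(C4, spill half)** -/
theorem spillF_lip (h : ColdPar C.C0 P) (hey : 0 < P.ey) {t : ℝ} (ht : 0 ≤ t)
    (htT : t ≤ P.dl ^ (3 / 8 : ℝ)) (x : P2) {F F' : Ix → R3 → ℝ≥0∞} (hm : ∀ i, Measurable (F' i))
    (hF : ∀ i v, F i v ≤ cS P t x i v) (hF' : ∀ i v, F' i v ≤ cS P t x i v) (Δ : ℝ≥0∞)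
    (hd : ∀ i v, F i v ≤ F' i v + 2 * Δ * cS P t x i v) (v : R3) :
    spillF P t x F v ≤ spillF P t x F' v + Δ * spB P x v := by
  rcases le_or_gt 1 Δ with hΔ | hΔ
  · calc spillF P t x F v ≤ spB P x v := spillF_le h hey ht htT x hF v
      _ = 1 * spB P x v := (one_mul _).symm
      _ ≤ Δ * spB P x v := by gcongr
      _ ≤ _ := le_add_self
  have hΔ' : Δ ≠ ⊤ := (hΔ.trans ENNReal.one_lt_top).ne
  have hF0 : ∀ i v, F i v ≠ 0 → C.LZ P i.2 t (x + latt i.1) := by
    intro i v hi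
    apply cS_ne h hey ht (v := v)
    intro h0
    apply hi
    have := hF i v
    rw [h0] at this
    exact le_antisymm this zero_le
  have hF0' : ∀ i v, F' i v ≠ 0 → C.LZ P i.2 t (x + latt i.1) := by
    intro i v hi
    apply cS_ne h hey ht (v := v)
    intro h0
    apply hi
    have := hF' i v
    rw [h0] at this
    exact le_antisymm this zero_le
  by_cases hex : ∃ i v, F i v ≠ 0
  · obtain ⟨i0, v0, h0⟩ := hex
    have hz := hF0 i0 v0 h0
    have hsingle : ∀ i, i ≠ i0 → ∀ v, F i v = 0 := by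
      intro i hi v
      by_contra h1
      have h2 := C.LZ_unique h ht htT (hF0 i v h1) hz
      exact hi (Prod.ext h2.1 h2.2)
    have hsingle' : ∀ i, i ≠ i0 → ∀ v, F' i v = 0 := by
      intro i hi v
      by_contra h1
      have h2 := C.LZ_unique h ht htT (hF0' i v h1) hz
      exact hi (Prod.ext h2.1 h2.2)
    rw [spillF_single i0 hsingle, spillF_single i0 hsingle']
    split_ifs with hc
    · exact zero_le
    · have hv := not_Zj h ht htT hz hc
      have h1 := own_spill_le h ht htT hz hv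
      obtain ⟨g, hg⟩ : ∃ g : R3 → ℝ≥0∞, g = gaussj P i0.2 t (x + latt i0.1) := ⟨_, rfl⟩
      have hgm : Measurable g := by rw [hg]; exact measurable_gaussj _ _ _ _
      have hcg : ∀ v, cS P t x i0 v ≤ 2 * g v := by
        intro v; rw [hg]; exact cS_le h hey ht x i0 v
      rw [← hg] at h1
      have hup : ∀ v, F i0 v ≤ F' i0 v + 4 * Δ * g v := by
        intro v
        calc F i0 v ≤ F' i0 v + 2 * Δ * cS P t x i0 v := hd i0 v
          _ ≤ F' i0 v + 2 * Δ * (2 * g v) := by gcongr; exact hcg v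
          _ = _ := by ring
      have h2g : ∀ v, F' i0 v ≤ 2 * g v := fun v => (hF' i0 v).trans (hcg v)
      have h4 : (4 : ℝ≥0∞) * Δ ≠ ⊤ := ENNReal.mul_ne_top (by norm_num) hΔ'
      have e1 : Qp (F' i0) (fun v => 4 * Δ * g v) v ≤ 2 * (4 * Δ) * Qp g g v := by
        calc _ ≤ Qp (fun v => 2 * g v) (fun v => 4 * Δ * g v) v :=
              C.Qp_mono h2g (fun _ => le_rfl) v
          _ = _ := C.Qp_const_mul (by norm_num) h4 _ _ v
      have e2 : Qp (fun v => 4 * Δ * g v) (F' i0) v ≤ 4 * Δ * 2 * Qp g g v := by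
        calc _ ≤ Qp (fun v => 4 * Δ * g v) (fun v => 2 * g v) v :=
              C.Qp_mono (fun _ => le_rfl) h2g v
          _ = _ := C.Qp_const_mul h4 (by norm_num) _ _ v
      have e3 : Qp (fun v => 4 * Δ * g v) (fun v => 4 * Δ * g v) v ≤ 16 * Δ * Qp g g v := by
        rw [C.Qp_const_mul h4 h4]
        apply mul_le_mul_left
        calc 4 * Δ * (4 * Δ) = 16 * Δ * Δ := by ring
          _ ≤ 16 * Δ * 1 := by gcongr
          _ = _ := mul_one _
      have hm2 : Measurable fun v => 4 * Δ * g v := hgm.const_mul _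
      calc Qp (F i0) (F i0) v
          ≤ Qp (fun v => F' i0 v + 4 * Δ * g v) (fun v => F' i0 v + 4 * Δ * g v) v :=
            C.Qp_mono hup hup v
        _ = Qp (F' i0) (F' i0) v + Qp (F' i0) (fun v => 4 * Δ * g v) v +
            (Qp (fun v => 4 * Δ * g v) (F' i0) v +
              Qp (fun v => 4 * Δ * g v) (fun v => 4 * Δ * g v) v) := by
            have hs : Measurable fun v => F' i0 v + 4 * Δ * g v := (hm i0).add hm2
            rw [A.Qp_add_left (hm i0) hs, A.Qp_add_right (hm i0) (hm i0),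
              A.Qp_add_right hm2 (hm i0)]
        _ ≤ Qp (F' i0) (F' i0) v + 2 * (4 * Δ) * Qp g g v +
            (4 * Δ * 2 * Qp g g v + 16 * Δ * Qp g g v) := by gcongr
        _ = Qp (F' i0) (F' i0) v + Δ * (32 * Qp g g v) := by ring
        _ ≤ Qp (F' i0) (F' i0) v + Δ * (32 * (ENNReal.ofReal (1 / 100) * spB P x v)) := by gcongr
        _ = Qp (F' i0) (F' i0) v + Δ * (ENNReal.ofReal (32 / 100) * spB P x v) := by
            congr 2
            rw [← mul_assoc]
            congr 1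
            rw [show (32 : ℝ≥0∞) = ENNReal.ofReal 32 by norm_num,
              ← ENNReal.ofReal_mul (by norm_num)]
            norm_num
        _ ≤ Qp (F' i0) (F' i0) v + Δ * (1 * spB P x v) := by
            gcongr
            rw [ENNReal.ofReal_le_one]; norm_num
        _ = _ := by rw [one_mul]
  · push Not at hex
    rw [spillF_none hex]
    exact zero_le

end Crest.Agent.R68.ColdSp
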