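import Mathlib
import Crest.Agent.R68.Defs
import Crest.Agent.R68.DBil
import Crest.Agent.R68.EChain

-- ▼ part R68/DNeu
section

/-!
Row 68, D-layer (helper813): positive countably additive operators on measurable functions
`Ω → ℝ≥0∞`, Neumann series, minimality, comparison; adjoint pairs; ultrafilter weak limits.
-/

set_option autoImplicit false
set_option linter.unusedSectionVars false
open MeasureTheory Filter
open scoped ENNReal NNReal Topology

namespace Crest.Agent.R68.D

variable {Ω : Type*} [MeasurableSpace Ω] {μ : Measure Ω}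

/-- a positive, countably additive operator on nonnegative measurable functions, compatible with
a.e. order -/
structure PosOp (μ : Measure Ω) (T : (Ω → ℝ≥0∞) → (Ω → ℝ≥0∞)) : Prop where
  meas : ∀ f, Measurable f → Measurable (T f)
  mono : ∀ f g : Ω → ℝ≥0∞, Measurable f → Measurable g → f ≤ᵐ[μ] g → T f ≤ᵐ[μ] T g
  tsum : ∀ f : ℕ → Ω → ℝ≥0∞, (∀ n, Measurable (f n)) →
    T (fun x => ∑' n, f n x) =ᵐ[μ] fun x => ∑' n, T (f n) x
  map_zero : T (fun _ => 0) =ᵐ[μ] fun _ => 0

namespace PosOp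

variable {T : (Ω → ℝ≥0∞) → (Ω → ℝ≥0∞)}

theorem congr (hT : PosOp μ T) {f g : Ω → ℝ≥0∞} (hf : Measurable f) (hg : Measurable g)
    (h : f =ᵐ[μ] g) : T f =ᵐ[μ] T g :=
  (hT.mono f g hf hg h.le).antisymm (hT.mono g f hg hf h.symm.le)

theorem add (hT : PosOp μ T) {f g : Ω → ℝ≥0∞} (hf : Measurable f) (hg : Measurable g) :
    T (fun x => f x + g x) =ᵐ[μ] fun x => T f x + T g x := by
  let F : ℕ → Ω → ℝ≥0∞ := fun n => if n = 0 then f else if n = 1 then g else fun _ => 0
  have hF : ∀ n, Measurable (F n) := by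
    intro n
    by_cases h0 : n = 0
    · simp [F, h0, hf]
    · by_cases h1 : n = 1
      · simp [F, h1, hg]
      · simp [F, h0, h1]
  have h := hT.tsum F hF
  have hsum : ∀ G : ℕ → ℝ≥0∞, (∀ n, n ≠ 0 → n ≠ 1 → G n = 0) → ∑' n, G n = G 0 + G 1 := by
    intro G hG
    rw [tsum_eq_sum (s := Finset.range 2)]
    · simp [Finset.sum_range_succ]
    · intro b hb
      simp only [Finset.mem_range, not_lt] at hb
      exact hG b (by omega) (by omega)
  have h1 : (fun x => ∑' n : ℕ, F n x) = fun x => f x + g x := by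
    funext x
    rw [hsum (fun n => F n x) (fun n h0 h1 => by simp [F, h0, h1])]
    simp [F]
  rw [h1] at h
  filter_upwards [h, hT.map_zero] with x hx hz
  rw [hx, hsum (fun n => T (F n) x) (fun n h0 h1 => by simpa [F, h0, h1] using hz)]
  simp [F]





/-- Neumann series -/
noncomputable def _root_.Crest.Agent.R68.D.neu (T : (Ω → ℝ≥0∞) → (Ω → ℝ≥0∞)) (f : Ω → ℝ≥0∞) :
    Ω → ℝ≥0∞ := fun x => ∑' n, T^[n] f x





















/-- composition -/
theorem comp {T' : (Ω → ℝ≥0∞) → (Ω → ℝ≥0∞)} (hT : PosOp μ T) (hT' : PosOp μ T') :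
    PosOp μ (fun f => T (T' f)) where
  meas f hf := hT.meas _ (hT'.meas _ hf)
  mono f g hf hg h := hT.mono _ _ (hT'.meas _ hf) (hT'.meas _ hg) (hT'.mono _ _ hf hg h)
  tsum f hf := by
    have h1 := hT.congr (hT'.meas _ (Measurable.tsum hf))
      (Measurable.tsum fun n => hT'.meas _ (hf n)) (hT'.tsum f hf)
    exact h1.trans (hT.tsum (fun n => T' (f n)) (fun n => hT'.meas _ (hf n)))
  map_zero := by
    have h1 := hT.congr (hT'.meas _ measurable_const) measurable_const hT'.map_zero
    exact h1.trans hT.map_zero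

end PosOp

end Crest.Agent.R68.D
end

-- ▼ part R68/DDuh
section

/-!
Row 68, D-layer (helper813): phase space `Ph = ℝ × P2 × R3`, free flight, measure preservation,
damped Duhamel operator.
-/

set_option autoImplicit false
open MeasureTheory Filter Set
open scoped ENNReal NNReal Topology
open Crest.AnalysisR.VecCalc3 Crest.AnalysisR.PDE.Boltzmann

namespace Crest.Agent.R68.D

/-- phase space `(t, x, v)` -/
abbrev Ph : Type := ℝ × P2 × R3

@[fun_prop]
theorem continuous_bar : Continuous bar := by unfold bar; fun_prop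

@[fun_prop]
theorem measurable_bar : Measurable bar := continuous_bar.measurable

/-- position at time `s` on the free trajectory through `p` -/
noncomputable def fl (s : ℝ) (p : Ph) : Ph := (s, p.2.1 - (p.1 - s) • bar p.2.2, p.2.2)

@[simp] theorem fl_fst (s : ℝ) (p : Ph) : (fl s p).1 = s := rfl
@[simp] theorem fl_vel (s : ℝ) (p : Ph) : (fl s p).2.2 = p.2.2 := rfl

@[simp] theorem fl_fl (s τ : ℝ) (p : Ph) : fl s (fl τ p) = fl s p := by
  unfold fl
  simp only [Prod.mk.injEq, and_true, true_and]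
  module

@[simp] theorem fl_self (p : Ph) : fl p.1 p = p := by
  unfold fl
  simp


theorem continuous_fl : Continuous fun q : ℝ × Ph => fl q.1 q.2 := by
  unfold fl
  fun_prop

@[fun_prop]
theorem Measurable.fl {α : Type*} [MeasurableSpace α] {s : α → ℝ} {p : α → Ph}
    (hs : Measurable s) (hp : Measurable p) : Measurable fun a => D.fl (s a) (p a) :=
  continuous_fl.measurable.comp (hs.prodMk hp)

/-! ### measures on phase space -/

/-- the measure `dt ⊗ m(dx) ⊗ dv` restricted to times in `I` -/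
noncomputable def muP (I : Set ℝ) (m : Measure P2) : Measure Ph :=
  ((volume : Measure ℝ).restrict I).prod (m.prod (volume : Measure R3))


instance (I : Set ℝ) (m : Measure P2) [SFinite m] : SFinite (muP I m) := by
  unfold muP; infer_instance



/-- the map `(s, p) ↦ (p.1, fl s p)` exchanging the base point and the flown point -/
noncomputable def exch (q : ℝ × Ph) : ℝ × Ph := (q.2.1, fl q.1 q.2)

@[fun_prop]
theorem measurable_exch : Measurable exch := by unfold exch; fun_prop








end Crest.Agent.R68.D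
end

-- ▼ part R68/DOp

/-!
Row 68, D-layer (helper813): the decay factor `dec a = e^{-a}`, optical depth `Att`,
the damped Duhamel operator `Du ν`, the space-time gain `Gq` and frequency `Lq`;
all of them are `PosOp`s.
-/

set_option autoImplicit false
open MeasureTheory Filter Set
open scoped ENNReal NNReal Topology
open Crest.AnalysisR.VecCalc3 Crest.AnalysisR.PDE.Boltzmann

namespace Crest.Agent.R68.D

/-! ### decay factor -/

/-- `e^{-a}` for `a ∈ [0,∞]` -/
noncomputable def dec (a : ℝ≥0∞) : ℝ≥0∞ := open scoped Classical in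
  if a = ⊤ then 0 else ENNReal.ofReal (Real.exp (-a.toReal))

@[simp] theorem dec_top : dec ⊤ = 0 := by simp [dec]
@[simp] theorem dec_zero : dec 0 = 1 := by simp [dec]

theorem dec_of_ne_top {a : ℝ≥0∞} (h : a ≠ ⊤) : dec a = ENNReal.ofReal (Real.exp (-a.toReal)) := by
  simp [dec, h]






@[fun_prop]
theorem measurable_dec : Measurable dec := by
  classical
  unfold dec
  refine Measurable.ite (measurableSet_singleton ⊤) measurable_const ?_
  fun_prop


/-- the elementary identity `e^{-A(t)} + ∫_0^t α e^{-A} = 1`, `A(τ) = ∫_0^τ α` -/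
theorem dec_ftc {α : ℝ → ℝ≥0∞} (hα : Measurable α) {s t : ℝ} (hst : s ≤ t)
    (hfin : ∫⁻ τ in Ioo s t, α τ < ⊤) :
    dec (∫⁻ τ in Ioo s t, α τ) + ∫⁻ τ in Ioo s t, α τ * dec (∫⁻ r in Ioo s τ, α r) = 1 := by
  -- translate to `s = 0`
  have key : ∀ (β : ℝ → ℝ≥0∞), Measurable β → ∀ L : ℝ, 0 ≤ L → ∫⁻ τ in Ioo 0 L, β τ < ⊤ →
      dec (∫⁻ τ in Ioo 0 L, β τ) + ∫⁻ τ in Ioo 0 L, β τ * dec (∫⁻ r in Ioo 0 τ, β r) = 1 := by
    intro β hβ L hL hβfin
    have haefin : ∀ᵐ τ ∂(volume.restrict (Ioo 0 L)), β τ < ⊤ := ae_lt_top hβ hβfin.ne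
    have hq : IntegrableOn (fun τ => (β τ).toReal) (Ioo 0 L) :=
      integrable_toReal_of_lintegral_ne_top hβ.aemeasurable hβfin.ne
    have hsub : ∀ u ∈ Icc 0 L, ∫⁻ τ in Ioo 0 u, β τ < ⊤ := fun u hu =>
      lt_of_le_of_lt (lintegral_mono_set (Ioo_subset_Ioo_right hu.2)) hβfin
    have hint : ∀ u ∈ Icc 0 L, ∫ r in Ioo 0 u, (β r).toReal = (∫⁻ τ in Ioo 0 u, β τ).toReal := by
      intro u hu
      rw [integral_toReal hβ.aemeasurable]
      exact ae_lt_top hβ (hsub u hu).ne
    have hy : ∀ u ∈ Icc 0 L, (-1 : ℝ) < 0 + ∫ r in Ioo 0 u, (β r).toReal := by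
      intro u hu
      rw [hint u hu]
      have := ENNReal.toReal_nonneg (a := ∫⁻ τ in Ioo 0 u, β τ)
      linarith
    obtain ⟨h1, h2⟩ := R68E.chain_rule hL hq 0 (φ := fun z => -Real.exp (-z))
      (φ' := fun z => Real.exp (-z)) (c := -1) (fun z _ => by
        have := (Real.hasDerivAt_exp (-z)).comp z (hasDerivAt_neg z)
        have h3 := this.neg
        have e : Real.exp (-z) = -(Real.exp (-z) * -1) := by ring
        rw [e]
        exact h3) (by fun_prop) hy
    have hLmem : L ∈ Icc 0 L := ⟨hL, le_rfl⟩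
    rw [hint L hLmem] at h2
    simp only [zero_add, neg_zero, Real.exp_zero] at h2
    -- convert the Bochner integral
    have hconv : ENNReal.ofReal (∫ s in Ioo 0 L, Real.exp (-∫ r in Ioo 0 s, (β r).toReal) *
        (β s).toReal) = ∫⁻ τ in Ioo 0 L, β τ * dec (∫⁻ r in Ioo 0 τ, β r) := by
      rw [ofReal_integral_eq_lintegral_ofReal]
      · refine lintegral_congr_ae ?_
        filter_upwards [haefin, ae_restrict_mem measurableSet_Ioo] with τ hτ hmem
        have hm : τ ∈ Icc 0 L := Ioo_subset_Icc_self hmem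
        rw [hint τ hm, dec_of_ne_top (hsub τ hm).ne, ENNReal.ofReal_mul (Real.exp_pos _).le,
          ENNReal.ofReal_toReal hτ.ne, mul_comm]
      · simp only [zero_add] at h1
        exact h1
      · exact Eventually.of_forall fun s => by positivity
    rw [← hconv, dec_of_ne_top (hsub L hLmem).ne, ← h2, ← ENNReal.ofReal_add (Real.exp_pos _).le]
    · rw [← ENNReal.ofReal_one]
      congr 1
      ring
    · have hle : Real.exp (-(∫⁻ τ in Ioo 0 L, β τ).toReal) ≤ 1 := by
        rw [Real.exp_le_one_iff]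
        have := ENNReal.toReal_nonneg (a := ∫⁻ τ in Ioo 0 L, β τ)
        linarith
      linarith
  have htr : ∀ (f : ℝ → ℝ≥0∞) (u : ℝ), Measurable f →
      ∫⁻ τ in Ioo s (s + u), f τ = ∫⁻ τ in Ioo 0 u, f (s + τ) := by
    intro f u hf
    have hmp := measurePreserving_add_left (volume : Measure ℝ) s
    rw [← hmp.setLIntegral_comp_preimage measurableSet_Ioo hf]
    congr 2
    ext x
    simp
  have hs := key (fun τ => α (s + τ)) (by fun_prop) (t - s) (by linarith) (by
    rw [← htr α (t - s) hα]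
    rwa [show s + (t - s) = t by ring])
  have e1 : ∫⁻ τ in Ioo s t, α τ = ∫⁻ τ in Ioo 0 (t - s), α (s + τ) := by
    rw [← htr α (t - s) hα]
    rw [show s + (t - s) = t by ring]
  have hm2 : Measurable fun τ => α τ * dec (∫⁻ r in Ioo s τ, α r) := by
    refine hα.mul (measurable_dec.comp ?_)
    have hset : MeasurableSet {q : ℝ × ℝ | q.2 ∈ Ioo s q.1} :=
      (measurableSet_lt measurable_const measurable_snd).inter
        (measurableSet_lt measurable_snd measurable_fst)
    have h1 : Measurable ({q : ℝ × ℝ | q.2 ∈ Ioo s q.1}.indicator fun q : ℝ × ℝ => α q.2) :=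
      (hα.comp measurable_snd).indicator hset
    have h2 := h1.lintegral_prod_right' (ν := (volume : Measure ℝ))
    have h3 : (fun τ => ∫⁻ r in Ioo s τ, α r) = fun x => ∫⁻ y,
        {q : ℝ × ℝ | q.2 ∈ Ioo s q.1}.indicator (fun q : ℝ × ℝ => α q.2) (x, y) := by
      funext x
      rw [← lintegral_indicator measurableSet_Ioo]
      rfl
    rw [h3]
    exact h2
  have e2 : ∫⁻ τ in Ioo s t, α τ * dec (∫⁻ r in Ioo s τ, α r) =
      ∫⁻ τ in Ioo 0 (t - s), α (s + τ) * dec (∫⁻ r in Ioo 0 τ, α (s + r)) := by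
    have h1 := htr (fun τ => α τ * dec (∫⁻ r in Ioo s τ, α r)) (t - s) hm2
    rw [show s + (t - s) = t by ring] at h1
    rw [h1]
    refine lintegral_congr fun τ => ?_
    rw [htr α τ hα]
  rw [e1, e2]
  exact hs

/-! ### measurability of integrals over variable intervals -/

theorem meas_setLIntegral {α : Type*} [MeasurableSpace α] {F : α → ℝ → ℝ≥0∞}
    (hF : Measurable fun q : α × ℝ => F q.1 q.2) {a b : α → ℝ} (ha : Measurable a)
    (hb : Measurable b) : Measurable fun x => ∫⁻ τ in Ioo (a x) (b x), F x τ := by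
  have hset : MeasurableSet {q : α × ℝ | q.2 ∈ Ioo (a q.1) (b q.1)} :=
    (measurableSet_lt (ha.comp measurable_fst) measurable_snd).inter
      (measurableSet_lt measurable_snd (hb.comp measurable_fst))
  have h1 : Measurable ({q : α × ℝ | q.2 ∈ Ioo (a q.1) (b q.1)}.indicator
      fun q : α × ℝ => F q.1 q.2) := hF.indicator hset
  have h2 := h1.lintegral_prod_right' (ν := (volume : Measure ℝ))
  have h3 : (fun x => ∫⁻ τ in Ioo (a x) (b x), F x τ) = fun x => ∫⁻ y,
      {q : α × ℝ | q.2 ∈ Ioo (a q.1) (b q.1)}.indicator (fun q : α × ℝ => F q.1 q.2) (x, y) := by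
    funext x
    rw [← lintegral_indicator measurableSet_Ioo]
    rfl
  rw [h3]
  exact h2

theorem lintegral_Ioo_split {f : ℝ → ℝ≥0∞} {a b c : ℝ} (hab : a ≤ b) (hbc : b ≤ c) :
    ∫⁻ τ in Ioo a c, f τ = (∫⁻ τ in Ioo a b, f τ) + ∫⁻ τ in Ioo b c, f τ := by
  have h1 : ∫⁻ τ in Ioo a c, f τ = ∫⁻ τ in Ioc a c, f τ := by
    rw [restrict_Ioo_eq_restrict_Ioc]
  have h2 : ∫⁻ τ in Ioo a b, f τ = ∫⁻ τ in Ioc a b, f τ := by
    rw [restrict_Ioo_eq_restrict_Ioc]
  have h3 : ∫⁻ τ in Ioo b c, f τ = ∫⁻ τ in Ioc b c, f τ := by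
    rw [restrict_Ioo_eq_restrict_Ioc]
  rw [h1, h2, h3, ← Ioc_union_Ioc_eq_Ioc hab hbc]
  exact lintegral_union measurableSet_Ioc (Ioc_disjoint_Ioc_of_le le_rfl)

/-! ### optical depth and Duhamel operator -/

/-- optical depth `∫_s^t ν` along the trajectory through `p = (t,x,v)` -/
noncomputable def Att (ν : Ph → ℝ≥0∞) (s : ℝ) (p : Ph) : ℝ≥0∞ :=
  ∫⁻ τ in Ioo s p.1, ν (fl τ p)

@[fun_prop]
theorem measurable_Att {ν : Ph → ℝ≥0∞} (hν : Measurable ν) :
    Measurable fun q : ℝ × Ph => Att ν q.1 q.2 := by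
  unfold Att
  refine meas_setLIntegral (F := fun (q : ℝ × Ph) τ => ν (fl τ q.2)) ?_ measurable_fst (by fun_prop)
  exact hν.comp (by fun_prop)







/-- damped Duhamel operator -/
noncomputable def Du (ν q : Ph → ℝ≥0∞) (p : Ph) : ℝ≥0∞ :=
  ∫⁻ s in Ioo 0 p.1, dec (Att ν s p) * q (fl s p)














end Crest.Agent.R68.D
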