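import Mathlib
import Crest.Prelude.Def_HardSphereBoltzmann

/-!
Row 68, part E, module 1: the collision involution and the sphere measure.
-/

set_option autoImplicit false
open MeasureTheory
open scoped ENNReal
open Crest.AnalysisR.VecCalc3 Crest.AnalysisR.PDE.Boltzmann

namespace Crest.Agent.R68E

/-! ### sphere measure -/

instance finite_sphereMeasure : IsFiniteMeasure sphereMeasure := by
  unfold sphereMeasure
  infer_instance

/-! short-cut instances (the default synthesis terms exceed `synthInstance.maxSize`). -/

instance sfin_sphere : SFinite sphereMeasure := inferInstance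
instance sigf_sphere : SigmaFinite sphereMeasure := inferInstance
instance sfin_R3 : SFinite (volume : Measure R3) := inferInstance
instance sigf_R3 : SigmaFinite (volume : Measure R3) := inferInstance
instance sfin_R33 : SFinite (volume : Measure (R3 × R3)) := inferInstance
instance sigf_R33 : SigmaFinite (volume : Measure (R3 × R3)) := inferInstance
instance sfin_R3s : SFinite ((volume : Measure R3).prod sphereMeasure) := inferInstance
instance sigf_R3s : SigmaFinite ((volume : Measure R3).prod sphereMeasure) := inferInstance

lemma ae_norm_eq_one : ∀ᵐ w ∂sphereMeasure, ‖w‖ = 1 := by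
  unfold sphereMeasure
  rw [ae_map_iff measurable_subtype_coe.aemeasurable]
  · exact Filter.Eventually.of_forall fun w => by simp
  · exact measurableSet_eq_fun measurable_norm measurable_const

/-! ### algebra of the collision map -/








lemma maxwellian_pos (v : R3) : 0 < maxwellian v := by
  unfold maxwellian
  positivity


lemma continuous_maxwellian : Continuous maxwellian := by
  unfold maxwellian
  fun_prop

lemma measurable_maxwellian : Measurable maxwellian := continuous_maxwellian.measurable

lemma continuous_postVel : Continuous fun z : (R3 × R3) × R3 => postVel z.1.1 z.1.2 z.2 := by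
  unfold postVel
  fun_prop

lemma continuous_postVelStar : Continuous fun z : (R3 × R3) × R3 => postVelStar z.1.1 z.1.2 z.2 := by
  unfold postVelStar
  fun_prop

/-! ### the collision involution -/

/-- `T w (v, vs) = (v', vs')` as a linear map. -/
noncomputable def T (w : R3) : (R3 × R3) →ₗ[ℝ] (R3 × R3) where
  toFun p := (postVel p.1 p.2 w, postVelStar p.1 p.2 w)
  map_add' p q := by
    simp only [postVel, postVelStar, Prod.fst_add, Prod.snd_add, Prod.mk_add_mk, Prod.mk.injEq]
    constructor
    · rw [show p.1 + q.1 - (p.2 + q.2) = (p.1 - p.2) + (q.1 - q.2) by abel, inner_add_left]; module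
    · rw [show p.1 + q.1 - (p.2 + q.2) = (p.1 - p.2) + (q.1 - q.2) by abel, inner_add_left]; module
  map_smul' c p := by
    simp only [postVel, postVelStar, Prod.smul_fst, Prod.smul_snd, RingHom.id_apply, Prod.smul_mk,
      Prod.mk.injEq]
    constructor
    · rw [← smul_sub, inner_smul_left]; simp; module
    · rw [← smul_sub, inner_smul_left]; simp; module

lemma T_apply (w : R3) (p : R3 × R3) : T w p = (postVel p.1 p.2 w, postVelStar p.1 p.2 w) := rfl



instance haar_prod : (volume : Measure (R3 × R3)).IsAddHaarMeasure := by
  rw [Measure.volume_eq_prod]; infer_instance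


end Crest.Agent.R68E
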