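import Crest.Agent.R68.EWeak

-- ▼ part R68/EEnt1
section

/-!
R68 / EEnt1: pointwise inequalities for the entropy production (helper211, Part E).
-/

set_option autoImplicit false
open MeasureTheory
open scoped ENNReal
open Crest.AnalysisR.VecCalc3 Crest.AnalysisR.PDE.Boltzmann

namespace Crest.Agent.R68

/-- the sign lemma: the negative part of `(A-B) log (A'/B')` is bounded by `(A'-A)+(B'-B)`. -/
theorem sign_lemma {A B A' B' : ℝ} (hA : 0 ≤ A) (hB : 0 ≤ B) (hAA : A ≤ A') (hBB : B ≤ B')
    (hA' : 0 < A') (hB' : 0 < B') :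
    0 ≤ (A - B) * (Real.log A' - Real.log B') + ((A' - A) + (B' - B)) := by
  rcases le_total B A with h | h
  · rcases le_total B' A' with h' | h'
    · have : Real.log B' ≤ Real.log A' := Real.log_le_log hB' h'
      nlinarith [mul_nonneg (sub_nonneg.2 h) (sub_nonneg.2 this)]
    · -- A ≥ B, A' ≤ B'
      have h1 : Real.log B' - Real.log A' ≤ (B' - A') / A' := by
        rw [← Real.log_div hB'.ne' hA'.ne']
        have := Real.log_le_sub_one_of_pos (div_pos hB' hA')
        have e : (B' - A') / A' = B' / A' - 1 := by field_simp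
        rw [e]; exact this
      have h2 : (A - B) * (Real.log B' - Real.log A') ≤ B' - A' := by
        have h3 : 0 ≤ A - B := sub_nonneg.2 h
        calc (A - B) * (Real.log B' - Real.log A') ≤ (A - B) * ((B' - A') / A') :=
              mul_le_mul_of_nonneg_left h1 h3
          _ ≤ A' * ((B' - A') / A') := by
              refine mul_le_mul_of_nonneg_right (by linarith) ?_
              exact div_nonneg (sub_nonneg.2 h') hA'.le
          _ = B' - A' := by field_simp
      nlinarith
  · rcases le_total A' B' with h' | h'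
    · have : Real.log A' ≤ Real.log B' := Real.log_le_log hA' h'
      nlinarith [mul_nonneg (sub_nonneg.2 h) (sub_nonneg.2 this)]
    · have h1 : Real.log A' - Real.log B' ≤ (A' - B') / B' := by
        rw [← Real.log_div hA'.ne' hB'.ne']
        have := Real.log_le_sub_one_of_pos (div_pos hA' hB')
        have e : (A' - B') / B' = A' / B' - 1 := by field_simp
        rw [e]; exact this
      have h2 : (B - A) * (Real.log A' - Real.log B') ≤ A' - B' := by
        have h3 : 0 ≤ B - A := sub_nonneg.2 h
        calc (B - A) * (Real.log A' - Real.log B') ≤ (B - A) * ((A' - B') / B') :=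
              mul_le_mul_of_nonneg_left h1 h3
          _ ≤ B' * ((A' - B') / B') := by
              refine mul_le_mul_of_nonneg_right (by linarith) ?_
              exact div_nonneg (sub_nonneg.2 h') hB'.le
          _ = A' - B' := by field_simp
      nlinarith

theorem maxwellian_pos (v : R3) : 0 < maxwellian v := by
  unfold maxwellian; positivity

theorem continuous_maxwellian : Continuous maxwellian := by
  unfold maxwellian
  fun_prop

@[fun_prop]
theorem measurable_maxwellian : Measurable maxwellian := continuous_maxwellian.measurable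

theorem maxwellian_post {w : R3} (hw : ‖w‖ = 1) (v vs : R3) :
    maxwellian (postVel v vs w) * maxwellian (postVelStar v vs w) =
      maxwellian v * maxwellian vs := by
  unfold maxwellian
  have h := post_norm_sq hw v vs
  have e : ∀ a b : ℝ, ((2 * Real.pi) ^ (-(3 / 2 : ℝ)) * Real.exp a) *
      ((2 * Real.pi) ^ (-(3 / 2 : ℝ)) * Real.exp b) =
      ((2 * Real.pi) ^ (-(3 / 2 : ℝ))) ^ 2 * Real.exp (a + b) := by
    intro a b; rw [Real.exp_add]; ring
  rw [e, e]
  congr 2
  linarith

/-- `Φ_δ(v) = log (f(v)/M(v) + δ)` -/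
noncomputable def Phi (d : ℝ) (f : R3 → ℝ) (v : R3) : ℝ := Real.log (f v / maxwellian v + d)

/-- the regularised entropy density `M h(f/M+δ)`, `h(z) = z log z - z + 1` -/
noncomputable def entD (d : ℝ) (z m : ℝ) : ℝ :=
  m * ((z / m + d) * Real.log (z / m + d) - (z / m + d) + 1)

/-- `B̃ - B` for the pair `(v, v⋆)`: `δ (M f⋆ + M⋆ f) + δ² M M⋆` -/
noncomputable def excess (d : ℝ) (f : R3 → ℝ) (v vs : R3) : ℝ :=
  d * (maxwellian v * f vs + maxwellian vs * f v) + d ^ 2 * (maxwellian v * maxwellian vs)

theorem excess_nonneg {d : ℝ} (hd : 0 ≤ d) {f : R3 → ℝ} (hf : ∀ v, 0 ≤ f v) (v vs : R3) :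
    0 ≤ excess d f v vs := by
  unfold excess
  have := (maxwellian_pos v).le
  have := (maxwellian_pos vs).le
  have := hf v
  have := hf vs
  positivity

/-- the regularised product -/
theorem regprod (d : ℝ) (f : R3 → ℝ) (v vs : R3) :
    (f v + d * maxwellian v) * (f vs + d * maxwellian vs) = f v * f vs + excess d f v vs := by
  unfold excess; ring

theorem log_regprod {d : ℝ} (hd : 0 < d) {f : R3 → ℝ} (hf : ∀ v, 0 ≤ f v) (v vs : R3) :
    Real.log ((f v + d * maxwellian v) * (f vs + d * maxwellian vs)) =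
      Phi d f v + Phi d f vs + Real.log (maxwellian v * maxwellian vs) := by
  have h : ∀ u, f u + d * maxwellian u = (f u / maxwellian u + d) * maxwellian u := by
    intro u
    have := (maxwellian_pos u).ne'
    field_simp
  have hp : ∀ u, 0 < f u / maxwellian u + d := by
    intro u
    have := div_nonneg (hf u) (maxwellian_pos u).le
    linarith
  have hM := maxwellian_pos v
  have hMs := maxwellian_pos vs
  rw [h v, h vs, Real.log_mul (mul_pos (hp v) hM).ne' (mul_pos (hp vs) hMs).ne',
    Real.log_mul (hp v).ne' hM.ne', Real.log_mul (hp vs).ne' hMs.ne', Real.log_mul hM.ne' hMs.ne']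
  unfold Phi
  ring

/-- the signed regularised production at `(v,v⋆,ω)`:
`E = (A - B) (Φ' + Φ⋆' - Φ - Φ⋆)`, `A = f' f⋆'`, `B = f f⋆`. -/
noncomputable def prodE (d : ℝ) (f : R3 → ℝ) (v vs w : R3) : ℝ :=
  (f (postVel v vs w) * f (postVelStar v vs w) - f v * f vs) *
    (Phi d f (postVel v vs w) + Phi d f (postVelStar v vs w) - Phi d f v - Phi d f vs)

/-- the error term -/
noncomputable def prodN (d : ℝ) (f : R3 → ℝ) (v vs w : R3) : ℝ :=
  excess d f (postVel v vs w) (postVelStar v vs w) + excess d f v vs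

theorem prodN_nonneg {d : ℝ} (hd : 0 ≤ d) {f : R3 → ℝ} (hf : ∀ v, 0 ≤ f v) (v vs w : R3) :
    0 ≤ prodN d f v vs w :=
  add_nonneg (excess_nonneg hd hf _ _) (excess_nonneg hd hf _ _)

theorem prodE_eq {d : ℝ} (hd : 0 < d) {f : R3 → ℝ} (hf : ∀ v, 0 ≤ f v) (v vs : R3) {w : R3}
    (hw : ‖w‖ = 1) :
    prodE d f v vs w = (f (postVel v vs w) * f (postVelStar v vs w) - f v * f vs) *
      (Real.log (f (postVel v vs w) * f (postVelStar v vs w) +
          excess d f (postVel v vs w) (postVelStar v vs w)) -
        Real.log (f v * f vs + excess d f v vs)) := by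
  rw [← regprod, ← regprod, log_regprod hd hf, log_regprod hd hf, maxwellian_post hw]
  unfold prodE
  ring

theorem excess_pos {d : ℝ} (hd : 0 < d) {f : R3 → ℝ} (hf : ∀ v, 0 ≤ f v) (v vs : R3) :
    0 < excess d f v vs := by
  unfold excess
  have := maxwellian_pos v
  have := maxwellian_pos vs
  have h1 := hf v
  have h2 := hf vs
  have : 0 ≤ d * (maxwellian v * f vs + maxwellian vs * f v) := by positivity
  have : 0 < d ^ 2 * (maxwellian v * maxwellian vs) := by positivity
  linarith

theorem prodE_add_prodN_nonneg {d : ℝ} (hd : 0 < d) {f : R3 → ℝ} (hf : ∀ v, 0 ≤ f v)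
    (v vs : R3) {w : R3} (hw : ‖w‖ = 1) :
    0 ≤ prodE d f v vs w + prodN d f v vs w := by
  rw [prodE_eq hd hf v vs hw]
  unfold prodN
  have h1 := excess_pos hd hf (postVel v vs w) (postVelStar v vs w)
  have h2 := excess_pos hd hf v vs
  have hA : 0 ≤ f (postVel v vs w) * f (postVelStar v vs w) := mul_nonneg (hf _) (hf _)
  have hB : 0 ≤ f v * f vs := mul_nonneg (hf _) (hf _)
  have := sign_lemma hA hB (A' := f (postVel v vs w) * f (postVelStar v vs w) +
    excess d f (postVel v vs w) (postVelStar v vs w)) (B' := f v * f vs + excess d f v vs)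
    (by linarith) (by linarith) (by linarith) (by linarith)
  linarith

end Crest.Agent.R68
end

-- ▼ part R68/EEnt2
section

/-!
R68 / EEnt2: the symmetrised entropy identity at fixed (t,x) (helper211, Part E).
-/

set_option autoImplicit false
open MeasureTheory
open scoped ENNReal
open Crest.AnalysisR.VecCalc3 Crest.AnalysisR.PDE.Boltzmann

namespace Crest.Agent.R68

theorem measurable_Phi {d : ℝ} {f : R3 → ℝ} (hf : Measurable f) : Measurable (Phi d f) := by
  unfold Phi
  fun_prop

/-- positive part of Φ as ENNReal -/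
noncomputable def Pp (d : ℝ) (f : R3 → ℝ) (v : R3) : ℝ≥0∞ := ENNReal.ofReal (Phi d f v)
/-- negative part of Φ as ENNReal -/
noncomputable def Pm (d : ℝ) (f : R3 → ℝ) (v : R3) : ℝ≥0∞ := ENNReal.ofReal (-Phi d f v)

theorem measurable_Pp {d : ℝ} {f : R3 → ℝ} (hf : Measurable f) : Measurable (Pp d f) :=
  (measurable_Phi hf).ennreal_ofReal
theorem measurable_Pm {d : ℝ} {f : R3 → ℝ} (hf : Measurable f) : Measurable (Pm d f) :=
  (measurable_Phi hf).neg.ennreal_ofReal

/-- `|a| (E + N)` as an ENNReal kernel -/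
noncomputable def kEN (d : ℝ) (f : R3 → ℝ) (v vs w : R3) : ℝ≥0∞ :=
  ENNReal.ofReal (|inner ℝ (v - vs) w| * (prodE d f v vs w + prodN d f v vs w))
/-- `|a| N` as an ENNReal kernel -/
noncomputable def kN (d : ℝ) (f : R3 → ℝ) (v vs w : R3) : ℝ≥0∞ :=
  ENNReal.ofReal (|inner ℝ (v - vs) w| * prodN d f v vs w)

theorem measurable_excess {α : Type*} [MeasurableSpace α] (d : ℝ) {f : R3 → ℝ}
    (hf : Measurable f) {g h : α → R3} (hg : Measurable g) (hh : Measurable h) :
    Measurable (fun a => excess d f (g a) (h a)) := by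
  unfold excess
  fun_prop

theorem measK_kN (d : ℝ) {f : R3 → ℝ} (hf : Measurable f) : MeasK (kN d f) := by
  unfold MeasK kN prodN
  refine Measurable.ennreal_ofReal ?_
  refine Measurable.mul (by fun_prop) (Measurable.add ?_ ?_)
  · exact measurable_excess d hf (Measurable.postVel (by fun_prop) (by fun_prop) (by fun_prop))
      (Measurable.postVelStar (by fun_prop) (by fun_prop) (by fun_prop))
  · exact measurable_excess d hf (by fun_prop) (by fun_prop)

theorem measurable_prodE (d : ℝ) {f : R3 → ℝ} (hf : Measurable f) :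
    Measurable (fun q : R3 × R3 × R3 => prodE d f q.1 q.2.1 q.2.2) := by
  have h1 : Measurable (fun q : R3 × R3 × R3 => postVel q.1 q.2.1 q.2.2) := by fun_prop
  have h2 : Measurable (fun q : R3 × R3 × R3 => postVelStar q.1 q.2.1 q.2.2) := by fun_prop
  have hP := measurable_Phi (d := d) hf
  unfold prodE
  refine Measurable.mul (Measurable.sub ((hf.comp h1).mul (hf.comp h2)) (by fun_prop)) ?_
  exact (((hP.comp h1).add (hP.comp h2)).sub (hP.comp measurable_fst)).sub
    (hP.comp (measurable_fst.comp measurable_snd))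

theorem measK_kEN (d : ℝ) {f : R3 → ℝ} (hf : Measurable f) : MeasK (kEN d f) := by
  unfold MeasK kEN
  refine Measurable.ennreal_ofReal ?_
  refine Measurable.mul (by fun_prop) (Measurable.add (measurable_prodE d hf) ?_)
  unfold prodN
  refine Measurable.add ?_ ?_
  · exact measurable_excess d hf (Measurable.postVel (by fun_prop) (by fun_prop) (by fun_prop))
      (Measurable.postVelStar (by fun_prop) (by fun_prop) (by fun_prop))
  · exact measurable_excess d hf (by fun_prop) (by fun_prop)

theorem four_gain {F : ℝ → R3 → R3 → ℝ} {t : ℝ} {x : R3} (hf : Measurable (F t x))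
    {φ : R3 → ℝ≥0∞} (hφ : Measurable φ) :
    4 * ∫⁻ v, φ v * collGain F t x v =
      tri (fun v vs w => (φ (postVel v vs w) + φ (postVelStar v vs w)) * bff (F t x) v vs w) +
      tri (fun v vs w => (φ v + φ vs) *
        bff (F t x) (postVel v vs w) (postVelStar v vs w) w) := by
  have hp : MeasK (fun v vs w => (φ (postVel v vs w) + φ (postVelStar v vs w)) *
        bff (F t x) v vs w) := by
    refine MeasK.mul (MeasK.add ?_ ?_) (measK_bff hf)
    · exact hφ.comp (Measurable.postVel (by fun_prop) (by fun_prop) (by fun_prop))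
    · exact hφ.comp (Measurable.postVelStar (by fun_prop) (by fun_prop) (by fun_prop))
  have e : tri (fun v vs w => (φ v + φ vs) *
        bff (F t x) (postVel v vs w) (postVelStar v vs w) w) =
      tri (fun v vs w => (φ (postVel v vs w) + φ (postVelStar v vs w)) * bff (F t x) v vs w) := by
    rw [← tri_post hp]
    refine tri_congr fun v vs w hw => ?_
    rw [postVel_post hw, postVelStar_post hw]
  rw [e, ← two_gain hf hφ]
  ring

theorem four_loss {F : ℝ → R3 → R3 → ℝ} {t : ℝ} {x : R3} (hf : Measurable (F t x))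
    {φ : R3 → ℝ≥0∞} (hφ : Measurable φ) :
    4 * ∫⁻ v, φ v * collLoss F t x v =
      tri (fun v vs w => (φ v + φ vs) * bff (F t x) v vs w) +
      tri (fun v vs w => (φ (postVel v vs w) + φ (postVelStar v vs w)) *
        bff (F t x) (postVel v vs w) (postVelStar v vs w) w) := by
  have hp : MeasK (fun v vs w => (φ v + φ vs) * bff (F t x) v vs w) :=
    MeasK.mul (MeasK.add (measK_fst hφ) (measK_snd hφ)) (measK_bff hf)
  rw [tri_post hp, ← two_loss hf hφ]
  ring

theorem ofReal_split (x : ℝ) : ENNReal.ofReal x = ENNReal.ofReal (max x 0) := by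
  rcases le_total x 0 with h | h
  · rw [max_eq_right h, ENNReal.ofReal_of_nonpos h, ENNReal.ofReal_zero]
  · rw [max_eq_left h]


theorem pointwise_ident {d : ℝ} (hd : 0 < d) {f : R3 → ℝ} (hf0 : ∀ v, 0 ≤ f v)
    (v vs : R3) {w : R3} (hw : ‖w‖ = 1) :
    kEN d f v vs w +
      (((Pp d f (postVel v vs w) + Pp d f (postVelStar v vs w)) * bff f v vs w +
        (Pp d f v + Pp d f vs) * bff f (postVel v vs w) (postVelStar v vs w) w) +
       ((Pm d f v + Pm d f vs) * bff f v vs w +
        (Pm d f (postVel v vs w) + Pm d f (postVelStar v vs w)) *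
          bff f (postVel v vs w) (postVelStar v vs w) w)) =
    kN d f v vs w +
      (((Pp d f v + Pp d f vs) * bff f v vs w +
        (Pp d f (postVel v vs w) + Pp d f (postVelStar v vs w)) *
          bff f (postVel v vs w) (postVelStar v vs w) w) +
       ((Pm d f (postVel v vs w) + Pm d f (postVelStar v vs w)) * bff f v vs w +
        (Pm d f v + Pm d f vs) * bff f (postVel v vs w) (postVelStar v vs w) w)) := by
  rw [bff_post f hw]
  have ha : 0 ≤ |(inner ℝ (v - vs) w : ℝ)| := abs_nonneg _
  set a : ℝ := |(inner ℝ (v - vs) w : ℝ)| with ha_def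
  have hb : bff f v vs w = ENNReal.ofReal (a * (f v * f vs)) := by
    unfold bff; rw [mul_assoc]
  have hb' : ENNReal.ofReal (a * f (postVel v vs w) * f (postVelStar v vs w)) =
      ENNReal.ofReal (a * (f (postVel v vs w) * f (postVelStar v vs w))) := by
    rw [mul_assoc]
  rw [hb, hb']
  set v' := postVel v vs w with hv'
  set vs' := postVelStar v vs w with hvs'
  have hA : 0 ≤ f v' * f vs' := mul_nonneg (hf0 _) (hf0 _)
  have hB : 0 ≤ f v * f vs := mul_nonneg (hf0 _) (hf0 _)
  have hEN : 0 ≤ prodE d f v vs w + prodN d f v vs w := prodE_add_prodN_nonneg hd hf0 v vs hw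
  have hN : 0 ≤ prodN d f v vs w := prodN_nonneg hd.le hf0 v vs w
  have hpm : ∀ u, Phi d f u = max (Phi d f u) 0 - max (-Phi d f u) 0 := by
    intro u
    rcases le_total (Phi d f u) 0 with h | h
    · rw [max_eq_right h, max_eq_left (by linarith)]; ring
    · rw [max_eq_left h, max_eq_right (by linarith)]; ring
  have hPp : ∀ u, Pp d f u = ENNReal.ofReal (max (Phi d f u) 0) := fun u => ofReal_split _
  have hPm : ∀ u, Pm d f u = ENNReal.ofReal (max (-Phi d f u) 0) := fun u => ofReal_split _
  have hE : prodE d f v vs w = (f v' * f vs' - f v * f vs) *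
      ((max (Phi d f v') 0 - max (-Phi d f v') 0) + (max (Phi d f vs') 0 - max (-Phi d f vs') 0) -
       (max (Phi d f v) 0 - max (-Phi d f v) 0) - (max (Phi d f vs) 0 - max (-Phi d f vs) 0)) := by
    unfold prodE
    rw [← hpm v', ← hpm vs', ← hpm v, ← hpm vs]
  unfold kEN kN
  rw [← ha_def, hPp v', hPp vs', hPp v, hPp vs, hPm v', hPm vs', hPm v, hPm vs]
  have q1 : 0 ≤ max (Phi d f v') 0 := le_max_right _ _
  have q2 : 0 ≤ max (Phi d f vs') 0 := le_max_right _ _
  have q3 : 0 ≤ max (Phi d f v) 0 := le_max_right _ _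
  have q4 : 0 ≤ max (Phi d f vs) 0 := le_max_right _ _
  have r1 : 0 ≤ max (-Phi d f v') 0 := le_max_right _ _
  have r2 : 0 ≤ max (-Phi d f vs') 0 := le_max_right _ _
  have r3 : 0 ≤ max (-Phi d f v) 0 := le_max_right _ _
  have r4 : 0 ≤ max (-Phi d f vs) 0 := le_max_right _ _
  have haA : 0 ≤ a * (f v' * f vs') := mul_nonneg ha hA
  have haB : 0 ≤ a * (f v * f vs) := mul_nonneg ha hB
  have haEN : 0 ≤ a * (prodE d f v vs w + prodN d f v vs w) := mul_nonneg ha hEN
  have haN : 0 ≤ a * prodN d f v vs w := mul_nonneg ha hN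
  rw [← ENNReal.ofReal_add q1 q2, ← ENNReal.ofReal_add q3 q4, ← ENNReal.ofReal_add r1 r2,
    ← ENNReal.ofReal_add r3 r4, ← ENNReal.ofReal_mul (add_nonneg q1 q2),
    ← ENNReal.ofReal_mul (add_nonneg q1 q2), ← ENNReal.ofReal_mul (add_nonneg q3 q4),
    ← ENNReal.ofReal_mul (add_nonneg q3 q4), ← ENNReal.ofReal_mul (add_nonneg r1 r2),
    ← ENNReal.ofReal_mul (add_nonneg r1 r2), ← ENNReal.ofReal_mul (add_nonneg r3 r4),
    ← ENNReal.ofReal_mul (add_nonneg r3 r4)]
  rw [← ENNReal.ofReal_add (by positivity) (by positivity),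
    ← ENNReal.ofReal_add (by positivity) (by positivity),
    ← ENNReal.ofReal_add (by positivity) (by positivity),
    ← ENNReal.ofReal_add haEN (by positivity),
    ← ENNReal.ofReal_add (by positivity) (by positivity),
    ← ENNReal.ofReal_add (by positivity) (by positivity),
    ← ENNReal.ofReal_add (by positivity) (by positivity),
    ← ENNReal.ofReal_add haN (by positivity)]
  congr 1
  rw [hE]
  ring

/-- **Entropy identity at fixed (t,x)** in ENNReal form (no finiteness needed). -/
theorem entropy_ident {F : ℝ → R3 → R3 → ℝ} {t : ℝ} {x : R3} (hf : Measurable (F t x))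
    (hf0 : ∀ v, 0 ≤ F t x v) {d : ℝ} (hd : 0 < d) :
    tri (kEN d (F t x)) + 4 * ((∫⁻ v, Pp d (F t x) v * collGain F t x v) +
        ∫⁻ v, Pm d (F t x) v * collLoss F t x v) =
    tri (kN d (F t x)) + 4 * ((∫⁻ v, Pp d (F t x) v * collLoss F t x v) +
        ∫⁻ v, Pm d (F t x) v * collGain F t x v) := by
  have hp := measurable_Pp (d := d) hf
  have hm := measurable_Pm (d := d) hf
  rw [mul_add, mul_add, four_gain hf hp, four_loss hf hm, four_loss hf hp, four_gain hf hm]
  set f := F t x with hfdef
  have mb : MeasK (bff f) := measK_bff hf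
  have mb' : MeasK (fun v vs w => bff f (postVel v vs w) (postVelStar v vs w) w) := mb.post
  have ms : ∀ {χ : R3 → ℝ≥0∞}, Measurable χ → MeasK (fun v vs _ => χ v + χ vs) := fun hχ =>
    MeasK.add (measK_fst hχ) (measK_snd hχ)
  have mp : ∀ {χ : R3 → ℝ≥0∞}, Measurable χ →
      MeasK (fun v vs w => χ (postVel v vs w) + χ (postVelStar v vs w)) := fun hχ =>
    (ms hχ).post
  rw [← tri_add ((mp hp).mul mb), ← tri_add ((ms hm).mul mb),
    ← tri_add (((mp hp).mul mb).add ((ms hp).mul mb')), ← tri_add (measK_kEN d hf),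
    ← tri_add ((ms hp).mul mb), ← tri_add ((mp hm).mul mb),
    ← tri_add (((ms hp).mul mb).add ((mp hp).mul mb')), ← tri_add (measK_kN d hf)]
  exact tri_congr fun v vs w hw => pointwise_ident hd hf0 v vs hw

end Crest.Agent.R68
end

-- ▼ part R68/EEnt3

/-!
R68 / EEnt3: limits δ → 0 (helper211, Part E).
-/

set_option autoImplicit false
open MeasureTheory Filter Topology
open scoped ENNReal
open Crest.AnalysisR.VecCalc3 Crest.AnalysisR.PDE.Boltzmann

namespace Crest.Agent.R68

theorem liminf_pair {A B a : ℝ} (hA : 0 ≤ A) (hB : 0 ≤ B) (ha : 0 ≤ a) {x y : ℕ → ℝ}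
    (hx : ∀ n, 0 < x n) (hy : ∀ n, 0 < y n) (hx0 : Tendsto x atTop (𝓝 0))
    (hy0 : Tendsto y atTop (𝓝 0)) :
    ENNReal.ofReal a * pairDissipation A B ≤
      liminf (fun n => ENNReal.ofReal (a * ((A - B) * (Real.log (A + x n) - Real.log (B + y n)) +
        (x n + y n)))) atTop := by
  rcases ha.eq_or_lt with rfl | ha
  · simp
  have hAx : Tendsto (fun n => A + x n) atTop (𝓝 A) := by simpa using hx0.const_add A
  have hBy : Tendsto (fun n => B + y n) atTop (𝓝 B) := by simpa using hy0.const_add B
  have hxy : Tendsto (fun n => x n + y n) atTop (𝓝 0) := by simpa using hx0.add hy0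
  unfold pairDissipation
  split_ifs with h1 h2
  · simp
  · have hl : Tendsto (fun n => a * ((A - B) * (Real.log (A + x n) - Real.log (B + y n)) +
        (x n + y n))) atTop (𝓝 (a * ((A - B) * (Real.log A - Real.log B) + 0))) := by
      refine Tendsto.const_mul _ (Tendsto.add (Tendsto.const_mul _ (Tendsto.sub ?_ ?_)) hxy)
      · exact (Real.continuousAt_log h2.1.ne').tendsto.comp hAx
      · exact (Real.continuousAt_log h2.2.ne').tendsto.comp hBy
    have := (ENNReal.continuous_ofReal.tendsto _).comp hl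
    have h3 := this.liminf_eq
    simp only [Function.comp_def] at h3
    rw [h3, add_zero, ENNReal.ofReal_mul ha.le, Real.log_div h2.1.ne' h2.2.ne']
  · -- exactly one vanishes
    have htop : Tendsto (fun n => ENNReal.ofReal (a * ((A - B) * (Real.log (A + x n) -
        Real.log (B + y n)) + (x n + y n)))) atTop (𝓝 ⊤) := by
      refine ENNReal.tendsto_ofReal_nhds_top.2 ?_
      refine Tendsto.const_mul_atTop ha ?_
      refine Tendsto.atTop_add ?_ hxy
      rcases hA.eq_or_lt with hA0 | hA0
      · have hB0 : 0 < B := by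
          rcases hB.eq_or_lt with hB0 | hB0
          · exact absurd ⟨hA0.symm, hB0.symm⟩ h1
          · exact hB0
        subst hA0
        have hlx : Tendsto (fun n => Real.log (0 + x n)) atTop atBot := by
          have : Tendsto (fun n => (0 : ℝ) + x n) atTop (𝓝[>] 0) := by
            refine tendsto_nhdsWithin_iff.2 ⟨hAx, Eventually.of_forall fun n => ?_⟩
            simpa using hx n
          exact Real.tendsto_log_nhdsGT_zero.comp this
        have hly : Tendsto (fun n => Real.log (B + y n)) atTop (𝓝 (Real.log B)) :=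
          (Real.continuousAt_log hB0.ne').tendsto.comp hBy
        have h4 : Tendsto (fun n => -(Real.log (0 + x n) - Real.log (B + y n))) atTop atTop := by
          have h5 : Tendsto (fun n => Real.log (0 + x n) - Real.log (B + y n)) atTop atBot := by
            have := hlx.atBot_add hly.neg
            simpa [sub_eq_add_neg] using this
          exact tendsto_neg_atBot_atTop.comp h5
        have h6 := h4.const_mul_atTop hB0
        refine h6.congr fun n => ?_
        ring
      · have hB0 : B = 0 := by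
          by_contra hne
          exact h2 ⟨hA0, lt_of_le_of_ne hB (Ne.symm hne)⟩
        subst hB0
        have hly : Tendsto (fun n => Real.log (0 + y n)) atTop atBot := by
          have : Tendsto (fun n => (0 : ℝ) + y n) atTop (𝓝[>] 0) := by
            refine tendsto_nhdsWithin_iff.2 ⟨hBy, Eventually.of_forall fun n => ?_⟩
            simpa using hy n
          exact Real.tendsto_log_nhdsGT_zero.comp this
        have hlx : Tendsto (fun n => Real.log (A + x n)) atTop (𝓝 (Real.log A)) :=
          (Real.continuousAt_log hA0.ne').tendsto.comp hAx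
        have h5 : Tendsto (fun n => Real.log (A + x n) - Real.log (0 + y n)) atTop atTop := by
          have h7 : Tendsto (fun n => -Real.log (0 + y n)) atTop atTop :=
            tendsto_neg_atBot_atTop.comp hly
          have := hlx.add_atTop h7
          simpa [sub_eq_add_neg] using this
        have h6 := h5.const_mul_atTop hA0
        refine h6.congr fun n => ?_
        ring
    rw [htop.liminf_eq]
    exact le_top

theorem tendsto_excess {d : ℕ → ℝ} (hd0 : Tendsto d atTop (𝓝 0)) (f : R3 → ℝ) (v vs : R3) :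
    Tendsto (fun n => excess (d n) f v vs) atTop (𝓝 0) := by
  unfold excess
  have h1 : Tendsto (fun n => d n * (maxwellian v * f vs + maxwellian vs * f v)) atTop
      (𝓝 (0 * (maxwellian v * f vs + maxwellian vs * f v))) := hd0.mul_const _
  have h2 : Tendsto (fun n => d n ^ 2 * (maxwellian v * maxwellian vs)) atTop
      (𝓝 (0 ^ 2 * (maxwellian v * maxwellian vs))) := (hd0.pow 2).mul_const _
  simpa using h1.add h2

theorem liminf_kEN {d : ℕ → ℝ} (hd : ∀ n, 0 < d n) (hd0 : Tendsto d atTop (𝓝 0)) {f : R3 → ℝ}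
    (hf : ∀ v, 0 ≤ f v) (v vs : R3) {w : R3} (hw : ‖w‖ = 1) :
    ENNReal.ofReal |inner ℝ (v - vs) w| *
      pairDissipation (f (postVel v vs w) * f (postVelStar v vs w)) (f v * f vs) ≤
    liminf (fun n => kEN (d n) f v vs w) atTop := by
  have h := liminf_pair (A := f (postVel v vs w) * f (postVelStar v vs w)) (B := f v * f vs)
    (a := |(inner ℝ (v - vs) w : ℝ)|) (mul_nonneg (hf _) (hf _)) (mul_nonneg (hf _) (hf _))
    (abs_nonneg _) (x := fun n => excess (d n) f (postVel v vs w) (postVelStar v vs w))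
    (y := fun n => excess (d n) f v vs) (fun n => excess_pos (hd n) hf _ _)
    (fun n => excess_pos (hd n) hf _ _) (tendsto_excess hd0 f _ _) (tendsto_excess hd0 f _ _)
  refine h.trans (le_of_eq ?_)
  congr 1
  funext n
  unfold kEN
  rw [prodE_eq (hd n) hf v vs hw]
  rfl

/-! ### the regularised entropy density -/

/-- `h(x) = x log x - x + 1 ≥ 0`. -/
theorem h_nonneg {x : ℝ} (hx : 0 ≤ x) : 0 ≤ x * Real.log x - x + 1 := by
  rcases hx.eq_or_lt with rfl | hx
  · simp
  · have h := Real.one_sub_inv_le_log_of_pos hx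
    have : x * (1 - x⁻¹) ≤ x * Real.log x := mul_le_mul_of_nonneg_left h hx.le
    have e : x * (1 - x⁻¹) = x - 1 := by field_simp
    linarith

theorem entD_nonneg {d z m : ℝ} (hd : 0 ≤ d) (hz : 0 ≤ z) (hm : 0 < m) : 0 ≤ entD d z m := by
  unfold entD
  exact mul_nonneg hm.le (h_nonneg (by positivity))

theorem entD_zero {z m : ℝ} (hm : 0 < m) :
    entD 0 z m = z * Real.log (z / m) - z + m := by
  unfold entD
  rw [add_zero]
  field_simp

theorem tendsto_entD {d : ℕ → ℝ} (hd0 : Tendsto d atTop (𝓝 0)) (z m : ℝ) :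
    Tendsto (fun n => entD (d n) z m) atTop (𝓝 (entD 0 z m)) := by
  unfold entD
  have h1 : Tendsto (fun n => z / m + d n) atTop (𝓝 (z / m + 0)) := hd0.const_add _
  have h2 := (Real.continuous_mul_log.tendsto (z / m + 0)).comp h1
  exact ((h2.sub h1).add_const 1).const_mul m

theorem h_mono {x y : ℝ} (hx : 1 ≤ x) (hxy : x ≤ y) :
    x * Real.log x - x + 1 ≤ y * Real.log y - y + 1 := by
  have hx0 : 0 < x := by linarith
  have hy0 : 0 < y := by linarith
  have h := Real.one_sub_inv_le_log_of_pos (div_pos hy0 hx0)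
  rw [Real.log_div hy0.ne' hx0.ne'] at h
  have h1 : y * (1 - (y / x)⁻¹) ≤ y * (Real.log y - Real.log x) :=
    mul_le_mul_of_nonneg_left h hy0.le
  have e : y * (1 - (y / x)⁻¹) = y - x := by field_simp
  have hl : 0 ≤ Real.log x := Real.log_nonneg hx
  nlinarith [mul_nonneg (sub_nonneg.2 hxy) hl]

theorem h_bound {z d : ℝ} (hz : 0 ≤ z) (hd : 0 ≤ d) (hd1 : d ≤ 1) :
    (z + d) * Real.log (z + d) - (z + d) + 1 ≤ 1 + ((z + 1) * Real.log (z + 1) - (z + 1) + 1) := by
  rcases le_total (z + d) 1 with h | h
  · have h1 : (z + d) * Real.log (z + d) ≤ 0 :=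
      mul_nonpos_of_nonneg_of_nonpos (by linarith) (Real.log_nonpos (by linarith) h)
    have h2 := h_nonneg (x := z + 1) (by linarith)
    linarith
  · have := h_mono h (y := z + 1) (by linarith)
    linarith

theorem entD_bound {d z m : ℝ} (hd : 0 ≤ d) (hd1 : d ≤ 1) (hz : 0 ≤ z) (hm : 0 < m) :
    entD d z m ≤ m + z + z * Real.log (1 + z / m) := by
  have hzm : 0 ≤ z / m := div_nonneg hz hm.le
  have h := h_bound hzm hd hd1
  have h2 : entD d z m ≤ m * (1 + ((z / m + 1) * Real.log (z / m + 1) - (z / m + 1) + 1)) := by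
    unfold entD
    exact mul_le_mul_of_nonneg_left h hm.le
  have h3 : m * Real.log (z / m + 1) ≤ z := by
    have := Real.log_le_sub_one_of_pos (x := z / m + 1) (by linarith)
    calc m * Real.log (z / m + 1) ≤ m * (z / m + 1 - 1) := mul_le_mul_of_nonneg_left this hm.le
      _ = z := by field_simp; ring
  have h4 : m * (1 + ((z / m + 1) * Real.log (z / m + 1) - (z / m + 1) + 1)) =
      m + z * Real.log (z / m + 1) + m * Real.log (z / m + 1) - z := by
    field_simp
    ring
  rw [h4] at h2
  rw [add_comm 1 (z / m)]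
  linarith

/-- the constant `log (1 + (2π)^{3/2})` -/
noncomputable def cM : ℝ := Real.log (1 + (2 * Real.pi) ^ (3 / 2 : ℝ))

theorem cM_nonneg : 0 ≤ cM := by
  unfold cM
  exact Real.log_nonneg (by have : 0 ≤ (2 * Real.pi) ^ (3 / 2 : ℝ) := by positivity
                            linarith)

theorem inv_maxwellian (v : R3) :
    (maxwellian v)⁻¹ = (2 * Real.pi) ^ (3 / 2 : ℝ) * Real.exp (‖v‖ ^ 2 / 2) := by
  unfold maxwellian
  rw [mul_inv, ← Real.exp_neg, ← Real.rpow_neg (by positivity)]
  simp only [neg_neg]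
  congr 2
  ring

theorem log_one_add_inv_max (v : R3) : Real.log (1 + (maxwellian v)⁻¹) ≤ cM + ‖v‖ ^ 2 / 2 := by
  rw [inv_maxwellian]
  have hp : 0 < (2 * Real.pi) ^ (3 / 2 : ℝ) := by positivity
  have h1 : 1 + (2 * Real.pi) ^ (3 / 2 : ℝ) * Real.exp (‖v‖ ^ 2 / 2) ≤
      (1 + (2 * Real.pi) ^ (3 / 2 : ℝ)) * Real.exp (‖v‖ ^ 2 / 2) := by
    have : 1 ≤ Real.exp (‖v‖ ^ 2 / 2) := Real.one_le_exp (by positivity)
    nlinarith
  have h2 := Real.log_le_log (by positivity) h1
  rw [Real.log_mul (by positivity) (by positivity), Real.log_exp] at h2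
  exact h2

theorem log_one_add_div_max {z : ℝ} (hz : 0 ≤ z) (v : R3) :
    Real.log (1 + z / maxwellian v) ≤ Real.log (1 + z) + (cM + ‖v‖ ^ 2 / 2) := by
  have hm := maxwellian_pos v
  have h1 : 1 + z / maxwellian v ≤ (1 + z) * (1 + (maxwellian v)⁻¹) := by
    rw [div_eq_mul_inv]
    have : 0 ≤ (maxwellian v)⁻¹ := by positivity
    nlinarith
  have h2 := Real.log_le_log (by positivity) h1
  rw [Real.log_mul (by positivity) (by positivity)] at h2
  have := log_one_add_inv_max v
  linarith

theorem abs_Phi_le {d : ℝ} (hd : 0 < d) (hd1 : d ≤ 1) {f : R3 → ℝ} (hf : ∀ v, 0 ≤ f v) (v : R3) :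
    |Phi d f v| ≤ |Real.log d| + (cM + ‖v‖ ^ 2 / 2) + Real.log (1 + f v) := by
  have hm := maxwellian_pos v
  have hz : 0 ≤ f v / maxwellian v := div_nonneg (hf v) hm.le
  have hl1 : 0 ≤ Real.log (1 + f v) := Real.log_nonneg (by linarith [hf v])
  have hc := cM_nonneg
  unfold Phi
  rw [abs_le]
  constructor
  · have h1 : Real.log d ≤ Real.log (f v / maxwellian v + d) :=
      Real.log_le_log hd (by linarith)
    have h2 := neg_abs_le (Real.log d)
    have : 0 ≤ ‖v‖ ^ 2 / 2 := by positivity
    linarith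
  · have h1 : Real.log (f v / maxwellian v + d) ≤ Real.log (1 + f v / maxwellian v) :=
      Real.log_le_log (by linarith) (by linarith)
    have h2 := log_one_add_div_max (hf v) v
    have h3 := abs_nonneg (Real.log d)
    linarith

/-- dominating function of the regularised entropy density -/
theorem entD_bound' {d : ℝ} (hd : 0 ≤ d) (hd1 : d ≤ 1) {f : R3 → ℝ} (hf : ∀ v, 0 ≤ f v) (v : R3) :
    entD d (f v) (maxwellian v) ≤ maxwellian v + f v * (1 + cM + ‖v‖ ^ 2 / 2 +
      Real.log (1 + f v)) := by
  have h1 := entD_bound hd hd1 (hf v) (maxwellian_pos v)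
  have h2 := mul_le_mul_of_nonneg_left (log_one_add_div_max (hf v) v) (hf v)
  nlinarith

end Crest.Agent.R68
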