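import Crest.Agent.R68.EMeas

-- ▼ part R68/EPer
section

/-!
R68 / EPer: integrals of periodic functions over the cell, free transport (helper485, Part E).
-/

set_option autoImplicit false
open MeasureTheory
open scoped ENNReal Pointwise
open Crest.AnalysisR.VecCalc3 Crest.AnalysisR.PDE.Boltzmann

namespace Crest.Agent.R68

/-- standard basis of ℝ³ -/
noncomputable def stdB : Module.Basis (Fin 3) ℝ R3 := (EuclideanSpace.basisFun (Fin 3) ℝ).toBasis

theorem stdB_apply (i : Fin 3) : stdB i = EuclideanSpace.single i (1 : ℝ) := by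
  simp [stdB]

theorem stdB_repr (x : R3) (i : Fin 3) : stdB.repr x i = x i := by
  simp [stdB]

theorem cell_eq : cell = ZSpan.fundamentalDomain stdB := by
  ext x
  simp only [cell, ZSpan.mem_fundamentalDomain, Set.mem_ofPred_eq, stdB_repr]

theorem measurableSet_cell : MeasurableSet cell := by
  rw [cell_eq]
  exact ZSpan.fundamentalDomain_measurableSet stdB

theorem periodic_span {α : Type*} {f : R3 → α} (hf : IsPeriodic3 f) {l : R3}
    (hl : l ∈ Submodule.span ℤ (Set.range stdB)) : ∀ x, f (x + l) = f x := by
  induction hl using Submodule.span_induction with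
  | mem l h =>
    obtain ⟨i, rfl⟩ := h
    intro x
    rw [stdB_apply]
    exact hf x i
  | zero => intro x; rw [add_zero]
  | add a b _ _ ha hb =>
    intro x
    rw [← add_assoc, hb, ha]
  | smul n a _ ha =>
    intro x
    induction n using Int.induction_on generalizing x with
    | zero => simp
    | succ n ih =>
      rw [add_smul, one_smul, ← add_assoc, ha, ih]
    | pred n ih =>
      have h := ha (x + ((-(n : ℤ) - 1) • a))
      have h2 : x + ((-(n : ℤ) - 1) • a) + a = x + (-(n : ℤ)) • a := by
        rw [sub_smul, one_smul]; abel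
      rw [h2, ih] at h
      exact h.symm

/-- translation invariance of the cell integral of a periodic function -/
theorem lintegral_cell_add {g : R3 → ℝ≥0∞} (hg : IsPeriodic3 g) (a : R3) :
    ∫⁻ x in cell, g (x + a) = ∫⁻ x in cell, g x := by
  have hF := ZSpan.isAddFundamentalDomain' stdB (volume : Measure R3)
  have : Countable (Submodule.span ℤ (Set.range stdB)) := inferInstance
  have : Countable (Submodule.span ℤ (Set.range stdB)).toAddSubgroup := this
  have hF2 : IsAddFundamentalDomain (Submodule.span ℤ (Set.range stdB)).toAddSubgroup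
      (a +ᵥ ZSpan.fundamentalDomain stdB) (volume : Measure R3) :=
    hF.vadd_of_comm a
  have h := hF.setLIntegral_eq hF2 g (fun l x => by
    have := periodic_span hg l.2 x
    rw [AddSubgroup.vadd_def, vadd_eq_add, add_comm]
    exact this)
  rw [← cell_eq] at h
  rw [h]
  have himg : a +ᵥ cell = (fun x => x + a) '' cell := by
    ext y
    simp only [Set.mem_vadd_set, Set.mem_image, vadd_eq_add, add_comm]
  rw [himg]
  have hmp := measurePreserving_add_right (volume : Measure R3) a
  exact hmp.setLIntegral_comp_emb (MeasurableEquiv.addRight a).measurableEmbedding g cell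

/-- the phase cell -/
noncomputable def muC : Measure (R3 × R3) :=
  (volume : Measure (R3 × R3)).restrict (cell ×ˢ Set.univ)

theorem muC_eq : muC = ((volume : Measure R3).restrict cell).prod (volume : Measure R3) := by
  unfold muC
  rw [Measure.volume_eq_prod, ← Measure.prod_restrict, Measure.restrict_univ]

instance : SFinite muC := by rw [muC_eq]; infer_instance

theorem lintegral_muC {G : R3 × R3 → ℝ≥0∞} (hG : Measurable G) :
    ∫⁻ q, G q ∂muC = ∫⁻ v, ∫⁻ x in cell, G (x, v) := by
  rw [muC_eq, lintegral_prod_symm _ hG.aemeasurable]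

theorem lintegral_muC' {G : R3 × R3 → ℝ≥0∞} (hG : Measurable G) :
    ∫⁻ q, G q ∂muC = ∫⁻ x in cell, ∫⁻ v, G (x, v) := by
  rw [muC_eq, lintegral_prod _ hG.aemeasurable]

/-- free transport by time c -/
def shift (c : ℝ) (q : R3 × R3) : R3 × R3 := (q.1 + c • q.2, q.2)

theorem shift_shift (c d : ℝ) (q : R3 × R3) : shift c (shift d q) = shift (c + d) q := by
  unfold shift
  simp only [Prod.mk.injEq, and_true]
  module

theorem shift_zero (q : R3 × R3) : shift 0 q = q := by
  unfold shift
  simp

theorem continuous_shift (c : ℝ) : Continuous (shift c) := by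
  unfold shift; fun_prop

@[fun_prop]
theorem measurable_shift (c : ℝ) : Measurable (shift c) := (continuous_shift c).measurable

@[fun_prop]
theorem Measurable.shift {α : Type*} [MeasurableSpace α] {c : α → ℝ} {q : α → R3 × R3}
    (hc : Measurable c) (hq : Measurable q) : Measurable (fun a => R68.shift (c a) (q a)) := by
  unfold R68.shift; fun_prop

/-- periodicity of a function on phase space -/
def PerX {α : Type*} (G : R3 × R3 → α) : Prop := ∀ v, IsPeriodic3 (fun x => G (x, v))

theorem PerX.shift {α : Type*} {G : R3 × R3 → α} (hG : PerX G) (c : ℝ) :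
    PerX (fun q => G (R68.shift c q)) := by
  intro v x i
  have := hG v (x + c • v) i
  simp only [R68.shift] at this ⊢
  rw [← this]
  congr 2
  abel

theorem PerX.comp {α β : Type*} {G : R3 × R3 → α} (hG : PerX G) (f : α → β) :
    PerX (fun q => f (G q)) := by
  intro v x i
  have := hG v x i
  simp only at this ⊢
  rw [this]

theorem PerX.comp₂ {α β γ : Type*} {G : R3 × R3 → α} {H : R3 × R3 → β} (hG : PerX G)
    (hH : PerX H) (f : α → β → γ) : PerX (fun q => f (G q) (H q)) := by
  intro v x i
  have h1 := hG v x i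
  have h2 := hH v x i
  simp only at h1 h2 ⊢
  rw [h1, h2]

theorem perX_snd {α : Type*} (f : R3 → α) : PerX (fun q : R3 × R3 => f q.2) := fun _ _ _ => rfl

theorem lintegral_shift {G : R3 × R3 → ℝ≥0∞} (hG : Measurable G) (hp : PerX G) (c : ℝ) :
    ∫⁻ q, G (shift c q) ∂muC = ∫⁻ q, G q ∂muC := by
  have hGm : Measurable (fun q => G (shift c q)) := hG.comp (measurable_shift c)
  rw [lintegral_muC hGm, lintegral_muC hG]
  refine lintegral_congr fun v => ?_
  exact lintegral_cell_add (hp v) (c • v)

theorem integrable_shift {G : R3 × R3 → ℝ} (hG : Measurable G) (hp : PerX G) (c : ℝ) :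
    Integrable (fun q => G (shift c q)) muC ↔ Integrable G muC := by
  have hGm : Measurable (fun q => G (shift c q)) := hG.comp (measurable_shift c)
  have h := lintegral_shift (G := fun q => ‖G q‖ₑ) (hG.enorm) (hp.comp _) c
  constructor
  · intro hi
    refine ⟨hG.aestronglyMeasurable, ?_⟩
    have := hi.2
    rw [hasFiniteIntegral_iff_enorm] at this ⊢
    rwa [h] at this
  · intro hi
    refine ⟨hGm.aestronglyMeasurable, ?_⟩
    have := hi.2
    rw [hasFiniteIntegral_iff_enorm] at this ⊢
    rwa [h]

theorem integral_shift {G : R3 × R3 → ℝ} (hG : Measurable G) (hp : PerX G) (c : ℝ) :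
    ∫ q, G (shift c q) ∂muC = ∫ q, G q ∂muC := by
  by_cases hi : Integrable G muC
  · have hi2 := (integrable_shift hG hp c).2 hi
    rw [integral_eq_lintegral_pos_part_sub_lintegral_neg_part hi2,
      integral_eq_lintegral_pos_part_sub_lintegral_neg_part hi]
    rw [lintegral_shift (G := fun q => ENNReal.ofReal (G q)) hG.ennreal_ofReal (hp.comp _) c,
      lintegral_shift (G := fun q => ENNReal.ofReal (-G q)) hG.neg.ennreal_ofReal
        (hp.comp (fun r => ENNReal.ofReal (-r))) c]
  · have hi2 : ¬ Integrable (fun q => G (shift c q)) muC := fun h =>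
      hi ((integrable_shift hG hp c).1 h)
    rw [integral_undef hi, integral_undef hi2]

/-- almost everywhere statements on the whole space versus on the cell -/
theorem ae_muC_of_ae {P : R3 × R3 → Prop} (h : ∀ᵐ q ∂(volume : Measure (R3 × R3)), P q) :
    ∀ᵐ q ∂muC, P q := ae_restrict_of_ae h

/-- null sets of the whole space are shift invariant -/
theorem measurePreserving_shift (c : ℝ) :
    MeasurePreserving (shift c) (volume : Measure (R3 × R3)) volume := by
  refine ⟨measurable_shift c, ?_⟩
  ext s hs
  rw [Measure.map_apply (measurable_shift c) hs, Measure.volume_eq_prod,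
    Measure.prod_apply_symm hs, Measure.prod_apply_symm ((measurable_shift c) hs)]
  refine lintegral_congr fun v => ?_
  have : (fun x => (x, v)) ⁻¹' (shift c ⁻¹' s) = (fun x => x + c • v) ⁻¹' ((fun x => (x, v)) ⁻¹' s) := by
    ext x; simp [shift]
  rw [this]
  exact (measurePreserving_add_right (volume : Measure R3) (c • v)).measure_preimage
    ((measurable_prodMk_right hs).nullMeasurableSet)

end Crest.Agent.R68
end

-- ▼ part R68/EHyp

/-!
R68 / EHyp: the hypotheses of the end-game theorem of Part E (helper485).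
-/

set_option autoImplicit false
open MeasureTheory
open scoped ENNReal
open Crest.AnalysisR.VecCalc3 Crest.AnalysisR.PDE.Boltzmann

namespace Crest.Agent.R68

/-- net collision term Q⁺ - Q⁻ as a real number -/
noncomputable def Qr (F : ℝ → R3 → R3 → ℝ) (t : ℝ) (q : R3 × R3) : ℝ :=
  (collGain F t q.1 q.2).toReal - (collLoss F t q.1 q.2).toReal

/-- A nonnegative periodic mild solution with integrable weighted gain and loss: the hypotheses
(MILD) and (INT) of Part E. -/
structure MildSol (F : ℝ → R3 → R3 → ℝ) (F0 : R3 → R3 → ℝ) (R : ℝ) : Prop where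
  datum : IsAdmissibleDatum F0 R
  meas : MeasF F
  nonneg : ∀ t x v, 0 ≤ t → 0 ≤ F t x v
  per : ∀ t v, IsPeriodic3 (fun x => F t x v)
  init : ∀ x v, F 0 x v = F0 x v
  mild : ∀ t, 0 ≤ t → ∀ᵐ q ∂(volume : Measure (R3 × R3)),
    F t (q.1 + t • q.2) q.2 = F0 q.1 q.2 + ∫ s in (0)..t, Qr F s (shift s q)
  int : ∀ (T : ℝ) (k : ℕ), (∫⁻ p in Set.Ioo 0 T ×ˢ (cell ×ˢ Set.univ),
      ENNReal.ofReal ((1 + ‖p.2.2‖ ^ 2) ^ (k / 2 : ℝ) + Real.log (1 + F p.1 p.2.1 p.2.2)) *
        (collGain F p.1 p.2.1 p.2.2 + collLoss F p.1 p.2.1 p.2.2)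
      ∂(volume : Measure (ℝ × R3 × R3))) < ⊤

end Crest.Agent.R68
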