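import Mathlib
import Crest.Prelude.Def_HardSphereBoltzmann
import Crest.Agent.R68.E1
import Crest.Agent.R68.EHyp
import Crest.Agent.R68.EChain
import Crest.Agent.R68.EEnt3

-- ▼ part R68/EShift
section

/-!
Row 68, part E: periodic shifts as measure preserving maps of `cell × R3` and `(0,T) × cell × R3`.
-/

set_option autoImplicit false
open MeasureTheory Set
open scoped ENNReal NNReal Pointwise
open Crest.AnalysisR.VecCalc3 Crest.AnalysisR.PDE.Boltzmann

namespace Crest.Agent.R68E

/-- coordinatewise fractional part. -/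
noncomputable def fr (x : R3) : R3 := WithLp.toLp 2 (fun i => Int.fract (x i))

lemma fr_apply (x : R3) (i : Fin 3) : fr x i = Int.fract (x i) := rfl


lemma fr_of_mem {x : R3} (hx : x ∈ cell) : fr x = x := by
  ext i
  rw [fr_apply]
  exact Int.fract_eq_self.2 ⟨(hx i).1, (hx i).2⟩

lemma measurable_fr : Measurable fr := by
  unfold fr
  refine (WithLp.measurable_toLp 2 _).comp (measurable_pi_iff.2 fun i => ?_)
  exact measurable_fract.comp ((EuclideanSpace.proj i : R3 →L[ℝ] ℝ).continuous.measurable)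


lemma sub_fr (x : R3) : x - fr x = ∑ i : Fin 3, (⌊x i⌋ : ℤ) • (EuclideanSpace.single i (1 : ℝ)) := by
  have h1 : ∀ j : Fin 3, (x - fr x) j = (⌊x j⌋ : ℝ) := by
    intro j
    rw [PiLp.sub_apply, fr_apply]
    have := Int.floor_add_fract (x j)
    linarith
  ext j
  rw [h1 j, Fin.sum_univ_three]
  fin_cases j <;> simp

lemma per_fr {α : Type*} {f : R3 → α} (hf : IsPeriodic3 f) (x : R3) : f (fr x) = f x := by
  have h : ∀ (i : Fin 3) (n : ℤ) (y : R3), f (y + n • EuclideanSpace.single i (1 : ℝ)) = f y := by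
    intro i n y
    have hp : Function.Periodic f (EuclideanSpace.single i (1 : ℝ)) := fun z => hf z i
    exact hp.zsmul n y
  have hx : x = fr x + ∑ i : Fin 3, (⌊x i⌋ : ℤ) • (EuclideanSpace.single i (1 : ℝ)) := by
    rw [← sub_fr]; abel
  conv_rhs => rw [hx]
  rw [Fin.sum_univ_three, ← add_assoc, ← add_assoc, h, h, h]

lemma fr_per : IsPeriodic3 fr := by
  intro x i
  ext j
  simp only [fr_apply, PiLp.add_apply, PiLp.single_apply]
  split_ifs
  · exact Int.fract_add_one _
  · simp

lemma cell_eq : cell = ZSpan.fundamentalDomain (EuclideanSpace.basisFun (Fin 3) ℝ).toBasis := by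
  ext x
  simp [cell, ZSpan.mem_fundamentalDomain]

lemma mp_shift (a : R3) : MeasurePreserving (fun x : R3 => fr (x + a))
    (volume.restrict cell) (volume.restrict cell) := by
  have hmeas : Measurable (fun x : R3 => fr (x + a)) := measurable_fr.comp (by fun_prop)
  refine ⟨hmeas, ?_⟩
  ext A hA
  rw [Measure.map_apply hmeas hA, Measure.restrict_apply (hmeas hA), Measure.restrict_apply hA]
  set B : Set R3 := fr ⁻¹' A with hB
  have hBm : MeasurableSet B := measurable_fr hA
  have h1 : (fun x : R3 => fr (x + a)) ⁻¹' A ∩ cell = (fun x => x + a) ⁻¹' (B ∩ (a +ᵥ cell)) := by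
    ext x
    simp only [mem_inter_iff, mem_preimage, hB, mem_vadd_set_iff_neg_vadd_mem, vadd_eq_add]
    rw [show -a + (x + a) = x by abel]
  have h2 : A ∩ cell = B ∩ cell := by
    ext x
    simp only [mem_inter_iff, mem_preimage, hB]
    constructor
    · rintro ⟨h, h'⟩; exact ⟨by rw [fr_of_mem h']; exact h, h'⟩
    · rintro ⟨h, h'⟩; exact ⟨by rw [fr_of_mem h'] at h; exact h, h'⟩
  rw [h1, h2, measure_preimage_add_right]
  have hd : IsAddFundamentalDomain
      (Submodule.span ℤ (Set.range (EuclideanSpace.basisFun (Fin 3) ℝ).toBasis)).toAddSubgroup cell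
      (volume : Measure R3) := by
    rw [cell_eq]
    exact ZSpan.isAddFundamentalDomain' _ _
  have : Countable (Submodule.span ℤ
      (Set.range (EuclideanSpace.basisFun (Fin 3) ℝ).toBasis)).toAddSubgroup :=
    inferInstanceAs (Countable (Submodule.span ℤ
      (Set.range (EuclideanSpace.basisFun (Fin 3) ℝ).toBasis)))
  have hd2 := hd.vadd_of_comm a
  refine hd2.measure_set_eq hd hBm ?_
  intro g
  ext x
  simp only [mem_preimage, hB]
  have hg : fr (g +ᵥ x) = fr x := by
    have hper : ∀ g ∈ Submodule.span ℤ (Set.range (EuclideanSpace.basisFun (Fin 3) ℝ).toBasis),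
        ∀ x : R3, fr (g + x) = fr x := by
      intro g hg
      induction hg using Submodule.span_induction with
      | mem y hy =>
        obtain ⟨i, rfl⟩ := hy
        intro x
        rw [add_comm]
        simpa using fr_per x i
      | zero => intro x; rw [zero_add]
      | add y z _ _ hy hz => intro x; rw [add_assoc, hy, hz]
      | smul n y _ hy =>
        intro x
        have hp : Function.Periodic fr y := fun z => by rw [add_comm]; exact hy z
        rw [add_comm]
        exact hp.zsmul n x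
    exact hper g.1 g.2 x
  rw [hg]

/-- reference measure on `cell × R3`. -/
noncomputable def mu2 : Measure (R3 × R3) := (volume.restrict cell).prod volume

lemma mu2_eq : (volume : Measure (R3 × R3)).restrict (cell ×ˢ univ) = mu2 := by
  rw [mu2, Measure.volume_eq_prod, ← Measure.prod_restrict, Measure.restrict_univ]

instance sfin_mu2 : SFinite mu2 := by unfold mu2; infer_instance
instance sigf_mu2 : SigmaFinite mu2 := by unfold mu2; infer_instance

/-- the flow map on `cell × R3`. -/
noncomputable def fl (t : ℝ) (q : R3 × R3) : R3 × R3 := (fr (q.1 + t • q.2), q.2)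

lemma measurable_fl_joint : Measurable fun p : ℝ × (R3 × R3) => fl p.1 p.2 := by
  unfold fl
  refine (measurable_fr.comp ?_).prodMk (by fun_prop)
  fun_prop

lemma mp_fl (t : ℝ) : MeasurePreserving (fl t) mu2 mu2 := by
  have h1 : MeasurePreserving (fun p : R3 × R3 => (p.1, fr (p.2 + t • p.1)))
      ((volume : Measure R3).prod (volume.restrict cell))
      ((volume : Measure R3).prod (volume.restrict cell)) := by
    refine (MeasurePreserving.id _).skew_product (g := fun v x => fr (x + t • v)) ?_ ?_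
    · exact measurable_fr.comp (by fun_prop)
    · exact Filter.Eventually.of_forall fun v => (mp_shift (t • v)).map_eq
  have h2 : MeasurePreserving (Prod.swap : R3 × R3 → R3 × R3)
      mu2 ((volume : Measure R3).prod (volume.restrict cell)) := Measure.measurePreserving_swap
  have h3 : MeasurePreserving (Prod.swap : R3 × R3 → R3 × R3)
      ((volume : Measure R3).prod (volume.restrict cell)) mu2 := Measure.measurePreserving_swap
  exact h3.comp (h1.comp h2)

/-- the space-time flow map. -/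
noncomputable def Fl (p : ℝ × (R3 × R3)) : ℝ × (R3 × R3) := (p.1, fl p.1 p.2)

/-- reference measure on `(0,T) × cell × R3`. -/
noncomputable def mu3 (T : ℝ) : Measure (ℝ × (R3 × R3)) := (volume.restrict (Ioo 0 T)).prod mu2

instance sfin_mu3 (T : ℝ) : SFinite (mu3 T) := by unfold mu3; infer_instance
instance sigf_mu3 (T : ℝ) : SigmaFinite (mu3 T) := by unfold mu3; infer_instance

lemma mu3_eq (T : ℝ) :
    (volume : Measure (ℝ × (R3 × R3))).restrict (Ioo 0 T ×ˢ (cell ×ˢ univ)) = mu3 T := by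
  rw [mu3, ← mu2_eq, Measure.prod_restrict, ← Measure.volume_eq_prod]

lemma mp_Fl (T : ℝ) : MeasurePreserving Fl (mu3 T) (mu3 T) := by
  refine (MeasurePreserving.id _).skew_product (g := fun t q => fl t q) ?_ ?_
  · exact measurable_fl_joint
  · exact Filter.Eventually.of_forall fun t => (mp_fl t).map_eq


end Crest.Agent.R68E
end

-- ▼ part R68/EChar

/-!
Row 68, part E: the entropy identity along characteristics,
`∫ φ(F t) - ∫ φ(F 0) = ∫_0^t ∫ Q(F) log(F/M + δ)`, `φ_v(z) = M(v) h(z/M(v) + δ)`.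
-/

set_option autoImplicit false
open MeasureTheory Set
open scoped ENNReal NNReal Pointwise
open Crest.AnalysisR.VecCalc3 Crest.AnalysisR.PDE.Boltzmann

namespace Crest.Agent.R68E

open Crest.Agent.R68 (MildSol Qr shift MeasF PerX)

/-- `h(z) = z log z - z + 1`. -/
noncomputable def hz (z : ℝ) : ℝ := z * Real.log z - z + 1

/-- `φ_v(z) = M(v) h(z/M(v) + δ)`. -/
noncomputable def phiD (δ : ℝ) (v : R3) (z : ℝ) : ℝ := maxwellian v * hz (z / maxwellian v + δ)

lemma hasDerivAt_hz {z : ℝ} (hzp : z ≠ 0) : HasDerivAt hz (Real.log z) z := by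
  unfold hz
  have h := (((hasDerivAt_id z).mul (Real.hasDerivAt_log hzp)).sub (hasDerivAt_id z)).add_const 1
  refine h.congr_deriv ?_
  simp [mul_inv_cancel₀ hzp]

lemma hasDerivAt_phiD (δ : ℝ) (v : R3) {z : ℝ} (hzp : -(δ * maxwellian v) < z) :
    HasDerivAt (phiD δ v) (Real.log (z / maxwellian v + δ)) z := by
  have hM := maxwellian_pos v
  have hpos : 0 < z / maxwellian v + δ := by
    have : 0 < z + δ * maxwellian v := by linarith
    have h2 : z / maxwellian v + δ = (z + δ * maxwellian v) / maxwellian v := by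
      field_simp
    rw [h2]; positivity
  have h1 : HasDerivAt (fun z : ℝ => z / maxwellian v + δ) (1 / maxwellian v) z :=
    ((hasDerivAt_id z).div_const _).add_const _
  have h2 := ((hasDerivAt_hz hpos.ne').comp z h1).const_mul (maxwellian v)
  refine h2.congr_deriv ?_
  field_simp

lemma continuousOn_logD (δ : ℝ) (v : R3) :
    ContinuousOn (fun z => Real.log (z / maxwellian v + δ)) (Ioi (-(δ * maxwellian v))) := by
  have hM := maxwellian_pos v
  refine ContinuousOn.log (by fun_prop) ?_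
  intro z hzp
  have : 0 < z + δ * maxwellian v := by
    have := mem_Ioi.1 hzp; linarith
  have h2 : z / maxwellian v + δ = (z + δ * maxwellian v) / maxwellian v := by
    field_simp
  rw [h2]; positivity

variable {F : ℝ → R3 → R3 → ℝ} {F₀ : R3 → R3 → ℝ} {R : ℝ}

/-- the weight `log(F/M + δ)`. -/
noncomputable def logD (F : ℝ → R3 → R3 → ℝ) (δ : ℝ) (s : ℝ) (q : R3 × R3) : ℝ :=
  Real.log (F s q.1 q.2 / maxwellian q.2 + δ)

lemma measurable_Qr (hF : MeasF F) : Measurable fun p : ℝ × (R3 × R3) => Qr F p.1 p.2 :=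
  (hF.collGain.ennreal_toReal).sub (hF.collLoss.ennreal_toReal)

lemma measurable_logD (hF : MeasF F) (δ : ℝ) :
    Measurable fun p : ℝ × (R3 × R3) => logD F δ p.1 p.2 := by
  unfold logD
  have h1 : Measurable fun p : ℝ × (R3 × R3) => F p.1 p.2.1 p.2.2 := hF
  have h2 : Measurable fun p : ℝ × (R3 × R3) => maxwellian p.2.2 :=
    measurable_maxwellian.comp (by fun_prop)
  exact Real.measurable_log.comp ((h1.div h2).add_const δ)

lemma perX_Qr (S : MildSol F F₀ R) (s : ℝ) : PerX (Qr F s) := by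
  intro v x i
  have h : ∀ v', F s (x + EuclideanSpace.single i 1) v' = F s x v' := fun v' => S.per s v' x i
  have hF : F s (x + EuclideanSpace.single i 1) = F s x := funext h
  simp only [Qr, collGain, collLoss, hF]

lemma perX_logD (S : MildSol F F₀ R) (δ s : ℝ) : PerX (logD F δ s) := by
  intro v x i
  have h : F s (x + EuclideanSpace.single i 1) v = F s x v := S.per s v x i
  simp only [logD, h]

lemma fl_eq_shift {α : Type*} {G : R3 × R3 → α} (hG : PerX G) (t : ℝ) (q : R3 × R3) :
    G (fl t q) = G (shift t q) :=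
  per_fr (hG q.2) _

lemma mu2_eq_muC : mu2 = Crest.Agent.R68.muC := by
  rw [← mu2_eq]; rfl

/-- bound `|log(z/M+δ)| ≤ |log δ| + C + |v|² + log(1+z)`. -/
lemma abs_logD_le {δ : ℝ} (hδ : 0 < δ) (hδ1 : δ ≤ 1) (v : R3) {z : ℝ} (hz0 : 0 ≤ z) :
    |Real.log (z / maxwellian v + δ)| ≤ |Real.log δ| + 4 + ‖v‖ ^ 2 + Real.log (1 + z) := by
  have hM := maxwellian_pos v
  have hq : 0 ≤ z / maxwellian v := by positivity
  have hl : Real.log δ ≤ Real.log (z / maxwellian v + δ) :=
    Real.log_le_log hδ (by linarith)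
  have h1z : 0 ≤ Real.log (1 + z) := Real.log_nonneg (by linarith)
  -- upper bound
  have hu : Real.log (z / maxwellian v + δ) ≤ 4 + ‖v‖ ^ 2 + Real.log (1 + z) := by
    have hinv : Real.log (1 / maxwellian v) = 3 / 2 * Real.log (2 * Real.pi) + ‖v‖ ^ 2 / 2 := by
      unfold maxwellian
      rw [one_div, Real.log_inv, Real.log_mul (by positivity) (by positivity), Real.log_exp,
        Real.log_rpow (by positivity)]
      ring
    have hpi : Real.log (2 * Real.pi) ≤ 2 := by
      have h1 : 2 * Real.pi ≤ Real.exp 2 := by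
        have h2 := Real.exp_one_gt_d9
        have h3 : Real.exp 2 = Real.exp 1 * Real.exp 1 := by rw [← Real.exp_add]; norm_num
        have h4 := Real.pi_lt_d2
        nlinarith
      calc Real.log (2 * Real.pi) ≤ Real.log (Real.exp 2) := Real.log_le_log (by positivity) h1
        _ = 2 := Real.log_exp 2
    have hle : z / maxwellian v + δ ≤ (1 + z) * (1 / maxwellian v + 1) := by
      have : 0 < 1 / maxwellian v := by positivity
      rw [div_eq_mul_one_div]
      nlinarith
    have h1M : 1 / maxwellian v + 1 ≤ 2 * Real.exp (3 + ‖v‖ ^ 2 / 2) := by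
      have h2 : 1 / maxwellian v ≤ Real.exp (3 + ‖v‖ ^ 2 / 2) := by
        rw [← Real.exp_log (show 0 < 1 / maxwellian v by positivity), hinv]
        apply Real.exp_le_exp.2
        linarith
      have h3 : 1 ≤ Real.exp (3 + ‖v‖ ^ 2 / 2) := Real.one_le_exp (by positivity)
      linarith
    calc Real.log (z / maxwellian v + δ)
        ≤ Real.log ((1 + z) * (2 * Real.exp (3 + ‖v‖ ^ 2 / 2))) := by
          refine Real.log_le_log (by positivity) (hle.trans ?_)
          exact mul_le_mul_of_nonneg_left h1M (by linarith)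
      _ = Real.log (1 + z) + (Real.log 2 + (3 + ‖v‖ ^ 2 / 2)) := by
          rw [Real.log_mul (by positivity) (by positivity), Real.log_mul (by norm_num)
            (by positivity), Real.log_exp]
      _ ≤ 4 + ‖v‖ ^ 2 + Real.log (1 + z) := by
          have := Real.log_two_lt_d9
          nlinarith [sq_nonneg ‖v‖]
  rw [abs_le]
  constructor
  · have := neg_abs_le (Real.log δ)
    nlinarith [sq_nonneg ‖v‖]
  · have := abs_nonneg (Real.log δ)
    linarith

/-- `Q(F)` is integrable on `(0,T) × cell × R3`, with weight `C + |v|² + log(1+F)`. -/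
lemma integrable_Q_weight (S : MildSol F F₀ R) (T C : ℝ) (hC : 0 ≤ C)
    {w : ℝ × (R3 × R3) → ℝ} (hw : Measurable w)
    (hb : ∀ p : ℝ × (R3 × R3), 0 < p.1 →
      |w p| ≤ C * ((1 + ‖p.2.2‖ ^ 2) + Real.log (1 + F p.1 p.2.1 p.2.2))) :
    Integrable (fun p : ℝ × (R3 × R3) => Qr F p.1 p.2 * w p) (mu3 T) := by
  have hint := S.int T 2
  rw [mu3_eq T] at hint
  refine ⟨((measurable_Qr S.meas).mul hw).aestronglyMeasurable, ?_⟩
  unfold HasFiniteIntegral
  have hle : ∀ᵐ p ∂(mu3 T), ‖Qr F p.1 p.2 * w p‖ₑ ≤ ENNReal.ofReal C *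
      (ENNReal.ofReal ((1 + ‖p.2.2‖ ^ 2) ^ ((2 : ℕ) / 2 : ℝ) + Real.log (1 + F p.1 p.2.1 p.2.2)) *
        (collGain F p.1 p.2.1 p.2.2 + collLoss F p.1 p.2.1 p.2.2)) := by
    have hpos : ∀ᵐ p ∂(mu3 T), 0 < p.1 := by
      have h1 : ∀ᵐ s ∂(volume.restrict (Ioo (0 : ℝ) T)), 0 < s := by
        filter_upwards [ae_restrict_mem measurableSet_Ioo] with s hs using hs.1
      exact Measure.quasiMeasurePreserving_fst.ae h1
    filter_upwards [hpos] with p hp
    have h1 : ‖Qr F p.1 p.2‖ₑ ≤ collGain F p.1 p.2.1 p.2.2 + collLoss F p.1 p.2.1 p.2.2 := by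
      unfold Qr
      refine (enorm_sub_le).trans (add_le_add ?_ ?_)
      · rw [Real.enorm_of_nonneg ENNReal.toReal_nonneg]
        exact ENNReal.ofReal_toReal_le
      · rw [Real.enorm_of_nonneg ENNReal.toReal_nonneg]
        exact ENNReal.ofReal_toReal_le
    have h2 : ‖w p‖ₑ ≤ ENNReal.ofReal C *
        ENNReal.ofReal ((1 + ‖p.2.2‖ ^ 2) ^ ((2 : ℕ) / 2 : ℝ) +
          Real.log (1 + F p.1 p.2.1 p.2.2)) := by
      rw [← ENNReal.ofReal_mul hC, ← ofReal_norm, Real.norm_eq_abs]
      refine ENNReal.ofReal_le_ofReal ?_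
      have := hb p hp
      have h3 : ((1 + ‖p.2.2‖ ^ 2) ^ ((2 : ℕ) / 2 : ℝ) : ℝ) = 1 + ‖p.2.2‖ ^ 2 := by
        norm_num
      rw [h3]; exact this
    rw [enorm_mul]
    calc ‖Qr F p.1 p.2‖ₑ * ‖w p‖ₑ ≤ (collGain F p.1 p.2.1 p.2.2 + collLoss F p.1 p.2.1 p.2.2) *
        (ENNReal.ofReal C * ENNReal.ofReal ((1 + ‖p.2.2‖ ^ 2) ^ ((2 : ℕ) / 2 : ℝ) +
          Real.log (1 + F p.1 p.2.1 p.2.2))) := mul_le_mul' h1 h2
      _ = _ := by ring
  refine lt_of_le_of_lt (lintegral_mono_ae hle) ?_
  rw [lintegral_const_mul']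
  · exact ENNReal.mul_lt_top ENNReal.ofReal_lt_top hint
  · exact ENNReal.ofReal_ne_top

lemma integrable_Q (S : MildSol F F₀ R) (T : ℝ) :
    Integrable (fun p : ℝ × (R3 × R3) => Qr F p.1 p.2) (mu3 T) := by
  have := integrable_Q_weight S T 1 zero_le_one (w := fun _ => 1) measurable_const (by
    intro p hp
    have h1 : 0 ≤ Real.log (1 + F p.1 p.2.1 p.2.2) :=
      Real.log_nonneg (by linarith [S.nonneg p.1 p.2.1 p.2.2 hp.le])
    rw [abs_one]
    nlinarith [sq_nonneg ‖p.2.2‖])
  simpa using this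

lemma integrable_Q_logD (S : MildSol F F₀ R) {δ : ℝ} (hδ : 0 < δ) (hδ1 : δ ≤ 1) (T : ℝ) :
    Integrable (fun p : ℝ × (R3 × R3) => Qr F p.1 p.2 * logD F δ p.1 p.2) (mu3 T) := by
  refine integrable_Q_weight S T (|Real.log δ| + 5) (by positivity)
    (measurable_logD S.meas δ) ?_
  intro p hp
  have h0 := S.nonneg p.1 p.2.1 p.2.2 hp.le
  have h1 := abs_logD_le hδ hδ1 p.2.2 h0
  have h2 : 0 ≤ Real.log (1 + F p.1 p.2.1 p.2.2) := Real.log_nonneg (by linarith)
  have h3 := abs_nonneg (Real.log δ)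
  refine h1.trans ?_
  have h4 : 0 ≤ ‖p.2.2‖ ^ 2 := by positivity
  nlinarith

/-- the mild representative `y(s) = F0 + ∫_0^s Q`. -/
noncomputable def yy (F : ℝ → R3 → R3 → ℝ) (F₀ : R3 → R3 → ℝ) (q : R3 × R3) (s : ℝ) : ℝ :=
  F₀ q.1 q.2 + ∫ r in Ioo 0 s, Qr F r (shift r q)

lemma measurable_F₀ (S : MildSol F F₀ R) : Measurable fun q : R3 × R3 => F₀ q.1 q.2 := S.datum.1

lemma measurable_primitive {G : ℝ × (R3 × R3) → ℝ} (hG : Measurable G) :
    Measurable fun p : (R3 × R3) × ℝ => ∫ r in Ioo 0 p.2, G (r, p.1) := by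
  have h1 : Measurable fun z : ((R3 × R3) × ℝ) × ℝ => G (z.2, z.1.1) :=
    hG.comp (by fun_prop)
  have h5 : MeasurableSet {z : ((R3 × R3) × ℝ) × ℝ | 0 < z.2 ∧ z.2 < z.1.2} :=
    (measurableSet_lt measurable_const measurable_snd).inter
      (measurableSet_lt measurable_snd (measurable_snd.comp measurable_fst))
  have h2 := (Measurable.indicator h1 h5).stronglyMeasurable
  have h3 := h2.integral_prod_right' (ν := (volume : Measure ℝ))
  have h4 : (fun p : (R3 × R3) × ℝ => ∫ r in Ioo 0 p.2, G (r, p.1)) =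
      fun p => ∫ r, {z : ((R3 × R3) × ℝ) × ℝ | 0 < z.2 ∧ z.2 < z.1.2}.indicator
        (fun z => G (z.2, z.1.1)) (p, r) := by
    funext p
    rw [← integral_indicator measurableSet_Ioo]
    refine integral_congr_ae (Filter.Eventually.of_forall fun r => ?_)
    by_cases h : r ∈ Ioo (0 : ℝ) p.2
    · have h' : (p, r) ∈ {z : ((R3 × R3) × ℝ) × ℝ | 0 < z.2 ∧ z.2 < z.1.2} := h
      simp only [indicator_of_mem h, indicator_of_mem h']
    · have h' : (p, r) ∉ {z : ((R3 × R3) × ℝ) × ℝ | 0 < z.2 ∧ z.2 < z.1.2} := h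
      simp only [indicator_of_notMem h, indicator_of_notMem h']
  rw [h4]
  exact h3.measurable

lemma measurable_Qshift (hF : MeasF F) :
    Measurable fun p : ℝ × (R3 × R3) => Qr F p.1 (shift p.1 p.2) := by
  have hsh : Measurable (fun z : ℝ × (R3 × R3) => (z.1, shift z.1 z.2)) := by
    refine measurable_fst.prodMk ?_
    have : Continuous (fun z : ℝ × (R3 × R3) => shift z.1 z.2) := by
      unfold Crest.Agent.R68.shift; fun_prop
    exact this.measurable
  have h := (measurable_Qr hF).comp hsh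
  simpa only [Function.comp_def] using h

lemma measurable_yy (S : MildSol F F₀ R) :
    Measurable fun p : (R3 × R3) × ℝ => yy F F₀ p.1 p.2 := by
  have h0 : Measurable fun p : (R3 × R3) × ℝ => F₀ p.1.1 p.1.2 :=
    (measurable_F₀ S).comp measurable_fst
  exact h0.add (measurable_primitive (measurable_Qshift S.meas))

/-- integrability along a.e. characteristic. -/
lemma ae_integrableOn_Q (S : MildSol F F₀ R) (T : ℝ) :
    ∀ᵐ q ∂mu2, IntegrableOn (fun s => Qr F s (shift s q)) (Ioo 0 T) := by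
  have h1 := (mp_Fl T).integrable_comp_of_integrable (integrable_Q S T)
  have h2 : Integrable (fun p : ℝ × (R3 × R3) => Qr F p.1 (shift p.1 p.2)) (mu3 T) := by
    refine h1.congr (Filter.Eventually.of_forall fun p => ?_)
    exact fl_eq_shift (perX_Qr S p.1) p.1 p.2
  exact h2.prod_left_ae

/-- a.e. characteristic: `F s (shift s q) = y(s)` for a.e. `s`. -/
lemma ae_ae_yy (S : MildSol F F₀ R) (T : ℝ) :
    ∀ᵐ q ∂mu2, ∀ᵐ s ∂(volume.restrict (Ioo 0 T)), F s (shift s q).1 (shift s q).2 = yy F F₀ q s := by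
  have hm : MeasurableSet {p : ℝ × (R3 × R3) |
      F p.1 (shift p.1 p.2).1 (shift p.1 p.2).2 = yy F F₀ p.2 p.1} := by
    refine measurableSet_eq_fun ?_ ?_
    · exact Crest.Agent.R68.MeasF.comp S.meas measurable_fst
        (Crest.Agent.R68.Measurable.shift measurable_fst measurable_snd).fst
        (Crest.Agent.R68.Measurable.shift measurable_fst measurable_snd).snd
    · exact (measurable_yy S).comp (measurable_snd.prodMk measurable_fst)
  have h1 : ∀ᵐ s ∂(volume.restrict (Ioo (0 : ℝ) T)), ∀ᵐ q ∂mu2,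
      F s (shift s q).1 (shift s q).2 = yy F F₀ q s := by
    filter_upwards [ae_restrict_mem measurableSet_Ioo] with s hs
    have h2 := S.mild s hs.1.le
    rw [← mu2_eq]
    filter_upwards [ae_restrict_of_ae h2] with q hq
    unfold yy
    rw [intervalIntegral.integral_of_le hs.1.le, integral_Ioc_eq_integral_Ioo] at hq
    exact hq
  have h3 : ∀ᵐ p ∂(mu3 T), F p.1 (shift p.1 p.2).1 (shift p.1 p.2).2 = yy F F₀ p.2 p.1 := by
    unfold mu3
    rw [Measure.ae_prod_iff_ae_ae hm]
    exact h1
  have h4 : ∀ᵐ p ∂(mu2.prod (volume.restrict (Ioo (0 : ℝ) T))),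
      F p.2 (shift p.2 p.1).1 (shift p.2 p.1).2 = yy F F₀ p.1 p.2 := by
    have hsw : MeasurePreserving Prod.swap (mu2.prod (volume.restrict (Ioo (0 : ℝ) T)))
      (mu3 T) := Measure.measurePreserving_swap
    exact hsw.quasiMeasurePreserving.ae h3
  exact Measure.ae_ae_of_ae_prod h4

/-- nonnegativity of `y` on `[0,T]` along a.e. characteristic. -/
lemma ae_yy_nonneg (S : MildSol F F₀ R) {T : ℝ} (hT : 0 < T) :
    ∀ᵐ q ∂mu2, ∀ s ∈ Icc 0 T, 0 ≤ yy F F₀ q s := by
  filter_upwards [ae_integrableOn_Q S T, ae_ae_yy S T] with q hq1 hq2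
  have hcont : ContinuousOn (yy F F₀ q) (Icc 0 T) := by
    have hi : IntervalIntegrable (fun s => Qr F s (shift s q)) volume 0 T := by
      rw [intervalIntegrable_iff_integrableOn_Ioo_of_le hT.le]; exact hq1
    have h1 : ContinuousOn (fun s => F₀ q.1 q.2 + ∫ r in (0 : ℝ)..s, Qr F r (shift r q))
        (Icc 0 T) := by
      have h2 := intervalIntegral.continuousOn_primitive_interval' hi
        (show (0 : ℝ) ∈ uIcc 0 T by simp)
      rw [uIcc_of_le hT.le] at h2
      exact continuousOn_const.add h2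
    refine h1.congr fun s hs => ?_
    unfold yy
    beta_reduce
    rw [intervalIntegral.integral_of_le hs.1, integral_Ioc_eq_integral_Ioo]
  have hae : yy F F₀ q =ᵐ[volume.restrict (Icc 0 T)] fun s => max (yy F F₀ q s) 0 := by
    rw [← restrict_Ioo_eq_restrict_Icc]
    filter_upwards [hq2, ae_restrict_mem measurableSet_Ioo] with s hs hs'
    have := S.nonneg s (shift s q).1 (shift s q).2 hs'.1.le
    rw [hs] at this
    exact (max_eq_left this).symm
  have heq := Measure.eqOn_Icc_of_ae_eq volume hT.ne hae hcont (hcont.sup continuousOn_const)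
  intro s hs
  have := heq hs
  simp only at this
  rw [this]
  exact le_max_right _ _

lemma phiD_eq (δ : ℝ) (v : R3) (z : ℝ) :
    phiD δ v z = Crest.Agent.R68.entD δ z (maxwellian v) := rfl

lemma integrable_maxwellian : Integrable maxwellian (volume : Measure R3) := by
  have h := GaussianFourier.integrable_cexp_neg_mul_sq_norm_add (V := R3) (b := (1 / 2 : ℂ))
    (by norm_num) 0 0
  have h2 := h.norm
  have h3 := h2.const_mul ((2 * Real.pi) ^ (-(3 / 2 : ℝ)))
  refine h3.congr (Filter.Eventually.of_forall fun v => ?_)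
  simp only [maxwellian]
  congr 1
  rw [Complex.norm_exp]
  congr 1
  simp only [zero_mul, add_zero]
  rw [show (-(1 / 2 : ℂ) * (‖v‖ : ℂ) ^ 2) = ((-(1 / 2) * ‖v‖ ^ 2 : ℝ) : ℂ) by push_cast; ring]
  rw [Complex.ofReal_re]
  ring

lemma volume_cell_lt_top : (volume : Measure R3) cell < ⊤ := by
  have hb : cell ⊆ Metric.closedBall (0 : R3) 2 := by
    intro x hx
    rw [mem_closedBall_zero_iff, EuclideanSpace.norm_eq]
    have h1 : ∀ i, ‖x i‖ ^ 2 ≤ 1 := by
      intro i
      have h := hx i
      rw [Real.norm_eq_abs, sq_abs]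
      nlinarith [h.1, h.2]
    have h2 : ∑ i, ‖x i‖ ^ 2 ≤ 3 := by
      rw [Fin.sum_univ_three]
      linarith [h1 0, h1 1, h1 2]
    calc √(∑ i, ‖x i‖ ^ 2) ≤ √(2 ^ 2) := Real.sqrt_le_sqrt (by linarith)
      _ = 2 := by rw [Real.sqrt_sq]; norm_num
  exact lt_of_le_of_lt (measure_mono hb) measure_closedBall_lt_top

instance finite_cell : IsFiniteMeasure ((volume : Measure R3).restrict cell) :=
  ⟨by rw [Measure.restrict_apply_univ]; exact volume_cell_lt_top⟩

lemma integrable_maxwellian_mu2 : Integrable (fun q : R3 × R3 => maxwellian q.2) mu2 := by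
  unfold mu2
  have h := (integrable_const (1 : ℝ) (μ := (volume : Measure R3).restrict cell)).mul_prod
    integrable_maxwellian
  simpa using h

lemma integrable_datum (S : MildSol F F₀ R) (C : ℝ) (hC : 0 ≤ C) :
    Integrable (fun q : R3 × R3 => F₀ q.1 q.2 * (C + ‖q.2‖ ^ 2 / 2 +
      Real.log (1 + F₀ q.1 q.2))) mu2 := by
  have hd := S.datum.2.2.2.2
  rw [mu2_eq] at hd
  have hm : Measurable (fun q : R3 × R3 => F₀ q.1 q.2) := S.datum.1
  refine ⟨?_, ?_⟩
  · refine Measurable.aestronglyMeasurable ?_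
    exact hm.mul ((measurable_const.add (by fun_prop)).add
      (Real.measurable_log.comp (measurable_const.add hm)))
  · unfold HasFiniteIntegral
    have hle : ∀ q : R3 × R3, ‖F₀ q.1 q.2 * (C + ‖q.2‖ ^ 2 / 2 + Real.log (1 + F₀ q.1 q.2))‖ₑ ≤
        ENNReal.ofReal (C + 2) * ENNReal.ofReal (F₀ q.1 q.2 *
          (1 + ‖q.2‖ ^ 2 + |Real.log (F₀ q.1 q.2)|)) := by
      intro q
      have h0 := S.datum.2.1 q.1 q.2
      set z := F₀ q.1 q.2 with hz
      have hl0 : 0 ≤ Real.log (1 + z) := Real.log_nonneg (by linarith)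
      have hl1 : Real.log (1 + z) ≤ 1 + |Real.log z| := by
        rcases le_total z 1 with h1 | h1
        · have : Real.log (1 + z) ≤ Real.log 2 := Real.log_le_log (by linarith) (by linarith)
          have h2 := Real.log_two_lt_d9
          have h3 := abs_nonneg (Real.log z)
          linarith
        · have : Real.log (1 + z) ≤ Real.log (2 * z) := Real.log_le_log (by linarith) (by linarith)
          rw [Real.log_mul (by norm_num) (by linarith)] at this
          have h2 := Real.log_two_lt_d9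
          have h3 := le_abs_self (Real.log z)
          linarith
      rw [← ENNReal.ofReal_mul (by linarith), ← ofReal_norm, Real.norm_eq_abs]
      refine ENNReal.ofReal_le_ofReal ?_
      have hsq : 0 ≤ ‖q.2‖ ^ 2 := by positivity
      have habs := abs_nonneg (Real.log z)
      rw [abs_of_nonneg (mul_nonneg h0 (by positivity))]
      have : z * (C + ‖q.2‖ ^ 2 / 2 + Real.log (1 + z)) ≤
          z * ((C + 2) * (1 + ‖q.2‖ ^ 2 + |Real.log z|)) := by
        refine mul_le_mul_of_nonneg_left ?_ h0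
        nlinarith [mul_nonneg hC hsq, mul_nonneg hC habs]
      linarith
    refine lt_of_le_of_lt (lintegral_mono hle) ?_
    rw [lintegral_const_mul' _ _ ENNReal.ofReal_ne_top]
    exact ENNReal.mul_lt_top ENNReal.ofReal_lt_top hd

lemma measurable_entD {G : R3 × R3 → ℝ} (hG : Measurable G) (δ : ℝ) :
    Measurable fun q : R3 × R3 => Crest.Agent.R68.entD δ (G q) (maxwellian q.2) := by
  unfold Crest.Agent.R68.entD
  have hM : Measurable fun q : R3 × R3 => maxwellian q.2 :=
    measurable_maxwellian.comp measurable_snd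
  have h1 : Measurable fun q : R3 × R3 => G q / maxwellian q.2 + δ := (hG.div hM).add_const δ
  exact hM.mul (((h1.mul (Real.measurable_log.comp h1)).sub h1).add_const 1)

lemma integrable_entD_datum (S : MildSol F F₀ R) {δ : ℝ} (hδ : 0 ≤ δ) (hδ1 : δ ≤ 1) :
    Integrable (fun q : R3 × R3 => Crest.Agent.R68.entD δ (F₀ q.1 q.2) (maxwellian q.2)) mu2 := by
  have hb := integrable_maxwellian_mu2.add
    (integrable_datum S (1 + Crest.Agent.R68.cM) (by linarith [Crest.Agent.R68.cM_nonneg]))
  refine hb.mono' (measurable_entD S.datum.1 δ).aestronglyMeasurable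
    (Filter.Eventually.of_forall fun q => ?_)
  have h0 : ∀ v, 0 ≤ F₀ q.1 v := fun v => S.datum.2.1 q.1 v
  rw [Real.norm_eq_abs, abs_of_nonneg (Crest.Agent.R68.entD_nonneg hδ (h0 q.2)
    (maxwellian_pos q.2))]
  have := Crest.Agent.R68.entD_bound' hδ hδ1 (f := F₀ q.1) h0 q.2
  simpa [add_assoc] using this

/-- **Entropy identity along characteristics.** -/
theorem entropy_char (S : MildSol F F₀ R) {δ : ℝ} (hδ : 0 < δ) (hδ1 : δ ≤ 1) {t : ℝ}
    (ht : 0 < t) :
    Integrable (fun q : R3 × R3 => Crest.Agent.R68.entD δ (F₀ q.1 q.2) (maxwellian q.2)) mu2 ∧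
    Integrable (fun q : R3 × R3 => Crest.Agent.R68.entD δ (F t q.1 q.2) (maxwellian q.2)) mu2 ∧
    Integrable (fun p : ℝ × (R3 × R3) => Qr F p.1 p.2 * logD F δ p.1 p.2) (mu3 t) ∧
    (∫ q, Crest.Agent.R68.entD δ (F t q.1 q.2) (maxwellian q.2) ∂mu2) -
      ∫ q, Crest.Agent.R68.entD δ (F₀ q.1 q.2) (maxwellian q.2) ∂mu2 =
      ∫ p, Qr F p.1 p.2 * logD F δ p.1 p.2 ∂(mu3 t) := by
  have hI0 := integrable_entD_datum S hδ.le hδ1
  have hP := integrable_Q_logD S hδ hδ1 t
  -- the integrand along characteristics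
  have hPs : Integrable (fun p : ℝ × (R3 × R3) =>
      Qr F p.1 (shift p.1 p.2) * logD F δ p.1 (shift p.1 p.2)) (mu3 t) := by
    refine ((mp_Fl t).integrable_comp_of_integrable hP).congr
      (Filter.Eventually.of_forall fun p => ?_)
    have h1 := fl_eq_shift (perX_Qr S p.1) p.1 p.2
    have h2 := fl_eq_shift (perX_logD S δ p.1) p.1 p.2
    simp only [Function.comp_apply, Fl, h1, h2]
  have hPe : ∫ p, Qr F p.1 (shift p.1 p.2) * logD F δ p.1 (shift p.1 p.2) ∂(mu3 t) =
      ∫ p, Qr F p.1 p.2 * logD F δ p.1 p.2 ∂(mu3 t) := by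
    have h3 : ∀ p : ℝ × (R3 × R3),
        Qr F p.1 (shift p.1 p.2) * logD F δ p.1 (shift p.1 p.2) =
        Qr F (Fl p).1 (Fl p).2 * logD F δ (Fl p).1 (Fl p).2 := by
      intro p
      have h1 := fl_eq_shift (perX_Qr S p.1) p.1 p.2
      have h2 := fl_eq_shift (perX_logD S δ p.1) p.1 p.2
      simp only [Fl, h1, h2]
    rw [integral_congr_ae (Filter.Eventually.of_forall h3)]
    conv_rhs => rw [← (mp_Fl t).map_eq]
    rw [integral_map (mp_Fl t).measurable.aemeasurable]
    rw [(mp_Fl t).map_eq]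
    exact hP.aestronglyMeasurable
  -- swapped version
  have hsw : Integrable (fun p : (R3 × R3) × ℝ =>
      Qr F p.2 (shift p.2 p.1) * logD F δ p.2 (shift p.2 p.1))
      (mu2.prod (volume.restrict (Ioo (0 : ℝ) t))) := hPs.swap
  -- pointwise chain rule
  have hpt : ∀ᵐ q ∂mu2, Crest.Agent.R68.entD δ (F t (shift t q).1 (shift t q).2)
        (maxwellian q.2) - Crest.Agent.R68.entD δ (F₀ q.1 q.2) (maxwellian q.2) =
      ∫ s in Ioo 0 t, Qr F s (shift s q) * logD F δ s (shift s q) := by
    have hmt : ∀ᵐ q ∂mu2, F t (shift t q).1 (shift t q).2 = yy F F₀ q t := by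
      rw [← mu2_eq]
      filter_upwards [ae_restrict_of_ae (S.mild t ht.le)] with q hq
      unfold yy
      rw [intervalIntegral.integral_of_le ht.le, integral_Ioc_eq_integral_Ioo] at hq
      exact hq
    filter_upwards [ae_integrableOn_Q S t, ae_ae_yy S t, ae_yy_nonneg S ht, hmt]
      with q h1 h2 h3 h4
    have hM := maxwellian_pos q.2
    have hc : -(δ * maxwellian q.2) < 0 := by
      have := mul_pos hδ hM
      linarith
    obtain ⟨-, hch⟩ := chain_rule ht.le h1 (F₀ q.1 q.2) (φ := phiD δ q.2)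
      (φ' := fun z => Real.log (z / maxwellian q.2 + δ)) (c := -(δ * maxwellian q.2))
      (fun z hz => hasDerivAt_phiD δ q.2 hz) (continuousOn_logD δ q.2)
      (fun s hs => lt_of_lt_of_le hc (h3 s hs))
    rw [h4, ← phiD_eq, ← phiD_eq]
    unfold yy
    rw [hch]
    refine setIntegral_congr_ae measurableSet_Ioo ?_
    have h2' : ∀ᵐ s : ℝ, s ∈ Ioo 0 t → F s (shift s q).1 (shift s q).2 = yy F F₀ q s :=
      (ae_restrict_iff' measurableSet_Ioo).1 h2
    filter_upwards [h2'] with s hs hst
    have h5 := hs hst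
    unfold yy at h5
    unfold logD
    rw [h5]
    have h6 : (shift s q).2 = q.2 := rfl
    rw [h6, mul_comm]
  have hint_s : Integrable (fun q => ∫ s in Ioo 0 t,
      Qr F s (shift s q) * logD F δ s (shift s q)) mu2 := hsw.integral_prod_left
  have hIt_shift : Integrable (fun q : R3 × R3 => Crest.Agent.R68.entD δ
      (F t (shift t q).1 (shift t q).2) (maxwellian q.2)) mu2 := by
    refine (hI0.add hint_s).congr ?_
    filter_upwards [hpt] with q hq
    simp only [Pi.add_apply]
    linarith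
  have hper : PerX (fun q : R3 × R3 => Crest.Agent.R68.entD δ (F t q.1 q.2) (maxwellian q.2)) := by
    intro v x i
    have h : F t (x + EuclideanSpace.single i 1) v = F t x v := S.per t v x i
    simp only [h]
  have hmeasFt : Measurable fun q : R3 × R3 => F t q.1 q.2 :=
    Crest.Agent.R68.MeasF.comp S.meas measurable_const measurable_fst measurable_snd
  have hmt := measurable_entD hmeasFt δ
  have hfl : ∀ q, Crest.Agent.R68.entD δ (F t (fl t q).1 (fl t q).2) (maxwellian (fl t q).2) =
      Crest.Agent.R68.entD δ (F t (shift t q).1 (shift t q).2) (maxwellian q.2) :=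
    fun q => fl_eq_shift hper t q
  have hIt : Integrable (fun q : R3 × R3 =>
      Crest.Agent.R68.entD δ (F t q.1 q.2) (maxwellian q.2)) mu2 := by
    rw [← (mp_fl t).integrable_comp hmt.aestronglyMeasurable]
    exact hIt_shift.congr (Filter.Eventually.of_forall fun q => (hfl q).symm)
  have hIte : ∫ q, Crest.Agent.R68.entD δ (F t q.1 q.2) (maxwellian q.2) ∂mu2 =
      ∫ q, Crest.Agent.R68.entD δ (F t (shift t q).1 (shift t q).2) (maxwellian q.2) ∂mu2 := by
    rw [← integral_congr_ae (Filter.Eventually.of_forall hfl)]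
    conv_lhs => rw [← (mp_fl t).map_eq]
    rw [integral_map (mp_fl t).measurable.aemeasurable]
    rw [(mp_fl t).map_eq]
    exact hmt.aestronglyMeasurable
  refine ⟨hI0, hIt, hP, ?_⟩
  rw [hIte, ← integral_sub hIt_shift hI0, integral_congr_ae hpt, ← hPe]
  rw [← integral_prod (μ := mu2) (ν := volume.restrict (Ioo (0 : ℝ) t))
    (fun p : (R3 × R3) × ℝ => Qr F p.2 (shift p.2 p.1) * logD F δ p.2 (shift p.2 p.1)) hsw]
  unfold mu3
  rw [← integral_prod_swap]
  rfl

end Crest.Agent.R68E
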