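import Crest.Agent.R68.EEnt3
import Crest.Agent.R68.EHyp
import Crest.Agent.R68.EWk3
import Crest.Agent.R68.EChar

-- ▼ part R68/EEnt4
section

/-!
R68 / EEnt4: Fatou for the dissipation, error term (helper211, Part E).
-/

set_option autoImplicit false
open MeasureTheory Filter Topology
open scoped ENNReal
open Crest.AnalysisR.VecCalc3 Crest.AnalysisR.PDE.Boltzmann

namespace Crest.Agent.R68

theorem measurable_tri {α : Type*} [MeasurableSpace α] {K : α → R3 → R3 → R3 → ℝ≥0∞}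
    (hK : Measurable (fun q : α × R3 × R3 × R3 => K q.1 q.2.1 q.2.2.1 q.2.2.2)) :
    Measurable (fun a => tri (K a)) := by
  unfold tri
  refine Measurable.lintegral_prod_right' (f := fun q : α × R3 =>
    ∫⁻ p : R3 × R3, K q.1 p.1 p.2 q.2 ∂volume) ?_
  refine Measurable.lintegral_prod_right' (f := fun q : (α × R3) × (R3 × R3) =>
    K q.1.1 q.2.1 q.2.2 q.1.2) ?_
  exact hK.comp (g := fun q : α × R3 × R3 × R3 => K q.1 q.2.1 q.2.2.1 q.2.2.2)
    (f := fun q : (α × R3) × (R3 × R3) => (q.1.1, q.2.1, q.2.2, q.1.2)) (by fun_prop)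

theorem tri_liminf {K : ℕ → R3 → R3 → R3 → ℝ≥0∞} (hK : ∀ n, MeasK (K n)) :
    tri (fun v vs w => liminf (fun n => K n v vs w) atTop) ≤
      liminf (fun n => tri (K n)) atTop := by
  unfold tri
  calc ∫⁻ w, ∫⁻ p : R3 × R3, liminf (fun n => K n p.1 p.2 w) atTop ∂volume ∂sphereMeasure
      ≤ ∫⁻ w, liminf (fun n => ∫⁻ p : R3 × R3, K n p.1 p.2 w ∂volume) atTop ∂sphereMeasure := by
        refine lintegral_mono fun w => ?_
        exact lintegral_liminf_le fun n => (hK n).comp (by fun_prop) (by fun_prop) (by fun_prop)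
    _ ≤ liminf (fun n => ∫⁻ w, ∫⁻ p : R3 × R3, K n p.1 p.2 w ∂volume ∂sphereMeasure) atTop := by
        refine lintegral_liminf_le fun n => ?_
        refine Measurable.lintegral_prod_right' (f := fun q : R3 × (R3 × R3) =>
          K n q.2.1 q.2.2 q.1) ?_
        exact (hK n).comp (by fun_prop) (by fun_prop) (by fun_prop)

/-- dissipation kernel -/
noncomputable def kD (f : R3 → ℝ) (v vs w : R3) : ℝ≥0∞ :=
  ENNReal.ofReal |inner ℝ (v - vs) w| *
      pairDissipation (f (postVel v vs w) * f (postVelStar v vs w)) (f v * f vs)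

theorem measurable_kD {α : Type*} [MeasurableSpace α] {g : α → R3 → ℝ}
    (hg : Measurable (fun q : α × R3 => g q.1 q.2)) :
    Measurable (fun q : α × R3 × R3 × R3 => kD (g q.1) q.2.1 q.2.2.1 q.2.2.2) := by
  have hc : ∀ {h : α × R3 × R3 × R3 → R3}, Measurable h →
      Measurable (fun q : α × R3 × R3 × R3 => g q.1 (h q)) := by
    intro h hh
    exact hg.comp (g := fun q : α × R3 => g q.1 q.2) (f := fun q => (q.1, h q)) (by fun_prop)
  have h1 : Measurable (fun q : α × R3 × R3 × R3 => postVel q.2.1 q.2.2.1 q.2.2.2) :=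
    Measurable.postVel (by fun_prop) (by fun_prop) (by fun_prop)
  have h2 : Measurable (fun q : α × R3 × R3 × R3 => postVelStar q.2.1 q.2.2.1 q.2.2.2) :=
    Measurable.postVelStar (by fun_prop) (by fun_prop) (by fun_prop)
  unfold kD
  refine Measurable.mul (by fun_prop) ?_
  exact measurable_pairDissipation.comp (g := fun p : ℝ × ℝ => pairDissipation p.1 p.2)
    ((Measurable.mul (hc h1) (hc h2)).prodMk (Measurable.mul (hc (by fun_prop)) (hc (by fun_prop))))

theorem tri_kD_le {d : ℕ → ℝ} (hd : ∀ n, 0 < d n) (hd0 : Tendsto d atTop (𝓝 0)) {f : R3 → ℝ}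
    (hm : Measurable f) (hf : ∀ v, 0 ≤ f v) :
    tri (kD f) ≤ liminf (fun n => tri (kEN (d n) f)) atTop := by
  refine (tri_mono fun v vs w hw => liminf_kEN hd hd0 hf v vs hw).trans ?_
  exact tri_liminf fun n => measK_kEN (d n) hm

/-- the dissipation through `tri` -/
theorem dissipation_eq {f : R3 → R3 → ℝ} (hf : Measurable (fun q : R3 × R3 => f q.1 q.2)) :
    dissipation f = 4⁻¹ * ∫⁻ x in cell, tri (kD (f x)) := by
  unfold dissipation
  congr 1
  have hK : Measurable (fun q : (R3 × R3) × R3 × R3 =>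
      ENNReal.ofReal |inner ℝ (q.1.2 - q.2.1) q.2.2| *
      pairDissipation (f q.1.1 (postVel q.1.2 q.2.1 q.2.2) *
        f q.1.1 (postVelStar q.1.2 q.2.1 q.2.2)) (f q.1.1 q.1.2 * f q.1.1 q.2.1)) := by
    have := measurable_kD (α := R3) (g := f) hf
    exact this.comp (g := fun q : R3 × R3 × R3 × R3 => kD (f q.1) q.2.1 q.2.2.1 q.2.2.2)
      (f := fun q : (R3 × R3) × R3 × R3 => (q.1.1, q.1.2, q.2.1, q.2.2)) (by fun_prop)
  have hG : Measurable (fun q : R3 × R3 => ∫⁻ vs, ∫⁻ w,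
      ENNReal.ofReal |inner ℝ (q.2 - vs) w| *
      pairDissipation (f q.1 (postVel q.2 vs w) * f q.1 (postVelStar q.2 vs w))
        (f q.1 q.2 * f q.1 vs) ∂sphereMeasure) := by
    refine Measurable.lintegral_prod_right' (f := fun q : (R3 × R3) × R3 => ∫⁻ w,
      ENNReal.ofReal |inner ℝ (q.1.2 - q.2) w| *
      pairDissipation (f q.1.1 (postVel q.1.2 q.2 w) * f q.1.1 (postVelStar q.1.2 q.2 w))
        (f q.1.1 q.1.2 * f q.1.1 q.2) ∂sphereMeasure) ?_
    refine Measurable.lintegral_prod_right' (f := fun q : ((R3 × R3) × R3) × R3 =>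
      ENNReal.ofReal |inner ℝ (q.1.1.2 - q.1.2) q.2| *
      pairDissipation (f q.1.1.1 (postVel q.1.1.2 q.1.2 q.2) *
        f q.1.1.1 (postVelStar q.1.1.2 q.1.2 q.2)) (f q.1.1.1 q.1.1.2 * f q.1.1.1 q.1.2)) ?_
    exact hK.comp (f := fun q : ((R3 × R3) × R3) × R3 => (q.1.1, q.1.2, q.2)) (by fun_prop)
  have h := lintegral_muC' hG
  unfold muC at h
  rw [h]
  refine lintegral_congr fun x => ?_
  exact lintegral_tri (K := kD (f x)) ((measurable_kD (α := R3) (g := f) hf).comp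
    (f := fun q : R3 × R3 × R3 => (x, q.1, q.2.1, q.2.2)) (by fun_prop))

/-- joint measurability in a parameter of `kEN`, `kN` -/
theorem measurable_kEN_par {α : Type*} [MeasurableSpace α] (d : ℝ) {g : α → R3 → ℝ}
    (hg : Measurable (fun q : α × R3 => g q.1 q.2)) :
    Measurable (fun q : α × R3 × R3 × R3 => kEN d (g q.1) q.2.1 q.2.2.1 q.2.2.2) := by
  have hc : ∀ {h : α × R3 × R3 × R3 → R3}, Measurable h →
      Measurable (fun q : α × R3 × R3 × R3 => g q.1 (h q)) := by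
    intro h hh
    exact hg.comp (g := fun q : α × R3 => g q.1 q.2) (f := fun q => (q.1, h q)) (by fun_prop)
  have h1 : Measurable (fun q : α × R3 × R3 × R3 => postVel q.2.1 q.2.2.1 q.2.2.2) :=
    Measurable.postVel (by fun_prop) (by fun_prop) (by fun_prop)
  have h2 : Measurable (fun q : α × R3 × R3 × R3 => postVelStar q.2.1 q.2.2.1 q.2.2.2) :=
    Measurable.postVelStar (by fun_prop) (by fun_prop) (by fun_prop)
  have h3 : Measurable (fun q : α × R3 × R3 × R3 => q.2.1) := by fun_prop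
  have h4 : Measurable (fun q : α × R3 × R3 × R3 => q.2.2.1) := by fun_prop
  have hP : ∀ {h : α × R3 × R3 × R3 → R3}, Measurable h →
      Measurable (fun q : α × R3 × R3 × R3 => Phi d (g q.1) (h q)) := by
    intro h hh
    unfold Phi
    exact (((hc hh).div (measurable_maxwellian.comp hh)).add_const d).log
  have hX : ∀ {h h' : α × R3 × R3 × R3 → R3}, Measurable h → Measurable h' →
      Measurable (fun q : α × R3 × R3 × R3 => excess d (g q.1) (h q) (h' q)) := by
    intro h h' hh hh'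
    unfold excess
    have a1 := measurable_maxwellian.comp hh
    have a2 := measurable_maxwellian.comp hh'
    exact (((a1.mul (hc hh')).add (a2.mul (hc hh))).const_mul d).add ((a1.mul a2).const_mul (d ^ 2))
  unfold kEN prodE prodN
  refine Measurable.ennreal_ofReal (Measurable.mul (by fun_prop) (Measurable.add ?_ ?_))
  · refine Measurable.mul (((hc h1).mul (hc h2)).sub ((hc h3).mul (hc h4))) ?_
    exact (((hP h1).add (hP h2)).sub (hP h3)).sub (hP h4)
  · exact (hX h1 h2).add (hX h3 h4)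

theorem measurable_kN_par {α : Type*} [MeasurableSpace α] (d : ℝ) {g : α → R3 → ℝ}
    (hg : Measurable (fun q : α × R3 => g q.1 q.2)) :
    Measurable (fun q : α × R3 × R3 × R3 => kN d (g q.1) q.2.1 q.2.2.1 q.2.2.2) := by
  have hc : ∀ {h : α × R3 × R3 × R3 → R3}, Measurable h →
      Measurable (fun q : α × R3 × R3 × R3 => g q.1 (h q)) := by
    intro h hh
    exact hg.comp (g := fun q : α × R3 => g q.1 q.2) (f := fun q => (q.1, h q)) (by fun_prop)
  have h1 : Measurable (fun q : α × R3 × R3 × R3 => postVel q.2.1 q.2.2.1 q.2.2.2) :=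
    Measurable.postVel (by fun_prop) (by fun_prop) (by fun_prop)
  have h2 : Measurable (fun q : α × R3 × R3 × R3 => postVelStar q.2.1 q.2.2.1 q.2.2.2) :=
    Measurable.postVelStar (by fun_prop) (by fun_prop) (by fun_prop)
  have h3 : Measurable (fun q : α × R3 × R3 × R3 => q.2.1) := by fun_prop
  have h4 : Measurable (fun q : α × R3 × R3 × R3 => q.2.2.1) := by fun_prop
  have hX : ∀ {h h' : α × R3 × R3 × R3 → R3}, Measurable h → Measurable h' →
      Measurable (fun q : α × R3 × R3 × R3 => excess d (g q.1) (h q) (h' q)) := by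
    intro h h' hh hh'
    unfold excess
    have a1 := measurable_maxwellian.comp hh
    have a2 := measurable_maxwellian.comp hh'
    exact (((a1.mul (hc hh')).add (a2.mul (hc hh))).const_mul d).add ((a1.mul a2).const_mul (d ^ 2))
  unfold kN prodN
  exact Measurable.ennreal_ofReal (Measurable.mul (by fun_prop) ((hX h1 h2).add (hX h3 h4)))

/-- measurability of `(s,x) ↦ F s x ·` in the form used below -/
theorem MeasF.par {F : ℝ → R3 → R3 → ℝ} (hF : MeasF F) :
    Measurable (fun q : (ℝ × R3) × R3 => F q.1.1 q.1.2 q.2) :=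
  hF.comp (f := fun q : (ℝ × R3) × R3 => q.1.1) (g := fun q => q.1.2) (h := fun q => q.2)
    (by fun_prop) (by fun_prop) (by fun_prop)

theorem MeasF.slice {F : ℝ → R3 → R3 → ℝ} (hF : MeasF F) (t : ℝ) :
    Measurable (fun q : R3 × R3 => F t q.1 q.2) :=
  hF.comp (f := fun _ : R3 × R3 => t) (g := fun q => q.1) (h := fun q => q.2)
    (by fun_prop) (by fun_prop) (by fun_prop)

theorem MeasF.slice2 {F : ℝ → R3 → R3 → ℝ} (hF : MeasF F) (t : ℝ) (x : R3) :
    Measurable (F t x) :=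
  hF.comp (f := fun _ : R3 => t) (g := fun _ => x) (h := fun v => v) (by fun_prop) (by fun_prop)
    (by fun_prop)

/-- **Fatou for the dissipation** -/
theorem dissipation_liminf {F : ℝ → R3 → R3 → ℝ} (hF : MeasF F)
    (hn : ∀ t x v, 0 ≤ t → 0 ≤ F t x v) {d : ℕ → ℝ} (hd : ∀ n, 0 < d n)
    (hd0 : Tendsto d atTop (𝓝 0)) (T : ℝ) :
    ∫⁻ s in Set.Icc 0 T, dissipation (F s) ≤
      liminf (fun n => 4⁻¹ * ∫⁻ s in Set.Ioo 0 T, ∫⁻ x in cell, tri (kEN (d n) (F s x))) atTop := by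
  have e1 : ∫⁻ s in Set.Icc 0 T, dissipation (F s) = ∫⁻ s in Set.Ioo 0 T, dissipation (F s) := by
    rw [Measure.restrict_congr_set Ioo_ae_eq_Icc]
  rw [e1]
  have hmT : ∀ n, Measurable (fun q : ℝ × R3 => tri (kEN (d n) (F q.1 q.2))) := fun n =>
    measurable_tri (K := fun q : ℝ × R3 => kEN (d n) (F q.1 q.2))
      (measurable_kEN_par (α := ℝ × R3) (g := fun q => F q.1 q.2) (d n) hF.par)
  have hmT2 : ∀ n, Measurable (fun s : ℝ => ∫⁻ x in cell, tri (kEN (d n) (F s x))) := fun n =>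
    Measurable.lintegral_prod_right' (f := fun q : ℝ × R3 => tri (kEN (d n) (F q.1 q.2))) (hmT n)
  calc ∫⁻ s in Set.Ioo 0 T, dissipation (F s)
      ≤ ∫⁻ s in Set.Ioo 0 T, liminf (fun n => 4⁻¹ * ∫⁻ x in cell, tri (kEN (d n) (F s x)))
          atTop := by
        refine setLIntegral_mono' measurableSet_Ioo fun s hs => ?_
        rw [dissipation_eq (hF.slice s)]
        have h4 : (4⁻¹ : ℝ≥0∞) ≠ ⊤ := by simp
        calc 4⁻¹ * ∫⁻ x in cell, tri (kD (F s x))
            ≤ 4⁻¹ * ∫⁻ x in cell, liminf (fun n => tri (kEN (d n) (F s x))) atTop := by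
              gcongr with x
              exact tri_kD_le hd hd0 (hF.slice2 s x) (fun v => hn s x v hs.1.le)
          _ ≤ 4⁻¹ * liminf (fun n => ∫⁻ x in cell, tri (kEN (d n) (F s x))) atTop := by
              gcongr
              exact lintegral_liminf_le fun n => (hmT n).comp (measurable_const.prodMk measurable_id)
          _ = liminf (fun n => 4⁻¹ * ∫⁻ x in cell, tri (kEN (d n) (F s x))) atTop := by
              exact (ENNReal.liminf_const_mul_of_ne_top h4).symm
    _ ≤ liminf (fun n => ∫⁻ s in Set.Ioo 0 T, 4⁻¹ * ∫⁻ x in cell, tri (kEN (d n) (F s x)))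
          atTop := by
        exact lintegral_liminf_le fun n => (hmT2 n).const_mul _
    _ = liminf (fun n => 4⁻¹ * ∫⁻ s in Set.Ioo 0 T, ∫⁻ x in cell, tri (kEN (d n) (F s x)))
          atTop := by
        congr 1
        funext n
        rw [lintegral_const_mul _ (hmT2 n)]

end Crest.Agent.R68
end

-- ▼ part R68/EEnt5
section

/-!
R68 / EEnt5: the error term tends to 0 (helper211, Part E).
-/

set_option autoImplicit false
open MeasureTheory Filter Topology
open scoped ENNReal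
open Crest.AnalysisR.VecCalc3 Crest.AnalysisR.PDE.Boltzmann

namespace Crest.Agent.R68

theorem liminf_add_ge (u v : ℕ → ℝ≥0∞) :
    liminf u atTop + liminf v atTop ≤ liminf (fun n => u n + v n) atTop := by
  rw [liminf_eq_iSup_iInf_of_nat, liminf_eq_iSup_iInf_of_nat, liminf_eq_iSup_iInf_of_nat]
  have h1 : ∀ w : ℕ → ℝ≥0∞, Monotone (fun n => ⨅ i, ⨅ (_ : i ≥ n), w i) := by
    intro w a b hab
    refine le_iInf fun i => le_iInf fun hi => ?_
    exact iInf_le_of_le i (iInf_le _ (le_trans hab hi))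
  rw [ENNReal.iSup_add_iSup_of_monotone (h1 u) (h1 v)]
  refine iSup_mono fun n => le_iInf fun i => le_iInf fun hi => ?_
  exact add_le_add (iInf_le_of_le i (iInf_le _ hi)) (iInf_le_of_le i (iInf_le _ hi))

/-- first moment of the Maxwellian -/
noncomputable def m1M : ℝ≥0∞ := ∫⁻ v : R3, ENNReal.ofReal ((1 + ‖v‖) * maxwellian v)

theorem integrable_exp_quarter : Integrable (fun v : R3 => Real.exp (-(1 / 4) * ‖v‖ ^ 2)) := by
  have h := GaussianFourier.integrable_cexp_neg_mul_sq_norm_add (V := R3) (b := (1 / 4 : ℂ))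
    (by norm_num) 0 0
  have h2 := h.norm
  refine h2.congr (Eventually.of_forall fun v => ?_)
  simp only [inner_zero_left, Complex.ofReal_zero, mul_zero, add_zero, Complex.norm_exp]
  congr 1
  have : (-(1 / 4 : ℂ) * (‖v‖ : ℂ) ^ 2) = ((-(1 / 4) * ‖v‖ ^ 2 : ℝ) : ℂ) := by push_cast; ring
  rw [this, Complex.ofReal_re]

theorem m1M_lt_top : m1M < ⊤ := by
  unfold m1M
  have hi : Integrable (fun v : R3 => (2 * (2 * Real.pi) ^ (-(3 / 2 : ℝ))) *
      Real.exp (-(1 / 4) * ‖v‖ ^ 2)) := integrable_exp_quarter.const_mul _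
  refine lt_of_le_of_lt (lintegral_mono fun v => ENNReal.ofReal_le_ofReal ?_) hi.lintegral_lt_top
  unfold maxwellian
  have hp : 0 < (2 * Real.pi) ^ (-(3 / 2 : ℝ)) := by positivity
  have h1 : 1 + ‖v‖ ≤ 2 * Real.exp (‖v‖ ^ 2 / 4) := by
    have h2 := Real.add_one_le_exp (‖v‖ ^ 2 / 4)
    nlinarith [sq_nonneg (‖v‖ / 2 - 1), sq_nonneg ‖v‖]
  have h3 : Real.exp (-‖v‖ ^ 2 / 2) = Real.exp (-(1 / 4) * ‖v‖ ^ 2) * Real.exp (-(‖v‖ ^ 2 / 4)) := by
    rw [← Real.exp_add]; congr 1; ring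
  have h4 : Real.exp (‖v‖ ^ 2 / 4) * Real.exp (-(‖v‖ ^ 2 / 4)) = 1 := by
    rw [← Real.exp_add]; simp
  calc (1 + ‖v‖) * ((2 * Real.pi) ^ (-(3 / 2 : ℝ)) * Real.exp (-‖v‖ ^ 2 / 2))
      ≤ (2 * Real.exp (‖v‖ ^ 2 / 4)) * ((2 * Real.pi) ^ (-(3 / 2 : ℝ)) *
          Real.exp (-‖v‖ ^ 2 / 2)) := by gcongr
    _ = (2 * (2 * Real.pi) ^ (-(3 / 2 : ℝ))) * Real.exp (-(1 / 4) * ‖v‖ ^ 2) *
          (Real.exp (‖v‖ ^ 2 / 4) * Real.exp (-(‖v‖ ^ 2 / 4))) := by rw [h3]; ring
    _ = _ := by rw [h4, mul_one]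

/-- first moment of a profile -/
noncomputable def mom1 (f : R3 → ℝ) : ℝ≥0∞ := ∫⁻ v : R3, ENNReal.ofReal ((1 + ‖v‖) * f v)

/-- total mass of the sphere measure -/
noncomputable def sM : ℝ≥0∞ := sphereMeasure Set.univ

theorem sM_lt_top : sM < ⊤ := by
  unfold sM
  exact measure_lt_top _ _

/-- product kernel -/
theorem tri_prod {a b : R3 → ℝ≥0∞} (ha : Measurable a) (hb : Measurable b) :
    tri (fun v vs _ => a v * b vs) = sM * ((∫⁻ v, a v) * ∫⁻ v, b v) := by
  unfold tri sM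
  rw [lintegral_const, mul_comm]
  congr 1
  rw [Measure.volume_eq_prod, lintegral_prod_mul ha.aemeasurable hb.aemeasurable]

theorem inner_le_weights {w : R3} (hw : ‖w‖ = 1) (v vs : R3) :
    |(inner ℝ (v - vs) w : ℝ)| ≤ (1 + ‖v‖) * (1 + ‖vs‖) := by
  have h1 := abs_real_inner_le_norm (v - vs) w
  rw [hw, mul_one] at h1
  have h2 := norm_sub_le v vs
  nlinarith [norm_nonneg v, norm_nonneg vs, mul_nonneg (norm_nonneg v) (norm_nonneg vs)]

theorem tri_kN_le {d : ℝ} (hd : 0 ≤ d) (hd1 : d ≤ 1) {f : R3 → ℝ} (hm : Measurable f)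
    (hf : ∀ v, 0 ≤ f v) :
    tri (kN d f) ≤ ENNReal.ofReal d * (2 * (sM * (m1M * mom1 f)) + 2 * (sM * (mom1 f * m1M)) +
      2 * (sM * (m1M * m1M))) := by
  set a : R3 → ℝ≥0∞ := fun v => ENNReal.ofReal ((1 + ‖v‖) * maxwellian v) with ha
  set b : R3 → ℝ≥0∞ := fun v => ENNReal.ofReal ((1 + ‖v‖) * f v) with hb
  have hma : Measurable a := by fun_prop
  have hmb : Measurable b := by fun_prop
  have hK : MeasK (fun v vs _ => a v * b vs + b v * a vs + a v * a vs) := by
    unfold MeasK; fun_prop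
  have hdE : MeasK (fun v vs w => ENNReal.ofReal d * (a v * b vs + b v * a vs + a v * a vs)) := by
    unfold MeasK; fun_prop
  have hbd : ∀ v vs w : R3, ‖w‖ = 1 →
      ENNReal.ofReal (|inner ℝ (v - vs) w| * excess d f v vs) ≤
        ENNReal.ofReal d * (a v * b vs + b v * a vs + a v * a vs) := by
    intro v vs w hw
    have hv : 0 ≤ 1 + ‖v‖ := by positivity
    have hvs : 0 ≤ 1 + ‖vs‖ := by positivity
    have hMv := (maxwellian_pos v).le
    have hMs := (maxwellian_pos vs).le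
    rw [ha, hb]
    simp only
    rw [← ENNReal.ofReal_mul (by positivity), ← ENNReal.ofReal_mul (mul_nonneg hv (hf v)),
      ← ENNReal.ofReal_mul (by positivity),
      ← ENNReal.ofReal_add (mul_nonneg (mul_nonneg hv hMv) (mul_nonneg hvs (hf vs)))
        (mul_nonneg (mul_nonneg hv (hf v)) (mul_nonneg hvs hMs)),
      ← ENNReal.ofReal_add (add_nonneg (mul_nonneg (mul_nonneg hv hMv) (mul_nonneg hvs (hf vs)))
        (mul_nonneg (mul_nonneg hv (hf v)) (mul_nonneg hvs hMs))) (by positivity),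
      ← ENNReal.ofReal_mul hd]
    refine ENNReal.ofReal_le_ofReal ?_
    have h1 := inner_le_weights hw v vs
    have hE : excess d f v vs ≤ d * (maxwellian v * f vs + maxwellian vs * f v +
        maxwellian v * maxwellian vs) := by
      unfold excess
      have : d ^ 2 * (maxwellian v * maxwellian vs) ≤ d * (maxwellian v * maxwellian vs) := by
        refine mul_le_mul_of_nonneg_right ?_ (mul_nonneg hMv hMs)
        nlinarith
      nlinarith
    have hE0 := excess_nonneg hd hf v vs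
    calc |(inner ℝ (v - vs) w : ℝ)| * excess d f v vs
        ≤ ((1 + ‖v‖) * (1 + ‖vs‖)) * (d * (maxwellian v * f vs + maxwellian vs * f v +
          maxwellian v * maxwellian vs)) := by
          refine mul_le_mul h1 hE hE0 (by positivity)
      _ = _ := by ring
  have hsplit : tri (kN d f) ≤
      tri (fun v vs w => ENNReal.ofReal d * (a (postVel v vs w) * b (postVelStar v vs w) +
        b (postVel v vs w) * a (postVelStar v vs w) +
        a (postVel v vs w) * a (postVelStar v vs w)) +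
        ENNReal.ofReal d * (a v * b vs + b v * a vs + a v * a vs)) := by
    refine tri_mono fun v vs w hw => ?_
    unfold kN prodN
    rw [mul_add, ENNReal.ofReal_add (mul_nonneg (abs_nonneg _) (excess_nonneg hd hf _ _))
      (mul_nonneg (abs_nonneg _) (excess_nonneg hd hf _ _))]
    refine add_le_add ?_ (hbd v vs w hw)
    rw [← abs_inner_post hw]
    exact hbd _ _ w hw
  refine hsplit.trans ?_
  rw [tri_add hdE.post, tri_post hdE]
  have hone : tri (fun v vs _ => ENNReal.ofReal d * (a v * b vs + b v * a vs + a v * a vs)) =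
      ENNReal.ofReal d * (sM * (m1M * mom1 f) + sM * (mom1 f * m1M) + sM * (m1M * m1M)) := by
    have e1 : tri (fun v vs _ => ENNReal.ofReal d * (a v * b vs + b v * a vs + a v * a vs)) =
        tri (fun v vs _ => (ENNReal.ofReal d * a v) * b vs) +
        tri (fun v vs _ => (ENNReal.ofReal d * b v) * a vs) +
        tri (fun v vs _ => (ENNReal.ofReal d * a v) * a vs) := by
      rw [← tri_add (by unfold MeasK; fun_prop), ← tri_add (by unfold MeasK; fun_prop)]
      refine tri_congr fun v vs w _ => ?_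
      ring
    rw [e1, tri_prod (by fun_prop) hmb, tri_prod (by fun_prop) hma, tri_prod (by fun_prop) hma,
      lintegral_const_mul _ hma, lintegral_const_mul _ hmb]
    have q1 : ∫⁻ v, a v = m1M := rfl
    have q2 : ∫⁻ v, b v = mom1 f := rfl
    rw [q1, q2]
    ring
  rw [hone]
  apply le_of_eq
  ring

end Crest.Agent.R68
end

-- ▼ part R68/EEnt6
section

/-!
R68 / EEnt6: the regularised entropy balance in `ℝ≥0∞` (helper211, Part E).
-/

set_option autoImplicit false
open MeasureTheory Filter Topology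
open scoped ENNReal
open Crest.AnalysisR.VecCalc3 Crest.AnalysisR.PDE.Boltzmann

namespace Crest.Agent.R68

/-- the regularised relative entropy of a density on `cell × ℝ³` -/
noncomputable def HH (d : ℝ) (f : R3 → R3 → ℝ) : ℝ≥0∞ :=
  ∫⁻ q, ENNReal.ofReal (entD d (f q.1 q.2) (maxwellian q.2)) ∂muC

/-- the regularised entropy balance along characteristics (input from EChar) -/
def CharBal (F : ℝ → R3 → R3 → ℝ) (F0 : R3 → R3 → ℝ) (T d : ℝ) : Prop :=
  Integrable (fun q : R3 × R3 => entD d (F T q.1 q.2) (maxwellian q.2)) muC ∧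
  Integrable (fun q : R3 × R3 => entD d (F0 q.1 q.2) (maxwellian q.2)) muC ∧
  (∫ q, entD d (F T q.1 q.2) (maxwellian q.2) ∂muC) -
    (∫ q, entD d (F0 q.1 q.2) (maxwellian q.2) ∂muC) =
  ∫ p, Phi d (F p.1 p.2.1) p.2.2 * Qr F p.1 p.2 ∂nuA (Set.Ioc 0 T)

theorem dbl_ident (T : ℝ) {K1 K2 A1 A2 A3 A4 : ℝ × R3 → ℝ≥0∞} (m1 : Measurable K1)
    (m2 : Measurable K2) (a1 : Measurable A1) (a2 : Measurable A2) (a3 : Measurable A3)
    (a4 : Measurable A4)
    (hid : ∀ s ∈ Set.Ioo 0 T, ∀ x, K1 (s, x) + 4 * (A1 (s, x) + A2 (s, x)) =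
      K2 (s, x) + 4 * (A3 (s, x) + A4 (s, x))) :
    (∫⁻ s in Set.Ioo 0 T, ∫⁻ x in cell, K1 (s, x)) +
      4 * ((∫⁻ s in Set.Ioo 0 T, ∫⁻ x in cell, A1 (s, x)) +
        ∫⁻ s in Set.Ioo 0 T, ∫⁻ x in cell, A2 (s, x)) =
    (∫⁻ s in Set.Ioo 0 T, ∫⁻ x in cell, K2 (s, x)) +
      4 * ((∫⁻ s in Set.Ioo 0 T, ∫⁻ x in cell, A3 (s, x)) +
        ∫⁻ s in Set.Ioo 0 T, ∫⁻ x in cell, A4 (s, x)) := by
  have key : ∀ {G : ℝ × R3 → ℝ≥0∞}, Measurable G →
      ∫⁻ s in Set.Ioo 0 T, ∫⁻ x in cell, G (s, x) =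
      ∫⁻ q, G q ∂(((volume : Measure ℝ).restrict (Set.Ioo 0 T)).prod
        ((volume : Measure R3).restrict cell)) := by
    intro G hG
    rw [lintegral_prod _ hG.aemeasurable]
  rw [key m1, key m2, key a1, key a2, key a3, key a4, ← lintegral_add_left a1,
    ← lintegral_add_left a3,
    ← lintegral_const_mul (f := fun q => A1 q + A2 q) _ (a1.add a2),
    ← lintegral_const_mul (f := fun q => A3 q + A4 q) _ (a3.add a4),
    ← lintegral_add_left m1, ← lintegral_add_left m2]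
  refine lintegral_congr_ae ?_
  have hmem : ∀ᵐ q ∂(((volume : Measure ℝ).restrict (Set.Ioo 0 T)).prod
        ((volume : Measure R3).restrict cell)), q.1 ∈ Set.Ioo 0 T := by
    rw [Measure.ae_prod_iff_ae_ae]
    · filter_upwards [ae_restrict_mem measurableSet_Ioo] with t ht
      exact Filter.Eventually.of_forall fun _ => ht
    · exact measurable_fst measurableSet_Ioo
  filter_upwards [hmem] with q hq
  exact hid q.1 hq q.2

variable {F : ℝ → R3 → R3 → ℝ} {F0 : R3 → R3 → ℝ} {R : ℝ}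

namespace MildSol

theorem meas_Phi (h : MildSol F F0 R) (d : ℝ) :
    Measurable (fun p : ℝ × R3 × R3 => Phi d (F p.1 p.2.1) p.2.2) := by
  unfold Phi
  have h1 : Measurable (fun p : ℝ × R3 × R3 => F p.1 p.2.1 p.2.2) := h.meas
  exact ((h1.div (by fun_prop)).add_const d).log

theorem meas_Pp (h : MildSol F F0 R) (d : ℝ) :
    Measurable (fun p : ℝ × R3 × R3 => Pp d (F p.1 p.2.1) p.2.2) :=
  (h.meas_Phi d).ennreal_ofReal

theorem meas_Pm (h : MildSol F F0 R) (d : ℝ) :
    Measurable (fun p : ℝ × R3 × R3 => Pm d (F p.1 p.2.1) p.2.2) :=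
  (h.meas_Phi d).neg.ennreal_ofReal

/-- `|Φ|` is integrable against the total collision rate -/
theorem Phi_gl_lt_top (h : MildSol F F0 R) (T : ℝ) {d : ℝ} (hd : 0 < d) (hd1 : d ≤ 1) :
    ∫⁻ p, ENNReal.ofReal |Phi d (F p.1 p.2.1) p.2.2| * gl F p.1 p.2 ∂nuA (Set.Ioc 0 T) < ⊤ := by
  set C : ℝ := |Real.log d| + cM + 1 with hC
  have hC0 : 0 ≤ C := by have := cM_nonneg; have := abs_nonneg (Real.log d); positivity
  have hI := h.int T 2
  rw [nuA_eq, nuA_Ioo_Ioc] at hI
  have hb : ∫⁻ p, ENNReal.ofReal |Phi d (F p.1 p.2.1) p.2.2| * gl F p.1 p.2 ∂nuA (Set.Ioc 0 T) ≤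
      ∫⁻ p, ENNReal.ofReal C * (ENNReal.ofReal ((1 + ‖p.2.2‖ ^ 2) ^ (((2 : ℕ) : ℝ) / 2 : ℝ) +
        Real.log (1 + F p.1 p.2.1 p.2.2)) *
        (collGain F p.1 p.2.1 p.2.2 + collLoss F p.1 p.2.1 p.2.2)) ∂nuA (Set.Ioc 0 T) := by
    refine lintegral_mono_ae ?_
    filter_upwards [ae_nuA_mem (A := Set.Ioc 0 T) measurableSet_Ioc] with p hp
    have hn : ∀ v, 0 ≤ F p.1 p.2.1 v := fun v => h.nonneg _ _ _ hp.1.1.le
    have h1 := abs_Phi_le hd hd1 hn p.2.2
    have h2 : (1 + ‖p.2.2‖ ^ 2) ^ (((2 : ℕ) : ℝ) / 2 : ℝ) = 1 + ‖p.2.2‖ ^ 2 := by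
      norm_num
    have hl : 0 ≤ Real.log (1 + F p.1 p.2.1 p.2.2) := Real.log_nonneg (by linarith [hn p.2.2])
    have h3 : |Phi d (F p.1 p.2.1) p.2.2| ≤ C * ((1 + ‖p.2.2‖ ^ 2) ^ (((2 : ℕ) : ℝ) / 2 : ℝ) +
        Real.log (1 + F p.1 p.2.1 p.2.2)) := by
      rw [h2]
      have hc := cM_nonneg
      have ha := abs_nonneg (Real.log d)
      have hv := sq_nonneg ‖p.2.2‖
      rw [hC]
      nlinarith [mul_nonneg (add_nonneg ha hc) hv, mul_nonneg (add_nonneg ha hc) hl]
    rw [← mul_assoc, ← ENNReal.ofReal_mul hC0]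
    exact mul_le_mul' (ENNReal.ofReal_le_ofReal h3) le_rfl
  refine lt_of_le_of_lt hb ?_
  rw [lintegral_const_mul' _ _ ENNReal.ofReal_ne_top]
  exact ENNReal.mul_lt_top ENNReal.ofReal_lt_top hI

/-- the four ENNReal integrals -/
theorem X_lt_top (h : MildSol F F0 R) (T : ℝ) {d : ℝ} (hd : 0 < d) (hd1 : d ≤ 1)
    {A : ℝ × R3 × R3 → ℝ≥0∞} {B : ℝ × R3 × R3 → ℝ≥0∞}
    (hA : ∀ p, A p ≤ ENNReal.ofReal |Phi d (F p.1 p.2.1) p.2.2|) (hB : ∀ p, B p ≤ gl F p.1 p.2) :
    ∫⁻ p, A p * B p ∂nuA (Set.Ioc 0 T) < ⊤ :=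
  lt_of_le_of_lt (lintegral_mono fun p => mul_le_mul' (hA p) (hB p)) (h.Phi_gl_lt_top T hd hd1)

/-- integrated entropy identity in `ℝ≥0∞` -/
theorem integrated_ident (h : MildSol F F0 R) (T : ℝ) {d : ℝ} (hd : 0 < d) :
    (∫⁻ s in Set.Ioo 0 T, ∫⁻ x in cell, tri (kEN d (F s x))) +
      4 * ((∫⁻ p, Pp d (F p.1 p.2.1) p.2.2 * collGain F p.1 p.2.1 p.2.2 ∂nuA (Set.Ioc 0 T)) +
        ∫⁻ p, Pm d (F p.1 p.2.1) p.2.2 * collLoss F p.1 p.2.1 p.2.2 ∂nuA (Set.Ioc 0 T)) =
    (∫⁻ s in Set.Ioo 0 T, ∫⁻ x in cell, tri (kN d (F s x))) +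
      4 * ((∫⁻ p, Pp d (F p.1 p.2.1) p.2.2 * collLoss F p.1 p.2.1 p.2.2 ∂nuA (Set.Ioc 0 T)) +
        ∫⁻ p, Pm d (F p.1 p.2.1) p.2.2 * collGain F p.1 p.2.1 p.2.2 ∂nuA (Set.Ioc 0 T)) := by
  have hg := h.meas.collGain
  have hl := h.meas.collLoss
  have hp := h.meas_Pp d
  have hm := h.meas_Pm d
  have key : ∀ (G : ℝ × R3 × R3 → ℝ≥0∞), Measurable G →
      ∫⁻ p, G p ∂nuA (Set.Ioc 0 T) = ∫⁻ s in Set.Ioo 0 T, ∫⁻ x in cell, ∫⁻ v, G (s, x, v) := by
    intro G hG
    rw [← nuA_Ioo_Ioc, lintegral_nuA hG]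
    refine lintegral_congr fun s => ?_
    exact lintegral_muC' (G := fun q => G (s, q)) (hG.comp (measurable_const.prodMk measurable_id))
  have mK1 : Measurable (fun q : ℝ × R3 => tri (kEN d (F q.1 q.2))) :=
    measurable_tri (K := fun q : ℝ × R3 => kEN d (F q.1 q.2))
      (measurable_kEN_par (α := ℝ × R3) (g := fun q => F q.1 q.2) d h.meas.par)
  have mK2 : Measurable (fun q : ℝ × R3 => tri (kN d (F q.1 q.2))) :=
    measurable_tri (K := fun q : ℝ × R3 => kN d (F q.1 q.2))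
      (measurable_kN_par (α := ℝ × R3) (g := fun q => F q.1 q.2) d h.meas.par)
  have mv : ∀ (G : ℝ × R3 × R3 → ℝ≥0∞), Measurable G →
      Measurable (fun q : ℝ × R3 => ∫⁻ v, G (q.1, q.2, v)) := by
    intro G hG
    refine Measurable.lintegral_prod_right' (f := fun q : (ℝ × R3) × R3 => G (q.1.1, q.1.2, q.2)) ?_
    exact hG.comp (by fun_prop)
  rw [key (fun p => Pp d (F p.1 p.2.1) p.2.2 * collGain F p.1 p.2.1 p.2.2) (hp.mul hg),
    key (fun p => Pm d (F p.1 p.2.1) p.2.2 * collLoss F p.1 p.2.1 p.2.2) (hm.mul hl),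
    key (fun p => Pp d (F p.1 p.2.1) p.2.2 * collLoss F p.1 p.2.1 p.2.2) (hp.mul hl),
    key (fun p => Pm d (F p.1 p.2.1) p.2.2 * collGain F p.1 p.2.1 p.2.2) (hm.mul hg)]
  have a1 := mv (fun p => Pp d (F p.1 p.2.1) p.2.2 * collGain F p.1 p.2.1 p.2.2) (hp.mul hg)
  have a2 := mv (fun p => Pm d (F p.1 p.2.1) p.2.2 * collLoss F p.1 p.2.1 p.2.2) (hm.mul hl)
  have a3 := mv (fun p => Pp d (F p.1 p.2.1) p.2.2 * collLoss F p.1 p.2.1 p.2.2) (hp.mul hl)
  have a4 := mv (fun p => Pm d (F p.1 p.2.1) p.2.2 * collGain F p.1 p.2.1 p.2.2) (hm.mul hg)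
  exact dbl_ident T mK1 mK2 a1 a2 a3 a4 fun s hs x =>
    entropy_ident (F := F) (t := s) (x := x) (h.meas.slice2 s x)
      (fun v => h.nonneg s x v hs.1.le) hd

end MildSol

end Crest.Agent.R68
end

-- ▼ part R68/EEnt7
section

/-!
R68 / EEnt7: the entropy inequality for mild solutions (helper211, Part E).
-/

set_option autoImplicit false
open MeasureTheory Filter Topology
open scoped ENNReal
open Crest.AnalysisR.VecCalc3 Crest.AnalysisR.PDE.Boltzmann

namespace Crest.Agent.R68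

theorem int4 {α : Type*} [MeasurableSpace α] {μ : Measure α} {a b c e : α → ℝ}
    (ha : Integrable a μ) (hb : Integrable b μ) (hc : Integrable c μ) (he : Integrable e μ) :
    ∫ x, (a x + b x - c x - e x) ∂μ =
      (∫ x, a x ∂μ) + (∫ x, b x ∂μ) - (∫ x, c x ∂μ) - ∫ x, e x ∂μ := by
  have h1 : Integrable (fun x => a x + b x) μ := ha.add hb
  have h2 : Integrable (fun x => a x + b x - c x) μ := h1.sub hc
  rw [integral_sub h2 he, integral_sub h1 hc, integral_add ha hb]

variable {F : ℝ → R3 → R3 → ℝ} {F0 : R3 → R3 → ℝ} {R : ℝ}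

namespace MildSol

theorem charBal (h : MildSol F F0 R) {T : ℝ} (hT : 0 < T) {d : ℝ} (hd : 0 < d) (hd1 : d ≤ 1) :
    CharBal F F0 T d := by
  obtain ⟨h1, h2, _, h4⟩ := Crest.Agent.R68E.entropy_char h hd hd1 hT
  rw [Crest.Agent.R68E.mu2_eq_muC] at h1 h2 h4
  refine ⟨h2, h1, ?_⟩
  rw [h4, ← Crest.Agent.R68E.mu3_eq, nuA_eq, nuA_Ioo_Ioc]
  refine integral_congr_ae (Eventually.of_forall fun p => ?_)
  exact mul_comm _ _

theorem ofReal_int_entD {d : ℝ} (hd : 0 ≤ d) {f : R3 → R3 → ℝ} (hf : ∀ x v, 0 ≤ f x v)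
    (hi : Integrable (fun q : R3 × R3 => entD d (f q.1 q.2) (maxwellian q.2)) muC) :
    ENNReal.ofReal (∫ q, entD d (f q.1 q.2) (maxwellian q.2) ∂muC) = HH d f := by
  unfold HH
  exact ofReal_integral_eq_lintegral_ofReal hi
    (Eventually.of_forall fun q => entD_nonneg hd (hf _ _) (maxwellian_pos _))

/-- regularised entropy balance in `ℝ≥0∞`. -/
theorem balance (h : MildSol F F0 R) {T : ℝ} (hT : 0 < T) {d : ℝ} (hd : 0 < d) (hd1 : d ≤ 1) :
    HH d (F T) + 4⁻¹ * (∫⁻ s in Set.Ioo 0 T, ∫⁻ x in cell, tri (kEN d (F s x))) =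
      4⁻¹ * (∫⁻ s in Set.Ioo 0 T, ∫⁻ x in cell, tri (kN d (F s x))) + HH d F0 := by
  obtain ⟨hiT, hi0, hbal⟩ := h.charBal hT hd hd1
  have hident := h.integrated_ident T hd
  have hg := h.meas.collGain
  have hl := h.meas.collLoss
  have hp := h.meas_Pp d
  have hm := h.meas_Pm d
  have hPp : ∀ p : ℝ × R3 × R3, Pp d (F p.1 p.2.1) p.2.2 ≤
      ENNReal.ofReal |Phi d (F p.1 p.2.1) p.2.2| := fun p =>
    ENNReal.ofReal_le_ofReal (le_abs_self _)
  have hPm : ∀ p : ℝ × R3 × R3, Pm d (F p.1 p.2.1) p.2.2 ≤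
      ENNReal.ofReal |Phi d (F p.1 p.2.1) p.2.2| := fun p =>
    ENNReal.ofReal_le_ofReal (neg_le_abs _)
  have hG : ∀ p : ℝ × R3 × R3, collGain F p.1 p.2.1 p.2.2 ≤ gl F p.1 p.2 := fun p => le_self_add
  have hL : ∀ p : ℝ × R3 × R3, collLoss F p.1 p.2.1 p.2.2 ≤ gl F p.1 p.2 := fun p => le_add_self
  have f1 := h.X_lt_top T hd hd1 hPp hG
  have f2 := h.X_lt_top T hd hd1 hPm hL
  have f3 := h.X_lt_top T hd hd1 hPp hL
  have f4 := h.X_lt_top T hd hd1 hPm hG
  set X1 := ∫⁻ p, Pp d (F p.1 p.2.1) p.2.2 * collGain F p.1 p.2.1 p.2.2 ∂nuA (Set.Ioc 0 T)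
  set X2 := ∫⁻ p, Pm d (F p.1 p.2.1) p.2.2 * collLoss F p.1 p.2.1 p.2.2 ∂nuA (Set.Ioc 0 T)
  set X3 := ∫⁻ p, Pp d (F p.1 p.2.1) p.2.2 * collLoss F p.1 p.2.1 p.2.2 ∂nuA (Set.Ioc 0 T)
  set X4 := ∫⁻ p, Pm d (F p.1 p.2.1) p.2.2 * collGain F p.1 p.2.1 p.2.2 ∂nuA (Set.Ioc 0 T)
  set TT := ∫⁻ s in Set.Ioo 0 T, ∫⁻ x in cell, tri (kEN d (F s x))
  set NN := ∫⁻ s in Set.Ioo 0 T, ∫⁻ x in cell, tri (kN d (F s x))
  -- the real integral
  have hglfin : ∀ᵐ p ∂nuA (Set.Ioc 0 T), gl F p.1 p.2 < ⊤ := by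
    have h0 := h.gl_lt_top T 0
    refine ae_lt_top h.meas_gl ?_
    refine ne_of_lt (lt_of_le_of_lt ?_ h0)
    refine lintegral_mono fun p => ?_
    rw [wt_zero, ENNReal.ofReal_one, one_mul]
  have hreal : ∫ p, Phi d (F p.1 p.2.1) p.2.2 * Qr F p.1 p.2 ∂nuA (Set.Ioc 0 T) =
      X1.toReal + X2.toReal - X3.toReal - X4.toReal := by
    have q1 := integrable_toReal_of_lintegral_ne_top (hp.mul hg).aemeasurable f1.ne
    have q2 := integrable_toReal_of_lintegral_ne_top (hm.mul hl).aemeasurable f2.ne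
    have q3 := integrable_toReal_of_lintegral_ne_top (hp.mul hl).aemeasurable f3.ne
    have q4 := integrable_toReal_of_lintegral_ne_top (hm.mul hg).aemeasurable f4.ne
    have i1 := integral_toReal (hp.mul hg).aemeasurable (ae_lt_top (hp.mul hg) f1.ne)
    have i2 := integral_toReal (hm.mul hl).aemeasurable (ae_lt_top (hm.mul hl) f2.ne)
    have i3 := integral_toReal (hp.mul hl).aemeasurable (ae_lt_top (hp.mul hl) f3.ne)
    have i4 := integral_toReal (hm.mul hg).aemeasurable (ae_lt_top (hm.mul hg) f4.ne)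
    simp only [Pi.mul_apply] at q1 q2 q3 q4 i1 i2 i3 i4
    rw [← i1, ← i2, ← i3, ← i4, ← int4 q1 q2 q3 q4]
    refine integral_congr_ae ?_
    refine Eventually.of_forall fun p => ?_
    simp only [ENNReal.toReal_mul, Qr, Pp, Pm, ENNReal.toReal_ofReal']
    have e : Phi d (F p.1 p.2.1) p.2.2 =
        max (Phi d (F p.1 p.2.1) p.2.2) 0 - max (-Phi d (F p.1 p.2.1) p.2.2) 0 := by
      rcases le_total (Phi d (F p.1 p.2.1) p.2.2) 0 with hh | hh
      · rw [max_eq_right hh, max_eq_left (by linarith)]; ring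
      · rw [max_eq_left hh, max_eq_right (by linarith)]; ring
    conv_lhs => rw [e]
    ring
  rw [hreal] at hbal
  have hnT : ∀ x v, 0 ≤ F T x v := fun x v => h.nonneg T x v hT.le
  have eT := ofReal_int_entD hd.le hnT hiT
  have e0 := ofReal_int_entD hd.le (fun x v => h.F0_nonneg x v) hi0
  have pT : 0 ≤ ∫ q, entD d (F T q.1 q.2) (maxwellian q.2) ∂muC :=
    integral_nonneg fun q => entD_nonneg hd.le (hnT _ _) (maxwellian_pos _)
  have p0 : 0 ≤ ∫ q, entD d (F0 q.1 q.2) (maxwellian q.2) ∂muC :=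
    integral_nonneg fun q => entD_nonneg hd.le (h.F0_nonneg _ _) (maxwellian_pos _)
  have hE : HH d (F T) + (X3 + X4) = HH d F0 + (X1 + X2) := by
    rw [← eT, ← e0, ← ENNReal.ofReal_toReal f1.ne, ← ENNReal.ofReal_toReal f2.ne,
      ← ENNReal.ofReal_toReal f3.ne, ← ENNReal.ofReal_toReal f4.ne,
      ← ENNReal.ofReal_add ENNReal.toReal_nonneg ENNReal.toReal_nonneg,
      ← ENNReal.ofReal_add ENNReal.toReal_nonneg ENNReal.toReal_nonneg,
      ← ENNReal.ofReal_add pT (add_nonneg ENNReal.toReal_nonneg ENNReal.toReal_nonneg),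
      ← ENNReal.ofReal_add p0 (add_nonneg ENNReal.toReal_nonneg ENNReal.toReal_nonneg)]
    congr 1
    linarith
  have hfin : 4 * (X1 + X2) + 4 * (X3 + X4) ≠ ⊤ := by
    refine ENNReal.add_ne_top.2 ⟨?_, ?_⟩
    · exact ENNReal.mul_ne_top (by norm_num) (ENNReal.add_ne_top.2 ⟨f1.ne, f2.ne⟩)
    · exact ENNReal.mul_ne_top (by norm_num) (ENNReal.add_ne_top.2 ⟨f3.ne, f4.ne⟩)
  have hsum : (TT + 4 * HH d (F T)) + (4 * (X1 + X2) + 4 * (X3 + X4)) =
      (NN + 4 * HH d F0) + (4 * (X1 + X2) + 4 * (X3 + X4)) := by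
    calc (TT + 4 * HH d (F T)) + (4 * (X1 + X2) + 4 * (X3 + X4))
        = (TT + 4 * (X1 + X2)) + 4 * (HH d (F T) + (X3 + X4)) := by ring
      _ = (NN + 4 * (X3 + X4)) + 4 * (HH d F0 + (X1 + X2)) := by rw [hident, hE]
      _ = _ := by ring
  have hcancel : TT + 4 * HH d (F T) = NN + 4 * HH d F0 := (ENNReal.add_left_inj hfin).1 hsum
  have h44 : (4⁻¹ : ℝ≥0∞) * 4 = 1 := ENNReal.inv_mul_cancel (by norm_num) (by norm_num)
  have := congrArg (fun z => 4⁻¹ * z) hcancel
  simp only [mul_add, ← mul_assoc, h44, one_mul] at this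
  rw [add_comm (HH d (F T))]
  exact this

end MildSol

end Crest.Agent.R68
end

-- ▼ part R68/EEnt8
section

/-!
R68 / EEnt8: the entropy inequality for mild solutions, limit δ → 0 (helper211, Part E).
-/

set_option autoImplicit false
open MeasureTheory Filter Topology
open scoped ENNReal
open Crest.AnalysisR.VecCalc3 Crest.AnalysisR.PDE.Boltzmann

namespace Crest.Agent.R68

theorem relEntropy_eq (f : R3 → R3 → ℝ) : relEntropy f = HH 0 f := by
  unfold relEntropy HH muC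
  refine lintegral_congr fun q => ?_
  rw [entD_zero (maxwellian_pos _)]

theorem measurable_entD' {d : ℝ} {f : R3 → R3 → ℝ}
    (hf : Measurable (fun q : R3 × R3 => f q.1 q.2)) :
    Measurable (fun q : R3 × R3 => entD d (f q.1 q.2) (maxwellian q.2)) := by
  have hM : Measurable (fun q : R3 × R3 => maxwellian q.2) := by fun_prop
  have h1 : Measurable (fun q : R3 × R3 => f q.1 q.2 / maxwellian q.2 + d) :=
    (hf.div hM).add_const d
  unfold entD
  exact hM.mul (((h1.mul (Real.measurable_log.comp h1)).sub h1).add_const 1)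

theorem nuA_iter {T : ℝ} {G : ℝ × R3 × R3 → ℝ≥0∞} (hG : Measurable G) :
    ∫⁻ p, G p ∂nuA (Set.Ioc 0 T) = ∫⁻ s in Set.Ioo 0 T, ∫⁻ x in cell, ∫⁻ v, G (s, x, v) := by
  rw [← nuA_Ioo_Ioc, lintegral_nuA hG]
  refine lintegral_congr fun s => ?_
  exact lintegral_muC' (G := fun q => G (s, q)) (hG.comp (measurable_const.prodMk measurable_id))

/-- the sequence δ_n = 1/(n+1) -/
noncomputable def dn (n : ℕ) : ℝ := 1 / ((n : ℝ) + 1)

theorem dn_pos (n : ℕ) : 0 < dn n := by unfold dn; positivity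
theorem dn_le_one (n : ℕ) : dn n ≤ 1 := by
  unfold dn
  rw [div_le_one (by positivity)]
  linarith [(Nat.cast_nonneg n : (0 : ℝ) ≤ n)]
theorem dn_tendsto : Tendsto dn atTop (𝓝 0) := tendsto_one_div_add_atTop_nhds_zero_nat

/-- Fatou for the regularised entropies -/
theorem relEntropy_le_liminf {f : R3 → R3 → ℝ} (hf : Measurable (fun q : R3 × R3 => f q.1 q.2)) :
    relEntropy f ≤ liminf (fun n => HH (dn n) f) atTop := by
  rw [relEntropy_eq]
  unfold HH
  have h1 : ∀ q : R3 × R3, ENNReal.ofReal (entD 0 (f q.1 q.2) (maxwellian q.2)) =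
      liminf (fun n => ENNReal.ofReal (entD (dn n) (f q.1 q.2) (maxwellian q.2))) atTop := by
    intro q
    have := (ENNReal.continuous_ofReal.tendsto _).comp
      (tendsto_entD dn_tendsto (f q.1 q.2) (maxwellian q.2))
    exact this.liminf_eq.symm
  simp_rw [h1]
  exact lintegral_liminf_le fun n => (measurable_entD' hf).ennreal_ofReal

variable {F : ℝ → R3 → R3 → ℝ} {F0 : R3 → R3 → ℝ} {R : ℝ}

namespace MildSol

/-- dominated convergence for the datum -/
theorem HH_datum_tendsto (h : MildSol F F0 R) :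
    Tendsto (fun n => HH (dn n) F0) atTop (𝓝 (relEntropy F0)) := by
  rw [relEntropy_eq]
  unfold HH
  have hb := Crest.Agent.R68E.integrable_maxwellian_mu2.add
    (Crest.Agent.R68E.integrable_datum h (1 + cM) (by linarith [cM_nonneg]))
  rw [Crest.Agent.R68E.mu2_eq_muC] at hb
  refine tendsto_lintegral_of_dominated_convergence _
    (fun n => (measurable_entD' h.datum.1).ennreal_ofReal) ?_ hb.lintegral_lt_top.ne ?_
  · intro n
    refine Eventually.of_forall fun q => ENNReal.ofReal_le_ofReal ?_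
    have h0 : ∀ v, 0 ≤ F0 q.1 v := fun v => h.datum.2.1 q.1 v
    have := entD_bound' (dn_pos n).le (dn_le_one n) (f := F0 q.1) h0 q.2
    simpa [add_assoc] using this
  · refine Eventually.of_forall fun q => ?_
    exact (ENNReal.continuous_ofReal.tendsto _).comp
      (tendsto_entD dn_tendsto (F0 q.1 q.2) (maxwellian q.2))

/-- the space-time first moment is finite -/
theorem mom1_time (h : MildSol F F0 R) (T : ℝ) :
    ∫⁻ s in Set.Ioo 0 T, ∫⁻ x in cell, mom1 (F s x) < ⊤ := by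
  have h1 := h.moment_time T 1
  have hm : Measurable (fun p : ℝ × R3 × R3 =>
      ENNReal.ofReal (wt 1 p.2.2) * ENNReal.ofReal (F p.1 p.2.1 p.2.2)) :=
    (by fun_prop : Measurable fun p : ℝ × R3 × R3 => ENNReal.ofReal (wt 1 p.2.2)).mul
      (Measurable.ennreal_ofReal h.meas)
  rw [nuA_iter hm] at h1
  have h3 : ∫⁻ s in Set.Ioo 0 T, ∫⁻ x in cell, mom1 (F s x) ≤
      ∫⁻ s in Set.Ioo 0 T, 2 * ∫⁻ x in cell, ∫⁻ v, ENNReal.ofReal (wt 1 v) *
        ENNReal.ofReal (F s x v) := by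
    refine setLIntegral_mono' measurableSet_Ioo fun s hs => ?_
    rw [← lintegral_const_mul' _ _ (by norm_num)]
    refine lintegral_mono fun x => ?_
    rw [← lintegral_const_mul' _ _ (by norm_num)]
    unfold mom1
    refine lintegral_mono fun v => ?_
    have hF := h.nonneg s x v hs.1.le
    have hw := one_le_wt 1 v
    have hn := norm_le_wt_one v
    have e3 : ENNReal.ofReal (2 * (wt 1 v * F s x v)) =
        2 * (ENNReal.ofReal (wt 1 v) * ENNReal.ofReal (F s x v)) := by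
      rw [ENNReal.ofReal_mul (by norm_num), ENNReal.ofReal_mul (by linarith)]
      congr 1
      norm_num
    rw [← e3]
    refine ENNReal.ofReal_le_ofReal ?_
    nlinarith
  refine lt_of_le_of_lt h3 ?_
  rw [lintegral_const_mul' _ _ (by norm_num)]
  exact ENNReal.mul_lt_top (by norm_num) h1

/-- bound of the error term -/
theorem error_le (h : MildSol F F0 R) (T : ℝ) {d : ℝ} (hd : 0 ≤ d) (hd1 : d ≤ 1) :
    ∫⁻ s in Set.Ioo 0 T, ∫⁻ x in cell, tri (kN d (F s x)) ≤
      ENNReal.ofReal d * (4 * (sM * m1M) * (∫⁻ s in Set.Ioo 0 T, ∫⁻ x in cell, mom1 (F s x)) +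
        ∫⁻ _ in Set.Ioo 0 T, ∫⁻ _ in cell, 2 * (sM * (m1M * m1M))) := by
  have hmom : Measurable (fun q : ℝ × R3 => mom1 (F q.1 q.2)) := by
    unfold mom1
    refine Measurable.lintegral_prod_right' (f := fun q : (ℝ × R3) × R3 =>
      ENNReal.ofReal ((1 + ‖q.2‖) * F q.1.1 q.1.2 q.2)) ?_
    exact ((by fun_prop : Measurable fun q : (ℝ × R3) × R3 => 1 + ‖q.2‖).mul
      h.meas.par).ennreal_ofReal
  have hmomx : ∀ s, Measurable (fun x : R3 => mom1 (F s x)) := fun s =>
    hmom.comp (measurable_const.prodMk measurable_id)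
  have hmoms : Measurable (fun s : ℝ => ∫⁻ x in cell, mom1 (F s x)) :=
    Measurable.lintegral_prod_right' (f := fun q : ℝ × R3 => mom1 (F q.1 q.2)) hmom
  have hc : (sM * m1M) ≠ ⊤ := ENNReal.mul_ne_top sM_lt_top.ne m1M_lt_top.ne
  calc ∫⁻ s in Set.Ioo 0 T, ∫⁻ x in cell, tri (kN d (F s x))
      ≤ ∫⁻ s in Set.Ioo 0 T, ∫⁻ x in cell, ENNReal.ofReal d *
          (4 * (sM * m1M) * mom1 (F s x) + 2 * (sM * (m1M * m1M))) := by
        refine setLIntegral_mono' measurableSet_Ioo fun s hs => lintegral_mono fun x => ?_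
        refine (tri_kN_le hd hd1 (h.meas.slice2 s x) (fun v => h.nonneg s x v hs.1.le)).trans ?_
        apply le_of_eq
        ring
    _ = _ := by
        have e1 : ∀ s, ∫⁻ x in cell, ENNReal.ofReal d *
            (4 * (sM * m1M) * mom1 (F s x) + 2 * (sM * (m1M * m1M))) =
            ENNReal.ofReal d * (4 * (sM * m1M) * (∫⁻ x in cell, mom1 (F s x)) +
              ∫⁻ _ in cell, 2 * (sM * (m1M * m1M))) := by
          intro s
          rw [lintegral_const_mul' _ _ ENNReal.ofReal_ne_top,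
            lintegral_add_left ((hmomx s).const_mul _), lintegral_const_mul _ (hmomx s)]
        simp_rw [e1]
        rw [lintegral_const_mul' _ _ ENNReal.ofReal_ne_top,
          lintegral_add_left (hmoms.const_mul _), lintegral_const_mul _ hmoms]

/-- the error term tends to zero -/
theorem error_tendsto (h : MildSol F F0 R) (T : ℝ) :
    Tendsto (fun n => 4⁻¹ * ∫⁻ s in Set.Ioo 0 T, ∫⁻ x in cell, tri (kN (dn n) (F s x)))
      atTop (𝓝 0) := by
  set C : ℝ≥0∞ := 4 * (sM * m1M) * (∫⁻ s in Set.Ioo 0 T, ∫⁻ x in cell, mom1 (F s x)) +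
        ∫⁻ _ in Set.Ioo 0 T, ∫⁻ _ in cell, 2 * (sM * (m1M * m1M)) with hC
  have hCfin : C ≠ ⊤ := by
    rw [hC]
    refine ENNReal.add_ne_top.2 ⟨?_, ?_⟩
    · refine ENNReal.mul_ne_top (ENNReal.mul_ne_top (by norm_num)
        (ENNReal.mul_ne_top sM_lt_top.ne m1M_lt_top.ne)) (h.mom1_time T).ne
    · rw [lintegral_const, lintegral_const]
      refine ENNReal.mul_ne_top (ENNReal.mul_ne_top (ENNReal.mul_ne_top (by norm_num)
        (ENNReal.mul_ne_top sM_lt_top.ne (ENNReal.mul_ne_top m1M_lt_top.ne m1M_lt_top.ne))) ?_) ?_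
      · have := Crest.Agent.R68E.finite_cell
        exact measure_ne_top _ _
      · simp
  have hlim : Tendsto (fun n => 4⁻¹ * (ENNReal.ofReal (dn n) * C)) atTop (𝓝 0) := by
    have h1 : Tendsto (fun n => ENNReal.ofReal (dn n)) atTop (𝓝 0) := by
      have := (ENNReal.continuous_ofReal.tendsto 0).comp dn_tendsto
      rw [ENNReal.ofReal_zero] at this
      exact this
    have h2 := ENNReal.Tendsto.mul_const h1 (Or.inr hCfin)
    have h3 := ENNReal.Tendsto.const_mul (a := (4⁻¹ : ℝ≥0∞)) h2 (Or.inr (by simp))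
    simpa using h3
  refine tendsto_of_tendsto_of_tendsto_of_le_of_le tendsto_const_nhds hlim
    (fun _ => zero_le) (fun n => ?_)
  exact mul_le_mul' le_rfl (h.error_le T (dn_pos n).le (dn_le_one n))

/-- **The entropy inequality with dissipation** for mild solutions. -/
theorem entropy_ineq (h : MildSol F F0 R) {T : ℝ} (hT : 0 ≤ T) :
    relEntropy (F T) + (∫⁻ s in Set.Icc 0 T, dissipation (F s)) ≤ relEntropy F0 := by
  rcases hT.eq_or_lt with rfl | hT
  · have e : relEntropy (F 0) = relEntropy F0 := by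
      unfold relEntropy
      simp_rw [h.init]
    rw [e]
    simp
  · have h1 := relEntropy_le_liminf (h.measurable_F T)
    have h2 := dissipation_liminf h.meas h.nonneg dn_pos dn_tendsto T
    refine (add_le_add h1 h2).trans ((liminf_add_ge _ _).trans ?_)
    have h3 : ∀ n, HH (dn n) (F T) + 4⁻¹ * (∫⁻ s in Set.Ioo 0 T, ∫⁻ x in cell,
        tri (kEN (dn n) (F s x))) = 4⁻¹ * (∫⁻ s in Set.Ioo 0 T, ∫⁻ x in cell,
        tri (kN (dn n) (F s x))) + HH (dn n) F0 := fun n =>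
      h.balance hT (dn_pos n) (dn_le_one n)
    simp_rw [h3]
    have h4 := (h.error_tendsto T).add h.HH_datum_tendsto
    rw [zero_add] at h4
    exact h4.liminf_eq.le

end MildSol

end Crest.Agent.R68
end

-- ▼ part R68/EEnt9

/-!
R68 / EEnt9: the bound of mass, energy and `∫ F |log F|` (helper211, Part E).
-/

set_option autoImplicit false
open MeasureTheory Filter Topology
open scoped ENNReal
open Crest.AnalysisR.VecCalc3 Crest.AnalysisR.PDE.Boltzmann

namespace Crest.Agent.R68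

/-- `z |log z| ≤ ent + 2 z (1+|v|²) + 2 exp(-(1+|v|²)/2)` -/
theorem abs_log_bound {z : ℝ} (hz : 0 ≤ z) (v : R3) :
    z * |Real.log z| ≤ entD 0 z (maxwellian v) + 2 * (z * (1 + ‖v‖ ^ 2)) +
      2 * Real.exp (-(1 / 4) * ‖v‖ ^ 2) := by
  have hM := maxwellian_pos v
  have hent := entD_nonneg (d := 0) le_rfl hz hM
  have hv := sq_nonneg ‖v‖
  have hexp := Real.exp_pos (-(1 / 4) * ‖v‖ ^ 2)
  have hzv : 0 ≤ z * (1 + ‖v‖ ^ 2) := by positivity
  rcases hz.eq_or_lt with rfl | hz0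
  · rw [zero_mul]; positivity
  rcases le_total 1 z with h1 | h1
  · -- z ≥ 1
    rw [abs_of_nonneg (Real.log_nonneg h1)]
    rw [entD_zero hM, Real.log_div hz0.ne' hM.ne']
    have hlM : Real.log (maxwellian v) ≤ 0 := by
      refine Real.log_nonpos hM.le ?_
      unfold maxwellian
      have e1 : (2 * Real.pi) ^ (-(3 / 2 : ℝ)) ≤ 1 := by
        refine Real.rpow_le_one_of_one_le_of_nonpos ?_ (by norm_num)
        have := Real.pi_gt_three
        linarith
      have e2 : Real.exp (-‖v‖ ^ 2 / 2) ≤ 1 := Real.exp_le_one_iff.2 (by nlinarith)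
      have e3 : 0 ≤ (2 * Real.pi) ^ (-(3 / 2 : ℝ)) := by positivity
      nlinarith [Real.exp_pos (-‖v‖ ^ 2 / 2)]
    have : z * Real.log (maxwellian v) ≤ 0 := mul_nonpos_of_nonneg_of_nonpos hz hlM
    nlinarith
  · -- z ≤ 1
    have hlog : Real.log z ≤ 0 := Real.log_nonpos hz h1
    rw [abs_of_nonpos hlog]
    rcases le_total (Real.exp (-(1 + ‖v‖ ^ 2))) z with h2 | h2
    · have h3 : -(1 + ‖v‖ ^ 2) ≤ Real.log z := by
        rw [← Real.log_exp (-(1 + ‖v‖ ^ 2))]
        exact Real.log_le_log (Real.exp_pos _) h2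
      have h4 : z * -Real.log z ≤ z * (1 + ‖v‖ ^ 2) :=
        mul_le_mul_of_nonneg_left (by linarith) hz
      linarith
    · -- z small
      have hs0 : 0 < Real.sqrt z := Real.sqrt_pos.2 hz0
      have hs : Real.sqrt z * Real.sqrt z = z := Real.mul_self_sqrt hz
      have h3 : -Real.log z ≤ 2 * (1 / Real.sqrt z) := by
        have h5 := Real.one_sub_inv_le_log_of_pos hs0
        have h6 : Real.log z = 2 * Real.log (Real.sqrt z) := by
          rw [Real.log_sqrt hz]; ring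
        rw [h6]
        rw [one_div]
        linarith
      have h4 : z * -Real.log z ≤ 2 * Real.sqrt z := by
        calc z * -Real.log z ≤ z * (2 * (1 / Real.sqrt z)) := mul_le_mul_of_nonneg_left h3 hz
          _ = 2 * Real.sqrt z := by
            nth_rewrite 1 [← hs]
            field_simp
      have h5 : Real.sqrt z ≤ Real.exp (-(1 / 4) * ‖v‖ ^ 2) := by
        have h6 : Real.sqrt z ≤ Real.sqrt (Real.exp (-(1 + ‖v‖ ^ 2))) := Real.sqrt_le_sqrt h2
        have h7 : Real.sqrt (Real.exp (-(1 + ‖v‖ ^ 2))) = Real.exp (-(1 + ‖v‖ ^ 2) / 2) := by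
          rw [Real.exp_half]
        rw [h7] at h6
        refine h6.trans (Real.exp_le_exp.2 ?_)
        nlinarith
      linarith

variable {F : ℝ → R3 → R3 → ℝ} {F0 : R3 → R3 → ℝ} {R : ℝ}

namespace MildSol

theorem relEntropy_datum_lt_top (h : MildSol F F0 R) : relEntropy F0 < ⊤ := by
  rw [relEntropy_eq]
  have hi := Crest.Agent.R68E.integrable_entD_datum h (δ := 0) le_rfl zero_le_one
  rw [Crest.Agent.R68E.mu2_eq_muC] at hi
  exact hi.lintegral_lt_top

/-- the mass-energy-entropy bound, in the exact form of `IsGlobalSolution` -/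
theorem mass_energy_entropy (h : MildSol F F0 R) (T : ℝ) :
    ∃ C : ℝ≥0∞, C < ⊤ ∧ ∀ t ∈ Set.Icc 0 T,
      (∫⁻ q in cell ×ˢ Set.univ, ENNReal.ofReal (F t q.1 q.2 *
        (1 + ‖q.2‖ ^ 2 + |Real.log (F t q.1 q.2)|)) ∂(volume : Measure (R3 × R3))) ≤ C := by
  have hexpI : Integrable (fun q : R3 × R3 => 2 * Real.exp (-(1 / 4) * ‖q.2‖ ^ 2)) muC := by
    rw [muC_eq]
    have := Crest.Agent.R68E.finite_cell
    have h1 := (integrable_const (1 : ℝ) (μ := (volume : Measure R3).restrict cell)).mul_prod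
      integrable_exp_quarter
    have h2 := h1.const_mul 2
    simpa using h2
  refine ⟨relEntropy F0 + 3 * momB F F0 T 2 +
    ∫⁻ q, ENNReal.ofReal (2 * Real.exp (-(1 / 4) * ‖q.2‖ ^ 2)) ∂muC, ?_, ?_⟩
  · refine ENNReal.add_lt_top.2 ⟨ENNReal.add_lt_top.2 ⟨h.relEntropy_datum_lt_top, ?_⟩,
      hexpI.lintegral_lt_top⟩
    exact ENNReal.mul_lt_top (by norm_num) (h.momB_lt_top T 2)
  · intro t ht
    change ∫⁻ q, ENNReal.ofReal (F t q.1 q.2 * (1 + ‖q.2‖ ^ 2 + |Real.log (F t q.1 q.2)|)) ∂muC ≤ _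
    have hF := h.measurable_F t
    have hent : relEntropy (F t) ≤ relEntropy F0 :=
      le_trans le_self_add (h.entropy_ineq ht.1)
    rw [relEntropy_eq] at hent
    have hmom := h.moment_le ht.1 ht.2 2
    have mE : Measurable (fun q : R3 × R3 =>
        ENNReal.ofReal (entD 0 (F t q.1 q.2) (maxwellian q.2))) :=
      (measurable_entD' hF).ennreal_ofReal
    have mM : Measurable (fun q : R3 × R3 =>
        ENNReal.ofReal (wt 2 q.2) * ENNReal.ofReal (F t q.1 q.2)) :=
      (by fun_prop : Measurable fun q : R3 × R3 => ENNReal.ofReal (wt 2 q.2)).mul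
        hF.ennreal_ofReal
    calc ∫⁻ q, ENNReal.ofReal (F t q.1 q.2 * (1 + ‖q.2‖ ^ 2 + |Real.log (F t q.1 q.2)|)) ∂muC
        ≤ ∫⁻ q, (ENNReal.ofReal (entD 0 (F t q.1 q.2) (maxwellian q.2)) +
            3 * (ENNReal.ofReal (wt 2 q.2) * ENNReal.ofReal (F t q.1 q.2)) +
            ENNReal.ofReal (2 * Real.exp (-(1 / 4) * ‖q.2‖ ^ 2))) ∂muC := by
          refine lintegral_mono fun q => ?_
          have hz := h.nonneg t q.1 q.2 ht.1
          have hb := abs_log_bound hz q.2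
          have hw := wt_two q.2
          have hE := entD_nonneg (d := 0) le_rfl hz (maxwellian_pos q.2)
          have e3 : ENNReal.ofReal (3 * (wt 2 q.2 * F t q.1 q.2)) =
              3 * (ENNReal.ofReal (wt 2 q.2) * ENNReal.ofReal (F t q.1 q.2)) := by
            rw [ENNReal.ofReal_mul (by norm_num), ENNReal.ofReal_mul (wt_pos 2 q.2).le]
            congr 1
            norm_num
          have hwF : 0 ≤ 3 * (wt 2 q.2 * F t q.1 q.2) := by
            have := (wt_pos 2 q.2).le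
            positivity
          rw [← e3, ← ENNReal.ofReal_add hE hwF, ← ENNReal.ofReal_add (add_nonneg hE hwF)
            (by positivity)]
          refine ENNReal.ofReal_le_ofReal ?_
          rw [hw]
          nlinarith
      _ = (∫⁻ q, ENNReal.ofReal (entD 0 (F t q.1 q.2) (maxwellian q.2)) ∂muC) +
            3 * (∫⁻ q, ENNReal.ofReal (wt 2 q.2) * ENNReal.ofReal (F t q.1 q.2) ∂muC) +
            ∫⁻ q, ENNReal.ofReal (2 * Real.exp (-(1 / 4) * ‖q.2‖ ^ 2)) ∂muC := by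
          have mS : Measurable (fun q : R3 × R3 =>
              ENNReal.ofReal (entD 0 (F t q.1 q.2) (maxwellian q.2)) +
              3 * (ENNReal.ofReal (wt 2 q.2) * ENNReal.ofReal (F t q.1 q.2))) :=
            mE.add (mM.const_mul 3)
          rw [lintegral_add_left mS, lintegral_add_left mE, lintegral_const_mul _ mM]
      _ ≤ _ := by
          refine add_le_add (add_le_add hent ?_) le_rfl
          exact mul_le_mul' le_rfl hmom

end MildSol

end Crest.Agent.R68
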