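import Crest.Agent.R68.EHyp

-- ▼ part R68/EWk1
section

/-!
R68 / EWk1: basic consequences of the hypotheses MildSol (helper485, Part E).
-/

set_option autoImplicit false
open MeasureTheory
open scoped ENNReal
open Crest.AnalysisR.VecCalc3 Crest.AnalysisR.PDE.Boltzmann

namespace Crest.Agent.R68

/-- time set × phase cell -/
noncomputable def nuA (A : Set ℝ) : Measure (ℝ × R3 × R3) :=
  ((volume : Measure ℝ).restrict A).prod muC

instance (A : Set ℝ) : SFinite (nuA A) := by unfold nuA; infer_instance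

theorem nuA_eq (A : Set ℝ) :
    (volume : Measure (ℝ × R3 × R3)).restrict (A ×ˢ (cell ×ˢ Set.univ)) = nuA A := by
  unfold nuA muC
  rw [Measure.prod_restrict, ← Measure.volume_eq_prod]

theorem region_eq : (volume : Measure (ℝ × R3 × R3)).restrict region = nuA (Set.Ioi 0) := by
  unfold region
  exact nuA_eq _

theorem nuA_Ioo_Ioc (T : ℝ) : nuA (Set.Ioo 0 T) = nuA (Set.Ioc 0 T) := by
  unfold nuA
  rw [Measure.restrict_congr_set Ioo_ae_eq_Ioc]

theorem lintegral_nuA {A : Set ℝ} {G : ℝ × R3 × R3 → ℝ≥0∞} (hG : Measurable G) :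
    ∫⁻ p, G p ∂nuA A = ∫⁻ t in A, ∫⁻ q, G (t, q) ∂muC := by
  unfold nuA
  rw [lintegral_prod _ hG.aemeasurable]

theorem lintegral_nuA' {A : Set ℝ} {G : ℝ × R3 × R3 → ℝ≥0∞} (hG : Measurable G) :
    ∫⁻ p, G p ∂nuA A = ∫⁻ q, (∫⁻ t in A, G (t, q)) ∂muC := by
  unfold nuA
  rw [lintegral_prod_symm _ hG.aemeasurable]

@[fun_prop]
theorem measurable_shiftT : Measurable (fun p : ℝ × R3 × R3 => (p.1, shift p.1 p.2)) :=
  measurable_fst.prodMk (Measurable.shift measurable_fst measurable_snd)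

theorem lintegral_nuA_shift {A : Set ℝ} {G : ℝ × R3 × R3 → ℝ≥0∞} (hG : Measurable G)
    (hp : ∀ t, PerX (fun q => G (t, q))) :
    ∫⁻ p, G (p.1, shift p.1 p.2) ∂nuA A = ∫⁻ p, G p ∂nuA A := by
  have hGm : Measurable (fun p : ℝ × R3 × R3 => G (p.1, shift p.1 p.2)) :=
    hG.comp measurable_shiftT
  rw [lintegral_nuA hGm, lintegral_nuA hG]
  refine lintegral_congr fun t => ?_
  exact lintegral_shift (G := fun q => G (t, q)) (hG.comp measurable_prodMk_left) (hp t) t

theorem integrable_nuA_shift {A : Set ℝ} {G : ℝ × R3 × R3 → ℝ} (hG : Measurable G)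
    (hp : ∀ t, PerX (fun q => G (t, q))) :
    Integrable (fun p => G (p.1, shift p.1 p.2)) (nuA A) ↔ Integrable G (nuA A) := by
  have hGm : Measurable (fun p : ℝ × R3 × R3 => G (p.1, shift p.1 p.2)) :=
    hG.comp measurable_shiftT
  have h := lintegral_nuA_shift (A := A) (G := fun p => ‖G p‖ₑ) hG.enorm
    (fun t => (hp t).comp _)
  constructor
  · intro hi
    refine ⟨hG.aestronglyMeasurable, ?_⟩
    have := hi.2
    rw [hasFiniteIntegral_iff_enorm] at this ⊢
    rwa [h] at this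
  · intro hi
    refine ⟨hGm.aestronglyMeasurable, ?_⟩
    have := hi.2
    rw [hasFiniteIntegral_iff_enorm] at this ⊢
    rwa [h]

/-- total collision rate -/
noncomputable def gl (F : ℝ → R3 → R3 → ℝ) (t : ℝ) (q : R3 × R3) : ℝ≥0∞ :=
  collGain F t q.1 q.2 + collLoss F t q.1 q.2

theorem enorm_Qr_le (F : ℝ → R3 → R3 → ℝ) (t : ℝ) (q : R3 × R3) : ‖Qr F t q‖ₑ ≤ gl F t q := by
  unfold Qr gl
  refine (enorm_sub_le).trans (add_le_add ?_ ?_)
  · rw [Real.enorm_eq_ofReal ENNReal.toReal_nonneg]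
    exact ENNReal.ofReal_toReal_le
  · rw [Real.enorm_eq_ofReal ENNReal.toReal_nonneg]
    exact ENNReal.ofReal_toReal_le

/-- polynomial weight -/
noncomputable def wt (k : ℕ) (v : R3) : ℝ := (1 + ‖v‖ ^ 2) ^ (k / 2 : ℝ)

theorem wt_pos (k : ℕ) (v : R3) : 0 < wt k v := by unfold wt; positivity

theorem one_le_wt (k : ℕ) (v : R3) : 1 ≤ wt k v := by
  unfold wt
  refine Real.one_le_rpow ?_ (by positivity)
  nlinarith [sq_nonneg ‖v‖]

theorem wt_zero (v : R3) : wt 0 v = 1 := by simp [wt]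

theorem wt_two (v : R3) : wt 2 v = 1 + ‖v‖ ^ 2 := by simp [wt]

@[fun_prop]
theorem continuous_wt (k : ℕ) : Continuous (wt k) := by
  unfold wt
  refine Continuous.rpow_const (by fun_prop) fun v => ?_
  right
  positivity

@[fun_prop]
theorem measurable_wt (k : ℕ) : Measurable (wt k) := (continuous_wt k).measurable

theorem wt_mono (k : ℕ) {v : R3} {r : ℝ} (hv : ‖v‖ ≤ r) : wt k v ≤ (1 + r ^ 2) ^ (k / 2 : ℝ) := by
  unfold wt
  refine Real.rpow_le_rpow (by positivity) ?_ (by positivity)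
  have := norm_nonneg v
  nlinarith

theorem wt_mul (k l : ℕ) (v : R3) : wt k v * wt l v = wt (k + l) v := by
  unfold wt
  rw [← Real.rpow_add (by positivity)]
  congr 1
  push_cast
  ring

theorem norm_le_wt_one (v : R3) : ‖v‖ ≤ wt 1 v := by
  unfold wt
  have h : (1 + ‖v‖ ^ 2) ^ (((1 : ℕ) : ℝ) / 2) = Real.sqrt (1 + ‖v‖ ^ 2) := by
    rw [Real.sqrt_eq_rpow]; norm_num
  rw [h]
  refine Real.le_sqrt_of_sq_le ?_
  linarith

namespace MildSol

variable {F : ℝ → R3 → R3 → ℝ} {F0 : R3 → R3 → ℝ} {R : ℝ}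

theorem F_per (h : MildSol F F0 R) (t : ℝ) (x : R3) (i : Fin 3) :
    F t (x + EuclideanSpace.single i 1) = F t x := funext fun v => h.per t v x i

theorem perX_gain (h : MildSol F F0 R) (t : ℝ) : PerX (fun q => collGain F t q.1 q.2) := by
  intro v x i
  simp only [collGain, h.F_per]

theorem perX_loss (h : MildSol F F0 R) (t : ℝ) : PerX (fun q => collLoss F t q.1 q.2) := by
  intro v x i
  simp only [collLoss, h.F_per]

theorem perX_gl (h : MildSol F F0 R) (t : ℝ) : PerX (gl F t) :=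
  (h.perX_gain t).comp₂ (h.perX_loss t) (fun a b => a + b)

theorem perX_Qr (h : MildSol F F0 R) (t : ℝ) : PerX (Qr F t) :=
  (h.perX_gain t).comp₂ (h.perX_loss t) (fun a b => a.toReal - b.toReal)

theorem perX_F (h : MildSol F F0 R) (t : ℝ) : PerX (fun q => F t q.1 q.2) :=
  fun v x i => h.per t v x i


theorem meas_gl (h : MildSol F F0 R) : Measurable (fun p : ℝ × R3 × R3 => gl F p.1 p.2) :=
  (h.meas.collGain).add (h.meas.collLoss)

theorem meas_Qr (h : MildSol F F0 R) : Measurable (fun p : ℝ × R3 × R3 => Qr F p.1 p.2) :=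
  (h.meas.collGain.ennreal_toReal).sub (h.meas.collLoss.ennreal_toReal)

theorem meas_F0 (h : MildSol F F0 R) : Measurable (fun q : R3 × R3 => F0 q.1 q.2) := h.datum.1

theorem F0_nonneg (h : MildSol F F0 R) (x v : R3) : 0 ≤ F0 x v := h.datum.2.1 x v

/-- weighted collision rate is integrable -/
theorem gl_lt_top (h : MildSol F F0 R) (T : ℝ) (k : ℕ) :
    ∫⁻ p, ENNReal.ofReal (wt k p.2.2) * gl F p.1 p.2 ∂nuA (Set.Ioc 0 T) < ⊤ := by
  refine lt_of_le_of_lt ?_ (h.int T k)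
  rw [nuA_eq, nuA_Ioo_Ioc]
  refine lintegral_mono_ae ?_
  have : ∀ᵐ p ∂nuA (Set.Ioc 0 T), p.1 ∈ Set.Ioc 0 T := by
    unfold nuA
    rw [Measure.ae_prod_iff_ae_ae]
    · filter_upwards [ae_restrict_mem measurableSet_Ioc] with t ht
      exact Filter.Eventually.of_forall fun _ => ht
    · exact measurable_fst measurableSet_Ioc
  filter_upwards [this] with p hp
  refine mul_le_mul' (ENNReal.ofReal_le_ofReal ?_) le_rfl
  have : 0 ≤ Real.log (1 + F p.1 p.2.1 p.2.2) :=
    Real.log_nonneg (by linarith [h.nonneg p.1 p.2.1 p.2.2 hp.1.le])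
  unfold wt
  linarith

theorem gl_shift (h : MildSol F F0 R) (A : Set ℝ) (k : ℕ) :
    ∫⁻ p, ENNReal.ofReal (wt k p.2.2) * gl F p.1 (shift p.1 p.2) ∂nuA A =
      ∫⁻ p, ENNReal.ofReal (wt k p.2.2) * gl F p.1 p.2 ∂nuA A := by
  refine lintegral_nuA_shift (G := fun p => ENNReal.ofReal (wt k p.2.2) * gl F p.1 p.2) ?_ ?_
  · exact (by fun_prop : Measurable fun p : ℝ × R3 × R3 => ENNReal.ofReal (wt k p.2.2)).mul
      h.meas_gl
  · intro t
    exact (perX_snd (fun v => ENNReal.ofReal (wt k v))).comp₂ (h.perX_gl t) (fun a b => a * b)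

theorem meas_gl_shift (h : MildSol F F0 R) :
    Measurable (fun p : ℝ × R3 × R3 => gl F p.1 (shift p.1 p.2)) :=
  Measurable.comp (g := fun p : ℝ × R3 × R3 => gl F p.1 p.2)
    (f := fun p : ℝ × R3 × R3 => (p.1, shift p.1 p.2)) h.meas_gl measurable_shiftT


/-- total collision rate along characteristics is integrable -/
theorem gl_shift_lt_top (h : MildSol F F0 R) (T : ℝ) :
    ∫⁻ q, (∫⁻ t in Set.Ioc 0 T, gl F t (shift t q)) ∂muC < ⊤ := by
  have h0 := h.gl_lt_top T 0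
  rw [← h.gl_shift] at h0
  have e : (fun p : ℝ × R3 × R3 => ENNReal.ofReal (wt 0 p.2.2) * gl F p.1 (shift p.1 p.2)) =
      fun p => gl F p.1 (shift p.1 p.2) := by
    funext p
    rw [wt_zero, ENNReal.ofReal_one, one_mul]
  rw [e, lintegral_nuA' h.meas_gl_shift] at h0
  exact h0

/-- a.e. characteristic has an integrable collision rate -/
theorem ae_gl (h : MildSol F F0 R) (T : ℝ) :
    ∀ᵐ q ∂muC, ∫⁻ t in Set.Ioc 0 T, gl F t (shift t q) < ⊤ := by
  refine ae_lt_top ?_ (h.gl_shift_lt_top T).ne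
  exact Measurable.lintegral_prod_left' h.meas_gl_shift

theorem measurable_Qr_char (h : MildSol F F0 R) (q : R3 × R3) :
    Measurable (fun s => Qr F s (shift s q)) :=
  Measurable.comp (g := fun p : ℝ × R3 × R3 => Qr F p.1 p.2) (f := fun s : ℝ => (s, shift s q))
    h.meas_Qr (measurable_id.prodMk (Measurable.shift measurable_id measurable_const))

theorem ae_integrable (h : MildSol F F0 R) (T : ℝ) :
    ∀ᵐ q ∂muC, IntegrableOn (fun s => Qr F s (shift s q)) (Set.Ioc 0 T) := by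
  filter_upwards [h.ae_gl T] with q hq
  refine ⟨(h.measurable_Qr_char q).aestronglyMeasurable, ?_⟩
  rw [hasFiniteIntegral_iff_enorm]
  exact lt_of_le_of_lt (lintegral_mono fun s => enorm_Qr_le F s _) hq

end MildSol

end Crest.Agent.R68
end

-- ▼ part R68/EWk2

/-!
R68 / EWk2: moments of a mild solution (helper485, Part E).
-/

set_option autoImplicit false
open MeasureTheory
open scoped ENNReal
open Crest.AnalysisR.VecCalc3 Crest.AnalysisR.PDE.Boltzmann

namespace Crest.Agent.R68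

namespace MildSol

variable {F : ℝ → R3 → R3 → ℝ} {F0 : R3 → R3 → ℝ} {R : ℝ}

theorem F0_mass (h : MildSol F F0 R) : ∫⁻ q, ENNReal.ofReal (F0 q.1 q.2) ∂muC < ⊤ := by
  refine lt_of_le_of_lt ?_ h.datum.2.2.2.2
  unfold muC
  refine lintegral_mono fun q => ENNReal.ofReal_le_ofReal ?_
  have h0 := h.F0_nonneg q.1 q.2
  have : 1 ≤ 1 + ‖q.2‖ ^ 2 + |Real.log (F0 q.1 q.2)| := by
    have := sq_nonneg ‖q.2‖
    have := abs_nonneg (Real.log (F0 q.1 q.2))
    linarith
  nlinarith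

/-- bound of the moments of the datum -/
theorem F0_moment (h : MildSol F F0 R) (k : ℕ) :
    ∫⁻ q, ENNReal.ofReal (wt k q.2) * ENNReal.ofReal (F0 q.1 q.2) ∂muC < ⊤ := by
  have : ∫⁻ q, ENNReal.ofReal (wt k q.2) * ENNReal.ofReal (F0 q.1 q.2) ∂muC ≤
      ∫⁻ q, ENNReal.ofReal ((1 + R ^ 2) ^ (k / 2 : ℝ)) * ENNReal.ofReal (F0 q.1 q.2) ∂muC := by
    refine lintegral_mono fun q => ?_
    by_cases hq : R ≤ ‖q.2‖
    · rw [h.datum.2.2.2.1 q.1 q.2 hq]
      simp
    · exact mul_le_mul' (ENNReal.ofReal_le_ofReal (wt_mono k (le_of_not_ge hq))) le_rfl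
  refine lt_of_le_of_lt this ?_
  rw [lintegral_const_mul _ h.meas_F0.ennreal_ofReal]
  exact ENNReal.mul_lt_top ENNReal.ofReal_lt_top h.F0_mass

theorem measurable_F (h : MildSol F F0 R) (t : ℝ) :
    Measurable (fun q : R3 × R3 => F t q.1 q.2) :=
  h.meas.comp (f := fun _ : R3 × R3 => t) measurable_const measurable_fst measurable_snd

/-- pointwise bound along characteristics -/
theorem enorm_F_shift_le (h : MildSol F F0 R) {t : ℝ} (ht : 0 ≤ t) :
    ∀ᵐ q ∂muC, ENNReal.ofReal (F t (shift t q).1 (shift t q).2) ≤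
      ENNReal.ofReal (F0 q.1 q.2) + ∫⁻ s in Set.Ioc 0 t, gl F s (shift s q) := by
  filter_upwards [ae_muC_of_ae (h.mild t ht)] with q hq
  have e : F t (shift t q).1 (shift t q).2 = F t (q.1 + t • q.2) q.2 := rfl
  rw [e, hq, intervalIntegral.integral_of_le ht]
  refine ENNReal.ofReal_add_le.trans (add_le_add le_rfl ?_)
  refine (Real.ofReal_le_enorm _).trans ?_
  refine (enorm_integral_le_lintegral_enorm _).trans ?_
  exact lintegral_mono fun s => enorm_Qr_le F s _

/-- the moment bound on [0,T] -/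
noncomputable def momB (F : ℝ → R3 → R3 → ℝ) (F0 : R3 → R3 → ℝ) (T : ℝ) (k : ℕ) : ℝ≥0∞ :=
  (∫⁻ q, ENNReal.ofReal (wt k q.2) * ENNReal.ofReal (F0 q.1 q.2) ∂muC) +
    ∫⁻ p, ENNReal.ofReal (wt k p.2.2) * gl F p.1 p.2 ∂nuA (Set.Ioc 0 T)

theorem momB_lt_top (h : MildSol F F0 R) (T : ℝ) (k : ℕ) : momB F F0 T k < ⊤ :=
  ENNReal.add_lt_top.2 ⟨h.F0_moment k, h.gl_lt_top T k⟩

theorem moment_le (h : MildSol F F0 R) {t T : ℝ} (ht : 0 ≤ t) (htT : t ≤ T) (k : ℕ) :
    ∫⁻ q, ENNReal.ofReal (wt k q.2) * ENNReal.ofReal (F t q.1 q.2) ∂muC ≤ momB F F0 T k := by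
  have hG : Measurable (fun q : R3 × R3 =>
      ENNReal.ofReal (wt k q.2) * ENNReal.ofReal (F t q.1 q.2)) :=
    (by fun_prop : Measurable fun q : R3 × R3 => ENNReal.ofReal (wt k q.2)).mul
      (h.measurable_F t).ennreal_ofReal
  have hP : PerX (fun q : R3 × R3 => ENNReal.ofReal (wt k q.2) * ENNReal.ofReal (F t q.1 q.2)) :=
    (perX_snd (fun v => ENNReal.ofReal (wt k v))).comp₂ (h.perX_F t)
      (fun a b => a * ENNReal.ofReal b)
  rw [← lintegral_shift hG hP t]
  have h1 : ∫⁻ q, ENNReal.ofReal (wt k (shift t q).2) *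
      ENNReal.ofReal (F t (shift t q).1 (shift t q).2) ∂muC ≤
      ∫⁻ q, (ENNReal.ofReal (wt k q.2) * ENNReal.ofReal (F0 q.1 q.2) +
        ∫⁻ s in Set.Ioc 0 t, ENNReal.ofReal (wt k q.2) * gl F s (shift s q)) ∂muC := by
    refine lintegral_mono_ae ?_
    filter_upwards [h.enorm_F_shift_le ht] with q hq
    have hm : Measurable (fun s => gl F s (shift s q)) :=
      Measurable.comp (g := fun p : ℝ × R3 × R3 => gl F p.1 p.2) (f := fun s : ℝ => (s, shift s q))
        h.meas_gl (measurable_id.prodMk (Measurable.shift measurable_id measurable_const))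
    rw [lintegral_const_mul _ hm, ← mul_add]
    exact mul_le_mul' le_rfl hq
  refine h1.trans ?_
  have hm1 : Measurable (fun q : R3 × R3 => ENNReal.ofReal (wt k q.2) *
      ENNReal.ofReal (F0 q.1 q.2)) :=
    (by fun_prop : Measurable fun q : R3 × R3 => ENNReal.ofReal (wt k q.2)).mul
      h.meas_F0.ennreal_ofReal
  rw [lintegral_add_left hm1]
  unfold momB
  refine add_le_add le_rfl ?_
  have hm2 : Measurable (fun p : ℝ × R3 × R3 =>
      ENNReal.ofReal (wt k p.2.2) * gl F p.1 (shift p.1 p.2)) :=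
    (by fun_prop : Measurable fun p : ℝ × R3 × R3 => ENNReal.ofReal (wt k p.2.2)).mul
      h.meas_gl_shift
  rw [← h.gl_shift, lintegral_nuA' hm2]
  refine lintegral_mono fun q => ?_
  exact lintegral_mono_set (Set.Ioc_subset_Ioc_right htT)

/-- integrability of F(t) against polynomial weights -/
theorem integrable_F (h : MildSol F F0 R) {t : ℝ} (ht : 0 ≤ t) {g : R3 → ℝ} (hg : Measurable g)
    {C : ℝ} {k : ℕ} (hgb : ∀ v, |g v| ≤ C * wt k v) :
    Integrable (fun q : R3 × R3 => g q.2 * F t q.1 q.2) muC := by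
  refine ⟨((hg.comp measurable_snd).mul (h.measurable_F t)).aestronglyMeasurable, ?_⟩
  rw [hasFiniteIntegral_iff_enorm]
  have h1 : ∫⁻ q, ‖g q.2 * F t q.1 q.2‖ₑ ∂muC ≤
      ∫⁻ q, ENNReal.ofReal C * (ENNReal.ofReal (wt k q.2) * ENNReal.ofReal (F t q.1 q.2)) ∂muC := by
    refine lintegral_mono fun q => ?_
    rw [enorm_mul, ← mul_assoc]
    have hC : 0 ≤ C := by
      have := hgb 0
      have h2 := wt_pos k 0
      by_contra hc
      push Not at hc
      have h3 := abs_nonneg (g 0)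
      nlinarith
    refine mul_le_mul' ?_ ?_
    · rw [← ENNReal.ofReal_mul hC, Real.enorm_eq_ofReal_abs]
      exact ENNReal.ofReal_le_ofReal (hgb q.2)
    · rw [Real.enorm_eq_ofReal (h.nonneg t _ _ ht)]
  refine lt_of_le_of_lt h1 ?_
  have hG : Measurable (fun q : R3 × R3 =>
      ENNReal.ofReal (wt k q.2) * ENNReal.ofReal (F t q.1 q.2)) :=
    (by fun_prop : Measurable fun q : R3 × R3 => ENNReal.ofReal (wt k q.2)).mul
      (h.measurable_F t).ennreal_ofReal
  rw [lintegral_const_mul _ hG]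
  exact ENNReal.mul_lt_top ENNReal.ofReal_lt_top
    (lt_of_le_of_lt (h.moment_le ht le_rfl k) (h.momB_lt_top t k))

/-- the time-integrated moments -/
theorem moment_time (h : MildSol F F0 R) (T : ℝ) (k : ℕ) :
    ∫⁻ p, ENNReal.ofReal (wt k p.2.2) * ENNReal.ofReal (F p.1 p.2.1 p.2.2)
      ∂nuA (Set.Ioc 0 T) < ⊤ := by
  have hG : Measurable (fun p : ℝ × R3 × R3 =>
      ENNReal.ofReal (wt k p.2.2) * ENNReal.ofReal (F p.1 p.2.1 p.2.2)) :=
    (by fun_prop : Measurable fun p : ℝ × R3 × R3 => ENNReal.ofReal (wt k p.2.2)).mul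
      (Measurable.ennreal_ofReal h.meas)
  rw [lintegral_nuA hG]
  have h1 : ∫⁻ t in Set.Ioc 0 T, (∫⁻ q, ENNReal.ofReal (wt k q.2) *
      ENNReal.ofReal (F t q.1 q.2) ∂muC) ≤ ∫⁻ _ in Set.Ioc 0 T, momB F F0 T k := by
    refine setLIntegral_mono measurable_const ?_
    intro t ht
    exact h.moment_le ht.1.le ht.2 k
  refine lt_of_le_of_lt h1 ?_
  rw [setLIntegral_const]
  exact ENNReal.mul_lt_top (h.momB_lt_top T k) (by rw [Real.volume_Ioc]; exact ENNReal.ofReal_lt_top)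

end MildSol

end Crest.Agent.R68
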