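import Crest.Agent.R68.EWk3
import Crest.Agent.R68.EWeak

-- ▼ part R68/EWk4
section

/-!
R68 / EWk4: test functions are test pairs; IsWeakSolution (helper485, Part E).
-/

set_option autoImplicit false
open MeasureTheory
open scoped ENNReal ContDiff
open Crest.AnalysisR.VecCalc3 Crest.AnalysisR.PDE.Boltzmann

namespace Crest.Agent.R68

theorem norm_le_two_of_cell {x : R3} (hx : x ∈ cell) : ‖x‖ ≤ 2 := by
  rw [EuclideanSpace.norm_eq, Fin.sum_univ_three]
  have h : ∀ i, ‖x i‖ ^ 2 ≤ 1 := by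
    intro i
    have h1 := (hx i).1
    have h2 := (hx i).2
    rw [Real.norm_eq_abs, sq_abs]
    nlinarith
  rw [Real.sqrt_le_left (by norm_num)]
  have := h 0
  have := h 1
  have := h 2
  linarith

theorem fderiv_sum_single (L : R3 →L[ℝ] ℝ) (v : R3) :
    ∑ i : Fin 3, v i * L (EuclideanSpace.single i 1) = L v := by
  have hv : v = ∑ i : Fin 3, v i • EuclideanSpace.single i (1 : ℝ) := by
    ext j
    rw [Fin.sum_univ_three]
    fin_cases j <;> simp
  conv_rhs => rw [hv]
  rw [map_sum]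
  simp only [map_smul, smul_eq_mul]

section smoothTXV

variable {φ : ℝ → R3 → R3 → ℝ}

/-- total derivative along the transport direction -/
theorem transportD_eq (hφ : ContDiff ℝ ∞ (fun p : ℝ × R3 × R3 => φ p.1 p.2.1 p.2.2))
    (t : ℝ) (x v : R3) :
    transportD φ t x v =
      fderiv ℝ (fun p : ℝ × R3 × R3 => φ p.1 p.2.1 p.2.2) (t, x, v) (1, v, 0) := by
  set Ψ : ℝ × R3 × R3 → ℝ := fun p => φ p.1 p.2.1 p.2.2 with hΨ
  have hd : Differentiable ℝ Ψ := hφ.differentiable (by norm_num)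
  have hF : HasFDerivAt Ψ (fderiv ℝ Ψ (t, x, v)) (t, x, v) := (hd _).hasFDerivAt
  have h1 : HasDerivAt (fun s => φ s x v) (fderiv ℝ Ψ (t, x, v) (1, 0, 0)) t := by
    have hc : HasDerivAt (fun s : ℝ => ((s, x, v) : ℝ × R3 × R3)) (1, 0, 0) t := by
      exact (hasDerivAt_id t).prodMk ((hasDerivAt_const t x).prodMk (hasDerivAt_const t v))
    exact hF.comp_hasDerivAt t hc
  have h2 : HasFDerivAt (fun y => φ t y v)
      ((fderiv ℝ Ψ (t, x, v)).comp ((0 : R3 →L[ℝ] ℝ).prod ((ContinuousLinearMap.id ℝ R3).prod 0)))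
      x := by
    have hc : HasFDerivAt (fun y : R3 => ((t, y, v) : ℝ × R3 × R3))
        ((0 : R3 →L[ℝ] ℝ).prod ((ContinuousLinearMap.id ℝ R3).prod 0)) x := by
      exact (hasFDerivAt_const t x).prodMk ((hasFDerivAt_id x).prodMk (hasFDerivAt_const v x))
    exact HasFDerivAt.comp x hF hc
  unfold transportD pderiv
  rw [h1.deriv, h2.fderiv]
  rw [fderiv_sum_single]
  simp only [ContinuousLinearMap.comp_apply, ContinuousLinearMap.prod_apply,
    zero_apply, ContinuousLinearMap.id_apply]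
  rw [← map_add]
  simp

theorem hasDerivAt_char (hφ : ContDiff ℝ ∞ (fun p : ℝ × R3 × R3 => φ p.1 p.2.1 p.2.2))
    (q : R3 × R3) (t : ℝ) :
    HasDerivAt (fun s => φ s (shift s q).1 (shift s q).2)
      (transportD φ t (shift t q).1 (shift t q).2) t := by
  rw [transportD_eq hφ]
  set Ψ : ℝ × R3 × R3 → ℝ := fun p => φ p.1 p.2.1 p.2.2 with hΨ
  have hd : Differentiable ℝ Ψ := hφ.differentiable (by norm_num)
  have hF : HasFDerivAt Ψ (fderiv ℝ Ψ (t, (shift t q).1, (shift t q).2))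
    (t, (shift t q).1, (shift t q).2) := (hd _).hasFDerivAt
  have hc : HasDerivAt (fun s : ℝ => ((s, (shift s q).1, (shift s q).2) : ℝ × R3 × R3))
      (1, (shift t q).2, 0) t := by
    have h1 : HasDerivAt (fun s : ℝ => q.1 + s • q.2) q.2 t := by
      have := ((hasDerivAt_id t).smul_const q.2).const_add q.1
      simpa using this
    exact (hasDerivAt_id t).prodMk (h1.prodMk (hasDerivAt_const t q.2))
  exact hF.comp_hasDerivAt t hc

theorem continuous_transportD (hφ : ContDiff ℝ ∞ (fun p : ℝ × R3 × R3 => φ p.1 p.2.1 p.2.2)) :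
    Continuous (fun p : ℝ × R3 × R3 => transportD φ p.1 p.2.1 p.2.2) := by
  have e : (fun p : ℝ × R3 × R3 => transportD φ p.1 p.2.1 p.2.2) = fun p =>
      fderiv ℝ (fun p : ℝ × R3 × R3 => φ p.1 p.2.1 p.2.2) p (1, p.2.2, 0) := by
    funext p
    rw [transportD_eq hφ]
  rw [e]
  have h1 : Continuous (fun p : ℝ × R3 × R3 =>
      fderiv ℝ (fun p : ℝ × R3 × R3 => φ p.1 p.2.1 p.2.2) p) :=
    hφ.continuous_fderiv (by norm_num)
  exact h1.clm_apply (by fun_prop)

theorem perX_transportD (hp : ∀ t v, IsPeriodic3 (fun x => φ t x v)) (t : ℝ) :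
    PerX (fun q => transportD φ t q.1 q.2) := by
  intro v x i
  have h1 : ∀ s, φ s (x + EuclideanSpace.single i 1) v = φ s x v := fun s => hp s v x i
  have h2 : ∀ j, pderiv (fun y => φ t y v) j (x + EuclideanSpace.single i 1) =
      pderiv (fun y => φ t y v) j x := by
    intro j
    unfold pderiv
    have e : (fun y => φ t (y + EuclideanSpace.single i 1) v) = fun y => φ t y v :=
      funext fun y => hp t v y i
    have := fderiv_comp_add_right (𝕜 := ℝ) (f := fun y => φ t y v) (x := x)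
      (EuclideanSpace.single i 1)
    rw [e] at this
    rw [this]
  simp only [transportD, h1, h2]

theorem testPair_of_test (hφ : IsTestFunction φ) :
    ∃ T, TestPair (fun t q => φ t q.1 q.2) (fun t q => transportD φ t q.1 q.2) T := by
  obtain ⟨hs, hp, T0, R0, hv⟩ := hφ
  set T := max T0 0 + 1 with hT
  have hTpos : 0 < T := by have := le_max_right T0 0; linarith
  have hT0 : T0 < T := by have := le_max_left T0 0; linarith
  have hcont : Continuous (fun p : ℝ × R3 × R3 => φ p.1 p.2.1 p.2.2) := hs.continuous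
  have hcontD := continuous_transportD hs
  -- vanishing of the derivative
  have hvan1 : ∀ t x v, T ≤ t → transportD φ t x v = 0 := by
    intro t x v ht
    rw [transportD_eq hs]
    have h0 : (fun p : ℝ × R3 × R3 => φ p.1 p.2.1 p.2.2) =ᶠ[nhds (t, x, v)] fun _ => 0 := by
      have : {p : ℝ × R3 × R3 | T0 < p.1} ∈ nhds (t, x, v) :=
        (isOpen_lt continuous_const continuous_fst).mem_nhds (by simpa using lt_of_lt_of_le hT0 ht)
      filter_upwards [this] with p hp
      exact hv _ _ _ (Or.inl (le_of_lt hp))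
    rw [h0.fderiv_eq]
    simp
  have hvan2 : ∀ t x v, R0 < ‖v‖ → transportD φ t x v = 0 := by
    intro t x v ht
    rw [transportD_eq hs]
    have h0 : (fun p : ℝ × R3 × R3 => φ p.1 p.2.1 p.2.2) =ᶠ[nhds (t, x, v)] fun _ => 0 := by
      have : {p : ℝ × R3 × R3 | R0 < ‖p.2.2‖} ∈ nhds (t, x, v) :=
        (isOpen_lt continuous_const (by fun_prop)).mem_nhds (by simpa using ht)
      filter_upwards [this] with p hp
      exact hv _ _ _ (Or.inr (le_of_lt hp))
    rw [h0.fderiv_eq]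
    simp
  have hK : IsCompact (Set.Icc (0 : ℝ) T ×ˢ
      (Metric.closedBall (0 : R3) 2 ×ˢ Metric.closedBall (0 : R3) R0)) :=
    isCompact_Icc.prod ((isCompact_closedBall _ _).prod (isCompact_closedBall _ _))
  obtain ⟨C1, hC1⟩ := hK.exists_bound_of_continuousOn hcont.continuousOn
  obtain ⟨C2, hC2⟩ := hK.exists_bound_of_continuousOn hcontD.continuousOn
  refine ⟨T, hTpos, hcont.measurable, hcontD.measurable, fun t v => hp t v, perX_transportD hp,
    hasDerivAt_char hs, ?_, ?_, ?_⟩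
  · intro q
    have : Continuous (fun t : ℝ => ((t, (shift t q).1, (shift t q).2) : ℝ × R3 × R3)) := by
      unfold shift; fun_prop
    exact hcontD.comp this
  · refine ⟨max (max C1 C2) 0, 0, ?_⟩
    intro t ht x hx v
    rw [wt_zero, mul_one]
    have hx2 : x ∈ Metric.closedBall (0 : R3) 2 := by
      rw [mem_closedBall_zero_iff]; exact norm_le_two_of_cell hx
    by_cases hvR : ‖v‖ ≤ R0
    · have hmem : ((t, x, v) : ℝ × R3 × R3) ∈ (Set.Icc (0 : ℝ) T ×ˢ
        (Metric.closedBall (0 : R3) 2 ×ˢ Metric.closedBall (0 : R3) R0)) :=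
        ⟨ht, hx2, by rw [mem_closedBall_zero_iff]; exact hvR⟩
      have h1 := hC1 _ hmem
      have h2 := hC2 _ hmem
      simp only [Real.norm_eq_abs] at h1 h2
      exact ⟨h1.trans ((le_max_left _ _).trans (le_max_left _ _)),
        h2.trans ((le_max_right _ _).trans (le_max_left _ _))⟩
    · push Not at hvR
      simp only
      rw [hv t x v (Or.inr hvR.le), hvan2 t x v hvR, abs_zero]
      exact ⟨le_max_right _ _, le_max_right _ _⟩
  · intro t q ht
    exact ⟨hv _ _ _ (Or.inl (hT0.le.trans ht)), hvan1 _ _ _ ht⟩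

end smoothTXV

theorem MildSol.isWeakSolution {F : ℝ → R3 → R3 → ℝ} {F0 : R3 → R3 → ℝ} {R : ℝ}
    (h : MildSol F F0 R) : IsWeakSolution F F0 := by
  intro φ hφ
  obtain ⟨T, tp⟩ := testPair_of_test hφ
  obtain ⟨i1, i2, i3, e⟩ := h.weak_Ioi tp
  unfold IntegrableOn
  rw [region_eq]
  exact ⟨i1, i2, i3, e⟩

end Crest.Agent.R68
end

-- ▼ part R68/EWk5
section

/-!
R68 / EWk5: collision invariants, local conservation, momentum and energy (helper485, Part E).
-/

set_option autoImplicit false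
open MeasureTheory
open scoped ENNReal ContDiff
open Crest.AnalysisR.VecCalc3 Crest.AnalysisR.PDE.Boltzmann

namespace Crest.Agent.R68

/-- collision invariant -/
def IsInv (ψ : R3 → ℝ) : Prop :=
  ∀ v vs w : R3, ‖w‖ = 1 → ψ (postVel v vs w) + ψ (postVelStar v vs w) = ψ v + ψ vs

theorem isInv_one : IsInv (fun _ => 1) := fun _ _ _ _ => rfl

theorem isInv_coord (i : Fin 3) : IsInv (fun v => v i) := by
  intro v vs w _
  have := congrArg (fun u : R3 => u i) (post_add v vs w)
  simpa using this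

theorem isInv_energy : IsInv (fun v => ‖v‖ ^ 2 / 2) := by
  intro v vs w hw
  have := post_norm_sq hw v vs
  simp only
  linarith

theorem ofReal_parts {a b c d : ℝ} (h : c + d = a + b) :
    ENNReal.ofReal c + ENNReal.ofReal d + (ENNReal.ofReal (-a) + ENNReal.ofReal (-b)) =
    ENNReal.ofReal a + ENNReal.ofReal b + (ENNReal.ofReal (-c) + ENNReal.ofReal (-d)) := by
  have e : ∀ x : ℝ, ENNReal.ofReal x = ENNReal.ofReal (max x 0) := by
    intro x
    rcases le_total x 0 with hx | hx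
    · rw [max_eq_right hx, ENNReal.ofReal_zero, ENNReal.ofReal_of_nonpos hx]
    · rw [max_eq_left hx]
  rw [e a, e b, e c, e d, e (-a), e (-b), e (-c), e (-d)]
  rw [← ENNReal.ofReal_add (le_max_right _ _) (le_max_right _ _),
    ← ENNReal.ofReal_add (le_max_right _ _) (le_max_right _ _),
    ← ENNReal.ofReal_add (le_max_right _ _) (le_max_right _ _),
    ← ENNReal.ofReal_add (le_max_right _ _) (le_max_right _ _),
    ← ENNReal.ofReal_add (by positivity) (by positivity),
    ← ENNReal.ofReal_add (by positivity) (by positivity)]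
  congr 1
  have m : ∀ x : ℝ, max x 0 - max (-x) 0 = x := by
    intro x
    rcases le_total x 0 with hx | hx
    · rw [max_eq_right hx, max_eq_left (by linarith)]; ring
    · rw [max_eq_left hx, max_eq_right (by linarith)]; ring
  have := m a
  have := m b
  have := m c
  have := m d
  linarith

/-- the collision operator is orthogonal to invariants -/
theorem invariant_real {F : ℝ → R3 → R3 → ℝ} {t : ℝ} {x : R3} (hF : MeasF F)
    (hfin : ∫⁻ v, ENNReal.ofReal (wt 2 v) * gl F t (x, v) < ⊤)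
    {ψ : R3 → ℝ} (hψ : Measurable ψ) (hb : ∀ v, |ψ v| ≤ wt 2 v) (hinv : IsInv ψ) :
    ∫ v, ψ v * Qr F t (x, v) = 0 := by
  have hf : Measurable (F t x) :=
    hF.comp (f := fun _ : R3 => t) (g := fun _ => x) measurable_const measurable_const measurable_id
  have hmg : Measurable (fun v => collGain F t x v) :=
    Measurable.comp (g := fun p : ℝ × R3 × R3 => collGain F p.1 p.2.1 p.2.2)
      (f := fun v : R3 => (t, x, v)) hF.collGain (by fun_prop)
  have hml : Measurable (fun v => collLoss F t x v) :=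
    Measurable.comp (g := fun p : ℝ × R3 × R3 => collLoss F p.1 p.2.1 p.2.2)
      (f := fun v : R3 => (t, x, v)) hF.collLoss (by fun_prop)
  have hw1 : ∀ v, (1 : ℝ≥0∞) ≤ ENNReal.ofReal (wt 2 v) := by
    intro v
    rw [← ENNReal.ofReal_one]
    exact ENNReal.ofReal_le_ofReal (one_le_wt 2 v)
  have hmgl : Measurable (fun v => gl F t (x, v)) := hmg.add hml
  -- a.e. finiteness
  have hae : ∀ᵐ v, gl F t (x, v) < ⊤ := by
    refine ae_lt_top hmgl ?_
    refine (lt_of_le_of_lt (lintegral_mono fun v => ?_) hfin).ne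
    calc gl F t (x, v) = 1 * gl F t (x, v) := (one_mul _).symm
      _ ≤ _ := mul_le_mul' (hw1 v) le_rfl
  -- finiteness of the four integrals
  have hfinG : ∀ χ : R3 → ℝ, (∀ v, χ v ≤ wt 2 v) →
      ∫⁻ v, ENNReal.ofReal (χ v) * collGain F t x v < ⊤ := by
    intro χ hχ
    refine lt_of_le_of_lt (lintegral_mono fun v => ?_) hfin
    exact mul_le_mul' (ENNReal.ofReal_le_ofReal (hχ v)) (le_add_right le_rfl)
  have hfinL : ∀ χ : R3 → ℝ, (∀ v, χ v ≤ wt 2 v) →
      ∫⁻ v, ENNReal.ofReal (χ v) * collLoss F t x v < ⊤ := by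
    intro χ hχ
    refine lt_of_le_of_lt (lintegral_mono fun v => ?_) hfin
    exact mul_le_mul' (ENNReal.ofReal_le_ofReal (hχ v)) (le_add_left le_rfl)
  have hb1 : ∀ v, ψ v ≤ wt 2 v := fun v => (le_abs_self _).trans (hb v)
  have hb2 : ∀ v, -ψ v ≤ wt 2 v := fun v => (neg_le_abs _).trans (hb v)
  -- integrals of ψ·gain and ψ·loss
  have hint : ∀ g : R3 → ℝ≥0∞, Measurable g → (∀ᵐ v, g v < ⊤) →
      (∀ χ : R3 → ℝ, (∀ v, χ v ≤ wt 2 v) → ∫⁻ v, ENNReal.ofReal (χ v) * g v < ⊤) →
      Integrable (fun v => ψ v * (g v).toReal) ∧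
      ∫ v, ψ v * (g v).toReal = (∫⁻ v, ENNReal.ofReal (ψ v) * g v).toReal -
        (∫⁻ v, ENNReal.ofReal (-ψ v) * g v).toReal := by
    intro g hg hgae hgf
    have hi : Integrable (fun v => ψ v * (g v).toReal) := by
      refine ⟨(hψ.mul hg.ennreal_toReal).aestronglyMeasurable, ?_⟩
      rw [hasFiniteIntegral_iff_enorm]
      refine lt_of_le_of_lt (lintegral_mono fun v => ?_) (hgf (fun v => |ψ v|) hb)
      rw [enorm_mul, Real.enorm_eq_ofReal_abs, Real.enorm_eq_ofReal ENNReal.toReal_nonneg]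
      exact mul_le_mul' le_rfl ENNReal.ofReal_toReal_le
    refine ⟨hi, ?_⟩
    rw [integral_eq_lintegral_pos_part_sub_lintegral_neg_part hi]
    congr 2
    · refine lintegral_congr_ae ?_
      filter_upwards [hgae] with v hv
      rw [ENNReal.ofReal_mul' ENNReal.toReal_nonneg, ENNReal.ofReal_toReal hv.ne]
    · refine lintegral_congr_ae ?_
      filter_upwards [hgae] with v hv
      rw [← neg_mul, ENNReal.ofReal_mul' ENNReal.toReal_nonneg, ENNReal.ofReal_toReal hv.ne]
  have haeG : ∀ᵐ v, collGain F t x v < ⊤ := by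
    filter_upwards [hae] with v hv
    exact lt_of_le_of_lt (le_add_right le_rfl) hv
  have haeL : ∀ᵐ v, collLoss F t x v < ⊤ := by
    filter_upwards [hae] with v hv
    exact lt_of_le_of_lt (le_add_left le_rfl) hv
  obtain ⟨iG, eG⟩ := hint _ hmg haeG hfinG
  obtain ⟨iL, eL⟩ := hint _ hml haeL hfinL
  have e0 : ∫ v, ψ v * Qr F t (x, v) =
      (∫ v, ψ v * (collGain F t x v).toReal) - ∫ v, ψ v * (collLoss F t x v).toReal := by
    rw [← integral_sub iG iL]
    refine integral_congr_ae (Filter.Eventually.of_forall fun v => ?_)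
    simp only [Qr]
    ring
  have key := invariant_lintegral hf (φ := fun v => ENNReal.ofReal (ψ v))
    (ψ := fun v => ENNReal.ofReal (-ψ v)) hψ.ennreal_ofReal hψ.neg.ennreal_ofReal
    (fun v vs w hw => ofReal_parts (hinv v vs w hw))
  have f1 := (hfinG _ hb1).ne
  have f2 := (hfinL _ hb2).ne
  have f3 := (hfinL _ hb1).ne
  have f4 := (hfinG _ hb2).ne
  have key2 := congrArg ENNReal.toReal key
  rw [ENNReal.toReal_add f1 f2, ENNReal.toReal_add f3 f4] at key2
  rw [e0, eG, eL]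
  linarith

namespace MildSol

variable {F : ℝ → R3 → R3 → ℝ} {F0 : R3 → R3 → ℝ} {R : ℝ}

theorem abs_inv_bounds {ψ : R3 → ℝ}
    (h : ψ = (fun _ => 1) ∨ (∃ i : Fin 3, ψ = fun v => v i) ∨ ψ = fun v => ‖v‖ ^ 2 / 2) :
    Measurable ψ ∧ (∀ v, |ψ v| ≤ wt 2 v) ∧ IsInv ψ := by
  rcases h with h | ⟨i, h⟩ | h
  · subst h
    refine ⟨measurable_const, fun v => ?_, isInv_one⟩
    rw [abs_one]; exact one_le_wt 2 v
  · subst h
    refine ⟨by fun_prop, fun v => ?_, isInv_coord i⟩
    rw [wt_two]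
    have h1 : |v i| ≤ ‖v‖ := by
      have := PiLp.norm_apply_le v i
      simpa using this
    nlinarith [sq_nonneg (‖v‖ - 1), norm_nonneg v]
  · subst h
    refine ⟨by fun_prop, fun v => ?_, isInv_energy⟩
    rw [wt_two, abs_of_nonneg (by positivity)]
    nlinarith [sq_nonneg ‖v‖]

/-- for a.e. (t,x) the velocity integral of the weighted collision rate is finite -/
theorem ae_fin (h : MildSol F F0 R) (T : ℝ) : ∀ᵐ t ∂((volume : Measure ℝ).restrict (Set.Ioc 0 T)),
    ∀ᵐ x ∂((volume : Measure R3).restrict cell),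
      ∫⁻ v, ENNReal.ofReal (wt 2 v) * gl F t (x, v) < ⊤ := by
  have hG : Measurable (fun p : ℝ × R3 × R3 => ENNReal.ofReal (wt 2 p.2.2) * gl F p.1 p.2) :=
    (by fun_prop : Measurable fun p : ℝ × R3 × R3 => ENNReal.ofReal (wt 2 p.2.2)).mul h.meas_gl
  have h0 := h.gl_lt_top T 2
  rw [lintegral_nuA hG] at h0
  have hG1 : Measurable (fun t : ℝ => ∫⁻ q, ENNReal.ofReal (wt 2 q.2) * gl F t q ∂muC) :=
    Measurable.lintegral_prod_right' hG
  have h1 := ae_lt_top hG1 h0.ne
  filter_upwards [h1] with t ht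
  have hGt : Measurable (fun q : R3 × R3 => ENNReal.ofReal (wt 2 q.2) * gl F t q) :=
    Measurable.comp (g := fun p : ℝ × R3 × R3 => ENNReal.ofReal (wt 2 p.2.2) * gl F p.1 p.2)
      (f := fun q : R3 × R3 => (t, q)) hG measurable_prodMk_left
  rw [lintegral_muC' hGt] at ht
  exact ae_lt_top (Measurable.lintegral_prod_right' hGt) ht.ne

/-- orthogonality to invariants times functions of (t,x) -/
theorem integral_Q_inv (h : MildSol F F0 R) (T : ℝ) {ψ : R3 → ℝ} (hψ : Measurable ψ)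
    (hb : ∀ v, |ψ v| ≤ wt 2 v) (hinv : IsInv ψ) {η : ℝ → R3 → ℝ}
    (hi : Integrable (fun p : ℝ × R3 × R3 => Qr F p.1 p.2 * (ψ p.2.2 * η p.1 p.2.1))
      (nuA (Set.Ioc 0 T))) :
    ∫ p, Qr F p.1 p.2 * (ψ p.2.2 * η p.1 p.2.1) ∂nuA (Set.Ioc 0 T) = 0 := by
  have hi' := hi
  unfold nuA at hi ⊢
  rw [integral_prod _ hi]
  have h1 : ∀ᵐ t ∂((volume : Measure ℝ).restrict (Set.Ioc 0 T)),
      ∫ q, Qr F t q * (ψ q.2 * η t q.1) ∂muC = 0 := by
    filter_upwards [h.ae_fin T, hi.prod_right_ae] with t ht hit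
    rw [muC_eq] at hit ⊢
    rw [integral_prod _ hit]
    have h2 : ∀ᵐ x ∂((volume : Measure R3).restrict cell),
        ∫ v, Qr F t (x, v) * (ψ v * η t x) = 0 := by
      filter_upwards [ht] with x hx
      have e := invariant_real h.meas hx hψ hb hinv
      have e2 : ∀ v, Qr F t (x, v) * (ψ v * η t x) = (ψ v * Qr F t (x, v)) * η t x := by
        intro v; ring
      simp only [e2]
      rw [integral_mul_const, e, zero_mul]
    rw [integral_congr_ae h2]
    simp
  rw [integral_congr_ae h1]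
  simp

end MildSol

end Crest.Agent.R68
end

-- ▼ part R68/EWk6

/-!
R68 / EWk6: local conservation, momentum, energy, gain/loss integrability (helper485, Part E).
-/

set_option autoImplicit false
open MeasureTheory
open scoped ENNReal ContDiff
open Crest.AnalysisR.VecCalc3 Crest.AnalysisR.PDE.Boltzmann

namespace Crest.Agent.R68

/-- the (t,x)-test functions with a velocity weight are test pairs -/
theorem testPair_of_local {ψ : R3 → ℝ} (hψ : Measurable ψ) (hb : ∀ v, |ψ v| ≤ wt 2 v)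
    {η : ℝ → R3 → ℝ} (hs : ContDiff ℝ ∞ (fun p : ℝ × R3 => η p.1 p.2))
    (hp : ∀ t, IsPeriodic3 (η t)) (hv : ∃ T : ℝ, ∀ t x, T ≤ t → η t x = 0) :
    ∃ T, TestPair (fun t q => ψ q.2 * η t q.1)
      (fun t q => ψ q.2 * transportD (fun t x _ => η t x) t q.1 q.2) T := by
  obtain ⟨T0, hv⟩ := hv
  set T := max T0 0 + 1 with hT
  have hTpos : 0 < T := by have := le_max_right T0 0; linarith
  have hT0 : T0 < T := by have := le_max_left T0 0; linarith
  have hs3 : ContDiff ℝ ∞ (fun p : ℝ × R3 × R3 => η p.1 p.2.1) := by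
    have : ContDiff ℝ ∞ (fun p : ℝ × R3 × R3 => ((p.1, p.2.1) : ℝ × R3)) := by fun_prop
    exact hs.comp this
  have hcont : Continuous (fun p : ℝ × R3 × R3 => η p.1 p.2.1) := hs3.continuous
  have hcontD := continuous_transportD (φ := fun t x _ => η t x) hs3
  have hvan1 : ∀ t x v, T ≤ t → transportD (fun t x _ => η t x) t x v = 0 := by
    intro t x v ht
    rw [transportD_eq (φ := fun t x _ => η t x) hs3]
    have h0 : (fun p : ℝ × R3 × R3 => η p.1 p.2.1) =ᶠ[nhds (t, x, v)] fun _ => 0 := by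
      have : {p : ℝ × R3 × R3 | T0 < p.1} ∈ nhds (t, x, v) :=
        (isOpen_lt continuous_const continuous_fst).mem_nhds (by simpa using lt_of_lt_of_le hT0 ht)
      filter_upwards [this] with p hp
      exact hv _ _ (le_of_lt hp)
    rw [h0.fderiv_eq]
    simp
  -- bound of the derivative
  have hK : IsCompact (Set.Icc (0 : ℝ) T ×ˢ Metric.closedBall (0 : R3) 2) :=
    isCompact_Icc.prod (isCompact_closedBall _ _)
  obtain ⟨C1, hC1⟩ := hK.exists_bound_of_continuousOn hs.continuous.continuousOn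
  have hder : Continuous (fun p : ℝ × R3 => fderiv ℝ (fun p : ℝ × R3 => η p.1 p.2) p) :=
    hs.continuous_fderiv (by norm_num)
  obtain ⟨C2, hC2⟩ := hK.exists_bound_of_continuousOn hder.continuousOn
  have htr : ∀ t x v, transportD (fun t x _ => η t x) t x v =
      fderiv ℝ (fun p : ℝ × R3 => η p.1 p.2) (t, x) (1, v) := by
    intro t x v
    rw [transportD_eq (φ := fun t x _ => η t x) hs3]
    have hd : HasFDerivAt (fun p : ℝ × R3 => η p.1 p.2)
      (fderiv ℝ (fun p : ℝ × R3 => η p.1 p.2) (t, x)) (t, x) :=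
      ((hs.differentiable (by norm_num)) _).hasFDerivAt
    have hc : HasFDerivAt (fun p : ℝ × R3 × R3 => ((p.1, p.2.1) : ℝ × R3))
        ((ContinuousLinearMap.fst ℝ ℝ (R3 × R3)).prod
          ((ContinuousLinearMap.fst ℝ R3 R3).comp (ContinuousLinearMap.snd ℝ ℝ (R3 × R3))))
        (t, x, v) := by
      exact (hasFDerivAt_fst).prodMk ((hasFDerivAt_fst (p := (x, v))).comp (t, x, v) hasFDerivAt_snd)
    have h3 : HasFDerivAt (fun p : ℝ × R3 × R3 => η p.1 p.2.1)
        ((fderiv ℝ (fun p : ℝ × R3 => η p.1 p.2) (t, x)).comp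
        ((ContinuousLinearMap.fst ℝ ℝ (R3 × R3)).prod
          ((ContinuousLinearMap.fst ℝ R3 R3).comp (ContinuousLinearMap.snd ℝ ℝ (R3 × R3)))))
        (t, x, v) := HasFDerivAt.comp (f := fun p : ℝ × R3 × R3 => ((p.1, p.2.1) : ℝ × R3))
          (g := fun p : ℝ × R3 => η p.1 p.2) (t, x, v) hd hc
    rw [h3.fderiv]
    simp
  refine ⟨T, hTpos, ?_, ?_, ?_, ?_, ?_, ?_, ?_, ?_⟩
  · exact (hψ.comp (by fun_prop : Measurable fun p : ℝ × R3 × R3 => p.2.2)).mul hcont.measurable
  · exact (hψ.comp (by fun_prop : Measurable fun p : ℝ × R3 × R3 => p.2.2)).mul hcontD.measurable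
  · intro t v x i
    simp only
    rw [hp t x i]
  · intro t
    exact (perX_snd ψ).comp₂ (perX_transportD (φ := fun t x _ => η t x)
      (fun t v => hp t) t) (fun a b => a * b)
  · intro q t
    exact (hasDerivAt_char (φ := fun t x _ => η t x) hs3 q t).const_mul (ψ q.2)
  · intro q
    have : Continuous (fun t : ℝ => ((t, (shift t q).1, (shift t q).2) : ℝ × R3 × R3)) := by
      unfold shift; fun_prop
    have h2 : Continuous (fun t : ℝ =>
        transportD (fun t x _ => η t x) t (shift t q).1 (shift t q).2) := hcontD.comp this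
    exact h2.const_mul (ψ q.2)
  · refine ⟨max C1 0 + max C2 0, 3, ?_⟩
    intro t ht x hx v
    have hx2 : x ∈ Metric.closedBall (0 : R3) 2 := by
      rw [mem_closedBall_zero_iff]; exact norm_le_two_of_cell hx
    have h1 := hC1 (t, x) ⟨ht, hx2⟩
    have h2 := hC2 (t, x) ⟨ht, hx2⟩
    simp only [Real.norm_eq_abs] at h1
    have hw1 := one_le_wt 1 v
    have hw2 := one_le_wt 2 v
    have hw3 : wt 3 v = wt 2 v * wt 1 v := (wt_mul 2 1 v).symm
    have hC1' : 0 ≤ max C1 0 := le_max_right _ _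
    have hC2' : 0 ≤ max C2 0 := le_max_right _ _
    constructor
    · simp only
      rw [abs_mul]
      have a1 : |η t x| ≤ max C1 0 := h1.trans (le_max_left _ _)
      calc |ψ v| * |η t x| ≤ wt 2 v * max C1 0 :=
            mul_le_mul (hb v) a1 (abs_nonneg _) (wt_pos 2 v).le
        _ ≤ wt 3 v * (max C1 0 + max C2 0) := by
            refine mul_le_mul ?_ (by linarith) hC1' (wt_pos 3 v).le
            rw [hw3]; nlinarith
        _ = _ := mul_comm _ _
    · simp only
      rw [abs_mul, htr]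
      have a2 : |fderiv ℝ (fun p : ℝ × R3 => η p.1 p.2) (t, x) (1, v)| ≤ max C2 0 * wt 1 v := by
        have b1 := ContinuousLinearMap.le_opNorm
          (fderiv ℝ (fun p : ℝ × R3 => η p.1 p.2) (t, x)) ((1 : ℝ), v)
        rw [Real.norm_eq_abs] at b1
        have b2 : ‖((1 : ℝ), v)‖ ≤ wt 1 v := by
          rw [Prod.norm_mk, max_le_iff]
          exact ⟨by rw [norm_one]; exact hw1, norm_le_wt_one v⟩
        refine b1.trans (mul_le_mul (h2.trans (le_max_left _ _)) b2 (norm_nonneg _) hC2')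
      calc |ψ v| * |fderiv ℝ (fun p : ℝ × R3 => η p.1 p.2) (t, x) (1, v)| ≤
            wt 2 v * (max C2 0 * wt 1 v) :=
            mul_le_mul (hb v) a2 (abs_nonneg _) (wt_pos 2 v).le
        _ = max C2 0 * wt 3 v := by rw [hw3]; ring
        _ ≤ _ := by
            refine mul_le_mul_of_nonneg_right (by linarith) (wt_pos 3 v).le
  · intro t q ht
    constructor
    · rw [hv _ _ (hT0.le.trans ht), mul_zero]
    · rw [hvan1 _ _ _ ht, mul_zero]

namespace MildSol

variable {F : ℝ → R3 → R3 → ℝ} {F0 : R3 → R3 → ℝ} {R : ℝ}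

theorem hasLocalConservation (h : MildSol F F0 R) : HasLocalConservation F F0 := by
  intro ψ hψ η hs hp hv
  obtain ⟨hm, hb, hinv⟩ := abs_inv_bounds hψ
  obtain ⟨T, tp⟩ := testPair_of_local hm hb hs hp hv
  obtain ⟨i1, i2, i3, e⟩ := h.weak_Ioi tp
  have i2' := (h.weak_Ioc tp).2.1
  have ez : ∫ p, Qr F p.1 p.2 * (ψ p.2.2 * η p.1 p.2.1) ∂nuA (Set.Ioi 0) = 0 := by
    rw [integral_Ioi_eq_Ioc (T := T)]
    · exact h.integral_Q_inv T hm hb hinv i2'
    · intro p hp'
      have := (tp.van p.1 p.2 hp'.le).1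
      rw [this, mul_zero]
  have e1 : (fun p : ℝ × R3 × R3 => F p.1 p.2.1 p.2.2 *
      (ψ p.2.2 * transportD (fun t x _ => η t x) p.1 p.2.1 p.2.2)) =
      fun p : ℝ × R3 × R3 => F p.1 p.2.1 p.2.2 * ψ p.2.2 *
        transportD (fun t x _ => η t x) p.1 p.2.1 p.2.2 := by
    funext p; ring
  have e3 : (fun q : R3 × R3 => F0 q.1 q.2 * (ψ q.2 * η 0 q.1)) =
      fun q : R3 × R3 => F0 q.1 q.2 * ψ q.2 * η 0 q.1 := by
    funext q; ring
  rw [integral_add i1 i2, ez, add_zero] at e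
  rw [e1] at i1 e
  rw [e3] at i3 e
  unfold IntegrableOn
  rw [region_eq]
  exact ⟨i1, i3, e⟩

/-- conservation of the total invariants -/
theorem total_conserved (h : MildSol F F0 R) {t : ℝ} (ht : 0 ≤ t) {ψ : R3 → ℝ}
    (hψ : Measurable ψ) (hb : ∀ v, |ψ v| ≤ wt 2 v) (hinv : IsInv ψ) :
    Integrable (fun q : R3 × R3 => ψ q.2 * F t q.1 q.2) muC ∧
    ∫ q, ψ q.2 * F t q.1 q.2 ∂muC = ∫ q, ψ q.2 * F0 q.1 q.2 ∂muC := by
  have hi := h.integrable_F ht hψ (C := 1) (k := 2) (fun v => by rw [one_mul]; exact hb v)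
  refine ⟨hi, ?_⟩
  have hi0 : Integrable (fun q : R3 × R3 => ψ q.2 * F0 q.1 q.2) muC := by
    have := h.integrable_F0 (g := fun q => ψ q.2) (hψ.comp measurable_snd) (C := 1) (k := 2)
      (Filter.Eventually.of_forall fun q => by rw [one_mul]; exact hb q.2)
    refine this.congr (Filter.Eventually.of_forall fun q => ?_)
    simp only [mul_comm]
  have hG : Measurable (fun q : R3 × R3 => ψ q.2 * F t q.1 q.2) :=
    (hψ.comp measurable_snd).mul (h.measurable_F t)
  have hP : PerX (fun q : R3 × R3 => ψ q.2 * F t q.1 q.2) :=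
    (perX_snd ψ).comp₂ (h.perX_F t) (fun a b => a * b)
  rw [← integral_shift hG hP t]
  -- the time integral
  have hQg : Measurable (fun p : ℝ × R3 × R3 => Qr F p.1 p.2 * (ψ p.2.2 * 1)) :=
    h.meas_Qr.mul ((hψ.comp (by fun_prop : Measurable fun p : ℝ × R3 × R3 => p.2.2)).mul
      measurable_const)
  have hQi : Integrable (fun p : ℝ × R3 × R3 => Qr F p.1 p.2 * (ψ p.2.2 * 1))
      (nuA (Set.Ioc 0 t)) :=
    h.integrable_Q_time t (g := fun p : ℝ × R3 × R3 => ψ p.2.2 * 1) (C := 1) (k := 2)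
      ((hψ.comp (by fun_prop : Measurable fun p : ℝ × R3 × R3 => p.2.2)).mul measurable_const)
      (Filter.Eventually.of_forall fun p => by rw [one_mul, mul_one]; exact hb _)
  have hQp : ∀ s, PerX (fun q : R3 × R3 => Qr F s q * (ψ q.2 * 1)) := fun s =>
    (h.perX_Qr s).comp₂ (perX_snd ψ) (fun a b => a * (b * 1))
  have hQi2 : Integrable (fun p : ℝ × R3 × R3 => Qr F p.1 (shift p.1 p.2) * (ψ p.2.2 * 1))
      (nuA (Set.Ioc 0 t)) :=
    (integrable_nuA_shift (G := fun p : ℝ × R3 × R3 => Qr F p.1 p.2 * (ψ p.2.2 * 1))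
      hQg hQp).2 hQi
  have hzero : ∫ p, Qr F p.1 (shift p.1 p.2) * (ψ p.2.2 * 1) ∂nuA (Set.Ioc 0 t) = 0 := by
    have z1 := h.integral_Q_inv t hψ hb hinv (η := fun _ _ => 1) hQi
    have a1 : ∫ p, Qr F p.1 p.2 * (ψ p.2.2 * 1) ∂nuA (Set.Ioc 0 t) =
        ∫ s in Set.Ioc 0 t, (∫ q, Qr F s q * (ψ q.2 * 1) ∂muC) := by
      unfold nuA at hQi ⊢
      exact integral_prod _ hQi
    have a2 : ∫ p, Qr F p.1 (shift p.1 p.2) * (ψ p.2.2 * 1) ∂nuA (Set.Ioc 0 t) =
        ∫ s in Set.Ioc 0 t, (∫ q, Qr F s (shift s q) * (ψ q.2 * 1) ∂muC) := by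
      unfold nuA at hQi2 ⊢
      exact integral_prod _ hQi2
    rw [a2]
    rw [a1] at z1
    refine Eq.trans ?_ z1
    refine integral_congr_ae (Filter.Eventually.of_forall fun s => ?_)
    exact integral_shift (G := fun q : R3 × R3 => Qr F s q * (ψ q.2 * 1))
      (Measurable.comp (g := fun p : ℝ × R3 × R3 => Qr F p.1 p.2 * (ψ p.2.2 * 1))
        (f := fun q : R3 × R3 => (s, q)) hQg measurable_prodMk_left) (hQp s) s
  have hinner : Integrable (fun q : R3 × R3 =>
      ∫ s in Set.Ioc 0 t, Qr F s (shift s q) * (ψ q.2 * 1)) muC := by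
    unfold nuA at hQi2
    exact Integrable.integral_prod_right hQi2
  have hinner0 : ∫ q, (∫ s in Set.Ioc 0 t, Qr F s (shift s q) * (ψ q.2 * 1)) ∂muC = 0 := by
    refine Eq.trans ?_ hzero
    unfold nuA at hQi2 ⊢
    exact (integral_prod_symm _ hQi2).symm
  have hae : ∀ᵐ q ∂muC, ψ (shift t q).2 * F t (shift t q).1 (shift t q).2 =
      ψ q.2 * F0 q.1 q.2 + ∫ s in Set.Ioc 0 t, Qr F s (shift s q) * (ψ q.2 * 1) := by
    filter_upwards [ae_muC_of_ae (h.mild t ht)] with q hq
    have e : F t (shift t q).1 (shift t q).2 = F t (q.1 + t • q.2) q.2 := rfl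
    have e' : (shift t q).2 = q.2 := rfl
    rw [e, e', hq, intervalIntegral.integral_of_le ht, integral_mul_const]
    ring
  rw [integral_congr_ae hae, integral_add hi0 hinner, hinner0, add_zero]

theorem gain_loss_integrable (h : MildSol F F0 R) (T : ℝ) (k : ℕ) :
    (∫⁻ p in Set.Ioo 0 T ×ˢ (cell ×ˢ Set.univ),
        ENNReal.ofReal ((1 + ‖p.2.2‖ ^ 2) ^ (k / 2 : ℝ)) *
          (collGain F p.1 p.2.1 p.2.2 + collLoss F p.1 p.2.1 p.2.2)
        ∂(volume : Measure (ℝ × R3 × R3))) < ⊤ := by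
  have := h.gl_lt_top T k
  rw [nuA_eq, nuA_Ioo_Ioc]
  exact this

theorem momentum (h : MildSol F F0 R) (t : ℝ) (ht : 0 ≤ t) (i : Fin 3) :
    Integrable (fun q : R3 × R3 => q.2 i * F t q.1 q.2)
      ((volume : Measure (R3 × R3)).restrict (cell ×ˢ Set.univ)) ∧
      ∫ q in cell ×ˢ Set.univ, q.2 i * F t q.1 q.2 ∂(volume : Measure (R3 × R3)) =
        ∫ q in cell ×ˢ Set.univ, q.2 i * F0 q.1 q.2 ∂(volume : Measure (R3 × R3)) := by
  obtain ⟨hm, hb, hinv⟩ := abs_inv_bounds (ψ := fun v => v i) (Or.inr (Or.inl ⟨i, rfl⟩))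
  exact h.total_conserved ht hm hb hinv

theorem energy_eq (h : MildSol F F0 R) (t : ℝ) (ht : 0 ≤ t) :
    (∫⁻ q in cell ×ˢ Set.univ, ENNReal.ofReal (‖q.2‖ ^ 2 * F t q.1 q.2)
      ∂(volume : Measure (R3 × R3))) =
      ∫⁻ q in cell ×ˢ Set.univ, ENNReal.ofReal (‖q.2‖ ^ 2 * F0 q.1 q.2)
        ∂(volume : Measure (R3 × R3)) := by
  obtain ⟨hm, hb, hinv⟩ := abs_inv_bounds (ψ := fun v => ‖v‖ ^ 2 / 2) (Or.inr (Or.inr rfl))
  obtain ⟨hi, he⟩ := h.total_conserved ht hm hb hinv
  have hi0 : Integrable (fun q : R3 × R3 => ‖q.2‖ ^ 2 / 2 * F0 q.1 q.2) muC := by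
    have := h.integrable_F0 (g := fun q => ‖q.2‖ ^ 2 / 2) (hm.comp measurable_snd) (C := 1) (k := 2)
      (Filter.Eventually.of_forall fun q => by rw [one_mul]; exact hb q.2)
    refine this.congr (Filter.Eventually.of_forall fun q => ?_)
    simp only [mul_comm]
  have c1 : Integrable (fun q : R3 × R3 => ‖q.2‖ ^ 2 * F t q.1 q.2) muC := by
    refine (hi.const_mul 2).congr (Filter.Eventually.of_forall fun q => ?_)
    simp only; ring
  have c2 : Integrable (fun q : R3 × R3 => ‖q.2‖ ^ 2 * F0 q.1 q.2) muC := by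
    refine (hi0.const_mul 2).congr (Filter.Eventually.of_forall fun q => ?_)
    simp only; ring
  have e : ∫ q, ‖q.2‖ ^ 2 * F t q.1 q.2 ∂muC = ∫ q, ‖q.2‖ ^ 2 * F0 q.1 q.2 ∂muC := by
    have d1 : ∫ q, ‖q.2‖ ^ 2 * F t q.1 q.2 ∂muC = 2 * ∫ q, ‖q.2‖ ^ 2 / 2 * F t q.1 q.2 ∂muC := by
      rw [← integral_const_mul]
      refine integral_congr_ae (Filter.Eventually.of_forall fun q => ?_)
      simp only; ring
    have d2 : ∫ q, ‖q.2‖ ^ 2 * F0 q.1 q.2 ∂muC = 2 * ∫ q, ‖q.2‖ ^ 2 / 2 * F0 q.1 q.2 ∂muC := by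
      rw [← integral_const_mul]
      refine integral_congr_ae (Filter.Eventually.of_forall fun q => ?_)
      simp only; ring
    rw [d1, d2, he]
  change ∫⁻ q, ENNReal.ofReal (‖q.2‖ ^ 2 * F t q.1 q.2) ∂muC =
    ∫⁻ q, ENNReal.ofReal (‖q.2‖ ^ 2 * F0 q.1 q.2) ∂muC
  rw [← ofReal_integral_eq_lintegral_ofReal c1, ← ofReal_integral_eq_lintegral_ofReal c2, e]
  · exact Filter.Eventually.of_forall fun q => mul_nonneg (by positivity) (h.F0_nonneg _ _)
  · exact Filter.Eventually.of_forall fun q => mul_nonneg (by positivity) (h.nonneg _ _ _ ht)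

end MildSol

end Crest.Agent.R68
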