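import Crest.Agent.R68.Defs

-- ▼ part R68/FProd
section

/-! Row 68, PART F (helper195).  One-dimensional exact substitution for linear (Hubble type) cold
streams, and iterated integrals over `R3`. -/

set_option autoImplicit false

namespace Crest.Agent.R68.Fuel

open MeasureTheory Crest.AnalysisR.VecCalc3
open scoped ENNReal

/-! ### Affine substitution -/

theorem lint_affine {a : ℝ} (ha : a ≠ 0) (b : ℝ) (f : ℝ → ℝ≥0∞) :
    ∫⁻ v, f v = ENNReal.ofReal |a| * ∫⁻ s, f (a * s + b) := by
  have h1 : ∫⁻ s, f (a * s + b) = ∫⁻ y, f (y + b) ∂(Measure.map (fun x => a * x) volume) := by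
    have h0 := (Homeomorph.mulLeft₀ a ha).measurableEmbedding.lintegral_map (μ := volume)
      (fun y : ℝ => f (y + b))
    exact h0.symm
  have h2 : ∫⁻ v, f v = ∫⁻ y, f (y + b) := (lintegral_add_right_eq_self f b).symm
  rw [h1, h2]
  conv_lhs => rw [← Real.smul_map_volume_mul_left ha]
  rw [lintegral_smul_measure]
  rfl








/-! ### Iterated integrals over `R3` -/

/-- the point of `R3` with given coordinates -/
noncomputable def vec (a b c : ℝ) : R3 := WithLp.toLp 2 ![a, b, c]

@[simp] theorem vec_zero (a b c : ℝ) : vec a b c 0 = a := rfl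
@[simp] theorem vec_one (a b c : ℝ) : vec a b c 1 = b := rfl
@[simp] theorem vec_two (a b c : ℝ) : vec a b c 2 = c := rfl

theorem measurable_vec {α : Type*} [MeasurableSpace α] {f g h : α → ℝ} (hf : Measurable f)
    (hg : Measurable g) (hh : Measurable h) : Measurable fun x => vec (f x) (g x) (h x) := by
  unfold vec
  refine (PiLp.volume_preserving_toLp (Fin 3)).measurable.comp ?_
  refine measurable_pi_iff.2 fun i => ?_
  fin_cases i
  · exact hf
  · exact hg
  · exact hh

theorem lintegral_R3 (f : R3 → ℝ≥0∞) (hf : Measurable f) :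
    ∫⁻ v, f v = ∫⁻ a, ∫⁻ b, ∫⁻ c, f (vec a b c) := by
  have h1 := (PiLp.volume_preserving_toLp (Fin 3)).lintegral_comp hf
  rw [← h1]
  have hf1 : Measurable fun y : Fin 3 → ℝ => f (WithLp.toLp 2 y) :=
    hf.comp (PiLp.volume_preserving_toLp (Fin 3)).measurable
  have h2 := (volume_preserving_piFinSuccAbove (fun _ : Fin 3 => ℝ) 0).symm.lintegral_comp hf1
  rw [← h2, MeasureTheory.Measure.volume_eq_prod, lintegral_prod]
  · refine lintegral_congr fun a => ?_
    have hf2 : Measurable fun y : Fin 2 → ℝ => f (WithLp.toLp 2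
        ((MeasurableEquiv.piFinSuccAbove (fun _ : Fin 3 => ℝ) 0).symm (a, y))) :=
      hf1.comp ((MeasurableEquiv.measurable _).comp (by fun_prop))
    have h3 := (volume_preserving_finTwoArrow ℝ).symm.lintegral_comp hf2
    rw [← h3, MeasureTheory.Measure.volume_eq_prod, lintegral_prod]
    · refine lintegral_congr fun b => lintegral_congr fun c => ?_
      congr 1
      ext i
      fin_cases i <;> rfl
    · exact (hf2.comp (MeasurableEquiv.measurable _)).aemeasurable
  · exact (hf1.comp (MeasurableEquiv.measurable _)).aemeasurable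


end Crest.Agent.R68.Fuel
end

-- ▼ part R68/FStream

/-! Row 68, PART F (helper195).  A general cold stream with linear velocity fields (position
`x : P2`, label `a` in the first, `z` in the second direction): exact velocity integrals of its
free flow. -/

set_option autoImplicit false

namespace Crest.Agent.R68.Fuel

open MeasureTheory Crest.AnalysisR.VecCalc3 Set
open scoped ENNReal

noncomputable section

/-- free flow of a cold stream; strain `κ` in the first, `1 / r a` in the second direction,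
half-width `η`, density profile `q` -/
def strm (κ η w : ℝ) (r : ℝ → ℝ) (q : ℝ → ℝ → ℝ) (t : ℝ) (x : P2) (v : R3) : ℝ :=
  open scoped Classical in
  if |v 0 - κ * (x.1 - t * v 0)| < η ∧ |v 1 - (x.2 - t * v 1) / r (x.1 - t * v 0)| < η ∧
    |v 2 - w| < η then
    q (x.1 - t * v 0) (x.2 - t * v 1) / (8 * r (x.1 - t * v 0) * η ^ 3) else 0

theorem strm_transport (κ η w : ℝ) (r : ℝ → ℝ) (q : ℝ → ℝ → ℝ) (t : ℝ) (x : P2) (v : R3) :
    strm κ η w r q t x v = strm κ η w r q 0 (x - t • bar v) v := by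
  simp [strm, bar]

theorem strm_nonneg {κ η w : ℝ} {r : ℝ → ℝ} {q : ℝ → ℝ → ℝ} (hη : 0 ≤ η) (hr : ∀ a, 0 ≤ r a)
    (hq : ∀ a z, 0 ≤ q a z) (t : ℝ) (x : P2) (v : R3) : 0 ≤ strm κ η w r q t x v := by
  unfold strm
  split_ifs
  · have := hq (x.1 - t * v 0) (x.2 - t * v 1)
    have := hr (x.1 - t * v 0)
    positivity
  · exact le_rfl

theorem measurable_strm {κ η w : ℝ} {r : ℝ → ℝ} {q : ℝ → ℝ → ℝ} (hr : Measurable r)
    (hq : Measurable fun p : ℝ × ℝ => q p.1 p.2) :
    Measurable fun p : ℝ × P2 × R3 => strm κ η w r q p.1 p.2.1 p.2.2 := by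
  unfold strm
  have h1 : Measurable fun p : ℝ × P2 × R3 => p.2.1.1 - p.1 * p.2.2 0 := by fun_prop
  have h2 : Measurable fun p : ℝ × P2 × R3 => p.2.1.2 - p.1 * p.2.2 1 := by fun_prop
  have h3 : Measurable fun p : ℝ × P2 × R3 => |p.2.2 0 - κ * (p.2.1.1 - p.1 * p.2.2 0)| := by
    fun_prop
  have h4 : Measurable fun p : ℝ × P2 × R3 =>
      |p.2.2 1 - (p.2.1.2 - p.1 * p.2.2 1) / r (p.2.1.1 - p.1 * p.2.2 0)| :=
    (Measurable.sub (by fun_prop) (h2.div (hr.comp h1))).abs
  have h5 : Measurable fun p : ℝ × P2 × R3 => |p.2.2 2 - w| := by fun_prop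
  have h6 : Measurable fun p : ℝ × P2 × R3 =>
      q (p.2.1.1 - p.1 * p.2.2 0) (p.2.1.2 - p.1 * p.2.2 1) := hq.comp (h1.prodMk h2)
  refine Measurable.ite ?_ (h6.div (((hr.comp h1).const_mul 8).mul_const _)) measurable_const
  exact (measurableSet_lt h3 measurable_const).inter
    ((measurableSet_lt h4 measurable_const).inter (measurableSet_lt h5 measurable_const))

/-- label of the thermal coordinate `s1` -/
def sa (κ η t : ℝ) (x : P2) (s : ℝ) : ℝ := (x.1 - t * (η * s)) / (1 + κ * t)

/-- second label -/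
def sz (κ η : ℝ) (r : ℝ → ℝ) (t : ℝ) (x : P2) (s s' : ℝ) : ℝ :=
  r (sa κ η t x s) * (x.2 - t * (η * s')) / (t + r (sa κ η t x s))

/-- velocity with thermal coordinates `s` -/
def sU (κ η w : ℝ) (r : ℝ → ℝ) (t : ℝ) (x : P2) (s1 s2 s3 : ℝ) : R3 :=
  vec ((κ * x.1 + η * s1) / (1 + κ * t))
    ((x.2 + r (sa κ η t x s1) * (η * s2)) / (t + r (sa κ η t x s1))) (w + η * s3)

/-- **Lemma F.1** exact velocity integral of a cold stream -/
theorem lint_strm {κ η w : ℝ} {r : ℝ → ℝ} {q : ℝ → ℝ → ℝ} (hκ : 0 ≤ κ) (hη : 0 < η)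
    (hr0 : ∀ a, 0 ≤ r a) (hr : Measurable r)
    (hq : Measurable fun p : ℝ × ℝ => q p.1 p.2) (hq0 : ∀ a z, r a = 0 → q a z = 0)
    {t : ℝ} (ht : 0 ≤ t) (x : P2) {g : R3 → ℝ≥0∞}
    (hg : Measurable g) :
    ∫⁻ v, ENNReal.ofReal (strm κ η w r q t x v) * g v =
      ∫⁻ s1 in Ioo (-1 : ℝ) 1, ∫⁻ s2 in Ioo (-1 : ℝ) 1, ∫⁻ s3 in Ioo (-1 : ℝ) 1,
        ENNReal.ofReal (q (sa κ η t x s1) (sz κ η r t x s1 s2) /
          (8 * (t + r (sa κ η t x s1)) * (1 + κ * t))) * g (sU κ η w r t x s1 s2 s3) := by
  have h0 : 0 < 1 + κ * t := by positivity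
  have hm : Measurable fun v : R3 => ENNReal.ofReal (strm κ η w r q t x v) * g v := by
    have h1 : Measurable fun v : R3 => (t, x, v) := by fun_prop
    exact (ENNReal.measurable_ofReal.comp
      ((measurable_strm (κ := κ) (η := η) (w := w) hr hq).comp h1)).mul hg
  rw [lintegral_R3 _ hm]
  rw [lint_affine (a := η / (1 + κ * t)) (div_pos hη h0).ne' (κ * x.1 / (1 + κ * t)),
    abs_of_pos (div_pos hη h0)]
  -- second variable
  have e1 : ∀ s1 : ℝ, ∫⁻ b, ∫⁻ c,
      ENNReal.ofReal (strm κ η w r q t x (vec (η / (1 + κ * t) * s1 + κ * x.1 / (1 + κ * t)) b c)) *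
        g (vec (η / (1 + κ * t) * s1 + κ * x.1 / (1 + κ * t)) b c) =
      ENNReal.ofReal (η * r (sa κ η t x s1) / (t + r (sa κ η t x s1))) *
        ∫⁻ s2, ENNReal.ofReal η * ∫⁻ s3, (Ioo (-1 : ℝ) 1).indicator (fun _ =>
          (Ioo (-1 : ℝ) 1).indicator (fun _ => (Ioo (-1 : ℝ) 1).indicator (fun _ =>
          ENNReal.ofReal (q (sa κ η t x s1) (sz κ η r t x s1 s2) /
            (8 * r (sa κ η t x s1) * η ^ 3)) * g (sU κ η w r t x s1 s2 s3)) s3) s2) s1 := by
    intro s1
    set a := sa κ η t x s1 with ha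
    have k00 : ∀ b c : ℝ, x.1 - t * (vec (η / (1 + κ * t) * s1 + κ * x.1 / (1 + κ * t)) b c) 0 =
        a := by
      intro b c
      rw [vec_zero, ha, sa]; field_simp; ring
    rcases (hr0 a).eq_or_lt with hra | hra
    · rw [← hra, mul_zero, zero_div, ENNReal.ofReal_zero, zero_mul]
      have h3 : ∀ b c : ℝ, strm κ η w r q t x
          (vec (η / (1 + κ * t) * s1 + κ * x.1 / (1 + κ * t)) b c) = 0 := by
        intro b c
        unfold strm
        rw [k00, hq0 a _ hra.symm]
        simp
      simp [h3]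
    have h1 : 0 < t + r a := by positivity
    have h2 : 0 < η * r a / (t + r a) := by positivity
    rw [lint_affine (a := η * r a / (t + r a)) h2.ne' (x.2 / (t + r a)), abs_of_pos h2]
    congr 1
    refine lintegral_congr fun s2 => ?_
    rw [lint_affine (a := η) hη.ne' w, abs_of_pos hη]
    congr 1
    refine lintegral_congr fun s3 => ?_
    set V := vec (η / (1 + κ * t) * s1 + κ * x.1 / (1 + κ * t))
      (η * r a / (t + r a) * s2 + x.2 / (t + r a)) (η * s3 + w) with hV
    have hVU : V = sU κ η w r t x s1 s2 s3 := by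
      rw [hV, sU, ← ha]
      congr 1
      · field_simp; ring
      · field_simp; ring
      · ring
    have g0 : V 0 = η / (1 + κ * t) * s1 + κ * x.1 / (1 + κ * t) := rfl
    have g1 : V 1 = η * r a / (t + r a) * s2 + x.2 / (t + r a) := rfl
    have g2 : V 2 = η * s3 + w := rfl
    have k0 : x.1 - t * V 0 = a := by
      rw [g0, ha, sa]; field_simp; ring
    have k1 : x.2 - t * V 1 = sz κ η r t x s1 s2 := by
      rw [g1, sz, ← ha]; field_simp; ring
    have k2 : V 0 - κ * a = η * s1 := by
      rw [g0, ha, sa]; field_simp; ring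
    have k3 : V 1 - sz κ η r t x s1 s2 / r a = η * s2 := by
      rw [g1, sz, ← ha]; field_simp; ring
    have k4 : V 2 - w = η * s3 := by rw [g2]; ring
    have k5 : strm κ η w r q t x V = (Ioo (-1 : ℝ) 1).indicator (fun _ =>
          (Ioo (-1 : ℝ) 1).indicator (fun _ => (Ioo (-1 : ℝ) 1).indicator (fun _ =>
          q a (sz κ η r t x s1 s2) / (8 * r a * η ^ 3)) s3) s2) s1 := by
      have hs : ∀ s : ℝ, |η * s| < η ↔ s ∈ Ioo (-1 : ℝ) 1 := by
        intro s
        rw [abs_mul, abs_of_pos hη, mem_Ioo, ← abs_lt]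
        constructor
        · intro h; nlinarith
        · intro h; nlinarith
      unfold strm
      rw [k0, k1, k2, k3, k4]
      simp only [hs]
      by_cases h1 : s1 ∈ Ioo (-1 : ℝ) 1
      · by_cases h2 : s2 ∈ Ioo (-1 : ℝ) 1
        · by_cases h3 : s3 ∈ Ioo (-1 : ℝ) 1
          · simp only [h1, h2, h3, and_self, if_true, indicator_of_mem]
          · simp only [h1, h2, h3, and_false, if_false, indicator_of_mem, indicator_of_notMem,
              not_false_eq_true]
        · simp only [h1, h2, and_false, false_and, if_false, indicator_of_mem,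
            indicator_of_notMem, not_false_eq_true]
      · simp only [h1, false_and, if_false, indicator_of_notMem, not_false_eq_true]
    rw [k5, hVU]
    by_cases h1 : s1 ∈ Ioo (-1 : ℝ) 1
    · by_cases h2 : s2 ∈ Ioo (-1 : ℝ) 1
      · by_cases h3 : s3 ∈ Ioo (-1 : ℝ) 1
        · simp only [h1, h2, h3, indicator_of_mem]
        · simp [h3]
      · simp [h2]
    · simp [h1]
  simp_rw [e1]
  rw [← lintegral_const_mul' _ _ ENNReal.ofReal_ne_top, ← lintegral_indicator measurableSet_Ioo]
  refine lintegral_congr fun s1 => ?_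
  by_cases h1 : s1 ∈ Ioo (-1 : ℝ) 1
  · rw [indicator_of_mem h1]
    simp only [indicator_of_mem h1]
    rw [← mul_assoc, ← lintegral_const_mul' _ _ (by finiteness),
      ← lintegral_indicator measurableSet_Ioo]
    refine lintegral_congr fun s2 => ?_
    by_cases h2 : s2 ∈ Ioo (-1 : ℝ) 1
    · rw [indicator_of_mem h2]
      simp only [indicator_of_mem h2]
      rw [← mul_assoc, ← lintegral_const_mul' _ _ (by finiteness),
        ← lintegral_indicator measurableSet_Ioo]
      refine lintegral_congr fun s3 => ?_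
      by_cases h3 : s3 ∈ Ioo (-1 : ℝ) 1
      · rw [indicator_of_mem h3, indicator_of_mem h3, ← mul_assoc]
        congr 1
        rcases (hr0 (sa κ η t x s1)).eq_or_lt with hra | hra
        · rw [hq0 _ _ hra.symm]
          simp
        rw [← ENNReal.ofReal_mul (by positivity), ← ENNReal.ofReal_mul (by positivity),
          ← ENNReal.ofReal_mul (by positivity)]
        congr 1
        field_simp
      · rw [indicator_of_notMem h3, indicator_of_notMem h3, mul_zero]
    · rw [indicator_of_notMem h2]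
      simp only [indicator_of_notMem h2]
      simp
  · rw [indicator_of_notMem h1]
    simp only [indicator_of_notMem h1]
    simp

end

end Crest.Agent.R68.Fuel
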