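import Crest.Agent.R68.K2b
import Crest.Agent.R68.Defs

-- ▼ part R68/K2c
section

/-!
R68 / K2c (helper616): collisional estimates (K2.2), (K2.3), (K2.4) for abstract weights.
-/

set_option autoImplicit false
open MeasureTheory Set Metric
open scoped ENNReal Real
open Crest.AnalysisR.VecCalc3 Crest.AnalysisR.PDE.Boltzmann

namespace Crest.Agent.R68.K2

theorem ga_mul_ga (α : ℝ) {v z b : R3} (h : (inner ℝ z b : ℝ) = 0) :
    ga α (v + z) * ga α (v + b) = ga α v * ENNReal.ofReal (Real.exp (-α * ‖v + z + b‖ ^ 2)) := by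
  unfold ga
  rw [← ENNReal.ofReal_mul (Real.exp_pos _).le, ← ENNReal.ofReal_mul (Real.exp_pos _).le,
    ← Real.exp_add, ← Real.exp_add]
  congr 2
  have h1 := norm_add_sq_real v z
  have h2 := norm_add_sq_real v b
  have h3 := norm_add_sq_real (v + z) b
  rw [inner_add_left, h] at h3
  rw [h3, h2, h1]
  ring

theorem inner_rot_plane {n : R3} (hn : ‖n‖ = 1) (a b : ℝ) :
    (inner ℝ n (rot n (vec3 a b 0)) : ℝ) = 0 := by
  have hez : ez = vec3 0 0 1 := by
    apply vec3_ext <;> simp [ez]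
  conv_lhs => lhs; rw [← rot_ez hn]
  rw [inner_rot, hez, inner_vec3]; ring

theorem unit_normalize {z : R3} (hz : z ≠ 0) : ‖(‖z‖⁻¹ • z : R3)‖ = 1 := by
  rw [norm_smul, norm_inv, norm_norm, inv_mul_cancel₀ (norm_ne_zero_iff.2 hz)]

/-- the plane integral of a Gaussian times pole weight, with the outer Gaussian factor -/
theorem ga_plane {ι : Type*} [Fintype ι] {α : ℝ} (hα : 0 < α) (u : ι → R3) (v : R3) {z : R3}
    (hz : z ≠ 0) :
    ga α (v + z) * planeInt (fun y => Sw u y * ga α y) v (‖z‖⁻¹ • z)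
      ≤ ga α v * (Cpl α (Fintype.card ι) *
        ENNReal.ofReal (Real.exp (-α * (inner ℝ (v + z) (‖z‖⁻¹ • z) : ℝ) ^ 2))) := by
  have hn := unit_normalize hz
  have h := planeInt_est hα u v (v + z) (‖z‖⁻¹ • z) hn
  refine le_trans (le_of_eq ?_) (mul_le_mul_right h (ga α v))
  unfold planeInt
  rw [← lintegral_const_mul' _ _ (by unfold ga; exact ENNReal.ofReal_ne_top),
    ← lintegral_const_mul' _ _ (by unfold ga; exact ENNReal.ofReal_ne_top)]
  refine lintegral_congr fun p => ?_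
  beta_reduce
  have h1 : (inner ℝ z (rot (‖z‖⁻¹ • z) (vec3 p.1 p.2 0)) : ℝ) = 0 := by
    have h2 := inner_rot_plane hn p.1 p.2
    rw [real_inner_smul_left] at h2
    rcases mul_eq_zero.1 h2 with h3 | h3
    · exact absurd h3 (inv_ne_zero (norm_ne_zero_iff.2 hz))
    · exact h3
  rw [add_sub_cancel_left, mul_left_comm, ga_mul_ga α h1]
  ring

theorem ae_ne_zero : ∀ᵐ z : R3, z ≠ 0 := by
  rw [ae_iff]; simp

theorem Sw_le {ι : Type*} [Fintype ι] (u : ι → R3) (y : R3) :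
    Sw u y ≤ (1 + Fintype.card ι : ℝ≥0∞) +
      ∑ i, (ball (0 : R3) 1).indicator (fun y => pk ‖y‖) (y - u i) := by
  unfold Sw
  have h : ∀ i, pk ‖y - u i‖ ≤ 1 + (ball (0 : R3) 1).indicator (fun y => pk ‖y‖) (y - u i) := by
    intro i
    by_cases hy : y - u i ∈ ball (0 : R3) 1
    · rw [indicator_of_mem hy]; exact le_add_self
    · rw [indicator_of_notMem hy, add_zero]
      exact pk_le_one (not_lt.1 fun h => hy (mem_ball_zero_iff.2 h))
  calc _ ≤ 1 + ∑ i, (1 + (ball (0 : R3) 1).indicator (fun y => pk ‖y‖) (y - u i)) := by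
        gcongr with i _
        exact h i
    _ = _ := by
        rw [Finset.sum_add_distrib, Finset.sum_const, Finset.card_univ, nsmul_eq_mul, mul_one,
          add_assoc]

/-- the weighted radial integral -/
theorem lintegral_Sw {ι : Type*} [Fintype ι] {α : ℝ} (hα : 0 < α) (u : ι → R3) (v : R3) :
    ∫⁻ z : R3, ENNReal.ofReal ‖z‖⁻¹ * (Sw u (v + z) *
        ENNReal.ofReal (Real.exp (-α * (inner ℝ (v + z) (‖z‖⁻¹ • z) : ℝ) ^ 2)))
      ≤ ((1 + Fintype.card ι : ℝ≥0∞) * ENNReal.ofReal (4 * π * Crad α) +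
          Fintype.card ι * ENNReal.ofReal (16 * π)) * (1 + ENNReal.ofReal ‖v‖) := by
  have hR2 := lintegral_R2 hα v
  have hexp : ∀ z : R3, ENNReal.ofReal (Real.exp (-α * (inner ℝ (v + z) (‖z‖⁻¹ • z) : ℝ) ^ 2)) ≤ 1 := by
    intro z
    rw [ENNReal.ofReal_le_one, Real.exp_le_one_iff]
    have := sq_nonneg (inner ℝ (v + z) (‖z‖⁻¹ • z) : ℝ)
    nlinarith
  have hm1 : Measurable fun z : R3 => ENNReal.ofReal ‖z‖⁻¹ *
        ENNReal.ofReal (Real.exp (-α * (inner ℝ (v + z) (‖z‖⁻¹ • z) : ℝ) ^ 2)) := by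
    fun_prop
  have hm2 : ∀ i, Measurable fun z : R3 => ENNReal.ofReal ‖z‖⁻¹ *
      (ball (0 : R3) 1).indicator (fun y => pk ‖y‖) (z + (v - u i)) := by
    intro i
    apply Measurable.mul (by fun_prop)
    have h0 : Measurable ((ball (0 : R3) 1).indicator (fun y : R3 => pk ‖y‖)) :=
      (measurable_pk.comp (by fun_prop)).indicator measurableSet_ball
    exact h0.comp (by fun_prop)
  calc _ ≤ ∫⁻ z : R3, ((1 + Fintype.card ι : ℝ≥0∞) * (ENNReal.ofReal ‖z‖⁻¹ *
        ENNReal.ofReal (Real.exp (-α * (inner ℝ (v + z) (‖z‖⁻¹ • z) : ℝ) ^ 2))) +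
        ∑ i, ENNReal.ofReal ‖z‖⁻¹ *
          (ball (0 : R3) 1).indicator (fun y => pk ‖y‖) (z + (v - u i))) := by
        apply lintegral_mono
        intro z
        beta_reduce
        set E := ENNReal.ofReal (Real.exp (-α * (inner ℝ (v + z) (‖z‖⁻¹ • z) : ℝ) ^ 2)) with hE
        calc _ ≤ ENNReal.ofReal ‖z‖⁻¹ * (((1 + Fintype.card ι : ℝ≥0∞) +
              ∑ i, (ball (0 : R3) 1).indicator (fun y => pk ‖y‖) (v + z - u i)) * E) := by
              gcongr
              exact Sw_le u _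
          _ ≤ ENNReal.ofReal ‖z‖⁻¹ * ((1 + Fintype.card ι : ℝ≥0∞) * E +
              (∑ i, (ball (0 : R3) 1).indicator (fun y => pk ‖y‖) (v + z - u i)) * 1) := by
              rw [add_mul]
              gcongr
              exact hexp z
          _ = _ := by
              rw [mul_one, mul_add, Finset.mul_sum]
              congr 1
              · ring
              · refine Finset.sum_congr rfl fun i _ => ?_
                congr 2
                abel
    _ = (1 + Fintype.card ι : ℝ≥0∞) * (∫⁻ z : R3, (ENNReal.ofReal ‖z‖⁻¹ *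
        ENNReal.ofReal (Real.exp (-α * (inner ℝ (v + z) (‖z‖⁻¹ • z) : ℝ) ^ 2)))) +
        ∑ i, ∫⁻ z : R3, ENNReal.ofReal ‖z‖⁻¹ *
          (ball (0 : R3) 1).indicator (fun y => pk ‖y‖) (z + (v - u i)) := by
        rw [lintegral_add_left (hm1.const_mul _), lintegral_const_mul _ hm1, lintegral_finsetSum]
        intro i _
        exact hm2 i
    _ ≤ (1 + Fintype.card ι : ℝ≥0∞) * ENNReal.ofReal (4 * π * Crad α * (1 + ‖v‖)) +
        ∑ i : ι, ENNReal.ofReal (16 * π) := by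
        gcongr with i _
        exact lintegral_two_poles _
    _ = (1 + Fintype.card ι : ℝ≥0∞) * ENNReal.ofReal (4 * π * Crad α) * (1 + ENNReal.ofReal ‖v‖) +
        Fintype.card ι * ENNReal.ofReal (16 * π) := by
        rw [ENNReal.ofReal_mul (mul_nonneg (by positivity) (Crad_nonneg α)),
          ENNReal.ofReal_add zero_le_one (norm_nonneg _), ENNReal.ofReal_one, Finset.sum_const,
          Finset.card_univ, nsmul_eq_mul, ← mul_assoc (1 + (Fintype.card ι : ℝ≥0∞))]
    _ ≤ _ := by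
        rw [add_mul _ _ (1 + ENNReal.ofReal ‖v‖)]
        exact add_le_add le_rfl (le_mul_of_one_le_right zero_le le_self_add)

theorem Qp_eq_carleman {f g : R3 → ℝ≥0∞} (hf : Measurable f) (hg : Measurable g) (v : R3) :
    Qp f g v = 2 * ∫⁻ z, ENNReal.ofReal ‖z‖⁻¹ * f (v + z) * planeInt g v (‖z‖⁻¹ • z) :=
  carleman hf hg v

/-- **(K2.0)** Gaussian times poles -/
theorem Qp_gauss {ι ι' : Type*} [Fintype ι] [Fintype ι'] {α : ℝ} (hα : 0 < α) (u : ι → R3)
    (u' : ι' → R3) (v : R3) :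
    Qp (fun y => Sw u y * ga α y) (fun y => Sw u' y * ga α y) v
      ≤ Cbil α (Fintype.card ι) (Fintype.card ι') * (1 + ENNReal.ofReal ‖v‖) * ga α v := by
  have hm : Measurable fun y => Sw u y * ga α y := (measurable_Sw u).mul (measurable_ga α)
  have hm' : Measurable fun y => Sw u' y * ga α y := (measurable_Sw u').mul (measurable_ga α)
  rw [Qp_eq_carleman hm hm']
  have h1 : ∫⁻ z, ENNReal.ofReal ‖z‖⁻¹ * (Sw u (v + z) * ga α (v + z)) *
        planeInt (fun y => Sw u' y * ga α y) v (‖z‖⁻¹ • z)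
      ≤ ∫⁻ z, (ga α v * Cpl α (Fintype.card ι')) * (ENNReal.ofReal ‖z‖⁻¹ * (Sw u (v + z) *
        ENNReal.ofReal (Real.exp (-α * (inner ℝ (v + z) (‖z‖⁻¹ • z) : ℝ) ^ 2)))) := by
    refine lintegral_mono_ae ?_
    filter_upwards [ae_ne_zero] with z hz
    calc _ = ENNReal.ofReal ‖z‖⁻¹ * Sw u (v + z) * (ga α (v + z) *
          planeInt (fun y => Sw u' y * ga α y) v (‖z‖⁻¹ • z)) := by ring
      _ ≤ ENNReal.ofReal ‖z‖⁻¹ * Sw u (v + z) * (ga α v * (Cpl α (Fintype.card ι') *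
        ENNReal.ofReal (Real.exp (-α * (inner ℝ (v + z) (‖z‖⁻¹ • z) : ℝ) ^ 2)))) :=
          mul_le_mul_right (ga_plane hα u' v hz) _
      _ = _ := by ring
  have hne : ga α v * Cpl α (Fintype.card ι') ≠ ⊤ :=
    ENNReal.mul_ne_top (by unfold ga; exact ENNReal.ofReal_ne_top) (Cpl_lt_top _ _).ne
  calc _ ≤ 2 * ((ga α v * Cpl α (Fintype.card ι')) * ∫⁻ z, (ENNReal.ofReal ‖z‖⁻¹ * (Sw u (v + z) *
        ENNReal.ofReal (Real.exp (-α * (inner ℝ (v + z) (‖z‖⁻¹ • z) : ℝ) ^ 2))))) := by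
        rw [← lintegral_const_mul' _ _ hne]
        gcongr
    _ ≤ 2 * ((ga α v * Cpl α (Fintype.card ι')) *
        (((1 + Fintype.card ι : ℝ≥0∞) * ENNReal.ofReal (4 * π * Crad α) +
          Fintype.card ι * ENNReal.ofReal (16 * π)) * (1 + ENNReal.ofReal ‖v‖))) := by
        gcongr
        exact lintegral_Sw hα u v
    _ = _ := by unfold Cbil; ring

/-- Gaussian factorisation along a collision -/
theorem ga_star (α : ℝ) {v vs w : R3} (hw : ‖w‖ = 1) :
    ga α vs = ENNReal.ofReal (Real.exp (α * ‖v‖ ^ 2)) *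
      (ga α (postVel v vs w) * ga α (postVelStar v vs w)) := by
  unfold ga
  rw [← ENNReal.ofReal_mul (Real.exp_pos _).le, ← ENNReal.ofReal_mul (Real.exp_pos _).le,
    ← Real.exp_add, ← Real.exp_add]
  congr 2
  have h := post_norm_sq hw v vs
  have h2 : ‖vs‖ ^ 2 = ‖postVel v vs w‖ ^ 2 + ‖postVelStar v vs w‖ ^ 2 - ‖v‖ ^ 2 := by linarith
  rw [h2]; ring

theorem exp_mul_ga (α : ℝ) (v : R3) : ENNReal.ofReal (Real.exp (α * ‖v‖ ^ 2)) * ga α v = 1 := by
  unfold ga
  rw [← ENNReal.ofReal_mul (Real.exp_pos _).le, ← Real.exp_add]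
  simp

/-- monotonicity of `Qp` under a bound along collisions -/
theorem Qp_le_of {f g F G : R3 → ℝ≥0∞} {c : ℝ≥0∞} (hF : Measurable F) (hG : Measurable G) (v : R3)
    (h : ∀ vs w : R3, ‖w‖ = 1 → f (postVel v vs w) * g (postVelStar v vs w) ≤
      c * (F (postVel v vs w) * G (postVelStar v vs w))) :
    Qp f g v ≤ c * Qp F G v := by
  set H : R3 × R3 → ℝ≥0∞ := fun q => ENNReal.ofReal |inner ℝ (v - q.1) q.2| *
      F (postVel v q.1 q.2) * G (postVelStar v q.1 q.2) with hH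
  have hm : Measurable H := by
    rw [hH]
    unfold postVel postVelStar
    apply Measurable.mul
    · apply Measurable.mul (by fun_prop)
      exact hF.comp (by fun_prop)
    · exact hG.comp (by fun_prop)
  have h1 : Qp F G v = ∫⁻ vs, ∫⁻ w, H (vs, w) ∂sphereMeasure := rfl
  have h2 : Measurable fun vs : R3 => ∫⁻ w, H (vs, w) ∂sphereMeasure := hm.lintegral_prod_right'
  rw [h1, ← lintegral_const_mul c h2]
  unfold Qp
  refine lintegral_mono fun vs => ?_
  have h3 : Measurable fun w : R3 => H (vs, w) := hm.comp measurable_prodMk_left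
  rw [← lintegral_const_mul c h3]
  refine lintegral_mono_ae ?_
  filter_upwards [ae_sphereMeasure] with w hw
  calc _ = ENNReal.ofReal |inner ℝ (v - vs) w| *
        (f (postVel v vs w) * g (postVelStar v vs w)) := by rw [mul_assoc]
    _ ≤ ENNReal.ofReal |inner ℝ (v - vs) w| *
        (c * (F (postVel v vs w) * G (postVelStar v vs w))) := mul_le_mul_right (h vs w hw) _
    _ = c * H (vs, w) := by rw [hH]; ring

/-- **(K2.2)** hot × hot with abstract weights -/
theorem Qp_hot {ι ι' : Type*} [Fintype ι] [Fintype ι'] {α : ℝ} (hα : 0 < α) (u : ι → R3)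
    (u' : ι' → R3) {f g om1 om2 om : R3 → ℝ≥0∞} {A A' : ℝ≥0∞} (v : R3)
    (hf : ∀ y, f y ≤ A * (Sw u y * om1 y)) (hg : ∀ y, g y ≤ A' * (Sw u' y * om2 y))
    (hom : ∀ vs w : R3, ‖w‖ = 1 →
      om1 (postVel v vs w) * om2 (postVelStar v vs w) ≤ om v * ga α vs) :
    Qp f g v ≤ Cbil α (Fintype.card ι) (Fintype.card ι') * A * A' * (1 + ENNReal.ofReal ‖v‖) * om v := by
  have hm : Measurable fun y => Sw u y * ga α y := (measurable_Sw u).mul (measurable_ga α)
  have hm' : Measurable fun y => Sw u' y * ga α y := (measurable_Sw u').mul (measurable_ga α)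
  have h1 := Qp_le_of (f := f) (g := g) (c := A * A' * om v * ENNReal.ofReal (Real.exp (α * ‖v‖ ^ 2)))
    hm hm' v ?_
  · refine h1.trans ?_
    calc _ ≤ A * A' * om v * ENNReal.ofReal (Real.exp (α * ‖v‖ ^ 2)) *
          (Cbil α (Fintype.card ι) (Fintype.card ι') * (1 + ENNReal.ofReal ‖v‖) * ga α v) := by
          gcongr
          exact Qp_gauss hα u u' v
      _ = Cbil α (Fintype.card ι) (Fintype.card ι') * A * A' * (1 + ENNReal.ofReal ‖v‖) * om v *
          (ENNReal.ofReal (Real.exp (α * ‖v‖ ^ 2)) * ga α v) := by ring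
      _ = _ := by rw [exp_mul_ga, mul_one]
  · intro vs w hw
    calc _ ≤ (A * (Sw u (postVel v vs w) * om1 (postVel v vs w))) *
          (A' * (Sw u' (postVelStar v vs w) * om2 (postVelStar v vs w))) := by
          gcongr
          · exact hf _
          · exact hg _
      _ = A * A' * (Sw u (postVel v vs w) * Sw u' (postVelStar v vs w)) *
          (om1 (postVel v vs w) * om2 (postVelStar v vs w)) := by ring
      _ ≤ A * A' * (Sw u (postVel v vs w) * Sw u' (postVelStar v vs w)) * (om v * ga α vs) :=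
          mul_le_mul_right (hom vs w hw) _
      _ = _ := by rw [ga_star α (v := v) (vs := vs) hw]; ring

/-- **(K2.3)** cold × hot with abstract weights -/
theorem Qp_cold {ι : Type*} [Fintype ι] {α : ℝ} (hα : 0 < α) (u : ι → R3)
    {c g om2 om : R3 → ℝ≥0∞} {A L : ℝ≥0∞} (R' : ℝ) (v : R3) (hcm : Measurable c)
    (hc : ∀ y, R' < ‖y‖ → c y = 0) (hg : ∀ y, g y ≤ A * (Sw u y * om2 y))
    (hom : ∀ vs w : R3, ‖w‖ = 1 → ‖postVel v vs w‖ ≤ R' →
      om2 (postVelStar v vs w) ≤ L * om v * ga α vs) :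
    Qp c g v ≤ 2 * Cpl α (Fintype.card ι) * A * L * om v *
      ∫⁻ z, ENNReal.ofReal ‖z‖⁻¹ * c (v + z) := by
  have hm : Measurable fun y => c y * ga α y := hcm.mul (measurable_ga α)
  have hm' : Measurable fun y => Sw u y * ga α y := (measurable_Sw u).mul (measurable_ga α)
  have h1 := Qp_le_of (f := c) (g := g) (c := A * L * om v * ENNReal.ofReal (Real.exp (α * ‖v‖ ^ 2)))
    hm hm' v ?_
  · refine h1.trans ?_
    have h2 : Qp (fun y => c y * ga α y) (fun y => Sw u y * ga α y) v ≤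
        2 * (ga α v * Cpl α (Fintype.card ι) * ∫⁻ z, ENNReal.ofReal ‖z‖⁻¹ * c (v + z)) := by
      rw [Qp_eq_carleman hm hm']
      have hne : ga α v * Cpl α (Fintype.card ι) ≠ ⊤ :=
        ENNReal.mul_ne_top (by unfold ga; exact ENNReal.ofReal_ne_top) (Cpl_lt_top _ _).ne
      rw [← lintegral_const_mul' _ _ hne]
      gcongr 2 * ?_
      refine lintegral_mono_ae ?_
      filter_upwards [ae_ne_zero] with z hz
      calc _ = ENNReal.ofReal ‖z‖⁻¹ * c (v + z) * (ga α (v + z) *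
            planeInt (fun y => Sw u y * ga α y) v (‖z‖⁻¹ • z)) := by ring
        _ ≤ ENNReal.ofReal ‖z‖⁻¹ * c (v + z) * (ga α v * (Cpl α (Fintype.card ι) * 1)) := by
            refine mul_le_mul_right ((ga_plane hα u v hz).trans ?_) _
            refine mul_le_mul_right (mul_le_mul_right ?_ _) _
            rw [ENNReal.ofReal_le_one, Real.exp_le_one_iff]
            have := sq_nonneg (inner ℝ (v + z) (‖z‖⁻¹ • z) : ℝ)
            nlinarith
        _ = _ := by ring
    calc _ ≤ A * L * om v * ENNReal.ofReal (Real.exp (α * ‖v‖ ^ 2)) *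
          (2 * (ga α v * Cpl α (Fintype.card ι) * ∫⁻ z, ENNReal.ofReal ‖z‖⁻¹ * c (v + z))) := by
          gcongr
      _ = 2 * Cpl α (Fintype.card ι) * A * L * om v *
          (∫⁻ z, ENNReal.ofReal ‖z‖⁻¹ * c (v + z)) *
          (ENNReal.ofReal (Real.exp (α * ‖v‖ ^ 2)) * ga α v) := by ring
      _ = _ := by rw [exp_mul_ga, mul_one]
  · intro vs w hw
    by_cases hR : ‖postVel v vs w‖ ≤ R'
    · calc _ ≤ c (postVel v vs w) * (A * (Sw u (postVelStar v vs w) * om2 (postVelStar v vs w))) := by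
            gcongr
            exact hg _
        _ ≤ c (postVel v vs w) * (A * (Sw u (postVelStar v vs w) * (L * om v * ga α vs))) := by
            gcongr
            exact hom vs w hw hR
        _ = _ := by rw [ga_star α (v := v) (vs := vs) hw]; ring
    · rw [hc _ (not_le.1 hR), zero_mul]; exact zero_le

end Crest.Agent.R68.K2
end

-- ▼ part R68/K2d

/-!
R68 / K2d (helper616): loss term (K2.4) and the concrete weights (K2.5).
-/

set_option autoImplicit false
open MeasureTheory Set Metric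
open scoped ENNReal Real
open Crest.AnalysisR.VecCalc3 Crest.AnalysisR.PDE.Boltzmann

namespace Crest.Agent.R68.K2

theorem Lc_eq (g : R3 → ℝ≥0∞) (v : R3) :
    Lc g v = ∫⁻ vs, ENNReal.ofReal (2 * π * ‖v - vs‖) * g vs := by
  unfold Lc
  exact lintegral_congr fun vs => lintegral_abs_inner_mul _ _

theorem lintegral_ga {α : ℝ} (hα : 0 < α) : ∫⁻ y : R3, ga α y = ENNReal.ofReal ((π / α) ^ (3 / 2 : ℝ)) := by
  have h := GaussianFourier.integral_rexp_neg_mul_sq_norm (V := R3) hα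
  rw [finrank_R3] at h
  have hint : Integrable (fun y : R3 => Real.exp (-α * ‖y‖ ^ 2)) := by
    by_contra hc
    rw [integral_undef hc] at h
    have : 0 < (π / α) ^ ((3 : ℕ) / 2 : ℝ) := Real.rpow_pos_of_pos (by positivity) _
    rw [← h] at this
    exact lt_irrefl _ this
  unfold ga
  rw [← ofReal_integral_eq_lintegral_ofReal hint (Filter.Eventually.of_forall fun y => (Real.exp_pos _).le),
    h]
  norm_num

theorem one_add_mul_ga {α : ℝ} (hα : 0 < α) (y : R3) :
    ENNReal.ofReal (1 + ‖y‖) * ga α y ≤ ENNReal.ofReal (1 + 1 / √α) * ga (α / 2) y := by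
  unfold ga
  rw [← ENNReal.ofReal_mul (by positivity), ← ENNReal.ofReal_mul (by positivity)]
  apply ENNReal.ofReal_le_ofReal
  have h1 := abs_le_exp_sq hα ‖y‖
  rw [abs_of_nonneg (norm_nonneg _)] at h1
  have h2 : Real.exp (-α * ‖y‖ ^ 2) ≤ Real.exp (-(α / 2) * ‖y‖ ^ 2) := by
    apply Real.exp_le_exp.2
    nlinarith [sq_nonneg ‖y‖]
  nlinarith

theorem ga_le_one {α : ℝ} (hα : 0 ≤ α) (y : R3) : ga α y ≤ 1 := by
  unfold ga
  rw [ENNReal.ofReal_le_one, Real.exp_le_one_iff]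
  nlinarith [sq_nonneg ‖y‖]

theorem pk_le_52 {x : ℝ} (hx : x ≤ 1) : pk x ≤ ENNReal.ofReal x ^ (-(5 / 2) : ℝ) := by
  unfold pk
  rw [ENNReal.rpow_neg, ENNReal.rpow_neg]
  apply ENNReal.inv_le_inv.2
  exact ENNReal.rpow_le_rpow_of_exponent_ge (ENNReal.ofReal_le_one.2 hx) (by norm_num)

/-- constant of the loss estimate -/
noncomputable def Clos (α : ℝ) (m : ℕ) : ℝ≥0∞ :=
  ENNReal.ofReal (2 * π) * (ENNReal.ofReal (1 + 1 / √α) *
    ((1 + m) * ENNReal.ofReal ((π / (α / 2)) ^ (3 / 2 : ℝ)) + m * ENNReal.ofReal (8 * π)))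

theorem Clos_lt_top (α : ℝ) (m : ℕ) : Clos α m < ⊤ := by
  unfold Clos
  refine ENNReal.mul_lt_top ENNReal.ofReal_lt_top (ENNReal.mul_lt_top ENNReal.ofReal_lt_top ?_)
  refine ENNReal.add_lt_top.2 ⟨ENNReal.mul_lt_top ?_ ENNReal.ofReal_lt_top,
    ENNReal.mul_lt_top (ENNReal.natCast_lt_top m) ENNReal.ofReal_lt_top⟩
  exact ENNReal.add_lt_top.2 ⟨by simp, ENNReal.natCast_lt_top m⟩

theorem lintegral_Sw_ga {ι : Type*} [Fintype ι] {α : ℝ} (hα : 0 < α) (u : ι → R3) :
    ∫⁻ y : R3, Sw u y * ga α y ≤ (1 + Fintype.card ι) * ENNReal.ofReal ((π / α) ^ (3 / 2 : ℝ)) +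
      Fintype.card ι * ENNReal.ofReal (8 * π) := by
  have h0 : Measurable ((ball (0 : R3) 1).indicator (fun y : R3 => pk ‖y‖)) :=
    (measurable_pk.comp (by fun_prop)).indicator measurableSet_ball
  have h2 : ∀ i, Measurable fun y : R3 => (ball (0 : R3) 1).indicator (fun y => pk ‖y‖) (y - u i) :=
    fun i => h0.comp (by fun_prop)
  calc _ ≤ ∫⁻ y : R3, ((1 + Fintype.card ι : ℝ≥0∞) * ga α y +
        ∑ i, (ball (0 : R3) 1).indicator (fun y => pk ‖y‖) (y - u i)) := by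
        apply lintegral_mono
        intro y
        beta_reduce
        calc _ ≤ ((1 + Fintype.card ι : ℝ≥0∞) +
              ∑ i, (ball (0 : R3) 1).indicator (fun y => pk ‖y‖) (y - u i)) * ga α y := by
              gcongr
              exact Sw_le u y
          _ ≤ _ := by
              rw [add_mul]
              gcongr
              exact mul_le_of_le_one_right zero_le (ga_le_one hα.le y)
    _ = (1 + Fintype.card ι : ℝ≥0∞) * (∫⁻ y : R3, ga α y) +
        ∑ i, ∫⁻ y : R3, (ball (0 : R3) 1).indicator (fun y => pk ‖y‖) (y - u i) := by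
        rw [lintegral_add_left ((measurable_ga α).const_mul _),
          lintegral_const_mul _ (measurable_ga α),
          lintegral_finsetSum _ (fun i _ => h2 i)]
    _ ≤ (1 + Fintype.card ι : ℝ≥0∞) * ENNReal.ofReal ((π / α) ^ (3 / 2 : ℝ)) +
        ∑ i : ι, ENNReal.ofReal (8 * π) := by
        refine add_le_add (mul_le_mul_right (lintegral_ga hα).le _)
          (Finset.sum_le_sum fun i _ => ?_)
        · rw [lintegral_sub_right_eq_self ((ball (0 : R3) 1).indicator (fun y => pk ‖y‖)) (u i),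
            ← lintegral_ball_52]
          apply lintegral_mono
          intro y
          beta_reduce
          by_cases hy : y ∈ ball (0 : R3) 1
          · rw [indicator_of_mem hy, indicator_of_mem hy]
            exact pk_le_52 (mem_ball_zero_iff.1 hy).le
          · rw [indicator_of_notMem hy]; exact zero_le
    _ = _ := by rw [Finset.sum_const, Finset.card_univ, nsmul_eq_mul]

/-- **(K2.4)** loss -/
theorem Lc_hot {ι : Type*} [Fintype ι] {α : ℝ} (hα : 0 < α) (u : ι → R3) {g : R3 → ℝ≥0∞}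
    {A : ℝ≥0∞} (hg : ∀ y, g y ≤ A * (Sw u y * ga α y)) (v : R3) :
    Lc g v ≤ Clos α (Fintype.card ι) * A * (1 + ENNReal.ofReal ‖v‖) := by
  rw [Lc_eq]
  calc _ ≤ ∫⁻ y, (ENNReal.ofReal (2 * π) * (1 + ENNReal.ofReal ‖v‖) * A *
        ENNReal.ofReal (1 + 1 / √α)) * (Sw u y * ga (α / 2) y) := by
        apply lintegral_mono
        intro y
        beta_reduce
        have h1 : ENNReal.ofReal (2 * π * ‖v - y‖) ≤
            ENNReal.ofReal (2 * π) * ((1 + ENNReal.ofReal ‖v‖) * ENNReal.ofReal (1 + ‖y‖)) := by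
          rw [← ENNReal.ofReal_one, ← ENNReal.ofReal_add zero_le_one (norm_nonneg _),
            ← ENNReal.ofReal_mul (by positivity), ← ENNReal.ofReal_mul (by positivity)]
          apply ENNReal.ofReal_le_ofReal
          gcongr
          have := norm_sub_le v y
          nlinarith [norm_nonneg v, norm_nonneg y, mul_nonneg (norm_nonneg v) (norm_nonneg y)]
        calc _ ≤ (ENNReal.ofReal (2 * π) * ((1 + ENNReal.ofReal ‖v‖) * ENNReal.ofReal (1 + ‖y‖))) *
              (A * (Sw u y * ga α y)) := mul_le_mul' h1 (hg y)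
          _ = (ENNReal.ofReal (2 * π) * (1 + ENNReal.ofReal ‖v‖) * A) * Sw u y *
              (ENNReal.ofReal (1 + ‖y‖) * ga α y) := by ring
          _ ≤ (ENNReal.ofReal (2 * π) * (1 + ENNReal.ofReal ‖v‖) * A) * Sw u y *
              (ENNReal.ofReal (1 + 1 / √α) * ga (α / 2) y) := mul_le_mul_right (one_add_mul_ga hα y) _
          _ = _ := by ring
    _ = (ENNReal.ofReal (2 * π) * (1 + ENNReal.ofReal ‖v‖) * A *
        ENNReal.ofReal (1 + 1 / √α)) * ∫⁻ y, (Sw u y * ga (α / 2) y) :=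
        lintegral_const_mul _ ((measurable_Sw u).mul (measurable_ga _))
    _ ≤ (ENNReal.ofReal (2 * π) * (1 + ENNReal.ofReal ‖v‖) * A *
        ENNReal.ofReal (1 + 1 / √α)) * ((1 + Fintype.card ι) *
          ENNReal.ofReal ((π / (α / 2)) ^ (3 / 2 : ℝ)) + Fintype.card ι * ENNReal.ofReal (8 * π)) :=
        mul_le_mul_right (lintegral_Sw_ga (by positivity) u) _
    _ = _ := by unfold Clos; ring

/-! ### concrete weights (K2.5) -/

/-- outer Gaussian weight -/
noncomputable def omE (g1 g2 ζ : ℝ) (v : R3) : ℝ≥0∞ :=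
  ENNReal.ofReal (Real.exp (-g1 * ‖v‖ ^ 2 - g2 * (max ‖v‖ ζ) ^ 2))


theorem max_sq {a ζ : ℝ} (ha : 0 ≤ a) (hζ : 0 ≤ ζ) : (max a ζ) ^ 2 = max (a ^ 2) (ζ ^ 2) := by
  rcases le_total a ζ with h | h
  · rw [max_eq_right h, max_eq_right (by gcongr)]
  · rw [max_eq_left h, max_eq_left (by gcongr)]



/-- (K2.5 ii) `gauss × E → E` if the first exponent is at least `g1 + g2` -/
theorem ga_mul_omE_post {g g1 g2 ζ : ℝ} (h2 : 0 ≤ g2) (hζ : 0 ≤ ζ) (hg : g1 + g2 ≤ g)
    {v vs w : R3} (hw : ‖w‖ = 1) :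
    ga g (postVel v vs w) * omE g1 g2 ζ (postVelStar v vs w) ≤ omE g1 g2 ζ v * ga g1 vs := by
  unfold omE ga
  rw [← ENNReal.ofReal_mul (Real.exp_pos _).le, ← ENNReal.ofReal_mul (Real.exp_pos _).le,
    ← Real.exp_add, ← Real.exp_add]
  apply ENNReal.ofReal_le_ofReal
  apply Real.exp_le_exp.2
  have h := post_norm_sq hw v vs
  rw [max_sq (norm_nonneg _) hζ, max_sq (norm_nonneg _) hζ]
  have h3 : max (‖v‖ ^ 2) (ζ ^ 2) ≤
      ‖postVel v vs w‖ ^ 2 + max (‖postVelStar v vs w‖ ^ 2) (ζ ^ 2) := by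
    apply max_le
    · have a2 := le_max_left (‖postVelStar v vs w‖ ^ 2) (ζ ^ 2)
      nlinarith [sq_nonneg ‖vs‖]
    · have a2 := le_max_right (‖postVelStar v vs w‖ ^ 2) (ζ ^ 2)
      nlinarith [sq_nonneg ‖postVel v vs w‖]
  have h4 := mul_le_mul_of_nonneg_left h3 h2
  have h5 : (g1 + g2) * ‖postVel v vs w‖ ^ 2 ≤ g * ‖postVel v vs w‖ ^ 2 := by gcongr
  have hp : g1 * (‖postVel v vs w‖ ^ 2 + ‖postVelStar v vs w‖ ^ 2) = g1 * (‖v‖ ^ 2 + ‖vs‖ ^ 2) := by
    rw [h]
  linarith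


/-- (K2.5) cold partner -/
theorem omE_cold_post {g1 g2 ζ R' : ℝ} (h1 : 0 ≤ g1) (h2 : 0 ≤ g2) (hζ : 0 ≤ ζ)
    {v vs w : R3} (hw : ‖w‖ = 1) (hR : ‖postVel v vs w‖ ≤ R') :
    omE g1 g2 ζ (postVelStar v vs w) ≤
      ENNReal.ofReal (Real.exp ((g1 + g2) * R' ^ 2)) * omE g1 g2 ζ v * ga g1 vs := by
  unfold omE ga
  rw [← ENNReal.ofReal_mul (Real.exp_pos _).le, ← ENNReal.ofReal_mul (by positivity),
    ← Real.exp_add, ← Real.exp_add]
  apply ENNReal.ofReal_le_ofReal
  apply Real.exp_le_exp.2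
  have h := post_norm_sq hw v vs
  have hR2 : ‖postVel v vs w‖ ^ 2 ≤ R' ^ 2 := by gcongr
  rw [max_sq (norm_nonneg _) hζ, max_sq (norm_nonneg _) hζ]
  have h3 : max (‖v‖ ^ 2) (ζ ^ 2) ≤ R' ^ 2 + max (‖postVelStar v vs w‖ ^ 2) (ζ ^ 2) := by
    apply max_le
    · have a2 := le_max_left (‖postVelStar v vs w‖ ^ 2) (ζ ^ 2)
      nlinarith [sq_nonneg ‖vs‖]
    · have a2 := le_max_right (‖postVelStar v vs w‖ ^ 2) (ζ ^ 2)
      nlinarith [sq_nonneg R']
  have h4 := mul_le_mul_of_nonneg_left h3 h2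
  have h5 := mul_le_mul_of_nonneg_left hR2 h1
  have hp : g1 * (‖postVel v vs w‖ ^ 2 + ‖postVelStar v vs w‖ ^ 2) = g1 * (‖v‖ ^ 2 + ‖vs‖ ^ 2) := by
    rw [h]
  linarith

/-- (K2.5) cold partner, pure Gaussian -/
theorem ga_cold_post {g R' : ℝ} (h1 : 0 ≤ g) {v vs w : R3} (hw : ‖w‖ = 1)
    (hR : ‖postVel v vs w‖ ≤ R') :
    ga g (postVelStar v vs w) ≤ ENNReal.ofReal (Real.exp (g * R' ^ 2)) * ga g v * ga g vs := by
  unfold ga
  rw [← ENNReal.ofReal_mul (Real.exp_pos _).le, ← ENNReal.ofReal_mul (by positivity),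
    ← Real.exp_add, ← Real.exp_add]
  apply ENNReal.ofReal_le_ofReal
  apply Real.exp_le_exp.2
  have h := post_norm_sq hw v vs
  have hR2 : ‖postVel v vs w‖ ^ 2 ≤ R' ^ 2 := by gcongr
  have h5 := mul_le_mul_of_nonneg_left hR2 h1
  have hp : g * (‖postVel v vs w‖ ^ 2 + ‖postVelStar v vs w‖ ^ 2) = g * (‖v‖ ^ 2 + ‖vs‖ ^ 2) := by
    rw [h]
  linarith

end Crest.Agent.R68.K2
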