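import Mathlib

-- ▼ part R68/LUlt
section

/-!
# Row 68, Part L: ultrafilter limits of bounded measurable functions (weak-* compactness of the
unit ball of `L^∞` over a finite measure, by hand)
-/

set_option autoImplicit false
open MeasureTheory Set Filter Topology
open scoped ENNReal

namespace Crest.Agent.R68.L

section UL

variable (U : Ultrafilter ℕ)

/-- limit along an ultrafilter in `ℝ≥0∞` -/
noncomputable def ulim (u : ℕ → ℝ≥0∞) : ℝ≥0∞ := (U.map u).lim

theorem tendsto_ulim (u : ℕ → ℝ≥0∞) : Tendsto u U (𝓝 (ulim U u)) := by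
  have := Ultrafilter.le_nhds_lim (U.map u)
  exact this

theorem ulim_eq {u : ℕ → ℝ≥0∞} {a : ℝ≥0∞} (h : Tendsto u U (𝓝 a)) : ulim U u = a :=
  tendsto_nhds_unique (tendsto_ulim U u) h

theorem ulim_add (u w : ℕ → ℝ≥0∞) : ulim U (fun n => u n + w n) = ulim U u + ulim U w :=
  ulim_eq U ((tendsto_ulim U u).add (tendsto_ulim U w))

theorem ulim_const (a : ℝ≥0∞) : ulim U (fun _ => a) = a :=
  ulim_eq U tendsto_const_nhds

theorem ulim_le_of_le {u : ℕ → ℝ≥0∞} {a : ℝ≥0∞} (h : ∀ n, u n ≤ a) : ulim U u ≤ a :=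
  le_of_tendsto (tendsto_ulim U u) (Eventually.of_forall h)


theorem ulim_mono {u w : ℕ → ℝ≥0∞} (h : ∀ n, u n ≤ w n) : ulim U u ≤ ulim U w :=
  le_of_tendsto_of_tendsto (tendsto_ulim U u) (tendsto_ulim U w) (Eventually.of_forall h)

theorem ulim_const_mul {a : ℝ≥0∞} (ha : a ≠ ∞) (u : ℕ → ℝ≥0∞) :
    ulim U (fun n => a * u n) = a * ulim U u :=
  ulim_eq U (ENNReal.Tendsto.const_mul (tendsto_ulim U u) (Or.inr ha))

variable {Ω : Type*} [MeasurableSpace Ω] (m : Measure Ω) (f : ℕ → Ω → ℝ≥0∞)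

/-- the limit functional -/
noncomputable def Lam (ρ : Ω → ℝ≥0∞) : ℝ≥0∞ := ulim U (fun n => ∫⁻ x, f n x * ρ x ∂m)

theorem Lam_le (h1 : ∀ n x, f n x ≤ 1) (ρ : Ω → ℝ≥0∞) : Lam U m f ρ ≤ ∫⁻ x, ρ x ∂m := by
  refine ulim_le_of_le U (fun n => lintegral_mono (fun x => ?_))
  calc f n x * ρ x ≤ 1 * ρ x := mul_le_mul' (h1 n x) le_rfl
    _ = ρ x := one_mul _

theorem Lam_add (hf : ∀ n, Measurable (f n)) {ρ σ : Ω → ℝ≥0∞} (hρ : Measurable ρ) :
    Lam U m f (fun x => ρ x + σ x) = Lam U m f ρ + Lam U m f σ := by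
  unfold Lam
  rw [← ulim_add]
  congr 1
  funext n
  have h := lintegral_add_left (μ := m) ((hf n).mul hρ) (fun x => f n x * σ x)
  simp only [Pi.mul_apply] at h
  rw [← h]
  congr 1
  funext x
  rw [mul_add]

theorem Lam_const_mul (hf : ∀ n, Measurable (f n)) {c : ℝ≥0∞} (hc : c ≠ ∞) {ρ : Ω → ℝ≥0∞}
    (hρ : Measurable ρ) : Lam U m f (fun x => c * ρ x) = c * Lam U m f ρ := by
  unfold Lam
  rw [← ulim_const_mul U hc]
  congr 1
  funext n
  have h := lintegral_const_mul (μ := m) c ((hf n).mul hρ)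
  simp only [Pi.mul_apply] at h
  rw [← h]
  congr 1
  funext x
  ring

theorem Lam_finset_sum (hf : ∀ n, Measurable (f n)) (ρ : ℕ → Ω → ℝ≥0∞)
    (hρ : ∀ k, Measurable (ρ k)) (N : ℕ) :
    Lam U m f (fun x => ∑ k ∈ Finset.range N, ρ k x) = ∑ k ∈ Finset.range N, Lam U m f (ρ k) := by
  induction N with
  | zero =>
    simp only [Finset.range_zero, Finset.sum_empty]
    unfold Lam
    simp only [mul_zero, lintegral_zero]
    exact ulim_const U 0
  | succ N ih =>
    rw [Finset.sum_range_succ, ← ih]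
    rw [← Lam_add U m f hf (Finset.measurable_sum _ (fun k _ => hρ k))]
    congr 1
    funext x
    rw [Finset.sum_range_succ]

/-- countable additivity of the limit functional -/
theorem Lam_tsum (hf : ∀ n, Measurable (f n)) (h1 : ∀ n x, f n x ≤ 1) (ρ : ℕ → Ω → ℝ≥0∞)
    (hρ : ∀ k, Measurable (ρ k)) (hfin : ∫⁻ x, ∑' k, ρ k x ∂m ≠ ∞) :
    Lam U m f (fun x => ∑' k, ρ k x) = ∑' k, Lam U m f (ρ k) := by
  have hsum : ∫⁻ x, ∑' k, ρ k x ∂m = ∑' k, ∫⁻ x, ρ k x ∂m :=
    lintegral_tsum (fun k => (hρ k).aemeasurable)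
  have hsplit : ∀ N : ℕ, Lam U m f (fun x => ∑' k, ρ k x) =
      ∑ k ∈ Finset.range N, Lam U m f (ρ k) + Lam U m f (fun x => ∑' k, ρ (k + N) x) := by
    intro N
    rw [← Lam_finset_sum U m f hf ρ hρ N,
      ← Lam_add U m f hf (Finset.measurable_sum _ (fun k _ => hρ k))]
    congr 1
    funext x
    exact (ENNReal.summable.sum_add_tsum_nat_add' (f := fun k => ρ k x)).symm
  have htail : Tendsto (fun N : ℕ => ∑' k, ∫⁻ x, ρ (k + N) x ∂m) atTop (𝓝 0) := by
    exact ENNReal.tendsto_sum_nat_add (fun k => ∫⁻ x, ρ k x ∂m) (by rw [← hsum]; exact hfin)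
  have htail2 : Tendsto (fun N : ℕ => Lam U m f (fun x => ∑' k, ρ (k + N) x)) atTop (𝓝 0) := by
    refine tendsto_of_tendsto_of_tendsto_of_le_of_le tendsto_const_nhds htail
      (fun N => bot_le) (fun N => ?_)
    refine (Lam_le U m f h1 _).trans ?_
    rw [lintegral_tsum (fun k => (hρ (k + N)).aemeasurable)]
  have h3 : Tendsto (fun N : ℕ => ∑ k ∈ Finset.range N, Lam U m f (ρ k) +
      Lam U m f (fun x => ∑' k, ρ (k + N) x)) atTop (𝓝 ((∑' k, Lam U m f (ρ k)) + 0)) :=
    (ENNReal.tendsto_nat_tsum _).add htail2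
  rw [add_zero] at h3
  refine tendsto_nhds_unique ?_ h3
  have : (fun N : ℕ => ∑ k ∈ Finset.range N, Lam U m f (ρ k) +
      Lam U m f (fun x => ∑' k, ρ (k + N) x)) = fun _ => Lam U m f (fun x => ∑' k, ρ k x) := by
    funext N; exact (hsplit N).symm
  rw [this]
  exact tendsto_const_nhds

variable [IsFiniteMeasure m]

/-- the limit measure -/
noncomputable def nuL (hf : ∀ n, Measurable (f n)) (h1 : ∀ n x, f n x ≤ 1) : Measure Ω :=
  Measure.ofMeasurable (fun A _ => Lam U m f (A.indicator 1))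
    (by
      have : (∅ : Set Ω).indicator (1 : Ω → ℝ≥0∞) = fun _ => 0 := by
        funext x; simp
      rw [this]
      unfold Lam
      simp only [mul_zero, lintegral_zero]
      exact ulim_const U 0)
    (by
      intro A hA hd
      have h0 : ∀ x, (⋃ i, A i).indicator (1 : Ω → ℝ≥0∞) x = ∑' i, (A i).indicator 1 x := by
        intro x
        have := congrFun (indicator_iUnion_of_pairwise_disjoint A hd (1 : Ω → ℝ≥0∞)) x
        exact this
      have h2 : (⋃ i, A i).indicator (1 : Ω → ℝ≥0∞) = fun x => ∑' i, (A i).indicator 1 x :=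
        funext h0
      show Lam U m f ((⋃ i, A i).indicator 1) = ∑' i, Lam U m f ((A i).indicator 1)
      rw [h2]
      refine Lam_tsum U m f hf h1 _ (fun k => measurable_one.indicator (hA k)) ?_
      rw [← h2]
      rw [lintegral_indicator_one (MeasurableSet.iUnion hA)]
      exact measure_ne_top _ _)

theorem nuL_apply (hf : ∀ n, Measurable (f n)) (h1 : ∀ n x, f n x ≤ 1) {A : Set Ω}
    (hA : MeasurableSet A) : nuL U m f hf h1 A = Lam U m f (A.indicator 1) :=
  Measure.ofMeasurable_apply A hA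

theorem nuL_le (hf : ∀ n, Measurable (f n)) (h1 : ∀ n x, f n x ≤ 1) : nuL U m f hf h1 ≤ m := by
  refine Measure.le_iff.2 (fun A hA => ?_)
  rw [nuL_apply U m f hf h1 hA]
  refine (Lam_le U m f h1 _).trans ?_
  rw [lintegral_indicator_one hA]

omit [IsFiniteMeasure m] in
theorem Lam_mono {ρ σ : Ω → ℝ≥0∞} (h : ∀ x, ρ x ≤ σ x) : Lam U m f ρ ≤ Lam U m f σ :=
  ulim_mono U (fun _ => lintegral_mono (fun x => mul_le_mul' le_rfl (h x)))

/-- the functional is integration against `nuL` -/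
theorem Lam_eq_lintegral (hf : ∀ n, Measurable (f n)) (h1 : ∀ n x, f n x ≤ 1)
    {ρ : Ω → ℝ≥0∞} (hρ : Measurable ρ) (hfin : ∫⁻ x, ρ x ∂m ≠ ∞) :
    Lam U m f ρ = ∫⁻ x, ρ x ∂(nuL U m f hf h1) := by
  revert hfin
  refine Measurable.ennreal_induction (motive := fun ρ => (∫⁻ x, ρ x ∂m) ≠ ∞ →
    Lam U m f ρ = ∫⁻ x, ρ x ∂(nuL U m f hf h1)) ?_ ?_ ?_ hρ
  · intro c s hs hfin
    rw [lintegral_indicator_const hs] at hfin
    rw [lintegral_indicator_const hs, nuL_apply U m f hf h1 hs]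
    by_cases hc : c = ∞
    · subst hc
      have hm : m s = 0 := by
        by_contra hne
        exact hfin (ENNReal.top_mul hne)
      have h0 : Lam U m f (s.indicator 1) = 0 := by
        refine le_antisymm ((Lam_le U m f h1 _).trans ?_) bot_le
        rw [lintegral_indicator_one hs, hm]
      rw [h0, mul_zero]
      refine le_antisymm ((Lam_le U m f h1 _).trans ?_) bot_le
      rw [lintegral_indicator_const hs, hm, mul_zero]
    · rw [← Lam_const_mul U m f hf hc (measurable_one.indicator hs)]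
      congr 1
      funext x
      by_cases hx : x ∈ s <;> simp [hx]
  · intro f1 g1 _ hf1 hg1 ih1 ih2 hfin
    have hadd : ∫⁻ x, (f1 + g1) x ∂m = ∫⁻ x, f1 x ∂m + ∫⁻ x, g1 x ∂m :=
      lintegral_add_left hf1 g1
    rw [hadd] at hfin
    have e1 := ih1 (fun h => hfin (by rw [h, top_add]))
    have e2 := ih2 (fun h => hfin (by rw [h, add_top]))
    have := Lam_add U m f hf (σ := g1) hf1
    show Lam U m f (fun x => f1 x + g1 x) = _
    rw [this, e1, e2]
    exact (lintegral_add_left hf1 g1).symm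
  · intro r hr hmono ih hfin
    have hle : ∀ k x, r k x ≤ ⨆ n, r n x := fun k x => le_iSup (fun n => r n x) k
    have hkfin : ∀ k, ∫⁻ x, r k x ∂m ≠ ∞ := fun k =>
      ne_top_of_le_ne_top hfin (lintegral_mono (hle k))
    have hmc : ∫⁻ x, ⨆ n, r n x ∂(nuL U m f hf h1) =
        ⨆ n, ∫⁻ x, r n x ∂(nuL U m f hf h1) := lintegral_iSup hr hmono
    rw [hmc]
    have hL : ∀ k, Lam U m f (r k) = ∫⁻ x, r k x ∂(nuL U m f hf h1) := fun k => ih k (hkfin k)
    refine le_antisymm ?_ (iSup_le (fun k => by rw [← hL k]; exact Lam_mono U m f (hle k)))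
    have hstep : ∀ k, Lam U m f (fun x => ⨆ n, r n x) ≤
        (⨆ n, ∫⁻ x, r n x ∂(nuL U m f hf h1)) +
          ((∫⁻ x, ⨆ n, r n x ∂m) - ∫⁻ x, r k x ∂m) := by
      intro k
      have e1 : (fun x => ⨆ n, r n x) = fun x => r k x + ((⨆ n, r n x) - r k x) := by
        funext x
        rw [add_tsub_cancel_of_le (hle k x)]
      have e2 : Lam U m f (fun x => ⨆ n, r n x) =
          Lam U m f (r k) + Lam U m f (fun x => (⨆ n, r n x) - r k x) := by
        conv_lhs => rw [e1]
        exact Lam_add U m f hf (hr k)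
      rw [e2]
      refine add_le_add ?_ ?_
      · rw [hL k]; exact le_iSup (fun n => ∫⁻ x, r n x ∂(nuL U m f hf h1)) k
      · refine (Lam_le U m f h1 _).trans ?_
        rw [lintegral_sub (hr k) (hkfin k) (Eventually.of_forall (hle k))]
    have hconv : Tendsto (fun k => (⨆ n, ∫⁻ x, r n x ∂(nuL U m f hf h1)) +
          ((∫⁻ x, ⨆ n, r n x ∂m) - ∫⁻ x, r k x ∂m)) atTop
        (𝓝 ((⨆ n, ∫⁻ x, r n x ∂(nuL U m f hf h1)) + 0)) := by
      refine tendsto_const_nhds.add ?_
      have h3 : Tendsto (fun k => ∫⁻ x, r k x ∂m) atTop (𝓝 (∫⁻ x, ⨆ n, r n x ∂m)) := by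
        rw [lintegral_iSup hr hmono]
        exact tendsto_atTop_iSup (fun i j hij => lintegral_mono (hmono hij))
      have h4 := ENNReal.Tendsto.sub (tendsto_const_nhds (x := ∫⁻ x, ⨆ n, r n x ∂m)) h3
        (Or.inl hfin)
      rwa [tsub_self] at h4
    rw [add_zero] at hconv
    exact ge_of_tendsto hconv (Eventually.of_forall hstep)

/-- **Weak-* limit.**  Bounded measurable functions on a finite measure space have an
ultrafilter limit tested against all integrable functions. -/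
theorem exists_weak_limit (hf : ∀ n, Measurable (f n)) (h1 : ∀ n x, f n x ≤ 1) :
    ∃ g : Ω → ℝ≥0∞, Measurable g ∧ (∀ x, g x ≤ 1) ∧
      ∀ ρ : Ω → ℝ≥0∞, Measurable ρ → ∫⁻ x, ρ x ∂m ≠ ∞ →
        Tendsto (fun n => ∫⁻ x, f n x * ρ x ∂m) U (𝓝 (∫⁻ x, g x * ρ x ∂m)) := by
  set ν := nuL U m f hf h1 with hν
  have hle : ν ≤ m := nuL_le U m f hf h1
  have : IsFiniteMeasure ν := ⟨lt_of_le_of_lt (hle univ) (measure_lt_top m univ)⟩
  have hac : ν ≪ m := Measure.absolutelyContinuous_of_le hle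
  have hwd : m.withDensity (ν.rnDeriv m) = ν := Measure.withDensity_rnDeriv_eq ν m hac
  have hmeas : Measurable (ν.rnDeriv m) := Measure.measurable_rnDeriv ν m
  have hae : ∀ᵐ x ∂m, ν.rnDeriv m x ≤ 1 := by
    have := Measure.rnDeriv_le_one_of_le hle
    exact this
  refine ⟨fun x => min (ν.rnDeriv m x) 1, hmeas.min measurable_const, fun x => min_le_right _ _,
    fun ρ hρ hfin => ?_⟩
  have e1 : ∫⁻ x, min (ν.rnDeriv m x) 1 * ρ x ∂m = ∫⁻ x, ρ x ∂ν := by
    have e0 : ∫⁻ x, ρ x ∂ν = ∫⁻ x, (ν.rnDeriv m * ρ) x ∂m := by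
      conv_lhs => rw [← hwd]
      exact lintegral_withDensity_eq_lintegral_mul _ hmeas hρ
    rw [e0]
    refine lintegral_congr_ae ?_
    filter_upwards [hae] with x hx
    simp only [Pi.mul_apply]
    rw [min_eq_left hx]
  rw [e1, ← Lam_eq_lintegral U m f hf h1 hρ hfin]
  exact tendsto_ulim U _

/-- a positive, additive, monotone-continuous operator on nonnegative measurable functions -/
structure PosOp (m : Measure Ω) (T : (Ω → ℝ≥0∞) → Ω → ℝ≥0∞) : Prop where
  meas : ∀ f, Measurable f → Measurable (T f)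
  add : ∀ f g, Measurable f → Measurable g → T (f + g) = T f + T g
  sup : ∀ f : ℕ → Ω → ℝ≥0∞, (∀ n, Measurable (f n)) → Monotone f →
    T (fun x => ⨆ n, f n x) = fun x => ⨆ n, T (f n) x
  smul : ∀ (c : ℝ≥0∞) f, Measurable f → T (fun x => c * f x) = fun x => c * T f x
  null : ∀ f, Measurable f → (∀ᵐ x ∂m, f x = 0) → ∀ᵐ x ∂m, T f x = 0

variable {m}

omit [IsFiniteMeasure m] in
theorem PosOp.mono {T : (Ω → ℝ≥0∞) → Ω → ℝ≥0∞} (hT : PosOp m T) {f g : Ω → ℝ≥0∞}
    (hf : Measurable f) (hg : Measurable g) (h : ∀ x, f x ≤ g x) : ∀ x, T f x ≤ T g x := by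
  have hm : Monotone (fun n : ℕ => if n = 0 then f else g) := by
    intro a b hab x
    by_cases ha : a = 0 <;> by_cases hb : b = 0 <;> simp [ha, hb]
    · exact h x
    · omega
  have hmeas : ∀ n : ℕ, Measurable ((fun n : ℕ => if n = 0 then f else g) n) := by
    intro n; by_cases hn : n = 0 <;> simp [hn, hf, hg]
  have := hT.sup _ hmeas hm
  have e1 : (fun x => ⨆ n : ℕ, (if n = 0 then f else g) x) = g := by
    funext x
    refine le_antisymm (iSup_le (fun n => ?_)) ?_
    · by_cases hn : n = 0 <;> simp [hn, h x]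
    · exact le_iSup_of_le 1 (by simp)
  rw [e1] at this
  intro x
  rw [this]
  exact le_iSup_of_le 0 (by simp)

omit [IsFiniteMeasure m] in
theorem PosOp.tsum {T : (Ω → ℝ≥0∞) → Ω → ℝ≥0∞} (hT : PosOp m T) (f : ℕ → Ω → ℝ≥0∞)
    (hf : ∀ n, Measurable (f n)) : T (fun x => ∑' n, f n x) = fun x => ∑' n, T (f n) x := by
  have hfs : ∀ N : ℕ, T (fun x => ∑ k ∈ Finset.range N, f k x) =
      fun x => ∑ k ∈ Finset.range N, T (f k) x := by
    intro N
    induction N with
    | zero =>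
      have h0 := hT.smul 0 (fun _ => 0) measurable_const
      simp only [zero_mul] at h0
      simpa using h0
    | succ N ih =>
      have e1 : (fun x => ∑ k ∈ Finset.range (N + 1), f k x) =
          (fun x => ∑ k ∈ Finset.range N, f k x) + f N := by
        funext x
        simp [Finset.sum_range_succ]
      rw [e1, hT.add _ _ (Finset.measurable_sum _ (fun k _ => hf k)) (hf N), ih]
      funext x
      simp [Finset.sum_range_succ]
  have e2 : (fun x => ∑' n, f n x) = fun x => ⨆ N : ℕ, ∑ k ∈ Finset.range N, f k x := by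
    funext x
    exact ENNReal.tsum_eq_iSup_nat
  rw [e2, hT.sup (fun N x => ∑ k ∈ Finset.range N, f k x)
    (fun N => Finset.measurable_sum _ (fun k _ => hf k))]
  · funext x
    rw [ENNReal.tsum_eq_iSup_nat]
    congr 1
    funext N
    exact congrFun (hfs N) x
  · intro a b hab x
    exact Finset.sum_le_sum_of_subset (Finset.range_mono hab)

/-- the measure `B ↦ ∫_A T 1_B dm` -/
noncomputable def lamA {T : (Ω → ℝ≥0∞) → Ω → ℝ≥0∞} (hT : PosOp m T) (A : Set Ω) : Measure Ω :=
  Measure.ofMeasurable (fun B _ => ∫⁻ x in A, T (B.indicator 1) x ∂m)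
    (by
      have h0 := hT.smul 0 (fun _ => 0) measurable_const
      simp only [zero_mul] at h0
      have : (∅ : Set Ω).indicator (1 : Ω → ℝ≥0∞) = fun _ => 0 := by
        funext x; simp
      rw [this, h0]
      simp)
    (by
      intro B hB hd
      have h2 : (⋃ i, B i).indicator (1 : Ω → ℝ≥0∞) = fun x => ∑' i, (B i).indicator 1 x := by
        funext x
        exact congrFun (indicator_iUnion_of_pairwise_disjoint B hd (1 : Ω → ℝ≥0∞)) x
      show ∫⁻ x in A, T ((⋃ i, B i).indicator 1) x ∂m = ∑' i, ∫⁻ x in A, T ((B i).indicator 1) x ∂m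
      rw [h2, hT.tsum _ (fun k => measurable_one.indicator (hB k))]
      exact lintegral_tsum (fun k => (hT.meas _ (measurable_one.indicator (hB k))).aemeasurable))

omit [IsFiniteMeasure m] in
theorem lamA_apply {T : (Ω → ℝ≥0∞) → Ω → ℝ≥0∞} (hT : PosOp m T) (A : Set Ω) {B : Set Ω}
    (hB : MeasurableSet B) : lamA hT A B = ∫⁻ x in A, T (B.indicator 1) x ∂m :=
  Measure.ofMeasurable_apply B hB

omit [IsFiniteMeasure m] in
theorem lintegral_lamA {T : (Ω → ℝ≥0∞) → Ω → ℝ≥0∞} (hT : PosOp m T) (A : Set Ω)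
    {f : Ω → ℝ≥0∞} (hf : Measurable f) : ∫⁻ x, f x ∂(lamA hT A) = ∫⁻ x in A, T f x ∂m := by
  refine Measurable.ennreal_induction (motive := fun f => ∫⁻ x, f x ∂(lamA hT A) =
    ∫⁻ x in A, T f x ∂m) ?_ ?_ ?_ hf
  · intro c s hs
    rw [lintegral_indicator_const hs, lamA_apply hT A hs]
    have e1 : s.indicator (fun _ => c) = fun x => c * s.indicator (1 : Ω → ℝ≥0∞) x := by
      funext x
      by_cases hx : x ∈ s <;> simp [hx]
    rw [e1, hT.smul c _ (measurable_one.indicator hs)]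
    exact (lintegral_const_mul c (hT.meas _ (measurable_one.indicator hs))).symm
  · intro f1 g1 _ hf1 hg1 ih1 ih2
    rw [hT.add f1 g1 hf1 hg1]
    have e1 : ∫⁻ x, (f1 + g1) x ∂(lamA hT A) =
        ∫⁻ x, f1 x ∂(lamA hT A) + ∫⁻ x, g1 x ∂(lamA hT A) := lintegral_add_left hf1 g1
    rw [e1, ih1, ih2]
    exact (lintegral_add_left (hT.meas _ hf1) _).symm
  · intro r hr hmono ih
    rw [hT.sup r hr hmono, lintegral_iSup hr hmono]
    have hm2 : Monotone (fun n => T (r n)) := fun i j hij x =>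
      hT.mono (hr i) (hr j) (fun y => hmono hij y) x
    rw [lintegral_iSup (fun n => hT.meas _ (hr n)) hm2]
    congr 1
    funext n
    exact ih n

/-- **Fixed point in the limit.** -/
theorem exists_fixed_ae {T : (Ω → ℝ≥0∞) → Ω → ℝ≥0∞} (hT : PosOp m T)
    (hT1 : ∫⁻ x, T 1 x ∂m ≠ ∞) (hf : ∀ n, Measurable (f n)) (h1 : ∀ n x, f n x ≤ 1)
    (e : ℕ → Ω → ℝ≥0∞) (he : ∀ n, Measurable (e n))
    (hfe : ∀ n, ∀ᵐ x ∂m, f n x = T (f n) x + e n x)
    (hlim : Tendsto (fun n => ∫⁻ x, e n x ∂m) U (𝓝 0)) :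
    ∃ g : Ω → ℝ≥0∞, Measurable g ∧ (∀ x, g x ≤ 1) ∧ (∀ᵐ x ∂m, g x = T g x) ∧
      ∀ ρ : Ω → ℝ≥0∞, Measurable ρ → ∫⁻ x, ρ x ∂m ≠ ∞ →
        Tendsto (fun n => ∫⁻ x, f n x * ρ x ∂m) U (𝓝 (∫⁻ x, g x * ρ x ∂m)) := by
  obtain ⟨g, hg, hg1, hgl⟩ := exists_weak_limit U m f hf h1
  refine ⟨g, hg, hg1, ?_, hgl⟩
  have hTg : Measurable (T g) := hT.meas g hg
  refine ae_eq_of_forall_setLIntegral_eq_of_sigmaFinite hg hTg (fun A hA _ => ?_)
  -- density of lamA
  set lam := lamA hT A with hlam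
  have hfinl : IsFiniteMeasure lam := by
    refine ⟨?_⟩
    rw [hlam, lamA_apply hT A MeasurableSet.univ, indicator_univ]
    exact lt_of_le_of_lt (setLIntegral_le_lintegral _ _) (lt_top_iff_ne_top.2 hT1)
  have hac : lam ≪ m := by
    refine Measure.AbsolutelyContinuous.mk (fun B hB hB0 => ?_)
    rw [hlam, lamA_apply hT A hB]
    have hz : ∀ᵐ x ∂m, B.indicator (1 : Ω → ℝ≥0∞) x = 0 := by
      have : ∀ᵐ x ∂m, x ∉ B := measure_eq_zero_iff_ae_notMem.1 hB0
      filter_upwards [this] with x hx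
      simp [hx]
    have := hT.null _ (measurable_one.indicator hB) hz
    rw [lintegral_eq_zero_iff (hT.meas _ (measurable_one.indicator hB))]
    exact ae_restrict_of_ae this
  set d := lam.rnDeriv m with hd
  have hdm : Measurable d := Measure.measurable_rnDeriv _ _
  have hwd : m.withDensity d = lam := Measure.withDensity_rnDeriv_eq lam m hac
  have hdfin : ∫⁻ x, d x ∂m ≠ ∞ := by
    have : ∫⁻ x, d x ∂m = lam univ := by
      rw [← hwd, withDensity_apply _ MeasurableSet.univ, Measure.restrict_univ]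
    rw [this]
    exact measure_ne_top _ _
  have key : ∀ h : Ω → ℝ≥0∞, Measurable h → ∫⁻ x in A, T h x ∂m = ∫⁻ x, h x * d x ∂m := by
    intro h hh
    rw [← lintegral_lamA hT A hh, ← hlam]
    conv_lhs => rw [← hwd]
    rw [lintegral_withDensity_eq_lintegral_mul _ hdm hh]
    refine lintegral_congr (fun x => ?_)
    simp [mul_comm]
  have hLA : ∫⁻ x, A.indicator (1 : Ω → ℝ≥0∞) x ∂m ≠ ∞ := by
    rw [lintegral_indicator_one hA]; exact measure_ne_top _ _
  have hA' : ∀ h : Ω → ℝ≥0∞, ∫⁻ x, h x * A.indicator (1 : Ω → ℝ≥0∞) x ∂m = ∫⁻ x in A, h x ∂m := by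
    intro h
    rw [← lintegral_indicator hA]
    refine lintegral_congr (fun x => ?_)
    by_cases hx : x ∈ A <;> simp [hx]
  have t1 := hgl _ (measurable_one.indicator hA) hLA
  simp only [hA'] at t1
  have t2 := hgl d hdm hdfin
  have t3 : Tendsto (fun n => ∫⁻ x in A, f n x ∂m) U (𝓝 (∫⁻ x, g x * d x ∂m + 0)) := by
    have h4 : Tendsto (fun n => ∫⁻ x in A, e n x ∂m) U (𝓝 0) :=
      tendsto_of_tendsto_of_tendsto_of_le_of_le tendsto_const_nhds hlim (fun n => bot_le)
        (fun n => setLIntegral_le_lintegral _ _)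
    refine (t2.add h4).congr (fun n => ?_)
    rw [← key (f n) (hf n), ← lintegral_add_left (hT.meas _ (hf n))]
    refine lintegral_congr_ae (ae_restrict_of_ae ?_)
    filter_upwards [hfe n] with x hx
    exact hx.symm
  rw [add_zero, ← key g hg] at t3
  exact tendsto_nhds_unique t1 t3

end UL

end Crest.Agent.R68.L
end

-- ▼ part R68/LUlt2

/-!
# Row 68, Part L: ancient solutions as weak limits (general measure space version)
-/

set_option autoImplicit false
open MeasureTheory Set Filter Topology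
open scoped ENNReal

namespace Crest.Agent.R68.L

variable {Ω : Type*} [MeasurableSpace Ω] {μ : Measure Ω}

theorem PosOp.congr {T : (Ω → ℝ≥0∞) → Ω → ℝ≥0∞} (hT : PosOp μ T) {f g : Ω → ℝ≥0∞}
    (hf : Measurable f) (hg : Measurable g) (h : ∀ᵐ x ∂μ, f x = g x) :
    ∀ᵐ x ∂μ, T f x = T g x := by
  have key : ∀ {f g : Ω → ℝ≥0∞}, Measurable f → Measurable g → (∀ᵐ x ∂μ, f x = g x) →
      ∀ᵐ x ∂μ, T f x ≤ T g x := by
    intro f g hf hg h
    have h1 : ∀ x, f x ≤ (g + fun x => f x - g x) x := fun x => by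
      show f x ≤ g x + (f x - g x)
      exact le_add_tsub
    have hd : Measurable (fun x => f x - g x) := hf.sub hg
    have h2 := hT.mono hf (hg.add hd) h1
    rw [hT.add g _ hg hd] at h2
    have h3 : ∀ᵐ x ∂μ, (fun x => f x - g x) x = 0 := by
      filter_upwards [h] with x hx
      simp [hx]
    filter_upwards [hT.null _ hd h3] with x hx
    have := h2 x
    simp only [Pi.add_apply] at this
    rwa [hx, add_zero] at this
  filter_upwards [key hf hg h, key hg hf (h.mono fun x hx => hx.symm)] with x h1 h2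
  exact le_antisymm h1 h2

/-- **Ancient solutions as weak limits.** -/
theorem exists_anc_ae [SigmaFinite μ] (U : Ultrafilter ℕ) (hU : (U : Filter ℕ) ≤ atTop)
    {T : (Ω → ℝ≥0∞) → Ω → ℝ≥0∞} (hT : PosOp μ T)
    {W : Ω → ℝ≥0∞} (hW : Measurable W) (hWfin : ∀ᵐ x ∂μ, W x ≠ ∞)
    {C : ℝ≥0∞} (hC : C ≠ ∞) (hTW : ∀ᵐ x ∂μ, T W x ≤ C * W x)
    (H S : ℕ → Ω → ℝ≥0∞) (hH : ∀ n, Measurable (H n)) (hS : ∀ n, Measurable (S n))
    (hHW : ∀ n x, H n x ≤ W x) (hHS : ∀ n, ∀ᵐ x ∂μ, H n x = T (H n) x + S n x)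
    (hS0 : ∀ᵐ x ∂μ, Tendsto (fun n => S n x / W x) atTop (𝓝 0)) :
    ∃ g : Ω → ℝ≥0∞, Measurable g ∧ (∀ x, g x ≤ W x) ∧ (∀ᵐ x ∂μ, g x = T g x) ∧
      ∀ κ : Ω → ℝ≥0∞, Measurable κ → ∫⁻ x, κ x * W x ∂μ ≠ ∞ →
        Tendsto (fun n => ∫⁻ x, H n x * κ x ∂μ) U (𝓝 (∫⁻ x, g x * κ x ∂μ)) := by
  classical
  -- the finite reference measure
  have hsf : SigmaFinite (μ.withDensity W) := by
    exact SigmaFinite.withDensity_of_ne_top hWfin
  obtain ⟨w, hw0, hwm, hwi⟩ := exists_pos_lintegral_lt_of_sigmaFinite (μ.withDensity W)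
    (ε := 1) one_ne_zero
  set w' : Ω → ℝ≥0∞ := fun x => (w x : ℝ≥0∞) with hw'
  have hw'm : Measurable w' := hwm.coe_nnreal_ennreal
  have hw'0 : ∀ x, w' x ≠ 0 := fun x => by
    simp only [hw', ne_eq, ENNReal.coe_eq_zero]; exact (hw0 x).ne'
  have hw't : ∀ x, w' x ≠ ∞ := fun x => ENNReal.coe_ne_top
  set m : Measure Ω := μ.withDensity (fun x => W x * w' x) with hm
  have hWw : Measurable (fun x => W x * w' x) := hW.mul hw'm
  have hmi : ∀ f : Ω → ℝ≥0∞, Measurable f → ∫⁻ x, f x ∂m = ∫⁻ x, W x * w' x * f x ∂μ := by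
    intro f hf
    rw [hm, lintegral_withDensity_eq_lintegral_mul _ hWw hf]
    rfl
  have hmfin : IsFiniteMeasure m := by
    refine ⟨?_⟩
    rw [hm, withDensity_apply _ MeasurableSet.univ, Measure.restrict_univ]
    have : ∫⁻ x, w' x ∂(μ.withDensity W) = ∫⁻ x, W x * w' x ∂μ := by
      rw [lintegral_withDensity_eq_lintegral_mul _ hW hw'm]
      rfl
    rw [← this]
    exact hwi.trans ENNReal.one_lt_top
  have hmac : m ≪ μ := withDensity_absolutelyContinuous μ _
  -- m-a.e. statements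
  have hae_of : ∀ {p : Ω → Prop}, MeasurableSet {x | ¬ p x} → (∀ᵐ x ∂m, p x) →
      ∀ᵐ x ∂μ, W x = 0 ∨ p x := by
    intro p hp h
    have h1 : m {x | ¬ p x} = 0 := h
    rw [hm, withDensity_apply _ hp] at h1
    rw [lintegral_eq_zero_iff hWw] at h1
    have h2 := (ae_restrict_iff' hp).1 h1
    filter_upwards [h2] with x hx
    by_cases hpx : p x
    · exact Or.inr hpx
    · left
      have h3 := hx hpx
      simp only [Pi.zero_apply, mul_eq_zero] at h3
      rcases h3 with h3 | h3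
      · exact h3
      · exact absurd h3 (hw'0 x)
  set f : ℕ → Ω → ℝ≥0∞ := fun n x => H n x / W x with hf
  have hfm : ∀ n, Measurable (f n) := fun n => (hH n).div hW
  have hf1 : ∀ n x, f n x ≤ 1 := fun n x => by
    simp only [hf]
    exact ENNReal.div_le_of_le_mul (by rw [one_mul]; exact hHW n x)
  set T' : (Ω → ℝ≥0∞) → Ω → ℝ≥0∞ := fun h x => T (fun y => W y * h y) x / W x with hT'
  have hmul : ∀ {h : Ω → ℝ≥0∞}, Measurable h → Measurable (fun y => W y * h y) :=
    fun hh => hW.mul hh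
  have hPT' : PosOp m T' := by
    refine ⟨?_, ?_, ?_, ?_, ?_⟩
    · intro h hh
      exact (hT.meas _ (hmul hh)).div hW
    · intro h k hh hk
      funext x
      simp only [hT', Pi.add_apply]
      have e1 : (fun y => W y * (h y + k y)) = (fun y => W y * h y) + fun y => W y * k y := by
        funext y; simp [mul_add]
      rw [e1, hT.add _ _ (hmul hh) (hmul hk)]
      simp only [Pi.add_apply]
      rw [ENNReal.add_div]
    · intro h hh hmono
      funext x
      simp only [hT']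
      have e1 : (fun y => W y * ⨆ n, h n y) = fun y => ⨆ n, W y * h n y := by
        funext y; rw [ENNReal.mul_iSup]
      rw [e1, hT.sup (fun n y => W y * h n y) (fun n => hmul (hh n))
        (fun i j hij y => mul_le_mul' le_rfl (hmono hij y))]
      rw [ENNReal.iSup_div]
    · intro c h hh
      funext x
      simp only [hT']
      have e1 : (fun y => W y * (c * h y)) = fun y => c * (W y * h y) := by
        funext y; ring
      rw [e1, hT.smul c _ (hmul hh)]
      rw [mul_div_assoc]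
    · intro h hh h0
      have h1 := hae_of (p := fun x => h x = 0) (by
        have : MeasurableSet {x | h x = 0} := hh (measurableSet_singleton 0)
        exact this.compl) h0
      have h2 : ∀ᵐ x ∂μ, (fun y => W y * h y) x = 0 := by
        filter_upwards [h1] with x hx
        rcases hx with hx | hx <;> simp [hx]
      have h3 := hT.null _ (hmul hh) h2
      refine hmac.ae_le ?_
      filter_upwards [h3] with x hx
      simp only [hT']
      rw [hx, ENNReal.zero_div]
  have hT'1 : ∫⁻ x, T' 1 x ∂m ≠ ∞ := by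
    have h1 : ∀ᵐ x ∂m, T' 1 x ≤ C := by
      refine hmac.ae_le ?_
      filter_upwards [hTW] with x hx
      simp only [hT', Pi.one_apply, mul_one]
      exact ENNReal.div_le_of_le_mul hx
    refine ne_top_of_le_ne_top ?_ (lintegral_mono_ae h1)
    rw [lintegral_const]
    exact ENNReal.mul_ne_top hC (measure_ne_top _ _)
  have hWf : ∀ {h : Ω → ℝ≥0∞}, (∀ x, h x ≤ W x) → ∀ᵐ x ∂μ, W x * (h x / W x) = h x := by
    intro h hle
    filter_upwards [hWfin] with x hx
    by_cases h0 : W x = 0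
    · have : h x = 0 := le_antisymm ((hle x).trans h0.le) bot_le
      simp [h0, this]
    · exact ENNReal.mul_div_cancel h0 hx
  set e : ℕ → Ω → ℝ≥0∞ := fun n x => S n x / W x with he
  have hem : ∀ n, Measurable (e n) := fun n => (hS n).div hW
  have hfe : ∀ n, ∀ᵐ x ∂m, f n x = T' (f n) x + e n x := by
    intro n
    refine hmac.ae_le ?_
    have hc := hT.congr (hmul (hfm n)) (hH n) (hWf (hHW n))
    filter_upwards [hc, hHS n] with x h1 h2
    simp only [hf, hT', he]
    have h1' : T (fun y => W y * (H n y / W y)) x = T (H n) x := h1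
    rw [h1', ← ENNReal.add_div, ← h2]
  have he1 : ∀ n, ∀ᵐ x ∂m, e n x ≤ 1 := by
    intro n
    filter_upwards [hfe n] with x hx
    have := hf1 n x
    rw [hx] at this
    exact le_trans le_add_self this
  have hlim : Tendsto (fun n => ∫⁻ x, e n x ∂m) U (𝓝 0) := by
    have h0 : Tendsto (fun n => ∫⁻ x, e n x ∂m) atTop (𝓝 (∫⁻ _, 0 ∂m)) := by
      refine tendsto_lintegral_of_dominated_convergence (fun _ => 1) hem he1 ?_ ?_
      · rw [lintegral_const, one_mul]; exact measure_ne_top _ _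
      · exact hmac.ae_le hS0
    rw [lintegral_zero] at h0
    exact h0.mono_left hU
  obtain ⟨g, hg, hg1, hgT, hgl⟩ := exists_fixed_ae U (m := m) f hPT' hT'1 hfm hf1 e hem hfe hlim
  refine ⟨fun x => W x * g x, hW.mul hg, fun x => ?_, ?_, ?_⟩
  · calc W x * g x ≤ W x * 1 := mul_le_mul' le_rfl (hg1 x)
      _ = W x := mul_one _
  · have hle : ∀ x, W x * g x ≤ W x := fun x => by
      calc W x * g x ≤ W x * 1 := mul_le_mul' le_rfl (hg1 x)
        _ = W x := mul_one _
    have hTle : ∀ x, T (fun y => W y * g y) x ≤ T W x := hT.mono (hW.mul hg) hW hle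
    have hset : MeasurableSet {x | ¬ (g x = T' g x)} := by
      have : MeasurableSet {x | g x = T' g x} := measurableSet_eq_fun hg (hPT'.meas g hg)
      exact this.compl
    have h1 := hae_of hset hgT
    filter_upwards [h1, hWfin, hTW] with x hx hxf hxT
    rcases hx with hx | hx
    · have h0 : T (fun y => W y * g y) x = 0 := by
        refine le_antisymm ((hTle x).trans (hxT.trans ?_)) bot_le
        rw [hx, mul_zero]
      show W x * g x = T (fun y => W y * g y) x
      rw [h0, hx, zero_mul]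
    · show W x * g x = T (fun y => W y * g y) x
      by_cases h0 : W x = 0
      · have h0' : T (fun y => W y * g y) x = 0 := by
          refine le_antisymm ((hTle x).trans (hxT.trans ?_)) bot_le
          rw [h0, mul_zero]
        rw [h0', h0, zero_mul]
      · rw [hx]
        simp only [hT']
        exact ENNReal.mul_div_cancel h0 hxf
  · intro κ hκ hfin
    have hκw : Measurable (fun x => κ x / w' x) := hκ.div hw'm
    have e1 : ∀ h : Ω → ℝ≥0∞, Measurable h → (∀ x, h x ≤ 1) →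
        ∫⁻ x, h x * (κ x / w' x) ∂m = ∫⁻ x, W x * h x * κ x ∂μ := by
      intro h hh _
      have e0 : ∫⁻ x, h x * (κ x / w' x) ∂m =
          ∫⁻ x, W x * w' x * (h x * (κ x / w' x)) ∂μ :=
        hmi (fun x => h x * (κ x / w' x)) (hh.mul hκw)
      refine e0.trans (lintegral_congr (fun x => ?_))
      calc W x * w' x * (h x * (κ x / w' x)) = W x * h x * (w' x * (κ x / w' x)) := by ring
        _ = W x * h x * κ x := by rw [ENNReal.mul_div_cancel (hw'0 x) (hw't x)]
    have hρ : ∫⁻ x, κ x / w' x ∂m ≠ ∞ := by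
      have := e1 1 measurable_one (fun _ => le_rfl)
      simp only [Pi.one_apply, one_mul, mul_one] at this
      rw [this]
      have e2 : ∫⁻ x, W x * κ x ∂μ = ∫⁻ x, κ x * W x ∂μ := by
        refine lintegral_congr (fun x => mul_comm _ _)
      rw [e2]; exact hfin
    have h2 := hgl _ hκw hρ
    rw [e1 g hg hg1] at h2
    refine h2.congr (fun n => ?_)
    rw [e1 (f n) (hfm n) (hf1 n)]
    refine lintegral_congr_ae ?_
    filter_upwards [hWf (hHW n)] with x hx
    show W x * (H n x / W x) * κ x = H n x * κ x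
    rw [hx]

end Crest.Agent.R68.L
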