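import Crest.Agent.R68.LUlt2
import Mathlib
import Crest.Agent.R68.LDefs
import Crest.Agent.R68.FLattice

-- ▼ part R68/LUlt3
section

/-!
# Row 68, Part L: uniqueness and invariance of the weak limit
-/

set_option autoImplicit false
open MeasureTheory Set Filter
open scoped ENNReal Topology

noncomputable section

namespace Crest.Agent.R68.L

variable {Ω : Type*} [MeasurableSpace Ω] {μ : Measure Ω}

/-- two functions below a finite weight that agree against all test functions are a.e. equal -/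
theorem ae_eq_of_test [SigmaFinite μ] {W : Ω → ℝ≥0∞} (hW : Measurable W)
    (hWfin : ∀ᵐ x ∂μ, W x ≠ ∞) {g h : Ω → ℝ≥0∞} (hg : Measurable g) (hh : Measurable h)
    (heq : ∀ κ : Ω → ℝ≥0∞, Measurable κ → ∫⁻ x, κ x * W x ∂μ ≠ ∞ →
      ∫⁻ x, g x * κ x ∂μ = ∫⁻ x, h x * κ x ∂μ) : g =ᵐ[μ] h := by
  have hsf : SigmaFinite (μ.withDensity W) := SigmaFinite.withDensity_of_ne_top hWfin
  obtain ⟨w, hw0, hwm, hwi⟩ := exists_pos_lintegral_lt_of_sigmaFinite (μ.withDensity W)
    (ε := 1) one_ne_zero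
  set w' : Ω → ℝ≥0∞ := fun x => (w x : ℝ≥0∞) with hw'
  have hw'm : Measurable w' := hwm.coe_nnreal_ennreal
  have hw'0 : ∀ x, w' x ≠ 0 := fun x => by
    simp only [hw', ne_eq, ENNReal.coe_eq_zero]; exact (hw0 x).ne'
  have hw't : ∀ x, w' x ≠ ∞ := fun x => ENNReal.coe_ne_top
  have hint : ∫⁻ x, w' x * W x ∂μ ≠ ∞ := by
    have e := lintegral_withDensity_eq_lintegral_mul μ hW hw'm
    have : ∫⁻ x, w' x * W x ∂μ = ∫⁻ x, w' x ∂(μ.withDensity W) := by
      rw [e]
      refine lintegral_congr fun x => ?_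
      simp only [Pi.mul_apply]
      ring
    rw [this]
    exact ne_top_of_lt hwi
  have h1 : (fun x => g x * w' x) =ᵐ[μ] fun x => h x * w' x := by
    refine ae_eq_of_forall_setLIntegral_eq_of_sigmaFinite (hg.mul hw'm) (hh.mul hw'm) ?_
    intro s hs _
    have hk := heq (s.indicator w') (hw'm.indicator hs) ?_
    · have e : ∀ f : Ω → ℝ≥0∞, ∫⁻ x, f x * s.indicator w' x ∂μ = ∫⁻ x in s, f x * w' x ∂μ := by
        intro f
        rw [← lintegral_indicator hs]
        refine lintegral_congr fun x => ?_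
        by_cases hx : x ∈ s <;> simp [hx]
      rw [← e, ← e]
      exact hk
    · refine ne_top_of_le_ne_top hint (lintegral_mono fun x => ?_)
      gcongr
      exact indicator_le_self s w' x
  filter_upwards [h1] with x hx
  exact (ENNReal.mul_left_inj (hw'0 x) (hw't x)).1 hx

/-- invariance of weak limits -/
theorem weak_limit_invariant [SigmaFinite μ] {U : Filter ℕ} [U.NeBot] {W : Ω → ℝ≥0∞}
    (hW : Measurable W) (hWfin : ∀ᵐ x ∂μ, W x ≠ ∞) {H : ℕ → Ω → ℝ≥0∞} {g : Ω → ℝ≥0∞}
    (hH : ∀ n, Measurable (H n)) (hg : Measurable g)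
    (hlim : ∀ κ : Ω → ℝ≥0∞, Measurable κ → ∫⁻ x, κ x * W x ∂μ ≠ ∞ →
        Tendsto (fun n => ∫⁻ x, H n x * κ x ∂μ) U (𝓝 (∫⁻ x, g x * κ x ∂μ)))
    {S S' : Ω → Ω} (hS : MeasurePreserving S μ μ) (hS' : Measurable S')
    (hSS' : ∀ x, S' (S x) = x) (hWS : ∀ x, W (S x) = W x) (hHS : ∀ n x, H n (S x) = H n x) :
    g ∘ S =ᵐ[μ] g := by
  refine ae_eq_of_test hW hWfin (hg.comp hS.measurable) hg ?_
  intro κ hκ hint
  have e0 : ∀ f : Ω → ℝ≥0∞, Measurable f →
      ∫⁻ x, f (S x) * κ x ∂μ = ∫⁻ x, f x * κ (S' x) ∂μ := by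
    intro f hf
    have := hS.lintegral_comp (f := fun y => f y * κ (S' y)) (hf.mul (hκ.comp hS'))
    rw [← this]
    refine lintegral_congr fun x => ?_
    rw [hSS']
  have hint' : ∫⁻ x, κ (S' x) * W x ∂μ ≠ ∞ := by
    have := e0 W hW
    have e1 : ∫⁻ x, κ (S' x) * W x ∂μ = ∫⁻ x, κ x * W x ∂μ := by
      calc ∫⁻ x, κ (S' x) * W x ∂μ = ∫⁻ x, W x * κ (S' x) ∂μ :=
            lintegral_congr fun x => mul_comm _ _
        _ = ∫⁻ x, W (S x) * κ x ∂μ := this.symm
        _ = ∫⁻ x, κ x * W x ∂μ := lintegral_congr fun x => by rw [hWS, mul_comm]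
    rw [e1]
    exact hint
  have l1 := hlim (fun x => κ (S' x)) (hκ.comp hS') hint'
  have l2 := hlim κ hκ hint
  have e2 : (fun n => ∫⁻ x, H n x * κ (S' x) ∂μ) = fun n => ∫⁻ x, H n x * κ x ∂μ := by
    funext n
    rw [← e0 (H n) (hH n)]
    refine lintegral_congr fun x => by rw [hHS]
  rw [e2] at l1
  have e3 := tendsto_nhds_unique l1 l2
  show ∫⁻ x, g (S x) * κ x ∂μ = _
  rw [e0 g hg]
  exact e3

end Crest.Agent.R68.L
end
end

-- ▼ part R68/LFix
section

/-!
Row 68, PART L (helper944): from an almost everywhere fixed point of a monotone operator to an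
everywhere fixed point; exact periodicity.
-/

set_option autoImplicit false
set_option linter.unusedSectionVars false
open MeasureTheory Filter
open scoped ENNReal Topology

namespace Crest.Agent.R68.L

variable {X : Type*} [MeasurableSpace X]


theorem fix_meas_iSup {ι : Type*} [Countable ι] {F : ι → X → ℝ≥0∞}
    (hF : ∀ n, Measurable (F n)) : Measurable (⨆ n, F n) := by
  have h : (⨆ n, F n) = fun x => ⨆ n, F n x := by
    funext x
    rw [iSup_apply]
  rw [h]
  exact Measurable.iSup hF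

section iterate

variable {T : (X → ℝ≥0∞) → (X → ℝ≥0∞)}




end iterate




section fix

variable {T : (X → ℝ≥0∞) → (X → ℝ≥0∞)}













end fix


/-- **Exact periodicity.** If `f` is a.e. invariant under a countable group of transformations,
the supremum of its translates is exactly invariant, equal to `f` a.e. and below every invariant
majorant of `f`. -/
theorem exists_exact_periodic {ι : Type*} [AddCommGroup ι] [Countable ι] {μ : Measure X}
    {S : ι → X → X} (hS0 : S 0 = id) (hSadd : ∀ i j x, S (i + j) x = S i (S j x))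
    (hSm : ∀ i, Measurable (S i)) {f : X → ℝ≥0∞} (hf : Measurable f)
    (hae : ∀ i, f ∘ S i =ᵐ[μ] f) :
    ∃ g : X → ℝ≥0∞, Measurable g ∧ (∀ i, g ∘ S i = g) ∧ g =ᵐ[μ] f ∧ f ≤ g ∧
      (∀ W : X → ℝ≥0∞, f ≤ W → (∀ i, W ∘ S i = W) → g ≤ W) := by
  refine ⟨⨆ i, f ∘ S i, fix_meas_iSup (fun i => hf.comp (hSm i)), ?_, ?_, ?_, ?_⟩
  · intro i
    funext x
    simp only [Function.comp_apply, iSup_apply]
    refine (Equiv.addRight i).iSup_congr fun j => ?_
    simp only [Equiv.coe_addRight]
    rw [hSadd]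
  · have h : ∀ᵐ x ∂μ, ∀ i, (f ∘ S i) x = f x := ae_all_iff.2 hae
    filter_upwards [h] with x hx
    simp only [iSup_apply]
    rw [iSup_congr hx, iSup_const]
  · have h := le_iSup (fun i => f ∘ S i) 0
    simpa [hS0] using h
  · intro W hfW hW
    refine iSup_le fun i => ?_
    intro x
    have h1 := hfW (S i x)
    have h2 := congrFun (hW i) x
    simp only [Function.comp_apply] at h2 ⊢
    rwa [h2] at h1


end Crest.Agent.R68.L
end

-- ▼ part R68/LAnc

/-!
# Row 68, Part L: the ancient solution (abstract form)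
-/

set_option autoImplicit false
open MeasureTheory Set Filter
open scoped ENNReal Topology
open Crest.AnalysisR.VecCalc3 Crest.AnalysisR.PDE.Boltzmann

noncomputable section

namespace Crest.Agent.R68.L

open Crest.Agent.R68.A

/-- `Γ`-periodic in position -/
def PerF (f : Den) : Prop := ∀ (t : ℝ) (v : R3), PerG (fun x => f t x v)

/-- phase space-time -/
abbrev XX : Type := ℝ × P2 × R3

/-- uncurried density -/
def unc (f : Den) : XX → ℝ≥0∞ := fun p => f p.1 p.2.1 p.2.2

/-- curried function -/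
def cur (f : XX → ℝ≥0∞) : Den := fun t x v => f (t, x, v)

@[simp] theorem unc_cur (f : XX → ℝ≥0∞) : unc (cur f) = f := rfl
@[simp] theorem cur_unc (f : Den) : cur (unc f) = f := rfl

theorem meas3_cur {f : XX → ℝ≥0∞} (hf : Measurable f) : Meas3 (cur f) := hf

/-- cut to the time interval `(0,t0)` -/
def cut (t0 : ℝ) (f : Den) : Den := fun t x v => if 0 < t ∧ t < t0 then f t x v else 0

theorem meas3_cut {t0 : ℝ} {f : Den} (hf : Meas3 f) : Meas3 (cut t0 f) := by
  unfold Meas3 cut
  refine Measurable.ite ?_ hf measurable_const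
  exact (measurableSet_lt measurable_const measurable_fst).inter
    (measurableSet_lt measurable_fst measurable_const)

/-- the operator of the hot equation on `(0,t0)` -/
def cutT (φ : Den) (t0 : ℝ) (f : XX → ℝ≥0∞) : XX → ℝ≥0∞ := unc (cut t0 (TL φ (cur f)))

/-- null sets are respected by `TL` -/
def NullOK (φ : Den) : Prop := ∀ f : Den, Meas3 f → (∀ᵐ p : XX, unc f p = 0) →
  ∀ᵐ p : XX, unc (TL φ f) p = 0

/-- `TL ∘ TL` sees only the a.e. class -/
def TwoOK (φ : Den) : Prop := ∀ f g : Den, Meas3 f → Meas3 g → (unc f =ᵐ[volume] unc g) →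
  TL φ (TL φ f) = TL φ (TL φ g)

variable {φ : Den}

theorem posOp_cutT (hφ : Meas3 φ) (hN : NullOK φ) (t0 : ℝ) :
    PosOp (volume : Measure XX) (cutT φ t0) where
  meas f hf := meas3_cut (meas3_TL hφ (meas3_cur hf))
  add f g hf hg := by
    have h := TL_add (φ := φ) hφ (h := cur f) (k := cur g) (meas3_cur hf)
    have h' : TL φ (cur (f + g)) = fun t x v => TL φ (cur f) t x v + TL φ (cur g) t x v := h
    funext p
    simp only [cutT, h', unc, cut, Pi.add_apply]
    split_ifs <;> simp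
  sup f hf hmono := by
    have h := TL_iSup (φ := φ) hφ (fun n => cur (f n)) (fun n => meas3_cur (hf n))
      (fun t x v i j hij => hmono hij (t, x, v))
    have h' : TL φ (cur (fun p => ⨆ n, f n p)) = fun t x v => ⨆ n, TL φ (cur (f n)) t x v := h
    funext p
    simp only [cutT, h', unc, cut]
    split_ifs <;> simp
  smul c f hf := by
    have h := TL_smul (φ := φ) hφ (h := cur f) (meas3_cur hf) c
    have h' : TL φ (cur (fun p => c * f p)) = fun t x v => c * TL φ (cur f) t x v := h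
    funext p
    simp only [cutT, h', unc, cut]
    split_ifs <;> simp
  null f hf h := by
    filter_upwards [hN (cur f) (meas3_cur hf) h] with p hp
    simp only [cutT, unc, cut] at hp ⊢
    rw [hp]
    simp

/-! ### causality and periodicity -/

theorem Dam_causal {q k : Den} {t0 t : ℝ} (ht : t ≤ t0)
    (h : ∀ s ∈ Ioo 0 t0, ∀ x v, q s x v = k s x v) (x : P2) (v : R3) :
    Dam φ q t x v = Dam φ k t x v := by
  refine le_antisymm (Dam_mono_at fun s hs => ?_) (Dam_mono_at fun s hs => ?_)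
  · rw [h s ⟨hs.1, hs.2.trans_le ht⟩]
  · rw [h s ⟨hs.1, hs.2.trans_le ht⟩]

theorem TL_causal {q k : Den} {t0 t : ℝ} (ht : t ≤ t0)
    (h : ∀ s ∈ Ioo 0 t0, ∀ x v, q s x v = k s x v) (x : P2) (v : R3) :
    TL φ q t x v = TL φ k t x v := by
  refine Dam_causal ht (fun s hs x v => ?_) x v
  refine le_antisymm (Gf_mono_at (fun z => ?_) v) (Gf_mono_at (fun z => ?_) v)
  · rw [h s hs]
  · rw [h s hs]

theorem TL_cut {t0 t : ℝ} (ht : t ≤ t0) (f : Den) (x : P2) (v : R3) :
    TL φ (cut t0 f) t x v = TL φ f t x v :=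
  TL_causal ht (fun s hs x v => by simp [cut, hs.1, hs.2]) x v

theorem Acc_per (hp : PerF φ) (s t : ℝ) (x : P2) (v : R3) (k : ℤ × ℤ) :
    A.Acc φ s t (x + latt k) v = A.Acc φ s t x v := by
  unfold A.Acc
  refine lintegral_congr fun r => ?_
  have e : x + latt k - (t - r) • bar v = (x - (t - r) • bar v) + latt k := by abel
  rw [e]
  congr 1
  funext z
  exact hp r z _ k

theorem PerF_Gf (hp : PerF φ) {h : Den} (hh : PerF h) : PerF (Gf φ h) := by
  intro t v x k
  show Gf φ h t (x + latt k) v = Gf φ h t x v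
  have e1 : φ t (x + latt k) = φ t x := by funext z; exact hp t z x k
  have e2 : h t (x + latt k) = h t x := by funext z; exact hh t z x k
  simp only [Gf, e1, e2]

theorem PerF_Dam (hp : PerF φ) {q : Den} (hq : PerF q) : PerF (Dam φ q) := by
  intro t v x k
  show Dam φ q t (x + latt k) v = Dam φ q t x v
  unfold Dam
  refine lintegral_congr fun s => ?_
  have e : x + latt k - (t - s) • bar v = (x - (t - s) • bar v) + latt k := by abel
  rw [Acc_per hp, e]
  congr 1
  exact hq s v _ k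

theorem PerF_TL (hp : PerF φ) {h : Den} (hh : PerF h) : PerF (TL φ h) :=
  PerF_Dam hp (PerF_Gf hp hh)

theorem PerF_iter (hp : PerF φ) {h : Den} (hh : PerF h) (n : ℕ) : PerF ((TL φ)^[n] h) := by
  induction n with
  | zero => exact hh
  | succ n ih => rw [Function.iterate_succ_apply']; exact PerF_TL hp ih

theorem PerF_sol (hp : PerF φ) {σ : Den} (hσ : PerF σ) : PerF (sol φ σ) := by
  intro t v x k
  show sol φ σ t (x + latt k) v = sol φ σ t x v
  unfold sol
  congr 1
  funext n
  exact PerF_iter hp (PerF_Dam hp hσ) n t v x k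

/-- translation by a lattice vector -/
def trX (k : ℤ × ℤ) (p : XX) : XX := (p.1, p.2.1 + latt k, p.2.2)

theorem trX_zero : trX 0 = id := by
  funext p
  simp [trX]

theorem trX_add (j k : ℤ × ℤ) (p : XX) : trX (j + k) p = trX j (trX k p) := by
  simp only [trX, latt_add]
  refine Prod.ext rfl (Prod.ext ?_ rfl)
  show p.2.1 + (latt j + latt k) = p.2.1 + latt k + latt j
  abel

theorem measurable_trX (k : ℤ × ℤ) : Measurable (trX k) := by
  unfold trX
  fun_prop

theorem measurePreserving_trX (k : ℤ × ℤ) :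
    MeasurePreserving (trX k) (volume : Measure XX) volume := by
  have h : MeasurePreserving (Prod.map id (Prod.map (fun x : P2 => x + latt k) id))
      ((volume : Measure ℝ).prod ((volume : Measure P2).prod (volume : Measure R3)))
      ((volume : Measure ℝ).prod ((volume : Measure P2).prod (volume : Measure R3))) :=
    (MeasurePreserving.id _).prod
      ((measurePreserving_add_right volume (latt k)).prod (MeasurePreserving.id _))
  exact h

theorem perF_iff {f : Den} : PerF f ↔ ∀ k p, unc f (trX k p) = unc f p :=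
  ⟨fun h k p => h p.1 p.2.2 p.2.1 k, fun h t v x k => h k (t, x, v)⟩

theorem PerF_cut {f : Den} (h : PerF f) (t0 : ℝ) : PerF (cut t0 f) := by
  intro t v x k
  have := h t v x k
  simp only at this
  simp only [cut]
  rw [this]

/-! ### the ancient solution -/

/-- **Existence of an ancient solution**, abstract form: sources `σ n` whose solutions stay below
the weight `E` and keep a fixed amount of mass, and whose seeds disappear. -/
theorem exists_ancient_abs {E : Den} (hφ : Meas3 φ) (hE : Meas3 E) (pφ : PerF φ) (pE : PerF E)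
    (hN : NullOK φ) (hN2 : TwoOK φ) {t0 : ℝ}
    (hEfin : ∀ᵐ p : XX, 0 < p.1 → p.1 < t0 → unc E p ≠ ∞)
    {C : ℝ≥0∞} (hC : C ≠ ∞) (hTE : ∀ t ∈ Ioc 0 t0, ∀ x v, TL φ E t x v ≤ C * E t x v)
    (σ : ℕ → Den) (hσm : ∀ n, Meas3 (σ n)) (hσp : ∀ n, PerF (σ n))
    (hsol : ∀ n, ∀ t ∈ Ioc 0 t0, ∀ x v, sol φ (σ n) t x v ≤ E t x v)
    (hDam : ∀ᵐ p : XX, 0 < p.1 → p.1 < t0 →
      Tendsto (fun n => unc (Dam φ (σ n)) p / unc E p) atTop (𝓝 0))
    {κ : Den} (hκ : Meas3 κ) {c0 : ℝ≥0∞} (hc0 : 0 < c0)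
    (hmass : ∀ n, c0 ≤ ∫⁻ t in Ioo 0 t0, ∫⁻ x in cellG, ∫⁻ v, κ t x v * sol φ (σ n) t x v)
    (hcell : MeasurableSet cellG)
    (hEint : ∫⁻ t in Ioo 0 t0, ∫⁻ x in cellG, ∫⁻ v, κ t x v * E t x v ≠ ∞) :
    ∃ H : Den, Meas3 H ∧ PerF H ∧ (∀ t ∈ Ioc 0 t0, ∀ x v, H t x v = TL φ H t x v) ∧
      (∀ t ∈ Ioc 0 t0, ∀ x v, H t x v ≤ C ^ 2 * E t x v) ∧
      0 < ∫⁻ t in Ioo 0 t0, ∫⁻ x in cellG, ∫⁻ v, H t x v := by
  classical
  obtain ⟨U, hU⟩ : ∃ U : Ultrafilter ℕ, (U : Filter ℕ) ≤ atTop :=
    ⟨Filter.hyperfilter ℕ, by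
      rw [← Nat.cofinite_eq_atTop]; exact Filter.hyperfilter_le_cofinite⟩
  have hT := posOp_cutT hφ hN t0
  -- everything cut to the time interval
  set W : XX → ℝ≥0∞ := unc (cut t0 E) with hWdef
  have hWm : Measurable W := meas3_cut hE
  have hWfin : ∀ᵐ p : XX, W p ≠ ∞ := by
    filter_upwards [hEfin] with p hp
    simp only [hWdef, unc, cut]
    split_ifs with h
    · exact hp h.1 h.2
    · simp
  have hTW : ∀ p, cutT φ t0 W p ≤ C * W p := by
    intro p
    simp only [cutT, hWdef, cur_unc, unc]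
    by_cases h : 0 < p.1 ∧ p.1 < t0
    · simp only [cut, h, and_self, if_true]
      have := TL_cut (φ := φ) (t0 := t0) h.2.le E p.2.1 p.2.2
      rw [this]
      exact hTE p.1 ⟨h.1, h.2.le⟩ _ _
    · have : cut t0 (TL φ (cut t0 E)) p.1 p.2.1 p.2.2 = 0 := by
        simp only [cut]
        rw [if_neg h]
      rw [this]
      exact zero_le
  set H : ℕ → XX → ℝ≥0∞ := fun n => unc (cut t0 (sol φ (σ n))) with hHdef
  set S : ℕ → XX → ℝ≥0∞ := fun n => unc (cut t0 (Dam φ (σ n))) with hSdef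
  have hHm : ∀ n, Measurable (H n) := fun n => meas3_cut (meas3_sol hφ (hσm n))
  have hSm : ∀ n, Measurable (S n) := fun n => meas3_cut (meas3_Dam hφ (hσm n))
  have hHW : ∀ n p, H n p ≤ W p := by
    intro n p
    simp only [hHdef, hWdef, unc, cut]
    split_ifs with h
    · exact hsol n p.1 ⟨h.1, h.2.le⟩ _ _
    · exact le_rfl
  have hHS : ∀ n, ∀ᵐ p : XX, H n p = cutT φ t0 (H n) p + S n p := by
    intro n
    refine Eventually.of_forall fun p => ?_
    simp only [hHdef, hSdef, cutT, cur_unc, unc]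
    by_cases h : 0 < p.1 ∧ p.1 < t0
    · have e : TL φ (cut t0 (sol φ (σ n))) p.1 p.2.1 p.2.2 = TL φ (sol φ (σ n)) p.1 p.2.1 p.2.2 :=
        TL_cut h.2.le _ _ _
      simp only [cut, h, and_self, if_true] at e ⊢
      rw [e]
      exact sol_eq hφ (hσm n) _ _ _
    · simp only [cut]
      rw [if_neg h, if_neg h, if_neg h, add_zero]
  have hS0 : ∀ᵐ p : XX, Tendsto (fun n => S n p / W p) atTop (𝓝 0) := by
    filter_upwards [hDam] with p hp
    simp only [hSdef, hWdef, unc, cut]
    by_cases h : 0 < p.1 ∧ p.1 < t0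
    · simp only [h, and_self, if_true]
      exact hp h.1 h.2
    · simp [h]
  obtain ⟨g, hgm, hgW, hgT, hglim⟩ := exists_anc_ae (μ := (volume : Measure XX)) U hU hT hWm hWfin
    hC (Eventually.of_forall hTW) H S hHm hSm hHW hHS hS0
  -- periodicity a.e.
  have hper : ∀ k : ℤ × ℤ, g ∘ trX k =ᵐ[volume] g := by
    intro k
    refine weak_limit_invariant (U := (U : Filter ℕ)) hWm hWfin hHm hgm hglim
      (measurePreserving_trX k) (measurable_trX (-k)) ?_ ?_ ?_
    · intro p
      rw [← trX_add, neg_add_cancel, trX_zero]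
      rfl
    · intro p
      have := perF_iff.1 pE k p
      simp only [hWdef, unc, cut, trX] at this ⊢
      rw [this]
    · intro n p
      have := perF_iff.1 (PerF_sol pφ (hσp n)) k p
      simp only [hHdef, unc, cut, trX] at this ⊢
      rw [this]
  obtain ⟨g1, hg1m, hg1p, hg1g, hgg1, hg1W⟩ := exists_exact_periodic (S := trX) trX_zero trX_add
    measurable_trX hgm hper
  have hg1W' : g1 ≤ W := by
    refine hg1W W (fun p => hgW p) (fun k => ?_)
    funext p
    exact perF_iff.1 (PerF_cut pE t0) k p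
  set G : Den := cur g1 with hG
  have hGm : Meas3 G := meas3_cur hg1m
  have hGp : PerF G := perF_iff.2 fun k p => congrFun (hg1p k) p
  -- the equation a.e.
  have hGeq : ∀ᵐ p : XX, g1 p = cutT φ t0 g1 p := by
    have h1 := hT.congr hg1m hgm hg1g
    filter_upwards [hg1g, hgT, h1] with p h2 h3 h4
    rw [h2, h3, h4]
  -- cut densities
  have hGc : cut t0 G = G := by
    funext t x v
    simp only [cut]
    split_ifs with h
    · rfl
    · have : g1 (t, x, v) ≤ W (t, x, v) := hg1W' _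
      simp only [hWdef, unc, cut, if_neg h] at this
      exact (le_antisymm this zero_le).symm
  set H0 : Den := TL φ (TL φ G) with hH0
  have hkey : ∀ᵐ p : XX, unc G p = unc (cut t0 (TL φ G)) p := hGeq
  have hTT : TL φ (TL φ G) = TL φ (TL φ (cut t0 (TL φ G))) :=
    hN2 G _ hGm (meas3_cut (meas3_TL hφ hGm)) hkey
  have hfix : ∀ t ∈ Ioc 0 t0, ∀ x v, H0 t x v = TL φ H0 t x v := by
    intro t ht x v
    have e1 : ∀ s ≤ t0, ∀ x v, TL φ (cut t0 (TL φ G)) s x v = TL φ (TL φ G) s x v :=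
      fun s hs x v => TL_cut hs _ x v
    have e2 : TL φ (TL φ (cut t0 (TL φ G))) t x v = TL φ (TL φ (TL φ G)) t x v :=
      TL_causal ht.2 (fun s hs x v => e1 s hs.2.le x v) x v
    calc H0 t x v = TL φ (TL φ (cut t0 (TL φ G))) t x v := by rw [hH0, hTT]
      _ = TL φ (TL φ (TL φ G)) t x v := e2
      _ = TL φ H0 t x v := rfl
  have hGE : ∀ s ∈ Ioo 0 t0, ∀ x v, G s x v ≤ E s x v := by
    intro s hs x v
    have : g1 (s, x, v) ≤ W (s, x, v) := hg1W' _
    simp only [hWdef, unc, cut, hs.1, hs.2, and_self, if_true] at this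
    exact this
  have hTG : ∀ s ∈ Ioc 0 t0, ∀ x v, TL φ G s x v ≤ C * E s x v := by
    intro s hs x v
    refine le_trans ?_ (hTE s hs x v)
    exact Dam_mono_at fun r hr => Gf_mono_at (fun z => hGE r ⟨hr.1, hr.2.trans_le hs.2⟩ _ z) _
  have hTTG : ∀ s ∈ Ioc 0 t0, ∀ x v, H0 s x v ≤ C ^ 2 * E s x v := by
    intro s hs x v
    have h1 : TL φ (TL φ G) s x v ≤ TL φ (fun t x v => C * E t x v) s x v :=
      Dam_mono_at fun r hr => Gf_mono_at (fun z => hTG r ⟨hr.1, hr.2.le.trans hs.2⟩ _ z) _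
    have h2 : TL φ (fun t x v => C * E t x v) s x v = C * TL φ E s x v := by
      rw [TL_smul hφ hE]
    calc H0 s x v ≤ C * TL φ E s x v := h1.trans_eq h2
      _ ≤ C * (C * E s x v) := mul_le_mul' le_rfl (hTE s hs x v)
      _ = C ^ 2 * E s x v := by ring
  -- `H0 = G` a.e. on the time interval
  have hH0G : ∀ᵐ p : XX, 0 < p.1 → p.1 < t0 → unc H0 p = unc G p := by
    -- cutT (cutT g1) = cutT g1 a.e.
    have h2 : cutT φ t0 (cutT φ t0 g1) =ᵐ[volume] cutT φ t0 g1 :=
      hT.congr (hT.meas _ hg1m) hg1m (hGeq.mono fun p hp => hp.symm)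
    filter_upwards [h2, hGeq] with p hp1 hp2 h3 h4
    have e1 : cutT φ t0 (cutT φ t0 g1) p = unc H0 p := by
      simp only [cutT, unc, cut, h3, h4, and_self, if_true]
      exact TL_cut h4.le _ _ _
    rw [← e1, hp1, ← hp2]
    rfl
  refine ⟨H0, meas3_TL hφ (meas3_TL hφ hGm), PerF_TL pφ (PerF_TL pφ hGp), hfix, hTTG, ?_⟩
  -- positive mass
  set J : Set XX := Ioo 0 t0 ×ˢ (cellG ×ˢ (univ : Set R3)) with hJ
  have hJm : MeasurableSet J := measurableSet_Ioo.prod (hcell.prod MeasurableSet.univ)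
  have fub : ∀ F : XX → ℝ≥0∞, Measurable F → ∫⁻ p in J, F p =
      ∫⁻ t in Ioo 0 t0, ∫⁻ x in cellG, ∫⁻ v, F (t, x, v) := by
    intro F hF
    have e1 : (volume : Measure XX).restrict J =
        ((volume : Measure ℝ).restrict (Ioo 0 t0)).prod
          (((volume : Measure P2).restrict cellG).prod (volume : Measure R3)) := by
      have e2 : ((volume : Measure P2).restrict cellG).prod (volume : Measure R3) =
          ((volume : Measure P2).prod (volume : Measure R3)).restrict (cellG ×ˢ univ) := by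
        rw [← Measure.prod_restrict, Measure.restrict_univ]
      rw [e2, Measure.prod_restrict]
      rfl
    rw [e1, lintegral_prod _ hF.aemeasurable]
    refine lintegral_congr fun t => ?_
    rw [lintegral_prod _ (by fun_prop)]
  by_contra hcon
  have hzero : ∫⁻ t in Ioo 0 t0, ∫⁻ x in cellG, ∫⁻ v, H0 t x v = 0 := by
    simpa using hcon
  have hz1 : ∫⁻ p in J, unc H0 p = 0 :=
    (fub (unc H0) (meas3_TL hφ (meas3_TL hφ hGm))).trans hzero
  have hz2 : ∀ᵐ p ∂(volume : Measure XX).restrict J, unc H0 p = 0 :=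
    (lintegral_eq_zero_iff (meas3_TL hφ (meas3_TL hφ hGm))).1 hz1
  have hz3 : ∀ᵐ p : XX, p ∈ J → unc H0 p = 0 := (ae_restrict_iff' hJm).1 hz2
  -- the test function
  set K : XX → ℝ≥0∞ := J.indicator (unc κ) with hK
  have hKm : Measurable K := Measurable.indicator hκ hJm
  have hKint : ∫⁻ p : XX, K p * W p ≠ ∞ := by
    have e : ∫⁻ p : XX, K p * W p = ∫⁻ p in J, unc κ p * unc E p := by
      rw [← lintegral_indicator hJm]
      refine lintegral_congr fun p => ?_
      by_cases hp : p ∈ J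
      · have h1 : 0 < p.1 ∧ p.1 < t0 := hp.1
        simp only [hK, indicator_of_mem hp, hWdef, unc, cut, h1, and_self, if_true]
      · simp only [hK, indicator_of_notMem hp, zero_mul]
    rw [e, fub (fun p => unc κ p * unc E p) (hκ.mul hE)]
    exact hEint
  have hlim := hglim K hKm hKint
  have hge : c0 ≤ ∫⁻ p : XX, g p * K p := by
    refine ge_of_tendsto hlim (Eventually.of_forall fun n => ?_)
    refine (hmass n).trans_eq ?_
    have e : ∫⁻ p : XX, H n p * K p = ∫⁻ p in J, unc κ p * unc (sol φ (σ n)) p := by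
      rw [← lintegral_indicator hJm]
      refine lintegral_congr fun p => ?_
      by_cases hp : p ∈ J
      · have h1 : 0 < p.1 ∧ p.1 < t0 := hp.1
        simp only [hK, indicator_of_mem hp, hHdef, unc, cut, h1, and_self, if_true]
        exact mul_comm _ _
      · simp only [hK, indicator_of_notMem hp, mul_zero]
    exact (e.trans (fub (fun p => unc κ p * unc (sol φ (σ n)) p)
      (hκ.mul (meas3_sol hφ (hσm n))))).symm
  have hz : ∫⁻ p : XX, g p * K p = 0 := by
    refine (lintegral_eq_zero_iff (hgm.mul hKm)).2 ?_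
    filter_upwards [hz3, hH0G, hg1g] with p h1 h2 h3
    by_cases hp : p ∈ J
    · have h4 : 0 < p.1 ∧ p.1 < t0 := hp.1
      have : g p = 0 := by
        rw [← h3]
        have := h2 h4.1 h4.2
        rw [h1 hp] at this
        exact this.symm
      simp [this]
    · simp [hK, indicator_of_notMem hp]
  rw [hz] at hge
  exact absurd hge (not_le.2 hc0)

end Crest.Agent.R68.L
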