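import Crest.Agent.R68.FLattice

-- ▼ part R68/LSlave1
section

/-!
# Row 68, PART L (helper685): envelope `EE = B2 .. 0` along flights, elementary integrals
-/

set_option autoImplicit false
open MeasureTheory Set
open scoped ENNReal
open Crest.AnalysisR.VecCalc3 Crest.AnalysisR.PDE.Boltzmann

noncomputable section

namespace Crest.Agent.R68.L

/-- `m = max(|v|, |x|_Γ / t)` -/
def mm (t : ℝ) (x : P2) (v : R3) : ℝ := max ‖v‖ (distG x / t)

/-- the envelope of Part L -/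
def EE (P : Par) (g1 g2 : ℝ) (t : ℝ) (x : P2) (v : R3) : ℝ≥0∞ := B2 P g1 g2 0 t x v

lemma EE_eq (P : Par) (g1 g2 t : ℝ) (x : P2) (v : R3) :
    EE P g1 g2 t x v =
      ENNReal.ofReal (Real.exp (-(g1 - √t / 100) * ‖v‖ ^ 2) * Real.exp (-g2 * mm t x v ^ 2)) *
        Dm P t x v := by
  unfold EE B2 mm gau
  rw [Real.rpow_zero, one_mul]

/-- Duhamel integral started at `τ` -/
def Du (τ : ℝ) (q : ℝ → P2 → R3 → ℝ≥0∞) (t : ℝ) (x : P2) (v : R3) : ℝ≥0∞ :=
  ∫⁻ s in Ioo τ t, q s (x - (t - s) • bar v) v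

lemma norm_bar_le (v : R3) : ‖bar v‖ ≤ ‖v‖ := by
  have h : ∀ i : Fin 3, |v i| ≤ ‖v‖ := fun i => by
    have := EuclideanSpace.norm_eq v
    rw [this]
    apply Real.le_sqrt_of_sq_le
    rw [sq_abs]
    have : v i ^ 2 = ‖v i‖ ^ 2 := by rw [Real.norm_eq_abs, sq_abs]
    rw [this]
    exact Finset.single_le_sum (f := fun i => ‖v i‖ ^ 2) (fun _ _ => by positivity) (Finset.mem_univ i)
  rw [bar, Prod.norm_mk]
  exact max_le (by rw [Real.norm_eq_abs]; exact h 0) (by rw [Real.norm_eq_abs]; exact h 1)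

lemma distG_flight_le {s t : ℝ} (hst : s ≤ t) (x : P2) (v : R3) :
    distG x ≤ distG (x - (t - s) • bar v) + (t - s) * ‖v‖ := by
  have h := distG_le_add (x - (t - s) • bar v) ((t - s) • bar v)
  rw [sub_add_cancel, norm_smul, Real.norm_eq_abs, abs_of_nonneg (sub_nonneg.2 hst)] at h
  have := mul_le_mul_of_nonneg_left (norm_bar_le v) (sub_nonneg.2 hst)
  linarith

lemma mm_nonneg (t : ℝ) (x : P2) (v : R3) : 0 ≤ mm t x v := le_max_of_le_left (norm_nonneg _)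

/-- `m` is non-increasing along free flights -/
lemma mm_flight {s t : ℝ} (hs : 0 < s) (hst : s ≤ t) (x : P2) (v : R3) :
    mm t x v ≤ mm s (x - (t - s) • bar v) v := by
  have ht : 0 < t := hs.trans_le hst
  unfold mm
  refine max_le (le_max_left _ _) ?_
  have h := distG_flight_le hst x v
  set z := distG (x - (t - s) • bar v) / s with hz
  have hz' : distG (x - (t - s) • bar v) = z * s := by rw [hz]; field_simp
  rw [div_le_iff₀ ht]
  have h1 : z ≤ max ‖v‖ z := le_max_right _ _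
  have h2 : ‖v‖ ≤ max ‖v‖ z := le_max_left _ _
  rw [hz'] at h
  nlinarith [mul_le_mul_of_nonneg_right h1 hs.le,
    mul_le_mul_of_nonneg_left h2 (sub_nonneg.2 hst)]

/-- far from the lattice `m²` grows backwards -/
lemma mm_far {s t V0 : ℝ} (hs : 0 < s) (hst : s ≤ t) {x : P2} {v : R3}
    (hv : ‖v‖ ≤ V0) (hz : 2 * V0 ≤ distG x / t) :
    mm t x v ^ 2 + (distG x / t) ^ 2 * ((t - s) / t) ≤ mm s (x - (t - s) • bar v) v ^ 2 := by
  have ht : 0 < t := hs.trans_le hst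
  have hV : 0 ≤ V0 := (norm_nonneg v).trans hv
  set z := distG x / t with hzd
  have hx : distG x = z * t := by rw [hzd]; field_simp
  have hm : mm t x v = z := by
    unfold mm
    exact max_eq_right (by linarith)
  have h := distG_flight_le hst x v
  have h1 : (t - s) * ‖v‖ ≤ (t - s) * V0 := mul_le_mul_of_nonneg_left hv (sub_nonneg.2 hst)
  have h2 : z * t - (t - s) * V0 ≤ distG (x - (t - s) • bar v) := by rw [← hx]; linarith
  have h3 : z + (z / 2) * ((t - s) / t) ≤ distG (x - (t - s) • bar v) / s := by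
    rw [le_div_iff₀ hs]
    refine le_trans ?_ h2
    have h4 : (t - s) / t * s ≤ t - s := by
      rw [div_mul_eq_mul_div, div_le_iff₀ ht]
      nlinarith [sub_nonneg.2 hst]
    have h5 : z / 2 * ((t - s) / t * s) ≤ z / 2 * (t - s) :=
      mul_le_mul_of_nonneg_left h4 (by linarith)
    nlinarith [mul_le_mul_of_nonneg_right (show V0 ≤ z / 2 by linarith) (sub_nonneg.2 hst)]
  have h6 : z + (z / 2) * ((t - s) / t) ≤ mm s (x - (t - s) • bar v) v :=
    h3.trans (le_max_right _ _)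
  have h7 : 0 ≤ (t - s) / t := div_nonneg (sub_nonneg.2 hst) ht.le
  have hz0 : 0 ≤ z := by linarith
  rw [hm]
  have h8 : 0 ≤ z + (z / 2) * ((t - s) / t) := by positivity
  calc z ^ 2 + z ^ 2 * ((t - s) / t) ≤ (z + (z / 2) * ((t - s) / t)) ^ 2 := by nlinarith [sq_nonneg (z / 2 * ((t - s) / t))]
    _ ≤ _ := pow_le_pow_left₀ h8 h6 2

lemma gau_le {g1 s t : ℝ} (hst : s ≤ t) (v : R3) :
    Real.exp (-(g1 - √s / 100) * ‖v‖ ^ 2) ≤ Real.exp (-(g1 - √t / 100) * ‖v‖ ^ 2) := by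
  apply Real.exp_le_exp.2
  have := Real.sqrt_le_sqrt hst
  nlinarith [sq_nonneg ‖v‖]

/-- the envelope along a flight, with the far gain -/
lemma EE_flight_far {P : Par} {g1 g2 : ℝ} (hg2 : 0 ≤ g2) {s t q : ℝ} {x : P2} {v : R3}
    (hst : s ≤ t) (hD : Dm P s (x - (t - s) • bar v) v ≤ Dm P t x v)
    (hq : mm t x v ^ 2 + q ≤ mm s (x - (t - s) • bar v) v ^ 2) :
    EE P g1 g2 s (x - (t - s) • bar v) v ≤ ENNReal.ofReal (Real.exp (-g2 * q)) * EE P g1 g2 t x v := by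
  rw [EE_eq, EE_eq, ← mul_assoc, ← ENNReal.ofReal_mul (Real.exp_pos _).le]
  refine mul_le_mul' (ENNReal.ofReal_le_ofReal ?_) hD
  have h1 := gau_le (g1 := g1) hst v
  have h2 : Real.exp (-g2 * mm s (x - (t - s) • bar v) v ^ 2) ≤
      Real.exp (-g2 * q) * Real.exp (-g2 * mm t x v ^ 2) := by
    rw [← Real.exp_add]
    apply Real.exp_le_exp.2
    nlinarith
  calc _ ≤ Real.exp (-(g1 - √t / 100) * ‖v‖ ^ 2) * (Real.exp (-g2 * q) * Real.exp (-g2 * mm t x v ^ 2)) :=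
        mul_le_mul h1 h2 (Real.exp_pos _).le (Real.exp_pos _).le
    _ = _ := by ring

lemma EE_flight {P : Par} {g1 g2 : ℝ} (hg2 : 0 ≤ g2) {s t : ℝ} {x : P2} {v : R3}
    (hs : 0 < s) (hst : s ≤ t) (hD : Dm P s (x - (t - s) • bar v) v ≤ Dm P t x v) :
    EE P g1 g2 s (x - (t - s) • bar v) v ≤ EE P g1 g2 t x v := by
  have h := EE_flight_far (g1 := g1) hg2 (q := 0) hst hD
    (by simpa using pow_le_pow_left₀ (mm_nonneg _ _ _) (mm_flight hs hst x v) 2)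
  simpa using h

/-! ### elementary integrals -/

lemma lint_pow {b t : ℝ} (hb : 1 ≤ b) (ht : 0 < t) :
    (∫⁻ s in Ioo (0 : ℝ) t, ENNReal.ofReal (s ^ (b - 1))) ≤ ENNReal.ofReal (t ^ b / b) := by
  have hint : IntervalIntegrable (fun s : ℝ => s ^ (b - 1)) volume 0 t :=
    intervalIntegral.intervalIntegrable_rpow' (by linarith)
  have h1 : (∫⁻ s in Ioc (0 : ℝ) t, ENNReal.ofReal (s ^ (b - 1))) =
      ENNReal.ofReal (∫ s in (0 : ℝ)..t, s ^ (b - 1)) := by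
    rw [intervalIntegral.integral_of_le ht.le]
    rw [ofReal_integral_eq_lintegral_ofReal hint.1]
    filter_upwards [ae_restrict_mem measurableSet_Ioc] with s hs
    exact Real.rpow_nonneg hs.1.le _
  calc _ ≤ ∫⁻ s in Ioc (0 : ℝ) t, ENNReal.ofReal (s ^ (b - 1)) :=
        lintegral_mono_set Ioo_subset_Ioc_self
    _ = _ := h1
    _ ≤ _ := by
        apply ENNReal.ofReal_le_ofReal
        rw [integral_rpow (Or.inl (by linarith))]
        rw [show b - 1 + 1 = b by ring, Real.zero_rpow (by linarith)]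
        simp

lemma lint_inv {τ t lam : ℝ} (ht : 0 < t) (hl : 0 ≤ lam) (hl2 : lam ≤ 1 / 2) (hτ : τ = t * (1 - lam)) :
    (∫⁻ s in Ioo τ t, ENNReal.ofReal (1 / s)) ≤ ENNReal.ofReal (2 * lam) := by
  have hτ0 : 0 < τ := by rw [hτ]; exact mul_pos ht (by linarith)
  calc (∫⁻ s in Ioo τ t, ENNReal.ofReal (1 / s)) ≤ ∫⁻ _ in Ioo τ t, ENNReal.ofReal (1 / τ) := by
        refine setLIntegral_mono measurable_const fun s hs => ENNReal.ofReal_le_ofReal ?_
        exact one_div_le_one_div_of_le hτ0 hs.1.le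
    _ = ENNReal.ofReal (1 / τ) * ENNReal.ofReal (t - τ) := by
        rw [setLIntegral_const, Real.volume_Ioo]
    _ = ENNReal.ofReal (1 / τ * (t - τ)) := by rw [ENNReal.ofReal_mul (by positivity)]
    _ ≤ _ := by
        apply ENNReal.ofReal_le_ofReal
        rw [one_div, inv_mul_le_iff₀ hτ0, hτ]
        nlinarith [mul_nonneg ht.le hl, mul_nonneg ht.le (mul_nonneg hl (show 0 ≤ 1 / 2 - lam by linarith))]

lemma lint_far {b t q : ℝ} (hb : 1 ≤ b) (ht : 0 < t) (hq : 0 < q) :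
    (∫⁻ s in Ioo (0 : ℝ) t, ENNReal.ofReal (s ^ (b - 1) * Real.exp (-q * ((t - s) / t)))) ≤
      ENNReal.ofReal (t ^ b / q) := by
  have hcont : Continuous (fun s : ℝ => Real.exp (-q * ((t - s) / t))) := by fun_prop
  have h2 : (∫⁻ s in Ioc (0 : ℝ) t, ENNReal.ofReal (Real.exp (-q * ((t - s) / t)))) =
      ENNReal.ofReal (∫ s in (0 : ℝ)..t, Real.exp (-q * ((t - s) / t))) := by
    rw [intervalIntegral.integral_of_le ht.le]
    rw [ofReal_integral_eq_lintegral_ofReal (hcont.intervalIntegrable 0 t).1]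
    exact Filter.Eventually.of_forall fun s => (Real.exp_pos _).le
  have h3 : (∫ s in (0 : ℝ)..t, Real.exp (-q * ((t - s) / t))) = t / q - t / q * Real.exp (-q) := by
    have hd : ∀ s ∈ uIcc (0 : ℝ) t, HasDerivAt (fun s : ℝ => t / q * Real.exp (-q * ((t - s) / t)))
        (Real.exp (-q * ((t - s) / t))) s := by
      intro s _
      have h4 : HasDerivAt (fun s : ℝ => -q * ((t - s) / t)) (q / t) s := by
        have h5 := (((hasDerivAt_id s).const_sub t).div_const t).const_mul (-q)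
        have e : -q * (-1 / t) = q / t := by ring
        rw [e] at h5
        exact h5
      have h6 := (h4.exp).const_mul (t / q)
      have e : t / q * (Real.exp (-q * ((t - s) / t)) * (q / t)) = Real.exp (-q * ((t - s) / t)) := by
        field_simp
      rw [e] at h6
      exact h6
    rw [intervalIntegral.integral_eq_sub_of_hasDerivAt hd (hcont.intervalIntegrable 0 t)]
    simp [ht.ne']
  calc (∫⁻ s in Ioo (0 : ℝ) t, ENNReal.ofReal (s ^ (b - 1) * Real.exp (-q * ((t - s) / t))))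
      ≤ ∫⁻ s in Ioo (0 : ℝ) t, ENNReal.ofReal (t ^ (b - 1)) * ENNReal.ofReal (Real.exp (-q * ((t - s) / t))) := by
        refine setLIntegral_mono (by fun_prop) fun s hs => ?_
        rw [← ENNReal.ofReal_mul (by positivity)]
        apply ENNReal.ofReal_le_ofReal
        exact mul_le_mul_of_nonneg_right (Real.rpow_le_rpow hs.1.le hs.2.le (by linarith)) (Real.exp_pos _).le
    _ = ENNReal.ofReal (t ^ (b - 1)) * ∫⁻ s in Ioo (0 : ℝ) t, ENNReal.ofReal (Real.exp (-q * ((t - s) / t))) :=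
        lintegral_const_mul' _ _ ENNReal.ofReal_ne_top
    _ ≤ ENNReal.ofReal (t ^ (b - 1)) * ENNReal.ofReal (t / q) := by
        gcongr
        calc _ ≤ _ := lintegral_mono_set Ioo_subset_Ioc_self
          _ = _ := h2
          _ ≤ _ := by
              rw [h3]
              apply ENNReal.ofReal_le_ofReal
              have : 0 ≤ t / q * Real.exp (-q) := by positivity
              linarith
    _ = ENNReal.ofReal (t ^ b / q) := by
        rw [← ENNReal.ofReal_mul (by positivity)]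
        congr 1
        rw [Real.rpow_sub_one ht.ne']
        field_simp

end Crest.Agent.R68.L
end
end

-- ▼ part R68/LSlave2
section

/-!
# Row 68, PART L (helper685): the slaving theorem L2, abstract in the gain operator

`SlaveHyp` collects the inputs (K1), (K2), (K4), (S); `slave` is theorem L2 of note 10436.
-/

set_option autoImplicit false
open MeasureTheory Set
open scoped ENNReal
open Crest.AnalysisR.VecCalc3 Crest.AnalysisR.PDE.Boltzmann

noncomputable section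

namespace Crest.Agent.R68.L

/-- one collision followed by free flight, started at `τ` -/
def DG (Gf : (ℝ → P2 → R3 → ℝ≥0∞) → ℝ → P2 → R3 → ℝ≥0∞) (τ : ℝ)
    (h : ℝ → P2 → R3 → ℝ≥0∞) : ℝ → P2 → R3 → ℝ≥0∞ := Du τ (Gf h)

/-- `ω = exp(g₂ m²)` -/
def om (g2 t : ℝ) (x : P2) (v : R3) : ℝ≥0∞ := ENNReal.ofReal (Real.exp (g2 * mm t x v ^ 2))

/-- abstract positive linear operator acting at fixed `(t,x)` -/
structure GLin (Gf : (ℝ → P2 → R3 → ℝ≥0∞) → ℝ → P2 → R3 → ℝ≥0∞)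
    (E : ℝ → P2 → R3 → ℝ≥0∞) : Prop where
  /-- monotone and homogeneous at fixed `(t,x)` -/
  le : ∀ (c : ℝ≥0∞) (t : ℝ) (x : P2) (f g : ℝ → P2 → R3 → ℝ≥0∞), c ≠ ⊤ →
    (∀ v, f t x v ≤ c * g t x v) → ∀ v, Gf f t x v ≤ c * Gf g t x v
  /-- subadditive against multiples of the envelope -/
  add : ∀ (c : ℝ≥0∞) (t : ℝ) (x : P2) (g : ℝ → P2 → R3 → ℝ≥0∞), c ≠ ⊤ → 0 < t →
    ∀ v, Gf (fun t x v => c * E t x v + g t x v) t x v ≤ c * Gf E t x v + Gf g t x v

lemma GLin.mono {Gf : (ℝ → P2 → R3 → ℝ≥0∞) → ℝ → P2 → R3 → ℝ≥0∞} {E : ℝ → P2 → R3 → ℝ≥0∞}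
    (hG : GLin Gf E) {t : ℝ} {x : P2} {f g : ℝ → P2 → R3 → ℝ≥0∞}
    (h : ∀ v, f t x v ≤ g t x v) (v : R3) : Gf f t x v ≤ Gf g t x v := by
  have := hG.le 1 t x f g ENNReal.one_ne_top (fun v => by rw [one_mul]; exact h v) v
  rwa [one_mul] at this

variable {Gf : (ℝ → P2 → R3 → ℝ≥0∞) → ℝ → P2 → R3 → ℝ≥0∞}

lemma Du_mono {τ t : ℝ} {q r : ℝ → P2 → R3 → ℝ≥0∞} {x : P2} {v : R3}
    (h : ∀ s ∈ Ioo τ t, q s (x - (t - s) • bar v) v ≤ r s (x - (t - s) • bar v) v) :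
    Du τ q t x v ≤ Du τ r t x v := by
  unfold Du
  exact lintegral_mono_ae ((ae_restrict_mem measurableSet_Ioo).mono h)

lemma om_ne_top (g2 t : ℝ) (x : P2) (v : R3) : om g2 t x v ≠ ⊤ := ENNReal.ofReal_ne_top

lemma om_ne_zero (g2 t : ℝ) (x : P2) (v : R3) : om g2 t x v ≠ 0 := by
  unfold om; simp [Real.exp_pos]

lemma om_flight {g2 s t : ℝ} (hg2 : 0 ≤ g2) (hs : 0 < s) (hst : s ≤ t) (x : P2) (v : R3) :
    om g2 t x v ≤ om g2 s (x - (t - s) • bar v) v := by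
  unfold om
  apply ENNReal.ofReal_le_ofReal
  apply Real.exp_le_exp.2
  exact mul_le_mul_of_nonneg_left
    (pow_le_pow_left₀ (mm_nonneg _ _ _) (mm_flight hs hst x v) 2) hg2

/-- the weight `ω` can be moved inside the iterates, at the price `e^{g₂U²}` per collision -/
lemma om_iter {E : ℝ → P2 → R3 → ℝ≥0∞} (hG : GLin Gf E) {g2 : ℝ} (hg2 : 0 ≤ g2) {cU : ℝ≥0∞}
    (hcU : cU ≠ ⊤)
    (K4 : ∀ (h : ℝ → P2 → R3 → ℝ≥0∞) (s : ℝ) (x : P2) (v : R3), 0 < s →
      om g2 s x v * Gf h s x v ≤ cU * Gf (fun s x v => om g2 s x v * h s x v) s x v)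
    {τ : ℝ} (hτ : 0 < τ) (h : ℝ → P2 → R3 → ℝ≥0∞) (j : ℕ) :
    ∀ (t : ℝ) (x : P2) (v : R3), τ ≤ t → om g2 t x v * ((DG Gf τ)^[j] h) t x v ≤
      cU ^ j * ((DG Gf τ)^[j] (fun s x v => om g2 s x v * h s x v)) t x v := by
  induction j with
  | zero => intro t x v _; simp
  | succ j ih =>
    intro t x v _
    rw [Function.iterate_succ_apply', Function.iterate_succ_apply']
    set f := (DG Gf τ)^[j] h with hf
    set f' := (DG Gf τ)^[j] (fun s x v => om g2 s x v * h s x v) with hf'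
    show om g2 t x v * Du τ (Gf f) t x v ≤ cU ^ (j + 1) * Du τ (Gf f') t x v
    unfold Du
    rw [← lintegral_const_mul' _ _ (om_ne_top _ _ _ _),
      ← lintegral_const_mul' _ _ (ENNReal.pow_ne_top hcU)]
    refine lintegral_mono_ae ((ae_restrict_mem measurableSet_Ioo).mono fun s hs => ?_)
    have hs0 : 0 < s := hτ.trans hs.1
    calc om g2 t x v * Gf f s (x - (t - s) • bar v) v
        ≤ om g2 s (x - (t - s) • bar v) v * Gf f s (x - (t - s) • bar v) v :=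
          mul_le_mul' (om_flight hg2 hs0 hs.2.le x v) le_rfl
      _ ≤ cU * Gf (fun s x v => om g2 s x v * f s x v) s (x - (t - s) • bar v) v := K4 _ _ _ _ hs0
      _ ≤ cU * (cU ^ j * Gf f' s (x - (t - s) • bar v) v) := by
          refine mul_le_mul' le_rfl (hG.le _ _ _ _ _ (ENNReal.pow_ne_top hcU) (fun w => ?_) v)
          exact ih s _ w hs.1.le
      _ = _ := by ring

/-- expansion in the number of collisions inside a window, for sequences -/
lemma expand {E : ℝ → P2 → R3 → ℝ≥0∞} (hG : GLin Gf E) {τ T : ℝ} (hτ : 0 < τ)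
    {H : ℕ → ℝ → P2 → R3 → ℝ≥0∞} {κ θ : ℝ≥0∞} (hκ : κ ≠ ⊤) (hθ : θ ≠ ⊤)
    (hE : ∀ t x v, τ ≤ t → t ≤ T → Du τ (Gf E) t x v ≤ θ * E t x v)
    (hEm : ∀ t x v, τ ≤ t → t ≤ T → AEMeasurable (fun s => Gf E s (x - (t - s) • bar v) v)
      (volume.restrict (Ioo τ t))) (n : ℕ)
    (hH : ∀ i < n, ∀ t x v, τ ≤ t → t ≤ T →
      H (i + 1) t x v ≤ κ * E t x v + Du τ (Gf (H i)) t x v) (j : ℕ) :
    j ≤ n → ∀ (t : ℝ) (x : P2) (v : R3), τ ≤ t → t ≤ T →
      H j t x v ≤ κ * (∑ i ∈ Finset.range j, θ ^ i) * E t x v + ((DG Gf τ)^[j] (H 0)) t x v := by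
  induction j with
  | zero => intro _ t x v _ _; simp
  | succ j ih =>
    intro hj t x v h1 h2
    set S := ∑ i ∈ Finset.range j, θ ^ i with hS
    have hSt : S ≠ ⊤ := by
      rw [hS]; exact ENNReal.sum_ne_top.2 fun i _ => ENNReal.pow_ne_top hθ
    have hκS : κ * S ≠ ⊤ := ENNReal.mul_ne_top hκ hSt
    set f := (DG Gf τ)^[j] (H 0) with hf
    have h3 : Du τ (Gf (H j)) t x v ≤ κ * S * (θ * E t x v) + Du τ (Gf f) t x v := by
      calc Du τ (Gf (H j)) t x v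
          ≤ Du τ (fun s y w => κ * S * Gf E s y w + Gf f s y w) t x v := by
            refine Du_mono fun s hs => ?_
            refine le_trans (hG.mono (g := fun s y w => κ * S * E s y w + f s y w) (fun w => ?_) v)
              (hG.add _ _ _ _ hκS (hτ.trans hs.1) v)
            exact ih (by omega) s _ w hs.1.le (hs.2.le.trans h2)
        _ = κ * S * Du τ (Gf E) t x v + Du τ (Gf f) t x v := by
            unfold Du
            rw [lintegral_add_left' ((hEm t x v h1 h2).const_mul _), lintegral_const_mul' _ _ hκS]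
        _ ≤ _ := by gcongr; exact hE t x v h1 h2
    rw [Function.iterate_succ_apply']
    calc H (j + 1) t x v ≤ κ * E t x v + Du τ (Gf (H j)) t x v := hH j (by omega) t x v h1 h2
      _ ≤ κ * E t x v + (κ * S * (θ * E t x v) + Du τ (Gf f) t x v) := by gcongr
      _ = κ * (1 + θ * S) * E t x v + Du τ (Gf f) t x v := by ring
      _ = κ * (∑ i ∈ Finset.range (j + 1), θ ^ i) * E t x v + DG Gf τ f t x v := by
          rw [Finset.sum_range_succ' (fun i => θ ^ i), hS, Finset.mul_sum]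
          congr 3
          rw [pow_zero, add_comm]
          congr 1
          exact Finset.sum_congr rfl fun i _ => by rw [pow_succ, mul_comm]

end Crest.Agent.R68.L
end
end

-- ▼ part R68/LSlave3

/-!
# Row 68, PART L (helper685): the slaving theorem L2 (note 10436), improvement step

Everything is stated for SEQUENCES `h_{k+1} ≤ T h_k + Dam σ` (helper944's request); a solution of
the linear equation is the constant sequence.
-/

set_option autoImplicit false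
open MeasureTheory Set
open scoped ENNReal
open Crest.AnalysisR.VecCalc3 Crest.AnalysisR.PDE.Boltzmann

noncomputable section

namespace Crest.Agent.R68.L

/-- inputs (K1), (K2), (K4), (S) of note 10436 with their constants:
`CK` = `C_T K`, `kV` = `C_T K V / V0`, window `[t(1-λ), t]`, cut radius `R`, `cU = e^{g₂U²}` -/
structure SlaveHyp (P : Par) (g1 g2 t0 : ℝ)
    (Gf : (ℝ → P2 → R3 → ℝ≥0∞) → ℝ → P2 → R3 → ℝ≥0∞)
    (CK kV V0 lam R : ℝ) (cU eS CS : ℝ≥0∞) : Prop where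
  lin : GLin Gf (EE P g1 g2)
  measE : ∀ (τ t : ℝ) (x : P2) (v : R3), 0 < τ →
    AEMeasurable (fun s => Gf (EE P g1 g2) s (x - (t - s) • bar v) v) (volume.restrict (Ioo τ t))
  K1 : ∀ (s t : ℝ) (x : P2) (v : R3), 0 < s → s ≤ t → t ≤ t0 →
    Dm P s (x - (t - s) • bar v) v ≤ Dm P t x v
  K2 : ∀ (s : ℝ) (x : P2) (v : R3), 0 < s → s ≤ t0 →
    Gf (EE P g1 g2) s x v ≤ ENNReal.ofReal (CK / s) * EE P g1 g2 s x v
  K2V : ∀ (s : ℝ) (x : P2) (v : R3), 0 < s → s ≤ t0 → V0 ≤ ‖v‖ →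
    Gf (EE P g1 g2) s x v ≤ ENNReal.ofReal (kV / s) * EE P g1 g2 s x v
  K4 : ∀ (h : ℝ → P2 → R3 → ℝ≥0∞) (s : ℝ) (x : P2) (v : R3), 0 < s →
      om g2 s x v * Gf h s x v ≤ cU * Gf (fun s x v => om g2 s x v * h s x v) s x v
  S : ∀ (h : ℝ → P2 → R3 → ℝ≥0∞), Measurable (fun p : ℝ × P2 × R3 => h p.1 p.2.1 p.2.2) →
    ∀ (t : ℝ) (x : P2) (v : R3) (b1 b2 : ℝ≥0∞), 0 < t → t ≤ t0 → ‖v‖ ≤ V0 → b1 ≠ ⊤ →
    (∀ s ∈ Icc (t * (1 - lam)) t, ∀ y w, h s y w ≤
      b1 * (Dm P s y w * ENNReal.ofReal (Real.exp (-(g1 - √t / 100) * ‖w‖ ^ 2)))) →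
    (∀ s ∈ Icc (t * (1 - lam)) t, (∫⁻ y in Metric.closedBall x (R * t),
      ∫⁻ w in Metric.closedBall (0 : R3) R, h s y w) ≤ b2) →
    ((DG Gf (t * (1 - lam)))^[4] h) t x v ≤
      Dm P t x v * ENNReal.ofReal (Real.exp (-(g1 - √t / 100) * ‖v‖ ^ 2)) *
        (eS * b1 + CS * ENNReal.ofReal (t ^ (-2 : ℝ)) * b2)

/-- the numerical conditions on the constants (satisfied by first choosing `V0`, then `lam`, `eS`,
then `Z0`) -/
structure SlaveNum (g2 t0 CK kV V0 lam R Z0 b rho0 : ℝ) (cU eS : ℝ≥0∞) : Prop where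
  hg2 : 0 < g2
  hb : 1 ≤ b
  hCK : 0 ≤ CK
  hkV : 0 ≤ kV
  hR : 0 ≤ R
  hRt : R * t0 ≤ rho0
  hcU : cU ≠ ⊤
  hZ0 : 0 < Z0
  hZ0V : 2 * V0 ≤ Z0
  hlam0 : 0 < lam
  hlam1 : lam ≤ 1 / 2
  n1 : kV / b ≤ 1 / 8
  n2 : CK / (g2 * Z0 ^ 2) ≤ 1 / 8
  n3 : (1 - lam) ^ b * (∑ i ∈ Finset.range 4, (CK * (2 * lam)) ^ i) ≤ 1 / 8
  n4 : cU ^ 4 * eS ≤ ENNReal.ofReal (1 / 8)

/-- hypotheses on the sequence `H` and the source in L2 -/
structure SlaveSeq (P : Par) (g1 g2 t0 b : ℝ)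
    (Gf : (ℝ → P2 → R3 → ℝ≥0∞) → ℝ → P2 → R3 → ℝ≥0∞) (rho0 : ℝ) (A AM : ℝ≥0∞)
    (H : ℕ → ℝ → P2 → R3 → ℝ≥0∞) (sg : ℝ → P2 → R3 → ℝ≥0∞) : Prop where
  meas : ∀ k, Measurable (fun p : ℝ × P2 × R3 => H k p.1 p.2.1 p.2.2)
  src : ∀ (s : ℝ) (x : P2) (v : R3), 0 < s → s ≤ t0 →
    sg s x v ≤ A * ENNReal.ofReal (s ^ (b - 1)) * EE P g1 g2 s x v
  eq0 : ∀ (k : ℕ) (t : ℝ) (x : P2) (v : R3), 0 < t → t ≤ t0 →
    H (k + 1) t x v ≤ Du 0 (Gf (H k)) t x v + Du 0 sg t x v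
  eqτ : ∀ (k : ℕ) (τ t : ℝ) (x : P2) (v : R3), 0 < τ → τ < t → t ≤ t0 →
    H (k + 1) t x v ≤ H (k + 1) τ (x - (t - τ) • bar v) v + Du τ (Gf (H k)) t x v + Du τ sg t x v
  mass : ∀ (k : ℕ) (s : ℝ) (x : P2), 1 ≤ k → 0 < s → s ≤ t0 →
    (∫⁻ y in Metric.closedBall x rho0, ∫⁻ w, H k s y w) ≤ AM * ENNReal.ofReal (s ^ (b + 2))

variable {P : Par} {g1 g2 t0 : ℝ} {Gf : (ℝ → P2 → R3 → ℝ≥0∞) → ℝ → P2 → R3 → ℝ≥0∞}
  {CK kV V0 lam R Z0 : ℝ} {cU eS CS : ℝ≥0∞} {b rho0 : ℝ} {A AM : ℝ≥0∞}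
  {H : ℕ → ℝ → P2 → R3 → ℝ≥0∞} {sg : ℝ → P2 → R3 → ℝ≥0∞}

/-- bound of the gain along a flight when `h ≤ c t^b EE` and `Gf EE ≤ (k/s) EE` at that velocity -/
lemma Du_gain_le (hS : SlaveHyp P g1 g2 t0 Gf CK kV V0 lam R cU eS CS) (hg2 : 0 ≤ g2)
    {h : ℝ → P2 → R3 → ℝ≥0∞} {c : ℝ≥0∞} (hc : c ≠ ⊤)
    (hh : ∀ s x v, 0 < s → s ≤ t0 → h s x v ≤ c * ENNReal.ofReal (s ^ b) * EE P g1 g2 s x v)
    {k : ℝ} (hk : 0 ≤ k) {t : ℝ} {x : P2} {v : R3} (ht0 : t ≤ t0) (q : ℝ)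
    (hq : ∀ s, 0 < s → s ≤ t → mm t x v ^ 2 + q * ((t - s) / t) ≤ mm s (x - (t - s) • bar v) v ^ 2)
    (hK : ∀ s x', 0 < s → s ≤ t0 →
      Gf (EE P g1 g2) s x' v ≤ ENNReal.ofReal (k / s) * EE P g1 g2 s x' v) :
    Du 0 (Gf h) t x v ≤ c * ENNReal.ofReal k *
      (∫⁻ s in Ioo (0 : ℝ) t, ENNReal.ofReal (s ^ (b - 1) * Real.exp (-(g2 * q) * ((t - s) / t)))) *
        EE P g1 g2 t x v := by
  unfold Du
  rw [mul_assoc, ← lintegral_mul_const _ (by fun_prop),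
    ← lintegral_const_mul' _ _ (ENNReal.mul_ne_top hc ENNReal.ofReal_ne_top)]
  refine lintegral_mono_ae ((ae_restrict_mem measurableSet_Ioo).mono fun s hs => ?_)
  obtain ⟨hs0, hst⟩ := hs
  have hsb : ENNReal.ofReal (s ^ b) ≠ ⊤ := ENNReal.ofReal_ne_top
  have h1 := hS.lin.le (c * ENNReal.ofReal (s ^ b)) s (x - (t - s) • bar v) h (EE P g1 g2)
    (ENNReal.mul_ne_top hc hsb) (fun w => hh s _ w hs0 (hst.le.trans ht0)) v
  have h2 := hK s (x - (t - s) • bar v) hs0 (hst.le.trans ht0)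
  have h3 := EE_flight_far (P := P) (g1 := g1) hg2 (q := q * ((t - s) / t)) hst.le
    (hS.K1 s t x v hs0 hst.le ht0) (hq s hs0 hst.le)
  refine h1.trans ?_
  calc c * ENNReal.ofReal (s ^ b) * Gf (EE P g1 g2) s (x - (t - s) • bar v) v
      ≤ c * ENNReal.ofReal (s ^ b) * (ENNReal.ofReal (k / s) *
        (ENNReal.ofReal (Real.exp (-g2 * (q * ((t - s) / t)))) * EE P g1 g2 t x v)) := by
        gcongr
        exact h2.trans (mul_le_mul' le_rfl h3)
    _ = c * (ENNReal.ofReal (s ^ b) * ENNReal.ofReal (k / s) *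
        ENNReal.ofReal (Real.exp (-g2 * (q * ((t - s) / t))))) * EE P g1 g2 t x v := by ring
    _ = c * (ENNReal.ofReal k * ENNReal.ofReal (s ^ (b - 1) * Real.exp (-(g2 * q) * ((t - s) / t)))) *
          EE P g1 g2 t x v := by
        rw [← ENNReal.ofReal_mul (by positivity), ← ENNReal.ofReal_mul (by positivity),
          ← ENNReal.ofReal_mul hk]
        congr 3
        rw [Real.rpow_sub_one hs0.ne']
        have : -g2 * (q * ((t - s) / t)) = -(g2 * q) * ((t - s) / t) := by ring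
        rw [this]
        ring
    _ = _ := by ring

/-- the source along a flight, started anywhere -/
lemma Du_src_le (hS : SlaveHyp P g1 g2 t0 Gf CK kV V0 lam R cU eS CS) (hg2 : 0 ≤ g2) (hb : 1 ≤ b)
    (hA : A ≠ ⊤)
    (hsrc : ∀ (s : ℝ) (x : P2) (v : R3), 0 < s → s ≤ t0 →
      sg s x v ≤ A * ENNReal.ofReal (s ^ (b - 1)) * EE P g1 g2 s x v)
    {τ t : ℝ} (hτ : 0 ≤ τ) (ht : 0 < t) (ht0 : t ≤ t0) (x : P2) (v : R3) :
    Du τ sg t x v ≤ A * ENNReal.ofReal (t ^ b) * EE P g1 g2 t x v := by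
  unfold Du
  calc ∫⁻ s in Ioo τ t, sg s (x - (t - s) • bar v) v
      ≤ ∫⁻ s in Ioo (0 : ℝ) t, sg s (x - (t - s) • bar v) v :=
        lintegral_mono_set (Ioo_subset_Ioo_left hτ)
    _ ≤ ∫⁻ s in Ioo (0 : ℝ) t, A * (ENNReal.ofReal (s ^ (b - 1)) * EE P g1 g2 t x v) := by
        refine lintegral_mono_ae ((ae_restrict_mem measurableSet_Ioo).mono fun s hs => ?_)
        refine (hsrc s _ v hs.1 (hs.2.le.trans ht0)).trans ?_
        rw [mul_assoc]
        gcongr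
        exact EE_flight hg2 hs.1 hs.2.le (hS.K1 s t x v hs.1 hs.2.le ht0)
    _ = A * ((∫⁻ s in Ioo (0 : ℝ) t, ENNReal.ofReal (s ^ (b - 1))) * EE P g1 g2 t x v) := by
        rw [lintegral_const_mul' _ _ hA, lintegral_mul_const _ (by fun_prop)]
    _ ≤ A * (ENNReal.ofReal (t ^ b) * EE P g1 g2 t x v) := by
        gcongr
        refine (lint_pow hb ht).trans (ENNReal.ofReal_le_ofReal ?_)
        exact div_le_self (by positivity) hb
    _ = _ := by ring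

/-- crude step: `h ≤ c t^b EE` implies `Du 0 (Gf h) ≤ (CK/b) c t^b EE` -/
lemma Du_gain_crude (hS : SlaveHyp P g1 g2 t0 Gf CK kV V0 lam R cU eS CS)
    (hg2 : 0 ≤ g2) (hb : 1 ≤ b) {k : ℝ} (hk : 0 ≤ k)
    {h : ℝ → P2 → R3 → ℝ≥0∞} {c : ℝ≥0∞} (hc : c ≠ ⊤)
    (hh : ∀ s x v, 0 < s → s ≤ t0 → h s x v ≤ c * ENNReal.ofReal (s ^ b) * EE P g1 g2 s x v)
    {t : ℝ} (ht : 0 < t) (ht0 : t ≤ t0) (x : P2) (v : R3)
    (hK : ∀ s x', 0 < s → s ≤ t0 →
      Gf (EE P g1 g2) s x' v ≤ ENNReal.ofReal (k / s) * EE P g1 g2 s x' v) :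
    Du 0 (Gf h) t x v ≤ ENNReal.ofReal (k / b) * c * ENNReal.ofReal (t ^ b) * EE P g1 g2 t x v := by
  refine (Du_gain_le hS hg2 hc hh hk ht0 0 (fun s hs hst => ?_) hK).trans ?_
  · rw [zero_mul, add_zero]
    exact pow_le_pow_left₀ (mm_nonneg _ _ _) (mm_flight hs hst x v) 2
  · calc _ ≤ c * ENNReal.ofReal k * ENNReal.ofReal (t ^ b / b) * EE P g1 g2 t x v := by
          gcongr
          refine le_trans (le_of_eq ?_) (lint_pow hb ht)
          simp
      _ = _ := by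
          rw [mul_assoc c, ← ENNReal.ofReal_mul hk,
            show k * (t ^ b / b) = k / b * t ^ b by ring,
            ENNReal.ofReal_mul (div_nonneg hk (by linarith))]
          ring

end Crest.Agent.R68.L
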