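import Crest.Agent.R68.LDefs
import Crest.Agent.R68.CNewt2
import Crest.Agent.R68.K4a
import Crest.Agent.R68.LSlave3

/-!
# Row 68, PART L (helper585): the inputs (K2), (K4) of note 10436

`(K2)`: gain against the fuel, on the weight `B2`; `(K4)`: the outer weight `exp(g₂ m²)` commutes
with the gain up to a constant.
-/

set_option autoImplicit false
open MeasureTheory Set Filter Topology Metric
open scoped ENNReal Real
open Crest.AnalysisR.VecCalc3 Crest.AnalysisR.PDE.Boltzmann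

noncomputable section

namespace Crest.Agent.R68.L

open Crest.Agent.R68.K2 Crest.Agent.R68.DPole Crest.Agent.R68.C

variable {P : Par}

theorem parD_of_ok (h : P.Ok) : ParD P := by
  refine ⟨h.Y0, h.c0, h.c1, ?_, le_trans (by norm_num) h.j0⟩
  have h1 := h.kap1
  have h2 := Fuel.Ok.dlp h
  unfold Par.kap at h1
  rwa [le_div_iff₀ h2, one_mul] at h1


theorem B2_eq (g1 g2 b s : ℝ) (hs : 0 ≤ s) (x : P2) (v : R3) :
    B2 P g1 g2 b s x v =
      (ENNReal.ofReal (s ^ b) * omE (g1 - √s / 100) g2 (distG x / s) v) * Dm P s x v := by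
  unfold B2 omE gau
  rw [mul_assoc (s ^ b), ENNReal.ofReal_mul (Real.rpow_nonneg hs b), ← Real.exp_add]
  congr 4
  ring

/-- bound of the visible density, depending only on `Y` (times `K/t`) -/
theorem rho_le' (h : P.Ok) {t : ℝ} (ht : 0 < t) (ht1 : t ≤ 1) (x : P2) :
    rho P t x ≤ ENNReal.ofReal ((4 + 3 * (P.Y + 2)) ^ 2 * (P.K / t)) := by
  refine (rho_le h ht x).trans (ENNReal.ofReal_le_ofReal ?_)
  have hY := h.Y0
  have hK := h.K0
  have hκ := Fuel.Ok.kap0 h
  have h1 : P.K / (t * (1 + P.kap * t)) ≤ P.K / t := by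
    apply div_le_div_of_nonneg_left hK ht
    nlinarith [mul_nonneg hκ ht.le]
  have h2 : (4 + 3 * (P.Y + 2) * t) ≤ (4 + 3 * (P.Y + 2)) := by nlinarith
  gcongr

/-- constant of the Newton potential of the fuel -/
def CNw (Y : ℝ) : ℝ := 288 * (4 + 3 * (Y + 2)) ^ 2

/-- velocity scale of the fuel -/
def VV (Y : ℝ) : ℝ := 2 * (Y + 5)

theorem CNw_nonneg (Y : ℝ) : 0 ≤ CNw Y := by unfold CNw; positivity

/-- **Newton potential of the fuel**: `≤ C K/t · V/max(V,|v|) · D^{-3/2}` -/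
theorem newt_phi_le' (h : P.Ok) {t : ℝ} (ht : 0 < t) (ht1 : t ≤ 1) (x : P2) (v : R3) :
    newt (fun u => ENNReal.ofReal (phi P t x u)) v ≤
      ENNReal.ofReal (CNw P.Y * P.K / t * (VV P.Y / max (VV P.Y) ‖v‖)) * Dm P t x v := by
  have hY := h.Y0
  have hK := h.K0
  have hV : 0 < VV P.Y := by unfold VV; positivity
  rcases le_or_gt ‖v‖ (VV P.Y) with hv | hv
  · rw [max_eq_left hv, div_self hV.ne', mul_one]
    refine (newt_phi_le h ht.le x v).trans ?_
    gcongr ?_ * _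
    refine (mul_le_mul_right (rho_le' h ht ht1 x) _).trans ?_
    rw [← ENNReal.ofReal_mul (by positivity)]
    apply ENNReal.ofReal_le_ofReal
    unfold CNw
    have : 144 * (1 + t) ≤ 288 := by linarith
    calc 144 * (1 + t) * ((4 + 3 * (P.Y + 2)) ^ 2 * (P.K / t))
        ≤ 288 * ((4 + 3 * (P.Y + 2)) ^ 2 * (P.K / t)) := by gcongr
      _ = _ := by ring
  · rw [max_eq_right hv.le]
    refine (newt_phi_far h ht.le x hv.le).trans ?_
    have hv0 : 0 < ‖v‖ := hV.trans hv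
    calc ENNReal.ofReal (4 / ‖v‖) * rho P t x
        ≤ ENNReal.ofReal (4 / ‖v‖) * ENNReal.ofReal ((4 + 3 * (P.Y + 2)) ^ 2 * (P.K / t)) := by
          gcongr
          exact rho_le' h ht ht1 x
      _ ≤ ENNReal.ofReal (CNw P.Y * P.K / t * (VV P.Y / ‖v‖)) * 1 := by
          rw [mul_one, ← ENNReal.ofReal_mul (by positivity)]
          apply ENNReal.ofReal_le_ofReal
          unfold CNw
          have h1 : (10 : ℝ) ≤ VV P.Y := by unfold VV; linarith
          calc 4 / ‖v‖ * ((4 + 3 * (P.Y + 2)) ^ 2 * (P.K / t))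
              = 4 * ((4 + 3 * (P.Y + 2)) ^ 2 * (P.K / t) / ‖v‖) := by ring
            _ ≤ (288 * VV P.Y) * ((4 + 3 * (P.Y + 2)) ^ 2 * (P.K / t) / ‖v‖) := by
                gcongr
                linarith
            _ = _ := by ring
      _ ≤ _ := by
          gcongr
          exact C.one_le_Dm t x v

/-- constant of `(K2)` as an extended number -/
def CTe (Y g1 g2 : ℝ) : ℝ≥0∞ :=
  4 * Cpl (g1 / 2) (K4.Np Y * 2) * ENNReal.ofReal ((8 + 6 * Y) ^ 2) *
    ENNReal.ofReal (Real.exp ((g1 + g2) * (Y + 5) ^ 2)) * ENNReal.ofReal (CNw Y)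

theorem CTe_ne_top (Y g1 g2 : ℝ) : CTe Y g1 g2 ≠ ⊤ := by
  unfold CTe
  refine ENNReal.mul_ne_top (ENNReal.mul_ne_top (ENNReal.mul_ne_top (ENNReal.mul_ne_top (by simp)
    (Cpl_lt_top _ _).ne) ENNReal.ofReal_ne_top) ENNReal.ofReal_ne_top) ENNReal.ofReal_ne_top

/-- constant of `(K2)`; depends on `Y, g1, g2` only -/
def CT (Y g1 g2 : ℝ) : ℝ := (CTe Y g1 g2).toReal

theorem CT_nonneg (Y g1 g2 : ℝ) : 0 ≤ CT Y g1 g2 := ENNReal.toReal_nonneg

theorem ofReal_CT (Y g1 g2 : ℝ) : ENNReal.ofReal (CT Y g1 g2) = CTe Y g1 g2 :=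
  ENNReal.ofReal_toReal (CTe_ne_top Y g1 g2)

/-- joint measurability of the fuel -/
theorem meas3_phiE (h : P.Ok) : A.Meas3 (phiE P) :=
  (Fuel.measurable_phi h).ennreal_ofReal

theorem measurable_phiE (h : P.Ok) (t : ℝ) (x : P2) : Measurable (phiE P t x) :=
  (meas3_phiE h).slice t x

theorem perG_phiE (P : Par) (t : ℝ) (v : R3) : PerG fun x => phiE P t x v := by
  intro x k
  show ENNReal.ofReal (phi P t (x + latt k) v) = ENNReal.ofReal (phi P t x v)
  congr 1
  exact Fuel.perG_phi P t v x k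

/-- **(K2)** gain against the fuel on the weight `B2` (any exponent `b`) -/
theorem K2_Gf (h : P.Ok) {g1 g2 b s : ℝ} (hg1 : 0 < g1) (hg2 : 0 ≤ g2) (hs : 0 < s) (hs1 : s ≤ 1)
    (hsg : √s / 100 ≤ g1 / 2) (x : P2) (v : R3) :
    Gf (phiE P) (B2 P g1 g2 b) s x v ≤
      ENNReal.ofReal (CT P.Y g1 g2 * P.K / s * (VV P.Y / max (VV P.Y) ‖v‖)) *
        B2 P g1 g2 b s x v := by
  have hD := parD_of_ok h
  have hY := h.Y0
  have hK := h.K0
  set ζ : ℝ := distG x / s with hζ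
  have hζ0 : 0 ≤ ζ := div_nonneg (distG_nonneg x) hs.le
  set g1' : ℝ := g1 - √s / 100 with hg1'
  have hg1h : g1 / 2 ≤ g1' := by rw [hg1']; linarith
  have hg1p : 0 < g1' := by linarith
  have hg1le : g1' ≤ g1 := by rw [hg1']; have := Real.sqrt_nonneg s; linarith
  set om : R3 → ℝ≥0∞ := fun y => ENNReal.ofReal (s ^ b) * omE g1' g2 ζ y with hom
  have hB : ∀ y, B2 P g1 g2 b s x y = om y * Dm P s x y := fun y => B2_eq g1 g2 b s hs.le x y
  obtain ⟨u, hu⟩ := K4.exists_Sw hD hs.le hs1 x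
  have h1 := Qp_cold (α := g1 / 2) (by positivity) u (c := phiE P s x)
    (g := B2 P g1 g2 b s x) (om2 := om) (om := om) (A := ENNReal.ofReal ((8 + 6 * P.Y) ^ 2))
    (L := ENNReal.ofReal (Real.exp ((g1 + g2) * (P.Y + 5) ^ 2))) (P.Y + 5) v
    (measurable_phiE h s x) (fun y hy => by
      unfold phiE; rw [phi_eq_zero_of_norm h hy]; simp)
    (fun y => by
      rw [hB y]
      calc om y * Dm P s x y ≤ om y * (ENNReal.ofReal ((8 + 6 * P.Y) ^ 2) * Sw u y) := by
            gcongr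
            exact hu y
        _ = _ := by ring)
    (fun vs w hw hR => by
      have h2 := omE_cold_post (g1 := g1') (g2 := g2) (ζ := ζ) (R' := P.Y + 5) hg1p.le hg2 hζ0
        (v := v) (vs := vs) hw hR
      calc om (postVelStar v vs w) = ENNReal.ofReal (s ^ b) * omE g1' g2 ζ (postVelStar v vs w) := rfl
        _ ≤ ENNReal.ofReal (s ^ b) * (ENNReal.ofReal (Real.exp ((g1' + g2) * (P.Y + 5) ^ 2)) *
            omE g1' g2 ζ v * ga g1' vs) := by gcongr
        _ ≤ ENNReal.ofReal (s ^ b) * (ENNReal.ofReal (Real.exp ((g1 + g2) * (P.Y + 5) ^ 2)) *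
            omE g1' g2 ζ v * ga (g1 / 2) vs) := by
            gcongr
            unfold ga
            apply ENNReal.ofReal_le_ofReal
            apply Real.exp_le_exp.2
            have := sq_nonneg ‖vs‖
            nlinarith
        _ = _ := by rw [hom]; ring)
  have h3 : (∫⁻ z, ENNReal.ofReal ‖z‖⁻¹ * phiE P s x (v + z)) ≤
      ENNReal.ofReal (CNw P.Y * P.K / s * (VV P.Y / max (VV P.Y) ‖v‖)) * Dm P s x v := by
    rw [← newt_eq]
    exact newt_phi_le' h hs hs1 x v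
  have hr0 : 0 ≤ VV P.Y / max (VV P.Y) ‖v‖ := by
    have : 0 ≤ VV P.Y := by unfold VV; positivity
    positivity
  calc Gf (phiE P) (B2 P g1 g2 b) s x v
      = 2 * Qp (phiE P s x) (B2 P g1 g2 b s x) v := rfl
    _ ≤ 2 * (2 * Cpl (g1 / 2) (Fintype.card (Fin (K4.Np P.Y) × Bool)) *
        ENNReal.ofReal ((8 + 6 * P.Y) ^ 2) *
        ENNReal.ofReal (Real.exp ((g1 + g2) * (P.Y + 5) ^ 2)) * om v *
        ∫⁻ z, ENNReal.ofReal ‖z‖⁻¹ * phiE P s x (v + z)) := by gcongr
    _ ≤ 2 * (2 * Cpl (g1 / 2) (K4.Np P.Y * 2) *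
        ENNReal.ofReal ((8 + 6 * P.Y) ^ 2) *
        ENNReal.ofReal (Real.exp ((g1 + g2) * (P.Y + 5) ^ 2)) * om v *
        (ENNReal.ofReal (CNw P.Y * P.K / s * (VV P.Y / max (VV P.Y) ‖v‖)) * Dm P s x v)) := by
        rw [K4.card_ix]
        gcongr
    _ = ENNReal.ofReal (CT P.Y g1 g2 * P.K / s * (VV P.Y / max (VV P.Y) ‖v‖)) *
        B2 P g1 g2 b s x v := by
        rw [hB v, show CT P.Y g1 g2 * P.K / s * (VV P.Y / max (VV P.Y) ‖v‖) =
          CT P.Y g1 g2 * (P.K / s * (VV P.Y / max (VV P.Y) ‖v‖)) by ring,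
          ENNReal.ofReal_mul (CT_nonneg _ _ _), ofReal_CT,
          show CNw P.Y * P.K / s * (VV P.Y / max (VV P.Y) ‖v‖) =
          CNw P.Y * (P.K / s * (VV P.Y / max (VV P.Y) ‖v‖)) by ring,
          ENNReal.ofReal_mul (CNw_nonneg _)]
        unfold CTe
        ring

/-! ### (K4) -/

theorem Gf_const_mul' (φ : Den) {c : ℝ≥0∞} (hc : c ≠ ⊤) (f : Den) (t : ℝ) (x : P2) (v : R3) :
    Gf φ (fun t x v => c * f t x v) t x v = c * Gf φ f t x v := by
  unfold Gf Qp
  have h1 : ∀ vs w : R3, ENNReal.ofReal |inner ℝ (v - vs) w| * φ t x (postVel v vs w) *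
      (c * f t x (postVelStar v vs w)) = c * (ENNReal.ofReal |inner ℝ (v - vs) w| *
      φ t x (postVel v vs w) * f t x (postVelStar v vs w)) := fun vs w => by ring
  simp_rw [h1, lintegral_const_mul' c _ hc]
  ring

/-- monotonicity of the gain under a bound along collisions; no measurability -/
theorem Gf_le_of (φ : Den) {f g : Den} {c : ℝ≥0∞} (hc : c ≠ ⊤) {t : ℝ} {x : P2} {v : R3}
    (h : ∀ vs w : R3, ‖w‖ = 1 → φ t x (postVel v vs w) * f t x (postVelStar v vs w) ≤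
      c * (φ t x (postVel v vs w) * g t x (postVelStar v vs w))) :
    Gf φ f t x v ≤ c * Gf φ g t x v := by
  rw [← Gf_const_mul' φ hc]
  unfold Gf Qp
  gcongr 2 * ?_
  refine lintegral_mono fun vs => lintegral_mono_ae ?_
  filter_upwards [ae_sphereMeasure] with w hw
  calc _ = ENNReal.ofReal |inner ℝ (v - vs) w| *
        (φ t x (postVel v vs w) * f t x (postVelStar v vs w)) := by rw [mul_assoc]
    _ ≤ ENNReal.ofReal |inner ℝ (v - vs) w| *
        (c * (φ t x (postVel v vs w) * g t x (postVelStar v vs w))) := mul_le_mul_right (h vs w hw) _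
    _ = _ := by ring

/-- the outer weight along a collision with a cold partner `v'` -/
theorem om_post {g2 R' t : ℝ} (hg : 0 ≤ g2) (ht : 0 < t) (x : P2) {v vs w : R3} (hw : ‖w‖ = 1)
    (hR : ‖postVel v vs w‖ ≤ R') :
    om g2 t x v ≤ ENNReal.ofReal (Real.exp (g2 * R' ^ 2)) * om g2 t x (postVelStar v vs w) := by
  unfold om mm
  rw [← ENNReal.ofReal_mul (by positivity), ← Real.exp_add]
  apply ENNReal.ofReal_le_ofReal
  apply Real.exp_le_exp.2
  have hζ : 0 ≤ distG x / t := div_nonneg (distG_nonneg x) ht.le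
  have h := post_norm_sq hw v vs
  have hR2 : ‖postVel v vs w‖ ^ 2 ≤ R' ^ 2 := by gcongr
  rw [max_sq (norm_nonneg _) hζ, max_sq (norm_nonneg _) hζ, ← mul_add]
  apply mul_le_mul_of_nonneg_left _ hg
  apply max_le
  · have a2 := le_max_left (‖postVelStar v vs w‖ ^ 2) ((distG x / t) ^ 2)
    nlinarith [sq_nonneg ‖vs‖]
  · have a2 := le_max_right (‖postVelStar v vs w‖ ^ 2) ((distG x / t) ^ 2)
    nlinarith [sq_nonneg R']

/-- **(K4)** the outer weight commutes with the gain up to a constant -/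
theorem K4_om (h : P.Ok) {g2 : ℝ} (hg2 : 0 ≤ g2) (f : Den) {s : ℝ} (hs : 0 < s) (x : P2) (v : R3) :
    om g2 s x v * Gf (phiE P) f s x v ≤
      ENNReal.ofReal (Real.exp (g2 * (P.Y + 5) ^ 2)) *
        Gf (phiE P) (fun s x v => om g2 s x v * f s x v) s x v := by
  rw [← Gf_const_mul' (phiE P) (om_ne_top g2 s x v)]
  refine Gf_le_of (phiE P) ENNReal.ofReal_ne_top fun vs w hw => ?_
  by_cases hR : ‖postVel v vs w‖ ≤ P.Y + 5
  · calc phiE P s x (postVel v vs w) * (om g2 s x v * f s x (postVelStar v vs w))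
        ≤ phiE P s x (postVel v vs w) * ((ENNReal.ofReal (Real.exp (g2 * (P.Y + 5) ^ 2)) *
          om g2 s x (postVelStar v vs w)) * f s x (postVelStar v vs w)) := by
          gcongr
          exact om_post hg2 hs x hw hR
      _ = _ := by ring
  · have h0 : phiE P s x (postVel v vs w) = 0 := by
      unfold phiE; rw [phi_eq_zero_of_norm h (not_le.1 hR)]; simp
    rw [h0]; simp

/-! ### measurability of the envelope at positive times -/






/-- **(K2)** in the two forms of `SlaveHyp` -/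
theorem K2_EE (h : P.Ok) {g1 g2 s : ℝ} (hg1 : 0 < g1) (hg2 : 0 ≤ g2) (hs : 0 < s) (hs1 : s ≤ 1)
    (hsg : √s / 100 ≤ g1 / 2) (x : P2) (v : R3) :
    Gf (phiE P) (EE P g1 g2) s x v ≤
      ENNReal.ofReal (CT P.Y g1 g2 * P.K / s) * EE P g1 g2 s x v := by
  refine (K2_Gf h hg1 hg2 hs hs1 hsg x v).trans ?_
  unfold EE
  gcongr
  have hK := h.K0
  have hY := h.Y0
  have hV : 0 < VV P.Y := by unfold VV; positivity
  have hC := CT_nonneg P.Y g1 g2
  apply mul_le_of_le_one_right (by positivity)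
  rw [div_le_one (lt_of_lt_of_le hV (le_max_left _ _))]
  exact le_max_left _ _

theorem K2V_EE (h : P.Ok) {g1 g2 s V0 : ℝ} (hg1 : 0 < g1) (hg2 : 0 ≤ g2) (hs : 0 < s) (hs1 : s ≤ 1)
    (hsg : √s / 100 ≤ g1 / 2) (hV0 : 0 < V0) (x : P2) {v : R3} (hv : V0 ≤ ‖v‖) :
    Gf (phiE P) (EE P g1 g2) s x v ≤
      ENNReal.ofReal (CT P.Y g1 g2 * P.K * VV P.Y / V0 / s) * EE P g1 g2 s x v := by
  refine (K2_Gf h hg1 hg2 hs hs1 hsg x v).trans ?_
  unfold EE
  gcongr
  have hK := h.K0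
  have hY := h.Y0
  have hV : 0 < VV P.Y := by unfold VV; positivity
  have hC := CT_nonneg P.Y g1 g2
  calc CT P.Y g1 g2 * P.K / s * (VV P.Y / max (VV P.Y) ‖v‖)
      ≤ CT P.Y g1 g2 * P.K / s * (VV P.Y / V0) := by
        gcongr
        exact hv.trans (le_max_right _ _)
    _ = _ := by field_simp

end Crest.Agent.R68.L
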