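import Crest.Agent.R68.LMass

/-!
Row 68, PART L (helper944): local masses (balls of radius `< 7/20`).
-/

set_option autoImplicit false
open MeasureTheory Set Filter Topology Metric
open scoped ENNReal Real
open Crest.AnalysisR.VecCalc3 Crest.AnalysisR.PDE.Boltzmann

noncomputable section

namespace Crest.Agent.R68.LMass

open Crest.Agent.R68.K2 Crest.Agent.R68.DPole


theorem measurable_B2_t {P : Par} (hY : 0 < P.Y) (g1 g2 b : ℝ) {t : ℝ} (ht : 0 ≤ t) :
    Measurable (fun q : P2 × R3 => B2 P g1 g2 b t q.1 q.2) := by
  unfold B2 gau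
  have h1 := measurable_Dm_t hY ht
  have h2 := measurable_distG
  refine Measurable.mul ?_ h1
  apply Measurable.ennreal_ofReal
  have h3 : Measurable fun q : P2 × R3 => distG q.1 := h2.comp measurable_fst
  fun_prop

theorem perG_B2 (P : Par) (g1 g2 b t : ℝ) (v : R3) : PerG (fun x => B2 P g1 g2 b t x v) := by
  intro x k
  unfold B2
  have h1 : Dm P t (x + latt k) v = Dm P t x v := perG_Dm P t v x k
  have h2 : distG (x + latt k) = distG x := distG_add_latt x k
  simp only [h1, h2]



end Crest.Agent.R68.LMass
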