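import Crest.Agent.R68.LSlave3
import Crest.Agent.R68.LNeu
import Crest.Agent.R68.LMass

-- ▼ part R68/LSlave4
section

/-!
# Row 68, PART L (helper685): the slaving theorem L2, improvement step
-/

set_option autoImplicit false
open MeasureTheory Set
open scoped ENNReal
open Crest.AnalysisR.VecCalc3 Crest.AnalysisR.PDE.Boltzmann

noncomputable section

namespace Crest.Agent.R68.L

/-- the additive constant of the improvement step -/
def C0 (g2 CK lam R Z0 : ℝ) (cU CS A AM : ℝ≥0∞) : ℝ≥0∞ :=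
  A * (1 + ∑ i ∈ Finset.range 4, ENNReal.ofReal (CK * (2 * lam)) ^ i) +
    cU ^ 4 * CS * ENNReal.ofReal (Real.exp (g2 * (2 * (Z0 + R)) ^ 2)) * AM

lemma om_EE (P : Par) (g1 g2 s : ℝ) (y : P2) (w : R3) :
    om g2 s y w * EE P g1 g2 s y w =
      Dm P s y w * ENNReal.ofReal (Real.exp (-(g1 - √s / 100) * ‖w‖ ^ 2)) := by
  rw [EE_eq, om, ← mul_assoc, ← ENNReal.ofReal_mul (Real.exp_pos _).le, mul_comm (Dm P s y w)]
  congr 2
  rw [mul_comm, mul_assoc, ← Real.exp_add]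
  simp

lemma measurable_mm : Measurable (fun p : ℝ × P2 × R3 => mm p.1 p.2.1 p.2.2) := by
  unfold mm
  have h := measurable_distG
  fun_prop

lemma measurable_om (g2 : ℝ) : Measurable (fun p : ℝ × P2 × R3 => om g2 p.1 p.2.1 p.2.2) := by
  unfold om
  have h := measurable_mm
  fun_prop

variable {P : Par} {g1 g2 t0 : ℝ} {Gf : (ℝ → P2 → R3 → ℝ≥0∞) → ℝ → P2 → R3 → ℝ≥0∞}
  {CK kV V0 lam R Z0 : ℝ} {cU eS CS : ℝ≥0∞} {b rho0 : ℝ} {A AM : ℝ≥0∞}
  {H : ℕ → ℝ → P2 → R3 → ℝ≥0∞} {sg : ℝ → P2 → R3 → ℝ≥0∞}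

/-- large velocities -/
lemma improve_V (hS : SlaveHyp P g1 g2 t0 Gf CK kV V0 lam R cU eS CS)
    (hN : SlaveNum g2 t0 CK kV V0 lam R Z0 b rho0 cU eS) (hA : A ≠ ⊤)
    (hQ : SlaveSeq P g1 g2 t0 b Gf rho0 A AM H sg) {c : ℝ≥0∞} (hc : c ≠ ⊤) (k : ℕ)
    (hk : ∀ s x v, 0 < s → s ≤ t0 → H k s x v ≤ c * ENNReal.ofReal (s ^ b) * EE P g1 g2 s x v)
    {t : ℝ} (ht : 0 < t) (ht0 : t ≤ t0) (x : P2) (v : R3) (hv : V0 ≤ ‖v‖) :
    H (k + 1) t x v ≤ (c * ENNReal.ofReal (1 / 8) + A) * ENNReal.ofReal (t ^ b) *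
      EE P g1 g2 t x v := by
  have h1 := Du_gain_crude hS hN.hg2.le hN.hb hN.hkV hc hk ht ht0 x v
    (fun s x' hs hs0 => hS.K2V s x' v hs hs0 hv)
  have h2 := Du_src_le hS hN.hg2.le hN.hb hA hQ.src le_rfl ht ht0 x v
  calc H (k + 1) t x v ≤ Du 0 (Gf (H k)) t x v + Du 0 sg t x v := hQ.eq0 k t x v ht ht0
    _ ≤ ENNReal.ofReal (kV / b) * c * ENNReal.ofReal (t ^ b) * EE P g1 g2 t x v +
        A * ENNReal.ofReal (t ^ b) * EE P g1 g2 t x v := add_le_add h1 h2
    _ ≤ ENNReal.ofReal (1 / 8) * c * ENNReal.ofReal (t ^ b) * EE P g1 g2 t x v +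
        A * ENNReal.ofReal (t ^ b) * EE P g1 g2 t x v :=
        add_le_add (mul_le_mul' (mul_le_mul' (mul_le_mul' (ENNReal.ofReal_le_ofReal hN.n1) le_rfl)
          le_rfl) le_rfl) le_rfl
    _ = _ := by ring

/-- far from the lattice -/
lemma improve_Z (hS : SlaveHyp P g1 g2 t0 Gf CK kV V0 lam R cU eS CS)
    (hN : SlaveNum g2 t0 CK kV V0 lam R Z0 b rho0 cU eS) (hA : A ≠ ⊤)
    (hQ : SlaveSeq P g1 g2 t0 b Gf rho0 A AM H sg) {c : ℝ≥0∞} (hc : c ≠ ⊤) (k : ℕ)
    (hk : ∀ s x v, 0 < s → s ≤ t0 → H k s x v ≤ c * ENNReal.ofReal (s ^ b) * EE P g1 g2 s x v)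
    {t : ℝ} (ht : 0 < t) (ht0 : t ≤ t0) (x : P2) (v : R3) (hv : ‖v‖ ≤ V0) (hz : Z0 ≤ distG x / t) :
    H (k + 1) t x v ≤ (c * ENNReal.ofReal (1 / 8) + A) * ENNReal.ofReal (t ^ b) *
      EE P g1 g2 t x v := by
  have hg2 := hN.hg2
  have hZ0 := hN.hZ0
  set z := distG x / t with hzd
  have hz0 : 0 < z := hZ0.trans_le hz
  have h1 := Du_gain_le hS hN.hg2.le (b := b) hc hk hN.hCK (x := x) (v := v) ht0 (z ^ 2)
    (fun s hs hst => mm_far hs hst hv (hN.hZ0V.trans hz))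
    (fun s x' hs hs0 => hS.K2 s x' v hs hs0)
  have h2 := Du_src_le hS hN.hg2.le hN.hb hA hQ.src le_rfl ht ht0 x v
  have h3 := lint_far hN.hb ht (q := g2 * z ^ 2) (by positivity)
  have h4 : CK * (t ^ b / (g2 * z ^ 2)) ≤ 1 / 8 * t ^ b := by
    have h5 : CK / (g2 * z ^ 2) ≤ CK / (g2 * Z0 ^ 2) :=
      div_le_div_of_nonneg_left hN.hCK (by positivity)
        (mul_le_mul_of_nonneg_left (pow_le_pow_left₀ hZ0.le hz 2) hg2.le)
    have h6 : 0 ≤ t ^ b := Real.rpow_nonneg ht.le b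
    calc CK * (t ^ b / (g2 * z ^ 2)) = CK / (g2 * z ^ 2) * t ^ b := by ring
      _ ≤ 1 / 8 * t ^ b := mul_le_mul_of_nonneg_right (h5.trans hN.n2) h6
  calc H (k + 1) t x v ≤ Du 0 (Gf (H k)) t x v + Du 0 sg t x v := hQ.eq0 k t x v ht ht0
    _ ≤ c * ENNReal.ofReal CK * ENNReal.ofReal (t ^ b / (g2 * z ^ 2)) * EE P g1 g2 t x v +
        A * ENNReal.ofReal (t ^ b) * EE P g1 g2 t x v := by
        refine add_le_add (h1.trans ?_) h2
        gcongr
    _ ≤ c * (ENNReal.ofReal (1 / 8) * ENNReal.ofReal (t ^ b)) * EE P g1 g2 t x v +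
        A * ENNReal.ofReal (t ^ b) * EE P g1 g2 t x v := by
        rw [mul_assoc c, ← ENNReal.ofReal_mul hN.hCK, ← ENNReal.ofReal_mul (by norm_num)]
        gcongr
    _ = _ := by ring

/-- near region: expansion in a window -/
lemma improve_near (hS : SlaveHyp P g1 g2 t0 Gf CK kV V0 lam R cU eS CS)
    (hN : SlaveNum g2 t0 CK kV V0 lam R Z0 b rho0 cU eS) (hA : A ≠ ⊤)
    (hQ : SlaveSeq P g1 g2 t0 b Gf rho0 A AM H sg) {c : ℝ≥0∞} (hc : c ≠ ⊤) (m : ℕ) (hm : 1 ≤ m)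
    (hk : ∀ j ≤ 4, ∀ s x v, 0 < s → s ≤ t0 →
      H (m + j) s x v ≤ c * ENNReal.ofReal (s ^ b) * EE P g1 g2 s x v)
    {t : ℝ} (ht : 0 < t) (ht0 : t ≤ t0) (x : P2) (v : R3) (hv : ‖v‖ ≤ V0) (hz : distG x / t ≤ Z0) :
    H (m + 4) t x v ≤ (c * ENNReal.ofReal (1 / 4) + (A * (∑ i ∈ Finset.range 4, ENNReal.ofReal (CK * (2 * lam)) ^ i) +
    cU ^ 4 * CS * ENNReal.ofReal (Real.exp (g2 * (2 * (Z0 + R)) ^ 2)) * AM)) * ENNReal.ofReal (t ^ b) *
      EE P g1 g2 t x v := by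
  have hg2 := hN.hg2
  have hZ0 := hN.hZ0
  have hlam0 := hN.hlam0
  have hlam1 := hN.hlam1
  have hCK := hN.hCK
  have hb := hN.hb
  set τ := t * (1 - lam) with hτ
  have hτ0 : 0 < τ := mul_pos ht (by linarith)
  have hτt : τ ≤ t := by rw [hτ]; nlinarith
  set θ := ENNReal.ofReal (CK * (2 * lam)) with hθ
  set Sθ := ∑ i ∈ Finset.range 4, θ ^ i with hSθ
  set κ := c * ENNReal.ofReal (τ ^ b) + A * ENNReal.ofReal (t ^ b) with hκ
  have hκt : κ ≠ ⊤ := ENNReal.add_ne_top.2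
    ⟨ENNReal.mul_ne_top hc ENNReal.ofReal_ne_top, ENNReal.mul_ne_top hA ENNReal.ofReal_ne_top⟩
  -- one collision in the window
  have hE : ∀ t' x' v', τ ≤ t' → t' ≤ t →
      Du τ (Gf (EE P g1 g2)) t' x' v' ≤ θ * EE P g1 g2 t' x' v' := by
    intro t' x' v' h1 h2
    unfold Du
    calc ∫⁻ s in Ioo τ t', Gf (EE P g1 g2) s (x' - (t' - s) • bar v') v'
        ≤ ∫⁻ s in Ioo τ t', ENNReal.ofReal CK * (ENNReal.ofReal (1 / s) * EE P g1 g2 t' x' v') := by
          refine lintegral_mono_ae ((ae_restrict_mem measurableSet_Ioo).mono fun s hs => ?_)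
          have hs0 : 0 < s := hτ0.trans hs.1
          refine (hS.K2 s _ v' hs0 (by linarith [hs.2])).trans ?_
          rw [← mul_assoc, ← ENNReal.ofReal_mul hCK, mul_one_div]
          gcongr
          exact EE_flight hg2.le hs0 hs.2.le (hS.K1 s t' x' v' hs0 hs.2.le (h2.trans ht0))
      _ = ENNReal.ofReal CK * ((∫⁻ s in Ioo τ t', ENNReal.ofReal (1 / s)) * EE P g1 g2 t' x' v') := by
          rw [lintegral_const_mul' _ _ ENNReal.ofReal_ne_top, lintegral_mul_const _ (by fun_prop)]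
      _ ≤ ENNReal.ofReal CK * (ENNReal.ofReal (2 * lam) * EE P g1 g2 t' x' v') := by
          gcongr
          exact (lintegral_mono_set (Ioo_subset_Ioo_right h2)).trans (lint_inv ht hlam0.le hlam1 hτ)
      _ = _ := by rw [hθ, ENNReal.ofReal_mul hCK]; ring
  -- one step inequality in the window
  have hH : ∀ i < 4, ∀ t' x' v', τ ≤ t' → t' ≤ t →
      H (m + (i + 1)) t' x' v' ≤ κ * EE P g1 g2 t' x' v' + Du τ (Gf (H (m + i))) t' x' v' := by
    intro i hi t' x' v' h1 h2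
    rcases h1.eq_or_lt with h1 | h1
    · refine le_trans ?_ le_self_add
      rw [← h1]
      refine (hk (i + 1) (by omega) τ x' v' hτ0 (hτt.trans ht0)).trans ?_
      exact mul_le_mul' le_self_add le_rfl
    · have h3 := hQ.eqτ (m + i) τ t' x' v' hτ0 h1 (h2.trans ht0)
      have h4 : H (m + i + 1) τ (x' - (t' - τ) • bar v') v' ≤
          c * ENNReal.ofReal (τ ^ b) * EE P g1 g2 t' x' v' := by
        refine (hk (i + 1) (by omega) τ _ v' hτ0 (hτt.trans ht0)).trans ?_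
        gcongr
        exact EE_flight hg2.le hτ0 h1.le (hS.K1 τ t' x' v' hτ0 h1.le (h2.trans ht0))
      have h5 : Du τ sg t' x' v' ≤ A * ENNReal.ofReal (t ^ b) * EE P g1 g2 t' x' v' := by
        refine (Du_src_le hS hg2.le hb hA hQ.src hτ0.le (hτ0.trans h1) (h2.trans ht0) x' v').trans ?_
        gcongr
        exact (hτ0.trans h1).le
      calc H (m + (i + 1)) t' x' v' ≤ _ := h3
        _ ≤ c * ENNReal.ofReal (τ ^ b) * EE P g1 g2 t' x' v' + Du τ (Gf (H (m + i))) t' x' v' +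
            A * ENNReal.ofReal (t ^ b) * EE P g1 g2 t' x' v' := by gcongr
        _ = _ := by rw [hκ]; ring
  have hexp := expand hS.lin hτ0 (H := fun i => H (m + i)) (T := t) hκt ENNReal.ofReal_ne_top hE
    (fun t' x' v' _ _ => hS.measE τ t' x' v' hτ0) 4 hH 4 le_rfl t x v hτt le_rfl
  -- the last term
  have hlast : ((DG Gf τ)^[4] (H m)) t x v ≤
      (c * ENNReal.ofReal (1 / 8) + cU ^ 4 * CS * ENNReal.ofReal (Real.exp (g2 * (2 * (Z0 + R)) ^ 2)) * AM) *
        ENNReal.ofReal (t ^ b) * EE P g1 g2 t x v := by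
    set Cω := ENNReal.ofReal (Real.exp (g2 * (2 * (Z0 + R)) ^ 2)) with hCω
    have hK4 := om_iter hS.lin hg2.le hN.hcU hS.K4 hτ0 (H m) 4 t x v hτt
    have hSm := hS.S (fun s y w => om g2 s y w * H m s y w)
      ((measurable_om g2).mul (hQ.meas m)) t x v (c * ENNReal.ofReal (t ^ b))
      (Cω * (AM * ENNReal.ofReal (t ^ (b + 2)))) ht ht0 hv
      (ENNReal.mul_ne_top hc ENNReal.ofReal_ne_top) ?_ ?_
    · have h6 : om g2 t x v * ((DG Gf τ)^[4] (H m)) t x v ≤ om g2 t x v *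
        ((c * ENNReal.ofReal (1 / 8) + cU ^ 4 * CS * Cω * AM) *
        ENNReal.ofReal (t ^ b) * EE P g1 g2 t x v) := by
        calc _ ≤ cU ^ 4 * ((DG Gf τ)^[4] (fun s x v => om g2 s x v * H m s x v)) t x v := hK4
          _ ≤ cU ^ 4 * (Dm P t x v * ENNReal.ofReal (Real.exp (-(g1 - √t / 100) * ‖v‖ ^ 2)) *
              (eS * (c * ENNReal.ofReal (t ^ b)) + CS * ENNReal.ofReal (t ^ (-2 : ℝ)) *
                (Cω * (AM * ENNReal.ofReal (t ^ (b + 2)))))) := by gcongr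
          _ = (om g2 t x v * EE P g1 g2 t x v) * (cU ^ 4 * eS * c * ENNReal.ofReal (t ^ b) +
              cU ^ 4 * CS * Cω * AM * (ENNReal.ofReal (t ^ (-2 : ℝ)) * ENNReal.ofReal (t ^ (b + 2)))) := by
              rw [om_EE]; ring
          _ ≤ (om g2 t x v * EE P g1 g2 t x v) * (ENNReal.ofReal (1 / 8) * c * ENNReal.ofReal (t ^ b) +
              cU ^ 4 * CS * Cω * AM * ENNReal.ofReal (t ^ b)) := by
              have h7 : ENNReal.ofReal (t ^ (-2 : ℝ)) * ENNReal.ofReal (t ^ (b + 2)) =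
                  ENNReal.ofReal (t ^ b) := by
                rw [← ENNReal.ofReal_mul (by positivity), ← Real.rpow_add ht]
                congr 2; ring
              rw [h7]
              gcongr
              exact hN.n4
          _ = _ := by ring
      exact (ENNReal.mul_le_mul_iff_right (om_ne_zero _ _ _ _) (om_ne_top _ _ _ _)).1 h6
    · intro s hs y w
      have hs0 : 0 < s := hτ0.trans_le hs.1
      calc om g2 s y w * H m s y w
          ≤ om g2 s y w * (c * ENNReal.ofReal (s ^ b) * EE P g1 g2 s y w) := by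
            gcongr
            exact hk 0 (by norm_num) s y w hs0 (hs.2.trans ht0)
        _ = c * ENNReal.ofReal (s ^ b) * (om g2 s y w * EE P g1 g2 s y w) := by ring
        _ ≤ _ := by
            rw [om_EE]
            gcongr
            · exact hs.2
            · exact hs.2
    · intro s hs
      have hs0 : 0 < s := hτ0.trans_le hs.1
      have hst : t / 2 ≤ s := by
        have : t / 2 ≤ τ := by rw [hτ]; nlinarith
        exact this.trans hs.1
      calc (∫⁻ y in Metric.closedBall x (R * t), ∫⁻ w in Metric.closedBall (0 : R3) R,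
              om g2 s y w * H m s y w)
          ≤ ∫⁻ y in Metric.closedBall x (R * t), ∫⁻ w in Metric.closedBall (0 : R3) R,
              Cω * H m s y w := by
            refine lintegral_mono_ae ((ae_restrict_mem Metric.isClosed_closedBall.measurableSet).mono
              fun y hy => ?_)
            refine lintegral_mono_ae ((ae_restrict_mem Metric.isClosed_closedBall.measurableSet).mono
              fun w hw => ?_)
            gcongr
            unfold om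
            rw [hCω]
            apply ENNReal.ofReal_le_ofReal
            apply Real.exp_le_exp.2
            refine mul_le_mul_of_nonneg_left (pow_le_pow_left₀ (mm_nonneg _ _ _) ?_ 2) hg2.le
            have hR := hN.hR
            refine max_le ?_ ?_
            · have := mem_closedBall_zero_iff.1 hw
              linarith
            · rw [div_le_iff₀ hs0]
              have h8 := distG_le_add x (y - x)
              rw [add_sub_cancel] at h8
              have h9 : ‖y - x‖ ≤ R * t := by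
                rw [← dist_eq_norm]; exact Metric.mem_closedBall.1 hy
              have h10 : distG x ≤ Z0 * t := by rwa [div_le_iff₀ ht] at hz
              nlinarith [mul_nonneg (show 0 ≤ Z0 + R by linarith) (show 0 ≤ s - t / 2 by linarith)]
        _ ≤ ∫⁻ y in Metric.closedBall x (R * t), Cω * ∫⁻ w, H m s y w := by
            refine lintegral_mono fun y => ?_
            rw [lintegral_const_mul' _ _ ENNReal.ofReal_ne_top]
            gcongr
            exact Measure.restrict_le_self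
        _ = Cω * ∫⁻ y in Metric.closedBall x (R * t), ∫⁻ w, H m s y w :=
            lintegral_const_mul' _ _ ENNReal.ofReal_ne_top
        _ ≤ Cω * ∫⁻ y in Metric.closedBall x rho0, ∫⁻ w, H m s y w := by
            gcongr
            exact (mul_le_mul_of_nonneg_left ht0 hN.hR).trans hN.hRt
        _ ≤ Cω * (AM * ENNReal.ofReal (s ^ (b + 2))) := by
            gcongr
            exact hQ.mass m s x hm hs0 (hs.2.trans ht0)
        _ ≤ _ := by
            gcongr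
            exact hs.2
  -- numerics for the first part
  have hτb : ENNReal.ofReal (τ ^ b) * Sθ ≤ ENNReal.ofReal (1 / 8) * ENNReal.ofReal (t ^ b) := by
    have h11 : Sθ = ENNReal.ofReal (∑ i ∈ Finset.range 4, (CK * (2 * lam)) ^ i) := by
      rw [hSθ, ENNReal.ofReal_sum_of_nonneg (fun i _ => by positivity)]
      exact Finset.sum_congr rfl fun i _ => by rw [hθ, ENNReal.ofReal_pow (by positivity)]
    rw [h11, ← ENNReal.ofReal_mul (by positivity), ← ENNReal.ofReal_mul (by norm_num)]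
    apply ENNReal.ofReal_le_ofReal
    rw [hτ, Real.mul_rpow ht.le (by linarith)]
    have := mul_le_mul_of_nonneg_left hN.n3 (Real.rpow_nonneg ht.le b)
    nlinarith
  calc H (m + 4) t x v ≤ κ * Sθ * EE P g1 g2 t x v + ((DG Gf τ)^[4] (H m)) t x v := by
        simpa using hexp
    _ ≤ κ * Sθ * EE P g1 g2 t x v +
      (c * ENNReal.ofReal (1 / 8) + cU ^ 4 * CS * ENNReal.ofReal (Real.exp (g2 * (2 * (Z0 + R)) ^ 2)) * AM) *
        ENNReal.ofReal (t ^ b) * EE P g1 g2 t x v := by gcongr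
    _ = c * (ENNReal.ofReal (τ ^ b) * Sθ) * EE P g1 g2 t x v + A * Sθ * ENNReal.ofReal (t ^ b) * EE P g1 g2 t x v +
      (c * ENNReal.ofReal (1 / 8) + cU ^ 4 * CS * ENNReal.ofReal (Real.exp (g2 * (2 * (Z0 + R)) ^ 2)) * AM) *
        ENNReal.ofReal (t ^ b) * EE P g1 g2 t x v := by rw [hκ]; ring
    _ ≤ c * (ENNReal.ofReal (1 / 8) * ENNReal.ofReal (t ^ b)) * EE P g1 g2 t x v +
      A * Sθ * ENNReal.ofReal (t ^ b) * EE P g1 g2 t x v +
      (c * ENNReal.ofReal (1 / 8) + cU ^ 4 * CS * ENNReal.ofReal (Real.exp (g2 * (2 * (Z0 + R)) ^ 2)) * AM) *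
        ENNReal.ofReal (t ^ b) * EE P g1 g2 t x v := by gcongr
    _ = _ := by
        have h12 : ENNReal.ofReal (1 / 4) = ENNReal.ofReal (1 / 8) + ENNReal.ofReal (1 / 8) := by
          rw [← ENNReal.ofReal_add (by norm_num) (by norm_num)]; norm_num
        rw [h12]; ring

/-- THE IMPROVEMENT STEP of theorem L2: from `h_m, …, h_{m+4} ≤ c t^b EE` to
`h_{m+4} ≤ (c/2 + C0) t^b EE` -/
theorem improve (hS : SlaveHyp P g1 g2 t0 Gf CK kV V0 lam R cU eS CS)
    (hN : SlaveNum g2 t0 CK kV V0 lam R Z0 b rho0 cU eS) (hA : A ≠ ⊤)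
    (hQ : SlaveSeq P g1 g2 t0 b Gf rho0 A AM H sg) {c : ℝ≥0∞} (hc : c ≠ ⊤) (m : ℕ) (hm : 1 ≤ m)
    (hk : ∀ j ≤ 4, ∀ s x v, 0 < s → s ≤ t0 →
      H (m + j) s x v ≤ c * ENNReal.ofReal (s ^ b) * EE P g1 g2 s x v) :
    ∀ t x v, 0 < t → t ≤ t0 → H (m + 4) t x v ≤
      (c * ENNReal.ofReal (1 / 2) + C0 g2 CK lam R Z0 cU CS A AM) * ENNReal.ofReal (t ^ b) *
        EE P g1 g2 t x v := by
  intro t x v ht ht0
  have h8 : ENNReal.ofReal (1 / 8) ≤ ENNReal.ofReal (1 / 2) :=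
    ENNReal.ofReal_le_ofReal (by norm_num)
  have h4 : ENNReal.ofReal (1 / 4) ≤ ENNReal.ofReal (1 / 2) :=
    ENNReal.ofReal_le_ofReal (by norm_num)
  have hAC : A ≤ C0 g2 CK lam R Z0 cU CS A AM := by
    unfold C0
    rw [mul_add, mul_one, add_assoc]
    exact le_self_add
  rcases le_total V0 ‖v‖ with hv | hv
  · refine (improve_V hS hN hA hQ hc (m + 3) (hk 3 (by norm_num)) ht ht0 x v hv).trans ?_
    gcongr
  rcases le_total Z0 (distG x / t) with hz | hz
  · refine (improve_Z hS hN hA hQ hc (m + 3) (hk 3 (by norm_num)) ht ht0 x v hv hz).trans ?_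
    gcongr
  · refine (improve_near hS hN hA hQ hc m hm hk ht ht0 x v hv hz).trans ?_
    gcongr
    unfold C0
    gcongr
    exact le_add_self

end Crest.Agent.R68.L
end
end

-- ▼ part R68/LSlave5
section

/-!
# Row 68, PART L (helper685): the slaving theorem L2

`slave_sol` (solutions of the linear equation; the constant does not depend on the a-priori bound)
and `slave_seq` (sequences `h_{k+1} ≤ T h_k + Dam σ`).
-/

set_option autoImplicit false
open MeasureTheory Set Filter Topology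
open scoped ENNReal
open Crest.AnalysisR.VecCalc3 Crest.AnalysisR.PDE.Boltzmann

noncomputable section

namespace Crest.Agent.R68.L

variable {P : Par} {g1 g2 t0 : ℝ} {Gf : (ℝ → P2 → R3 → ℝ≥0∞) → ℝ → P2 → R3 → ℝ≥0∞}
  {CK kV V0 lam R Z0 : ℝ} {cU eS CS : ℝ≥0∞} {b rho0 : ℝ} {A A' AM : ℝ≥0∞}
  {H : ℕ → ℝ → P2 → R3 → ℝ≥0∞} {sg : ℝ → P2 → R3 → ℝ≥0∞}

lemma A_le_C0 : A ≤ C0 g2 CK lam R Z0 cU CS A AM := by
  unfold C0
  rw [mul_add, mul_one, add_assoc]
  exact le_self_add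

lemma C0_ne_top (hA : A ≠ ⊤) (hAM : AM ≠ ⊤) (hcU : cU ≠ ⊤) (hCS : CS ≠ ⊤) :
    C0 g2 CK lam R Z0 cU CS A AM ≠ ⊤ := by
  unfold C0
  refine ENNReal.add_ne_top.2 ⟨ENNReal.mul_ne_top hA (ENNReal.add_ne_top.2 ⟨ENNReal.one_ne_top,
    ENNReal.sum_ne_top.2 fun i _ => ENNReal.pow_ne_top ENNReal.ofReal_ne_top⟩),
    ENNReal.mul_ne_top (ENNReal.mul_ne_top (ENNReal.mul_ne_top (ENNReal.pow_ne_top hcU) hCS)
      ENNReal.ofReal_ne_top) hAM⟩

/-- limit in the iteration -/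
lemma le_of_halving {h W C c : ℝ≥0∞} (hc : c ≠ ⊤) (hW : C ≠ 0 ∨ W ≠ ⊤ ∨ c = 0)
    (hn : ∀ n : ℕ, h ≤ (C + c * ENNReal.ofReal (1 / 2) ^ n) * W) : h ≤ C * W := by
  rcases eq_or_ne W ⊤ with hWt | hWt
  · rcases hW with hW | hW | hW
    · rw [hWt, ENNReal.mul_top hW]; exact le_top
    · exact absurd hWt hW
    · simpa [hW] using hn 0
  · have h1 : Tendsto (fun n : ℕ => (C + c * ENNReal.ofReal (1 / 2) ^ n) * W) atTop
        (𝓝 ((C + c * 0) * W)) := by
      refine ENNReal.Tendsto.mul_const (tendsto_const_nhds.add (ENNReal.Tendsto.const_mul ?_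
        (Or.inr hc))) (Or.inr hWt)
      exact ENNReal.tendsto_pow_atTop_nhds_zero_of_lt_one (by
        rw [← ENNReal.ofReal_one]; exact (ENNReal.ofReal_lt_ofReal_iff one_pos).2 (by norm_num))
    have := ge_of_tendsto' h1 hn
    simpa using this



/-- THEOREM L2 for solutions: the constant does not depend on the a-priori bound `A'` -/
theorem slave_sol (hS : SlaveHyp P g1 g2 t0 Gf CK kV V0 lam R cU eS CS)
    (hN : SlaveNum g2 t0 CK kV V0 lam R Z0 b rho0 cU eS) (hA : A ≠ ⊤) (hA0 : A ≠ 0)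
    (hAM : AM ≠ ⊤) (hCS : CS ≠ ⊤) {h : ℝ → P2 → R3 → ℝ≥0∞}
    (hQ : SlaveSeq P g1 g2 t0 b Gf rho0 A AM (fun _ => h) sg) (hA' : A' ≠ ⊤)
    (hh : ∀ s x v, 0 < s → s ≤ t0 → h s x v ≤ A' * ENNReal.ofReal (s ^ b) * EE P g1 g2 s x v) :
    ∀ t x v, 0 < t → t ≤ t0 → h t x v ≤
      2 * C0 g2 CK lam R Z0 cU CS A AM * ENNReal.ofReal (t ^ b) * EE P g1 g2 t x v := by
  set C : ℝ≥0∞ := 2 * C0 g2 CK lam R Z0 cU CS A AM with hC
  have hCt : C ≠ ⊤ := ENNReal.mul_ne_top (by norm_num) (C0_ne_top hA hAM hN.hcU hCS)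
  have hC0 : C ≠ 0 := by
    intro h0
    have h1 : C0 g2 CK lam R Z0 cU CS A AM = 0 := by
      rcases mul_eq_zero.1 h0 with h2 | h2
      · norm_num at h2
      · exact h2
    exact hA0 (le_antisymm (A_le_C0.trans h1.le) bot_le)
  have hhalf : ENNReal.ofReal (1 / 2) ≠ ⊤ := ENNReal.ofReal_ne_top
  have h2h : ENNReal.ofReal (1 / 2) * 2 = 1 := by
    rw [show (2 : ℝ≥0∞) = ENNReal.ofReal 2 by simp, ← ENNReal.ofReal_mul (by norm_num)]
    norm_num
  have key : ∀ n : ℕ, ∀ t x v, 0 < t → t ≤ t0 → h t x v ≤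
      (C + A' * ENNReal.ofReal (1 / 2) ^ n) * ENNReal.ofReal (t ^ b) * EE P g1 g2 t x v := by
    intro n
    induction n with
    | zero =>
      intro t x v ht ht0
      refine (hh t x v ht ht0).trans ?_
      gcongr
      rw [pow_zero, mul_one]
      exact le_add_self
    | succ n ih =>
      intro t x v ht ht0
      have hcn : C + A' * ENNReal.ofReal (1 / 2) ^ n ≠ ⊤ :=
        ENNReal.add_ne_top.2 ⟨hCt, ENNReal.mul_ne_top hA' (ENNReal.pow_ne_top hhalf)⟩
      refine (improve hS hN hA hQ hcn 1 le_rfl (fun j hj s x v hs hs0 => ih s x v hs hs0)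
        t x v ht ht0).trans ?_
      refine mul_le_mul' (mul_le_mul' ?_ le_rfl) le_rfl
      have h3 : C0 g2 CK lam R Z0 cU CS A AM = ENNReal.ofReal (1 / 2) * C := by
        rw [hC, ← mul_assoc, h2h, one_mul]
      rw [h3]
      apply le_of_eq
      calc (C + A' * ENNReal.ofReal (1 / 2) ^ n) * ENNReal.ofReal (1 / 2) +
            ENNReal.ofReal (1 / 2) * C
          = (ENNReal.ofReal (1 / 2) + ENNReal.ofReal (1 / 2)) * C +
              A' * ENNReal.ofReal (1 / 2) ^ (n + 1) := by rw [pow_succ]; ring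
        _ = C + A' * ENNReal.ofReal (1 / 2) ^ (n + 1) := by
              rw [← ENNReal.ofReal_add (by norm_num) (by norm_num)]
              norm_num
  intro t x v ht ht0
  rw [mul_assoc]
  refine le_of_halving hA' (Or.inl hC0) (fun n => ?_)
  have := key n t x v ht ht0
  rwa [mul_assoc] at this

end Crest.Agent.R68.L
end
end

-- ▼ part R68/LSol1
section

/-!
# Row 68, PART L (helper685): theorem L1, part 1: the concrete gain operator in the slaving theorem
-/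

set_option autoImplicit false
open MeasureTheory Set Filter Topology
open scoped ENNReal
open Crest.AnalysisR.VecCalc3 Crest.AnalysisR.PDE.Boltzmann

noncomputable section

namespace Crest.Agent.R68.L

open Crest.Agent.R68.A (Meas3)

variable {φ : Den}

theorem Qp_const_mul_right'' {f g : R3 → ℝ≥0∞} {c : ℝ≥0∞} (hc : c ≠ ⊤) (v : R3) :
    Qp f (fun z => c * g z) v = c * Qp f g v := by
  unfold Qp
  rw [← lintegral_const_mul' _ _ hc]
  refine lintegral_congr fun vs => ?_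
  rw [← lintegral_const_mul' _ _ hc]
  refine lintegral_congr fun w => ?_
  ring

/-- the gain is an abstract positive linear operator in the sense of `GLin` -/
theorem glin_Gf_gen (hφ : ∀ t x, Measurable (φ t x)) {E : Den}
    (hE : ∀ t x, 0 < t → Measurable (E t x)) : GLin (Gf φ) E where
  le := by
    intro c t x f g hc h v
    unfold Gf
    calc 2 * Qp (φ t x) (f t x) v ≤ 2 * Qp (φ t x) (fun z => c * g t x z) v :=
          mul_le_mul' le_rfl (A.Qp_mono (fun _ => le_rfl) h v)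
      _ = _ := by rw [Qp_const_mul_right'' hc]; ring
  add := by
    intro c t x g hc ht v
    unfold Gf
    have h1 : Qp (φ t x) (fun z => c * E t x z + g t x z) v =
        Qp (φ t x) (fun z => c * E t x z) v + Qp (φ t x) (g t x) v :=
      A.Qp_add_right (hφ t x) ((hE t x ht).const_mul c) v
    show 2 * Qp (φ t x) (fun z => c * E t x z + g t x z) v ≤ _
    rw [h1, Qp_const_mul_right'' hc]
    apply le_of_eq; ring

/-- `B2` with exponent `b` is `t^b` times the envelope -/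
theorem B2_env (P : Par) (g1 g2 b : ℝ) {t : ℝ} (ht : 0 ≤ t) (x : P2) (v : R3) :
    B2 P g1 g2 b t x v = ENNReal.ofReal (t ^ b) * EE P g1 g2 t x v := by
  unfold EE B2
  rw [Real.rpow_zero, one_mul, ← mul_assoc, ← ENNReal.ofReal_mul (Real.rpow_nonneg ht b), mul_assoc]

/-- the envelope cut to positive times (jointly measurable) -/
def EEt (P : Par) (g1 g2 : ℝ) : Den := fun t x v => if 0 < t then EE P g1 g2 t x v else 0

theorem EEt_pos (P : Par) (g1 g2 : ℝ) {t : ℝ} (ht : 0 < t) (x : P2) (v : R3) :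
    EEt P g1 g2 t x v = EE P g1 g2 t x v := if_pos ht

theorem meas3_EEt {P : Par} (hY : 0 < P.Y) (g1 g2 : ℝ) : Meas3 (EEt P g1 g2) := by
  have h1 := DPole.measurable_Dm (P := P) hY
  have h2 := measurable_mm
  have h3 : Measurable (fun p : ℝ × P2 × R3 =>
      ENNReal.ofReal (Real.exp (-(g1 - √p.1 / 100) * ‖p.2.2‖ ^ 2) *
        Real.exp (-g2 * mm p.1 p.2.1 p.2.2 ^ 2)) *
        (if 0 ≤ p.1 then Dm P p.1 p.2.1 p.2.2 else 1)) := by
    refine Measurable.mul ?_ h1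
    fun_prop
  have h4 : Measurable (fun p : ℝ × P2 × R3 => if 0 < p.1 then
      ENNReal.ofReal (Real.exp (-(g1 - √p.1 / 100) * ‖p.2.2‖ ^ 2) *
        Real.exp (-g2 * mm p.1 p.2.1 p.2.2 ^ 2)) *
        (if 0 ≤ p.1 then Dm P p.1 p.2.1 p.2.2 else 1) else 0) :=
    Measurable.ite (measurableSet_lt measurable_const measurable_fst) h3 measurable_const
  unfold Meas3 EEt
  convert h4 using 2 with p
  split_ifs with h5 h6
  · rw [EE_eq]
  · exact absurd h5.le h6
  · rfl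

theorem measurable_EE_slice {P : Par} (hY : 0 < P.Y) (g1 g2 : ℝ) {t : ℝ} (ht : 0 < t) (x : P2) :
    Measurable (EE P g1 g2 t x) := by
  have h := (meas3_EEt hY g1 g2).slice t x
  have e : EEt P g1 g2 t x = EE P g1 g2 t x := by
    funext v; exact EEt_pos P g1 g2 ht x v
  rwa [e] at h

theorem Gf_EEt (P : Par) (g1 g2 : ℝ) {t : ℝ} (ht : 0 < t) (x : P2) (v : R3) :
    Gf φ (EEt P g1 g2) t x v = Gf φ (EE P g1 g2) t x v := by
  unfold Gf
  congr 2
  funext w
  exact EEt_pos P g1 g2 ht x w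

theorem measE_Gf_gen {P : Par} (hY : 0 < P.Y) (hφ : Meas3 φ) (g1 g2 : ℝ) (τ t : ℝ) (x : P2) (v : R3)
    (hτ : 0 < τ) : AEMeasurable (fun s => Gf φ (EE P g1 g2) s (x - (t - s) • bar v) v)
      (volume.restrict (Ioo τ t)) := by
  have h1 : Measurable (fun s => Gf φ (EEt P g1 g2) s (x - (t - s) • bar v) v) :=
    (meas3_Gf hφ (meas3_EEt hY g1 g2)).comp measurable_id (by fun_prop) measurable_const
  refine ⟨_, h1, (ae_restrict_mem measurableSet_Ioo).mono fun s hs => ?_⟩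
  exact (Gf_EEt P g1 g2 (hτ.trans hs.1) _ v).symm

/-- the inputs (K1), (K2), (K4), (S) for the actual gain operator; everything else in `SlaveHyp`
is proved here -/
structure SInput (P : Par) (φ : Den) (g1 g2 t0 CK kV V0 lam R : ℝ) (cU eS CS : ℝ≥0∞) : Prop where
  Y : 0 < P.Y
  mφ : Meas3 φ
  K2 : ∀ (s : ℝ) (x : P2) (v : R3), 0 < s → s ≤ t0 →
    Gf φ (EE P g1 g2) s x v ≤ ENNReal.ofReal (CK / s) * EE P g1 g2 s x v
  K2V : ∀ (s : ℝ) (x : P2) (v : R3), 0 < s → s ≤ t0 → V0 ≤ ‖v‖ →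
    Gf φ (EE P g1 g2) s x v ≤ ENNReal.ofReal (kV / s) * EE P g1 g2 s x v
  K4 : ∀ (h : ℝ → P2 → R3 → ℝ≥0∞) (s : ℝ) (x : P2) (v : R3), 0 < s →
      om g2 s x v * Gf φ h s x v ≤ cU * Gf φ (fun s x v => om g2 s x v * h s x v) s x v
  S : ∀ (h : ℝ → P2 → R3 → ℝ≥0∞), Measurable (fun p : ℝ × P2 × R3 => h p.1 p.2.1 p.2.2) →
    ∀ (t : ℝ) (x : P2) (v : R3) (b1 b2 : ℝ≥0∞), 0 < t → t ≤ t0 → ‖v‖ ≤ V0 → b1 ≠ ⊤ →
    (∀ s ∈ Icc (t * (1 - lam)) t, ∀ y w, h s y w ≤
      b1 * (Dm P s y w * ENNReal.ofReal (Real.exp (-(g1 - √t / 100) * ‖w‖ ^ 2)))) →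
    (∀ s ∈ Icc (t * (1 - lam)) t, (∫⁻ y in Metric.closedBall x (R * t),
      ∫⁻ w in Metric.closedBall (0 : R3) R, h s y w) ≤ b2) →
    ((DG (Gf φ) (t * (1 - lam)))^[4] h) t x v ≤
      Dm P t x v * ENNReal.ofReal (Real.exp (-(g1 - √t / 100) * ‖v‖ ^ 2)) *
        (eS * b1 + CS * ENNReal.ofReal (t ^ (-2 : ℝ)) * b2)

variable {P : Par} {g1 g2 t0 CK kV V0 lam R : ℝ} {cU eS CS : ℝ≥0∞}

theorem SInput.slaveHyp (hI : SInput P φ g1 g2 t0 CK kV V0 lam R cU eS CS) :
    SlaveHyp P g1 g2 t0 (Gf φ) CK kV V0 lam R cU eS CS where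
  lin := glin_Gf_gen (fun t x => hI.mφ.slice t x) (fun t x ht => measurable_EE_slice hI.Y g1 g2 ht x)
  measE := fun τ t x v hτ => measE_Gf_gen hI.Y hI.mφ g1 g2 τ t x v hτ
  K1 := fun s t x v hs hst _ => DPole.Dm_flight hI.Y hs.le hst x v
  K2 := hI.K2
  K2V := hI.K2V
  K4 := hI.K4
  S := hI.S

end Crest.Agent.R68.L
end
end

-- ▼ part R68/LSol2

/-!
# Row 68, PART L (helper685): theorem L1 (`SOL`): no power loss for the linear hot equation
-/

set_option autoImplicit false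
open MeasureTheory Set Filter Topology
open scoped ENNReal
open Crest.AnalysisR.VecCalc3 Crest.AnalysisR.PDE.Boltzmann

noncomputable section

namespace Crest.Agent.R68.L

open Crest.Agent.R68.A (Meas3 en Acc)

variable {φ : Den}

/-- input X1: bound of the mass of solutions whose source is cut at a positive time
(`be` = upper exponent) -/
def MassBound (P : Par) (φ : Den) (g1 g2 t0 be : ℝ) (CX : ℝ≥0∞) : Prop :=
  ∀ (H σ : Den) (τ0 : ℝ) (A : ℝ≥0∞), Meas3 H → Meas3 σ → PerD H → PerD σ → 0 < τ0 → A ≠ ⊤ →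
    (∀ t x v, H t x v = TL φ H t x v + Dam φ σ t x v) →
    (∀ t x v, t ≤ τ0 → H t x v = 0) → (∀ t x v, t ≤ τ0 → σ t x v = 0) →
    (∀ t x v, 0 < t → t ≤ t0 → H t x v ≤ A * EE P g1 g2 t x v) →
    (∀ t x v, 0 < t → t ≤ t0 → σ t x v ≤ A * EE P g1 g2 t x v) →
    ∀ t, 0 < t → t ≤ t0 → ∫⁻ x in cellG, ∫⁻ v, H t x v ≤
      CX * ∫⁻ s in Ioo 0 t, ENNReal.ofReal ((t / s) ^ be) *
        ∫⁻ x in cellG, ∫⁻ v, ENNReal.ofReal ((1 + ‖v‖) ^ 4) * σ s x v

/-- input K3: mass of the envelope -/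
def MassEE (P : Par) (g1 g2 t0 : ℝ) (CM : ℝ≥0∞) : Prop :=
  ∀ s, 0 < s → s ≤ t0 → ∫⁻ x in cellG, ∫⁻ v : R3, ENNReal.ofReal ((1 + ‖v‖) ^ 4) *
    EE P g1 g2 s x v ≤ CM * ENNReal.ofReal (s ^ 2)

/-! ### vanishing -/

theorem Dam_eq_zero {q : Den} {T : ℝ} (hq : ∀ t x v, 0 < t → t ≤ T → q t x v = 0) {t : ℝ} (ht : t ≤ T)
    (x : P2) (v : R3) : Dam φ q t x v = 0 := by
  unfold Dam
  rw [setLIntegral_congr_fun (g := fun _ => 0) measurableSet_Ioo]
  · simp
  · intro s hs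
    simp only
    rw [hq s _ _ hs.1 (hs.2.le.trans ht), mul_zero]

theorem sol_eq_zero {σ : Den} {T : ℝ} (hσ : ∀ t x v, 0 < t → t ≤ T → σ t x v = 0) {t : ℝ}
    (ht : t ≤ T) (x : P2) (v : R3) : sol φ σ t x v = 0 := by
  have key : ∀ n : ℕ, ∀ t x v, t ≤ T → (TL φ)^[n] (Dam φ σ) t x v = 0 := by
    intro n
    induction n with
    | zero => intro t x v ht; exact Dam_eq_zero hσ ht x v
    | succ n ih =>
      intro t x v ht
      rw [Function.iterate_succ_apply']
      exact Dam_eq_zero (fun s y w _ hs => Gf_eq_zero (fun v => ih s y v hs) w) ht x v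
  unfold sol
  rw [ENNReal.tsum_eq_zero]
  exact fun n => key n t x v ht

/-! ### the cut source -/

/-- source cut at `τ` -/
def cutS (τ : ℝ) (σ : Den) : Den := fun t x v => if τ < t then σ t x v else 0

theorem meas3_cutS {σ : Den} (hσ : Meas3 σ) (τ : ℝ) : Meas3 (cutS τ σ) := by
  unfold Meas3 cutS
  exact Measurable.ite (measurableSet_lt measurable_const measurable_fst) hσ measurable_const

theorem perD_cutS {σ : Den} (hσ : PerD σ) (τ : ℝ) : PerD (cutS τ σ) := by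
  intro t v x k
  unfold cutS
  dsimp only
  rw [show σ t (x + latt k) v = σ t x v from hσ t v x k]

theorem cutS_le {σ : Den} (τ t : ℝ) (x : P2) (v : R3) : cutS τ σ t x v ≤ σ t x v := by
  unfold cutS
  split_ifs
  · exact le_rfl
  · exact bot_le

theorem cutS_zero {σ : Den} {τ t : ℝ} (h : t ≤ τ) (x : P2) (v : R3) : cutS τ σ t x v = 0 := by
  unfold cutS
  rw [if_neg (not_lt.2 h)]

theorem sol_eq_iSup_cut (hφ : Meas3 φ) {σ : Den} (hσ : Meas3 σ) (t : ℝ) (x : P2) (v : R3) :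
    sol φ σ t x v = ⨆ n : ℕ, sol φ (cutS (1 / ((n : ℝ) + 1)) σ) t x v := by
  have hmono : ∀ t x v, Monotone (fun n : ℕ => cutS (1 / ((n : ℝ) + 1)) σ t x v) := by
    intro t x v m n hmn
    have h1 : 1 / ((n : ℝ) + 1) ≤ 1 / ((m : ℝ) + 1) := by
      apply one_div_le_one_div_of_le (by positivity)
      have : (m : ℝ) ≤ n := by exact_mod_cast hmn
      linarith
    unfold cutS
    dsimp only
    split_ifs with h2 h3
    · exact le_rfl
    · exact absurd (h1.trans_lt h2) h3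
    · exact bot_le
    · exact le_rfl
  rw [← sol_iSup hφ _ (fun n => meas3_cutS hσ _) hmono t x v]
  have hD : Dam φ σ = Dam φ (fun t x v => ⨆ n : ℕ, cutS (1 / ((n : ℝ) + 1)) σ t x v) := by
    funext t x v
    unfold Dam
    refine setLIntegral_congr_fun measurableSet_Ioo fun s hs => ?_
    dsimp only
    congr 1
    refine le_antisymm ?_ (iSup_le fun n => cutS_le _ _ _ _)
    obtain ⟨n, hn⟩ := exists_nat_one_div_lt hs.1
    refine le_trans ?_ (le_iSup _ n)
    unfold cutS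
    rw [if_pos hn]
  unfold sol
  rw [hD]

/-! ### mass of the solution -/

lemma lint_mass {b be t : ℝ} (hb : be < b + 2) (ht : 0 < t) :
    (∫⁻ s in Ioo (0 : ℝ) t, ENNReal.ofReal ((t / s) ^ be) * ENNReal.ofReal (s ^ (b + 1))) ≤
      ENNReal.ofReal (t ^ (b + 2) / (b + 2 - be)) := by
  have h1 : ∀ s ∈ Ioo (0 : ℝ) t, ENNReal.ofReal ((t / s) ^ be) * ENNReal.ofReal (s ^ (b + 1)) =
      ENNReal.ofReal (t ^ be) * ENNReal.ofReal (s ^ (b + 1 - be)) := by
    intro s hs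
    have hs0 : 0 < s := hs.1
    rw [← ENNReal.ofReal_mul (by positivity), ← ENNReal.ofReal_mul (by positivity)]
    congr 1
    rw [Real.div_rpow ht.le hs0.le, Real.rpow_sub hs0]
    ring
  rw [setLIntegral_congr_fun measurableSet_Ioo h1, lintegral_const_mul' _ _ ENNReal.ofReal_ne_top]
  have hint : IntervalIntegrable (fun s : ℝ => s ^ (b + 1 - be)) volume 0 t :=
    intervalIntegral.intervalIntegrable_rpow' (by linarith)
  have h2 : (∫⁻ s in Ioc (0 : ℝ) t, ENNReal.ofReal (s ^ (b + 1 - be))) =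
      ENNReal.ofReal (∫ s in (0 : ℝ)..t, s ^ (b + 1 - be)) := by
    rw [intervalIntegral.integral_of_le ht.le]
    rw [ofReal_integral_eq_lintegral_ofReal hint.1]
    filter_upwards [ae_restrict_mem measurableSet_Ioc] with s hs
    exact Real.rpow_nonneg hs.1.le _
  calc ENNReal.ofReal (t ^ be) * ∫⁻ s in Ioo (0 : ℝ) t, ENNReal.ofReal (s ^ (b + 1 - be))
      ≤ ENNReal.ofReal (t ^ be) * ENNReal.ofReal (∫ s in (0 : ℝ)..t, s ^ (b + 1 - be)) := by
        rw [← h2]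
        gcongr
        exact Ioo_subset_Ioc_self
    _ ≤ _ := by
        rw [← ENNReal.ofReal_mul (by positivity)]
        apply ENNReal.ofReal_le_ofReal
        rw [integral_rpow (Or.inl (by linarith)), show b + 1 - be + 1 = b + 2 - be by ring,
          Real.zero_rpow (by linarith), sub_zero, mul_div_assoc', ← Real.rpow_add ht]
        ring_nf
        exact le_rfl

variable {P : Par} {g1 g2 t0 be b : ℝ} {CX CM A : ℝ≥0∞}

/-- mass of a solution with source `σ ≤ A t^{b-1} EE` -/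
theorem mass_sol (hM : MassBound P φ g1 g2 t0 be CX) (hE : MassEE P g1 g2 t0 CM) (hb : be < b + 2)
    (hA : A ≠ ⊤) {H σ : Den} {τ0 : ℝ} {A2 : ℝ≥0∞} (hH : Meas3 H) (hσ : Meas3 σ)
    (pH : PerD H) (pσ : PerD σ) (hτ : 0 < τ0) (hA2 : A2 ≠ ⊤)
    (heq : ∀ t x v, H t x v = TL φ H t x v + Dam φ σ t x v)
    (hH0 : ∀ t x v, t ≤ τ0 → H t x v = 0) (hσ0 : ∀ t x v, t ≤ τ0 → σ t x v = 0)
    (hHA : ∀ t x v, 0 < t → t ≤ t0 → H t x v ≤ A2 * EE P g1 g2 t x v)
    (hσA : ∀ t x v, 0 < t → t ≤ t0 → σ t x v ≤ A2 * EE P g1 g2 t x v)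
    (hσb : ∀ t x v, 0 < t → t ≤ t0 → σ t x v ≤ A * ENNReal.ofReal (t ^ (b - 1)) * EE P g1 g2 t x v)
    {t : ℝ} (ht : 0 < t) (ht0 : t ≤ t0) :
    ∫⁻ x in cellG, ∫⁻ v, H t x v ≤
      A * (CX * CM * ENNReal.ofReal (1 / (b + 2 - be))) * ENNReal.ofReal (t ^ (b + 2)) := by
  have h1 : ∀ s ∈ Ioo (0 : ℝ) t, ENNReal.ofReal ((t / s) ^ be) *
      (∫⁻ x in cellG, ∫⁻ v, ENNReal.ofReal ((1 + ‖v‖) ^ 4) * σ s x v) ≤
      A * CM * (ENNReal.ofReal ((t / s) ^ be) * ENNReal.ofReal (s ^ (b + 1))) := by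
    intro s hs
    have hs0 : 0 < s := hs.1
    have hst : s ≤ t0 := hs.2.le.trans ht0
    have hAs : A * ENNReal.ofReal (s ^ (b - 1)) ≠ ⊤ := ENNReal.mul_ne_top hA ENNReal.ofReal_ne_top
    have h2 : (∫⁻ x in cellG, ∫⁻ v, ENNReal.ofReal ((1 + ‖v‖) ^ 4) * σ s x v) ≤
        A * ENNReal.ofReal (s ^ (b - 1)) * (CM * ENNReal.ofReal (s ^ 2)) := by
      calc (∫⁻ x in cellG, ∫⁻ v, ENNReal.ofReal ((1 + ‖v‖) ^ 4) * σ s x v)
          ≤ ∫⁻ x in cellG, ∫⁻ v, A * ENNReal.ofReal (s ^ (b - 1)) *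
            (ENNReal.ofReal ((1 + ‖v‖) ^ 4) * EE P g1 g2 s x v) := by
            refine lintegral_mono fun x => lintegral_mono fun v => ?_
            calc ENNReal.ofReal ((1 + ‖v‖) ^ 4) * σ s x v ≤ ENNReal.ofReal ((1 + ‖v‖) ^ 4) *
                (A * ENNReal.ofReal (s ^ (b - 1)) * EE P g1 g2 s x v) := by
                  gcongr; exact hσb s x v hs0 hst
              _ = _ := by ring
        _ = A * ENNReal.ofReal (s ^ (b - 1)) *
            ∫⁻ x in cellG, ∫⁻ v, (ENNReal.ofReal ((1 + ‖v‖) ^ 4) * EE P g1 g2 s x v) := by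
            rw [← lintegral_const_mul' _ _ hAs]
            refine lintegral_congr fun x => ?_
            rw [← lintegral_const_mul' _ _ hAs]
        _ ≤ _ := by
            gcongr
            exact hE s hs0 hst
    calc _ ≤ ENNReal.ofReal ((t / s) ^ be) *
          (A * ENNReal.ofReal (s ^ (b - 1)) * (CM * ENNReal.ofReal (s ^ 2))) := by gcongr
      _ = A * CM * (ENNReal.ofReal ((t / s) ^ be) *
          (ENNReal.ofReal (s ^ (b - 1)) * ENNReal.ofReal (s ^ 2))) := by ring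
      _ = _ := by
          rw [← ENNReal.ofReal_mul (p := s ^ (b - 1)) (by positivity)]
          congr 3
          rw [← Real.rpow_natCast s 2, ← Real.rpow_add hs0]
          norm_num
          ring_nf
  calc ∫⁻ x in cellG, ∫⁻ v, H t x v
      ≤ CX * ∫⁻ s in Ioo 0 t, ENNReal.ofReal ((t / s) ^ be) *
        ∫⁻ x in cellG, ∫⁻ v, ENNReal.ofReal ((1 + ‖v‖) ^ 4) * σ s x v :=
        hM H σ τ0 A2 hH hσ pH pσ hτ hA2 heq hH0 hσ0 hHA hσA t ht ht0
    _ ≤ CX * ∫⁻ s in Ioo 0 t, A * CM * (ENNReal.ofReal ((t / s) ^ be) * ENNReal.ofReal (s ^ (b + 1))) := by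
        refine mul_le_mul' le_rfl ?_
        exact lintegral_mono_ae ((ae_restrict_mem measurableSet_Ioo).mono h1)
    _ = CX * (A * CM * ∫⁻ s in Ioo 0 t, (ENNReal.ofReal ((t / s) ^ be) * ENNReal.ofReal (s ^ (b + 1)))) := by
        rw [lintegral_const_mul]
        have : Measurable fun s : ℝ => (t / s) ^ be := by fun_prop
        fun_prop
    _ ≤ CX * (A * CM * ENNReal.ofReal (t ^ (b + 2) / (b + 2 - be))) := by
        gcongr
        exact lint_mass hb ht
    _ = _ := by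
        rw [show t ^ (b + 2) / (b + 2 - be) = 1 / (b + 2 - be) * t ^ (b + 2) by ring,
          ENNReal.ofReal_mul (div_nonneg zero_le_one (by linarith))]
        ring

end Crest.Agent.R68.L
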