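import Crest.Agent.R68.LSol2
import Crest.Agent.R68.LK

-- ▼ part R68/LSol3
section

/-!
# Row 68, PART L (helper685): theorem L1 (`SOL`), conclusion
-/

set_option autoImplicit false
open MeasureTheory Set Filter Topology
open scoped ENNReal
open Crest.AnalysisR.VecCalc3 Crest.AnalysisR.PDE.Boltzmann

noncomputable section

namespace Crest.Agent.R68.L

open Crest.Agent.R68.A (Meas3 en Acc)

variable {φ : Den} {P : Par} {g1 g2 t0 CK kV V0 lam R Z0 b be rho0 : ℝ} {cU eS CS CX CM : ℝ≥0∞}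

theorem one_le_Dm' (P : Par) (t : ℝ) (x : P2) (v : R3) : 1 ≤ Dm P t x v := DPole.one_le_Dm P t x v

theorem EE_ne_zero (P : Par) (g1 g2 t : ℝ) (x : P2) (v : R3) : EE P g1 g2 t x v ≠ 0 := by
  rw [EE_eq]
  refine mul_ne_zero ?_ (one_pos.trans_le (one_le_Dm' P t x v)).ne'
  simp only [ne_eq, ENNReal.ofReal_eq_zero, not_le]
  positivity

theorem C0_homog (g2 CK lam R Z0 : ℝ) (cU CS A m : ℝ≥0∞) :
    C0 g2 CK lam R Z0 cU CS A (A * m) = A * C0 g2 CK lam R Z0 cU CS 1 m := by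
  unfold C0; ring

/-- measurability along flights of the source and the gain -/
theorem Duhf_add {q r : Den} (hq : Meas3 q) (τ t : ℝ) (x : P2) (v : R3) :
    Duhf τ (fun t x v => q t x v + r t x v) t x v = Duhf τ q t x v + Duhf τ r t x v := by
  unfold Duhf
  rw [lintegral_add_left]
  exact hq.comp measurable_id (by fun_prop) measurable_const

/-- the a-priori bounds of `sol` for a source vanishing before `τ0` -/
theorem sol_apriori (hI : SInput P φ g1 g2 t0 CK kV V0 lam R cU eS CS)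
    (hN : SlaveNum g2 t0 CK kV V0 lam R Z0 b rho0 cU eS)
    {σ : Den} {A : ℝ≥0∞} (hA : A ≠ ⊤)
    {τ0 : ℝ} (hτ : 0 < τ0) (hσ0 : ∀ t x v, t ≤ τ0 → σ t x v = 0)
    (hσb : ∀ t x v, 0 < t → t ≤ t0 →
      σ t x v ≤ A * ENNReal.ofReal (t ^ (b - 1)) * EE P g1 g2 t x v) (ht0' : 0 < t0) :
    (∀ t x v, t ≤ τ0 → sol φ σ t x v = 0) ∧
    ∃ A2 : ℝ, (∀ t x v, 0 < t → t ≤ t0 → sol φ σ t x v ≤ ENNReal.ofReal A2 * EE P g1 g2 t x v) ∧
      (∀ t x v, 0 < t → t ≤ t0 → σ t x v ≤ ENNReal.ofReal A2 * EE P g1 g2 t x v) ∧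
      (∀ s x v, 0 < s → s ≤ t0 → sol φ σ s x v ≤
        ENNReal.ofReal (A2 * τ0 ^ (-b)) * ENNReal.ofReal (s ^ b) * EE P g1 g2 s x v) := by
  have hφ := hI.mφ
  have hbpos : 1 ≤ b := hN.hb
  have hH0 : ∀ t x v, t ≤ τ0 → sol φ σ t x v = 0 := fun t x v ht =>
    sol_eq_zero (T := τ0) (fun s y w _ hs => hσ0 s y w hs) ht x v
  set A1 : ℝ := A.toReal * t0 ^ (b - 1) with hA1
  have hA1n : 0 ≤ A1 := by positivity
  have hσ1 : ∀ t x v, 0 < t → t ≤ t0 → σ t x v ≤ ENNReal.ofReal A1 * EEt P g1 g2 t x v := by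
    intro t x v ht ht0
    rw [EEt_pos P g1 g2 ht]
    refine (hσb t x v ht ht0).trans ?_
    gcongr
    rw [hA1, ENNReal.ofReal_mul ENNReal.toReal_nonneg, ENNReal.ofReal_toReal hA]
    refine mul_le_mul' le_rfl (ENNReal.ofReal_le_ofReal ?_)
    exact Real.rpow_le_rpow ht.le ht0 (by linarith)
  have hmono : ∀ s t x v, 0 < s → s ≤ t → t ≤ t0 →
      EEt P g1 g2 s (x - (t - s) • bar v) v ≤ EEt P g1 g2 t x v := by
    intro s t x v hs hst _
    rw [EEt_pos P g1 g2 hs, EEt_pos P g1 g2 (hs.trans_le hst)]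
    exact EE_flight hN.hg2.le hs hst (DPole.Dm_flight hI.Y hs.le hst x v)
  have hG : ∀ s x v, 0 < s → s ≤ t0 →
      Gf φ (EEt P g1 g2) s x v ≤ ENNReal.ofReal (CK / s) * EEt P g1 g2 s x v := by
    intro s x v hs hs0
    rw [Gf_EEt P g1 g2 hs, EEt_pos P g1 g2 hs]
    exact hI.K2 s x v hs hs0
  set A2 : ℝ := A1 * t0 * (t0 / τ0) ^ CK with hA2
  have hA2n : 0 ≤ A2 := by positivity
  have hHA : ∀ t x v, 0 < t → t ≤ t0 → sol φ σ t x v ≤ ENNReal.ofReal A2 * EE P g1 g2 t x v := by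
    intro t x v ht ht0
    rcases le_total t τ0 with h | h
    · rw [hH0 t x v h]; exact bot_le
    · refine (sol_crude hφ (meas3_EEt hI.Y g1 g2) hmono hN.hCK hA1n hG hτ hσ0 hσ1 h ht0 x v).trans ?_
      rw [EEt_pos P g1 g2 ht]
      gcongr
      rw [hA2]
      have h1 : (t / τ0) ^ CK ≤ (t0 / τ0) ^ CK :=
        Real.rpow_le_rpow (by positivity) (by gcongr) hN.hCK
      exact mul_le_mul_of_nonneg_left h1 (by positivity)
  have hmax0 : 0 ≤ max A1 A2 := hA1n.trans (le_max_left _ _)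
  have hmax1 : ENNReal.ofReal A1 ≤ ENNReal.ofReal (max A1 A2) :=
    ENNReal.ofReal_le_ofReal (le_max_left _ _)
  have hmax2 : ENNReal.ofReal A2 ≤ ENNReal.ofReal (max A1 A2) :=
    ENNReal.ofReal_le_ofReal (le_max_right _ _)
  refine ⟨hH0, max A1 A2, fun t x v ht ht0 => (hHA t x v ht ht0).trans (mul_le_mul' hmax2 le_rfl),
    fun t x v ht ht0 => ?_, fun s x v hs hs0 => ?_⟩
  · have := hσ1 t x v ht ht0
    rw [EEt_pos P g1 g2 ht] at this
    exact this.trans (mul_le_mul' hmax1 le_rfl)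
  · rcases le_total s τ0 with h | h
    · rw [hH0 s x v h]; exact bot_le
    · refine (hHA s x v hs hs0).trans ?_
      gcongr
      rw [← ENNReal.ofReal_mul (by positivity)]
      apply ENNReal.ofReal_le_ofReal
      have h5 : 1 ≤ τ0 ^ (-b) * s ^ b := by
        rw [Real.rpow_neg hτ.le, inv_mul_eq_div, ← Real.div_rpow hs.le hτ.le]
        exact Real.one_le_rpow ((one_le_div hτ).2 h) (by linarith)
      calc A2 ≤ max A1 A2 := le_max_right _ _
        _ = max A1 A2 * 1 := (mul_one _).symm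
        _ ≤ max A1 A2 * (τ0 ^ (-b) * s ^ b) := mul_le_mul_of_nonneg_left h5 hmax0
        _ = _ := by ring

/-- **L2 for `sol`** (208's form): the local mass bound `∫∫ sol ≤ AM s^{b+2}` implies the pointwise
bound, with a constant independent of the time `τ0` before which the source vanishes -/
theorem sol_slave (hI : SInput P φ g1 g2 t0 CK kV V0 lam R cU eS CS)
    (hN : SlaveNum g2 t0 CK kV V0 lam R Z0 b rho0 cU eS) (hCS : CS ≠ ⊤)
    {σ : Den} (hσ : Meas3 σ) {A AM : ℝ≥0∞} (hA : A ≠ ⊤) (hA0 : A ≠ 0) (hAM : AM ≠ ⊤)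
    {τ0 : ℝ} (hτ : 0 < τ0) (hσ0 : ∀ t x v, t ≤ τ0 → σ t x v = 0)
    (hσb : ∀ t x v, 0 < t → t ≤ t0 →
      σ t x v ≤ A * ENNReal.ofReal (t ^ (b - 1)) * EE P g1 g2 t x v)
    (hmass : ∀ (s : ℝ) (x : P2), 0 < s → s ≤ t0 →
      (∫⁻ y in Metric.closedBall x rho0, ∫⁻ w, sol φ σ s y w) ≤ AM * ENNReal.ofReal (s ^ (b + 2)))
    {t : ℝ} (ht : 0 < t) (ht0 : t ≤ t0) (x : P2) (v : R3) :
    sol φ σ t x v ≤ 2 * C0 g2 CK lam R Z0 cU CS A AM * ENNReal.ofReal (t ^ b) *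
      EE P g1 g2 t x v := by
  have hφ := hI.mφ
  have ht0' : 0 < t0 := ht.trans_le ht0
  have mH : Meas3 (sol φ σ) := meas3_sol hφ hσ
  have heq : ∀ t x v, sol φ σ t x v = TL φ (sol φ σ) t x v + Dam φ σ t x v := sol_eq hφ hσ
  obtain ⟨-, A2, -, -, hap⟩ := sol_apriori hI hN hA hτ hσ0 hσb ht0'
  have hQ : SlaveSeq P g1 g2 t0 b (Gf φ) rho0 A AM (fun _ => sol φ σ) σ :=
    { meas := fun _ => mH
      src := fun s x v hs hs0 => hσb s x v hs hs0
      eq0 := by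
        intro _ t x v _ _
        calc sol φ σ t x v = TL φ (sol φ σ) t x v + Dam φ σ t x v := heq t x v
          _ ≤ _ := add_le_add (Dam_le_Duhf t x v) (Dam_le_Duhf t x v)
      eqτ := by
        intro _ τ t x v h1 h2 _
        have h3 := le_restart hφ mH hσ heq h1.le h2.le x v
        rw [Duhf_add (meas3_Gf hφ mH), ← add_assoc] at h3
        exact h3
      mass := fun _ s x _ hs hs0 => hmass s x hs hs0 }
  exact slave_sol hI.slaveHyp hN hA hA0 hAM hCS hQ ENNReal.ofReal_ne_top hap t x v ht ht0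


/-- L1 for a source cut at a positive time -/
theorem sol_bound_cut (hI : SInput P φ g1 g2 t0 CK kV V0 lam R cU eS CS) (pφ : PerD φ)
    (hN : SlaveNum g2 t0 CK kV V0 lam R Z0 b rho0 cU eS) (hCS : CS ≠ ⊤) (hrho : rho0 < 7 / 20)
    (hM : MassBound P φ g1 g2 t0 be CX) (hCX : CX ≠ ⊤) (hE : MassEE P g1 g2 t0 CM) (hCM : CM ≠ ⊤)
    (hb : be < b + 2) {σ : Den} (hσ : Meas3 σ) (pσ : PerD σ) {A : ℝ≥0∞} (hA : A ≠ ⊤) (hA0 : A ≠ 0)
    {τ0 : ℝ} (hτ : 0 < τ0) (hσ0 : ∀ t x v, t ≤ τ0 → σ t x v = 0)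
    (hσb : ∀ t x v, 0 < t → t ≤ t0 →
      σ t x v ≤ A * ENNReal.ofReal (t ^ (b - 1)) * EE P g1 g2 t x v)
    {t : ℝ} (ht : 0 < t) (ht0 : t ≤ t0) (x : P2) (v : R3) :
    sol φ σ t x v ≤
      2 * (A * C0 g2 CK lam R Z0 cU CS 1 (CX * CM * ENNReal.ofReal (1 / (b + 2 - be)))) *
        ENNReal.ofReal (t ^ b) * EE P g1 g2 t x v := by
  have hφ := hI.mφ
  have ht0' : 0 < t0 := ht.trans_le ht0
  have mH : Meas3 (sol φ σ) := meas3_sol hφ hσ
  have pH : PerD (sol φ σ) := PerD.sol pφ pσ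
  have heq : ∀ t x v, sol φ σ t x v = TL φ (sol φ σ) t x v + Dam φ σ t x v := sol_eq hφ hσ
  obtain ⟨hH0, A2, hHA, hσA, -⟩ := sol_apriori hI hN hA hτ hσ0 hσb ht0'
  set m : ℝ≥0∞ := CX * CM * ENNReal.ofReal (1 / (b + 2 - be)) with hm
  have hmass : ∀ t, 0 < t → t ≤ t0 → ∫⁻ x in cellG, ∫⁻ v, sol φ σ t x v ≤
      A * m * ENNReal.ofReal (t ^ (b + 2)) := fun t ht ht0 =>
    mass_sol hM hE hb hA mH hσ pH pσ hτ (A2 := ENNReal.ofReal A2) ENNReal.ofReal_ne_top heq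
      hH0 hσ0 hHA hσA hσb ht ht0
  have hAM : A * m ≠ ⊤ := by
    rw [hm]
    exact ENNReal.mul_ne_top hA (ENNReal.mul_ne_top (ENNReal.mul_ne_top hCX hCM)
      ENNReal.ofReal_ne_top)
  have hfin := sol_slave hI hN hCS hσ hA hA0 hAM hτ hσ0 hσb (fun s x hs hs0 => ?_) ht ht0 x v
  · rw [C0_homog] at hfin
    exact hfin
  · refine le_trans ?_ (hmass s hs hs0)
    have h4 := LMass.lintegral_ball_le (f := fun y => ∫⁻ w, sol φ σ s y w)
      (Measurable.lintegral_prod_right' (f := fun q : P2 × R3 => sol φ σ s q.1 q.2)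
        (mH.comp measurable_const measurable_fst measurable_snd))
      (fun y k => by
        refine lintegral_congr fun w => ?_
        exact pH s w y k) x hrho
    have e : Metric.closedBall x rho0 = {y : P2 | ‖y - x‖ ≤ rho0} := by
      ext y; rw [Metric.mem_closedBall, dist_eq_norm]; rfl
    rw [e]
    exact h4

/-- THEOREM L1 (`SOL`): bound of the solution operator without power loss -/
theorem sol_bound (hI : SInput P φ g1 g2 t0 CK kV V0 lam R cU eS CS) (pφ : PerD φ)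
    (hN : SlaveNum g2 t0 CK kV V0 lam R Z0 b rho0 cU eS) (hCS : CS ≠ ⊤) (hrho : rho0 < 7 / 20)
    (hM : MassBound P φ g1 g2 t0 be CX) (hCX : CX ≠ ⊤) (hE : MassEE P g1 g2 t0 CM) (hCM : CM ≠ ⊤)
    (hb : be < b + 2) :
    ∃ C : ℝ≥0∞, C ≠ ⊤ ∧ ∀ (σ : Den) (A : ℝ≥0∞), Meas3 σ → PerD σ →
      (∀ t ∈ Ioc 0 t0, ∀ x v, σ t x v ≤ A * B2 P g1 g2 (b - 1) t x v) →
      ∀ t ∈ Ioc 0 t0, ∀ x v, sol φ σ t x v ≤ C * A * B2 P g1 g2 b t x v := by
  set K : ℝ≥0∞ := C0 g2 CK lam R Z0 cU CS 1 (CX * CM * ENNReal.ofReal (1 / (b + 2 - be))) with hK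
  have hKt : K ≠ ⊤ := C0_ne_top ENNReal.one_ne_top
    (ENNReal.mul_ne_top (ENNReal.mul_ne_top hCX hCM) ENNReal.ofReal_ne_top) hN.hcU hCS
  refine ⟨2 * K + 1, ENNReal.add_ne_top.2 ⟨ENNReal.mul_ne_top (by norm_num) hKt,
    ENNReal.one_ne_top⟩, fun σ A hσ pσ hb1 t ht x v => ?_⟩
  rcases eq_or_ne A ⊤ with hA | hA
  · rw [hA, ENNReal.mul_top (by simp), B2_env P g1 g2 b ht.1.le, ENNReal.top_mul]
    · exact le_top
    · refine mul_ne_zero ?_ (EE_ne_zero _ _ _ _ _ _)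
      simp only [ne_eq, ENNReal.ofReal_eq_zero, not_le]
      exact Real.rpow_pos_of_pos ht.1 b
  rcases eq_or_ne A 0 with hA0 | hA0
  · rw [sol_eq_zero (T := t0) (fun s y w hs hs0 => ?_) ht.2]
    · exact bot_le
    · have := hb1 s ⟨hs, hs0⟩ y w
      rw [hA0, zero_mul] at this
      exact le_antisymm this bot_le
  rw [sol_eq_iSup_cut hI.mφ hσ]
  refine iSup_le fun n => ?_
  have hn : (0 : ℝ) < 1 / ((n : ℝ) + 1) := by positivity
  refine (sol_bound_cut hI pφ hN hCS hrho hM hCX hE hCM hb (meas3_cutS hσ _) (perD_cutS pσ _)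
    hA hA0 hn (fun t x v h => cutS_zero h x v) (fun s y w hs hs0 => ?_) ht.1 ht.2 x v).trans ?_
  · refine (cutS_le _ _ _ _).trans ((hb1 s ⟨hs, hs0⟩ y w).trans ?_)
    rw [B2_env P g1 g2 (b - 1) hs.le, mul_assoc]
  · rw [B2_env P g1 g2 b ht.1.le]
    calc 2 * (A * K) * ENNReal.ofReal (t ^ b) * EE P g1 g2 t x v
        = 2 * K * A * (ENNReal.ofReal (t ^ b) * EE P g1 g2 t x v) := by ring
      _ ≤ _ := by
        gcongr
        exact le_self_add

end Crest.Agent.R68.L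
end
end

-- ▼ part R68/LSol4

/-!
# Row 68, PART L (helper685): choice of the numerical constants, concrete inputs
-/

set_option autoImplicit false
open MeasureTheory Set Filter Topology
open scoped ENNReal
open Crest.AnalysisR.VecCalc3 Crest.AnalysisR.PDE.Boltzmann

noncomputable section

namespace Crest.Agent.R68.L

open Crest.Agent.R68.A (Meas3 en Acc)

/-- choice of the window length `L` -/
theorem exists_window (CT : ℝ) : ∃ L : ℝ, 1 ≤ L ∧
    Real.exp (-(59 / 10) * L) * (∑ i ∈ Finset.range 4, (2 * CT * L) ^ i) ≤ 1 / 8 := by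
  have h1 : ∀ i : ℕ, Tendsto (fun L : ℝ => (2 * CT) ^ i * (L ^ i * Real.exp (-L))) atTop
      (𝓝 ((2 * CT) ^ i * 0)) := fun i =>
    (Real.tendsto_pow_mul_exp_neg_atTop_nhds_zero i).const_mul _
  have h2 : Tendsto (fun L : ℝ => ∑ i ∈ Finset.range 4, (2 * CT) ^ i * (L ^ i * Real.exp (-L)))
      atTop (𝓝 0) := by
    have := tendsto_finsetSum (Finset.range 4) (fun i _ => h1 i)
    simpa using this
  have h3 : ∀ᶠ L : ℝ in atTop,
      |∑ i ∈ Finset.range 4, (2 * CT) ^ i * (L ^ i * Real.exp (-L))| < 1 / 8 := by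
    have := (h2.abs).eventually_lt_const (u := (1 / 8 : ℝ)) (by norm_num)
    exact this
  obtain ⟨L, hL, hL1⟩ := (h3.and (eventually_ge_atTop (1 : ℝ))).exists
  refine ⟨L, hL1, ?_⟩
  have h4 : Real.exp (-(59 / 10) * L) ≤ Real.exp (-L) := Real.exp_le_exp.2 (by linarith)
  set S := ∑ i ∈ Finset.range 4, (2 * CT * L) ^ i with hS
  have h5 : Real.exp (-L) * S = ∑ i ∈ Finset.range 4, (2 * CT) ^ i * (L ^ i * Real.exp (-L)) := by
    rw [hS, Finset.mul_sum]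
    exact Finset.sum_congr rfl fun i _ => by rw [mul_pow]; ring
  rw [← h5, abs_mul, abs_of_pos (Real.exp_pos _)] at hL
  calc Real.exp (-(59 / 10) * L) * S ≤ Real.exp (-(59 / 10) * L) * |S| :=
        mul_le_mul_of_nonneg_left (le_abs_self S) (Real.exp_pos _).le
    _ ≤ Real.exp (-L) * |S| := mul_le_mul_of_nonneg_right h4 (abs_nonneg _)
    _ ≤ 1 / 8 := hL.le

/-- the numerical conditions: `V0`, `L` do not depend on `K` -/
theorem exists_slaveNum {CT VV g2 : ℝ} (hCT : 0 ≤ CT) (hVV : 0 ≤ VV) (hg2 : 0 < g2) :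
    ∃ V0 L : ℝ, 0 < V0 ∧ 1 ≤ L ∧ ∀ K b : ℝ, 2 * L ≤ K → 59 / 10 * K ≤ b →
      ∃ Z0 : ℝ, ∀ (t0 R rho0 : ℝ) (cU eS : ℝ≥0∞), 0 ≤ R → R * t0 ≤ rho0 → cU ≠ ⊤ →
        cU ^ 4 * eS ≤ ENNReal.ofReal (1 / 8) →
        SlaveNum g2 t0 (CT * K) (CT * K * VV / V0) V0 (L / K) R Z0 b rho0 cU eS := by
  obtain ⟨L, hL1, hL⟩ := exists_window CT
  refine ⟨2 * CT * VV + 1, L, by positivity, hL1, fun K b hK hb => ?_⟩
  have hK0 : 0 < K := by linarith
  have hb0 : 0 < b := by linarith [hb, hK0]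
  have hV : 0 < 2 * CT * VV + 1 := by positivity
  refine ⟨2 * (2 * CT * VV + 1) + 8 * (CT * K) / g2, fun t0 R rho0 cU eS hR hRt hcU h4 => ?_⟩
  have hZ1 : 1 ≤ 2 * (2 * CT * VV + 1) + 8 * (CT * K) / g2 := by
    have : 0 ≤ 8 * (CT * K) / g2 := by positivity
    have : 0 ≤ CT * VV := by positivity
    linarith
  refine
  { hg2 := hg2
    hb := by linarith
    hCK := by positivity
    hkV := by positivity
    hR := hR
    hRt := hRt
    hcU := hcU
    hZ0 := by linarith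
    hZ0V := by
      have : 0 ≤ 8 * (CT * K) / g2 := by positivity
      linarith
    hlam0 := by positivity
    hlam1 := by rw [div_le_iff₀ hK0]; linarith
    n1 := ?_
    n2 := ?_
    n3 := ?_
    n4 := h4 }
  · rw [div_div, div_le_iff₀ (by positivity)]
    have h1 : 59 / 10 * K * (2 * CT * VV + 1) ≤ (2 * CT * VV + 1) * b := by
      rw [mul_comm (2 * CT * VV + 1) b]
      exact mul_le_mul_of_nonneg_right hb hV.le
    have h2 : 0 ≤ K * (CT * VV) := by positivity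
    nlinarith
  · set Z := 2 * (2 * CT * VV + 1) + 8 * (CT * K) / g2 with hZ
    have hZ2 : Z ≤ Z ^ 2 := by nlinarith
    have hZ3 : 8 * (CT * K) / g2 ≤ Z := by
      have : 0 ≤ CT * VV := by positivity
      rw [hZ]; linarith
    rw [div_le_iff₀ (by positivity)]
    have h1 : 8 * (CT * K) ≤ g2 * Z ^ 2 := by
      calc 8 * (CT * K) = g2 * (8 * (CT * K) / g2) := by field_simp
        _ ≤ g2 * Z ^ 2 := mul_le_mul_of_nonneg_left (hZ3.trans hZ2) hg2.le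
    linarith
  · have hLK : L / K ≤ 1 / 2 := by rw [div_le_iff₀ hK0]; linarith
    have hLK0 : 0 < L / K := by positivity
    have h1 : (1 - L / K) ^ b ≤ Real.exp (-(59 / 10) * L) := by
      calc (1 - L / K) ^ b ≤ (Real.exp (-(L / K))) ^ b :=
            Real.rpow_le_rpow (by linarith) (Real.one_sub_le_exp_neg _) hb0.le
        _ = Real.exp (-(L / K) * b) := by rw [← Real.exp_mul]
        _ ≤ _ := by
            apply Real.exp_le_exp.2
            have hbK : 59 / 10 ≤ b / K := by rw [le_div_iff₀ hK0]; exact hb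
            have : 59 / 10 * L ≤ L / K * b := by
              calc 59 / 10 * L ≤ b / K * L := mul_le_mul_of_nonneg_right hbK (by linarith)
                _ = L / K * b := by ring
            linarith
    have h2 : (∑ i ∈ Finset.range 4, (CT * K * (2 * (L / K))) ^ i) =
        ∑ i ∈ Finset.range 4, (2 * CT * L) ^ i :=
      Finset.sum_congr rfl fun i _ => by
        congr 1; field_simp
    rw [h2]
    exact (mul_le_mul_of_nonneg_right h1 (by positivity)).trans hL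

/-- field `S` of `SInput` as a separate proposition (output of Part S) -/
def SWindow (P : Par) (φ : Den) (g1 t0 V0 lam R : ℝ) (eS CS : ℝ≥0∞) : Prop :=
  ∀ (h : ℝ → P2 → R3 → ℝ≥0∞), Measurable (fun p : ℝ × P2 × R3 => h p.1 p.2.1 p.2.2) →
    ∀ (t : ℝ) (x : P2) (v : R3) (b1 b2 : ℝ≥0∞), 0 < t → t ≤ t0 → ‖v‖ ≤ V0 → b1 ≠ ⊤ →
    (∀ s ∈ Icc (t * (1 - lam)) t, ∀ y w, h s y w ≤
      b1 * (Dm P s y w * ENNReal.ofReal (Real.exp (-(g1 - √t / 100) * ‖w‖ ^ 2)))) →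
    (∀ s ∈ Icc (t * (1 - lam)) t, (∫⁻ y in Metric.closedBall x (R * t),
      ∫⁻ w in Metric.closedBall (0 : R3) R, h s y w) ≤ b2) →
    ((DG (Gf φ) (t * (1 - lam)))^[4] h) t x v ≤
      Dm P t x v * ENNReal.ofReal (Real.exp (-(g1 - √t / 100) * ‖v‖ ^ 2)) *
        (eS * b1 + CS * ENNReal.ofReal (t ^ (-2 : ℝ)) * b2)


/-- the price of moving `ω` through a collision -/
def cUe (Y g2 : ℝ) : ℝ≥0∞ := ENNReal.ofReal (Real.exp (g2 * (Y + 5) ^ 2))

/-- the small constant asked from Part S -/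
def epsS (Y g2 : ℝ) : ℝ := Real.exp (-(4 * (g2 * (Y + 5) ^ 2))) / 8

theorem epsS_pos (Y g2 : ℝ) : 0 < epsS Y g2 := by unfold epsS; positivity

theorem cUe_epsS (Y g2 : ℝ) : cUe Y g2 ^ 4 * ENNReal.ofReal (epsS Y g2) ≤ ENNReal.ofReal (1 / 8) := by
  unfold cUe epsS
  rw [← ENNReal.ofReal_pow (Real.exp_pos _).le, ← ENNReal.ofReal_mul (by positivity)]
  apply ENNReal.ofReal_le_ofReal
  rw [← Real.exp_nat_mul, mul_div_assoc', ← Real.exp_add]
  norm_num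

/-- concrete inputs of L1/L2 -/
theorem sInput_of {P : Par} (h : P.Ok) {g1 g2 t0 V0 lam R : ℝ} {eS CS : ℝ≥0∞} (hg1 : 0 < g1)
    (hg2 : 0 ≤ g2) (ht0 : t0 ≤ 1) (htg : √t0 / 100 ≤ g1 / 2) (hV0 : 0 < V0)
    (hS : SWindow P (phiE P) g1 t0 V0 lam R eS CS) :
    SInput P (phiE P) g1 g2 t0 (CT P.Y g1 g2 * P.K) (CT P.Y g1 g2 * P.K * VV P.Y / V0) V0 lam R
      (cUe P.Y g2) eS CS where
  Y := h.Y0
  mφ := meas3_phiE h
  K2 := fun s x v hs hs0 => K2_EE h hg1 hg2 hs (hs0.trans ht0)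
    ((div_le_div_of_nonneg_right (Real.sqrt_le_sqrt hs0) (by norm_num)).trans htg) x v
  K2V := fun s x v hs hs0 hv => K2V_EE h hg1 hg2 hs (hs0.trans ht0)
    ((div_le_div_of_nonneg_right (Real.sqrt_le_sqrt hs0) (by norm_num)).trans htg) hV0 x hv
  K4 := fun f s x v hs => K4_om h hg2 f hs x v
  S := hS

/-- (K3) from 944's `mass_B2` -/
theorem massEE_of {P : Par} (h : P.Ok) {g1 g2 t0 : ℝ} (hg1 : 0 < g1) (hg2 : 0 < g2)
    (htg : √t0 / 100 ≤ g1 / 2) (hsm : (P.Y + 2) * (t0 + P.dl) < 7 / 20) :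
    MassEE P g1 g2 t0 (LMass.CM P.Y g1 g2) := by
  intro s hs hs0
  refine LMass.mass_B2 (parD_of_ok h) hg1 hg2 hs
    ((div_le_div_of_nonneg_right (Real.sqrt_le_sqrt hs0) (by norm_num)).trans htg) ?_
  have : (P.Y + 2) * (s + P.dl) ≤ (P.Y + 2) * (t0 + P.dl) :=
    mul_le_mul_of_nonneg_left (by linarith) (by linarith [h.Y0])
  linarith

/-- the body of `SolBound` for the actual fuel, from Part S and X1 -/
theorem solBound_of {P : Par} (h : P.Ok) {g1 g2 t0 V0 L R Z0 b be rho0 : ℝ} {eS CS CX : ℝ≥0∞}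
    (hg1 : 0 < g1) (hg2 : 0 < g2) (ht01 : t0 ≤ 1) (htg : √t0 / 100 ≤ g1 / 2)
    (hsm : (P.Y + 2) * (t0 + P.dl) < 7 / 20) (hV0 : 0 < V0)
    (hN : SlaveNum g2 t0 (CT P.Y g1 g2 * P.K) (CT P.Y g1 g2 * P.K * VV P.Y / V0) V0 (L / P.K) R Z0 b
      rho0 (cUe P.Y g2) eS)
    (hS : SWindow P (phiE P) g1 t0 V0 (L / P.K) R eS CS) (hCS : CS ≠ ⊤) (hrho : rho0 < 7 / 20)
    (hM : MassBound P (phiE P) g1 g2 t0 be CX) (hCX : CX ≠ ⊤) (hb : be < b + 2) :
    ∃ C : ℝ≥0∞, C ≠ ⊤ ∧ ∀ (σ : Den) (A : ℝ≥0∞), Meas3 σ → PerD σ →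
      (∀ t ∈ Ioc 0 t0, ∀ x v, σ t x v ≤ A * B2 P g1 g2 (b - 1) t x v) →
      ∀ t ∈ Ioc 0 t0, ∀ x v, sol (phiE P) σ t x v ≤ C * A * B2 P g1 g2 b t x v :=
  sol_bound (sInput_of h hg1 hg2.le ht01 htg hV0 hS) (fun t v => perG_phiE P t v) hN hCS hrho hM hCX
    (massEE_of h hg1 hg2 htg hsm) (LMass.CM_ne_top _ _ _) hb

end Crest.Agent.R68.L
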