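import Mathlib
import Crest.Prelude.Def_HardSphereBoltzmann
import Crest.Agent.R68.E1
import Crest.Agent.R68.Defs
import Crest.Agent.R68.Sph2
import Crest.Agent.R68.EHyp
import Crest.Agent.R68.ZDefs

-- ▼ part R68/E2
section

/-!
Row 68, part E, module 2: the collision measure, symmetries, weak form of the collision operator.
-/

set_option autoImplicit false
open MeasureTheory
open scoped ENNReal
open Crest.AnalysisR.VecCalc3 Crest.AnalysisR.PDE.Boltzmann

namespace Crest.Agent.R68E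

/-- the measure `dv dv⋆ dω`. -/
noncomputable def tri : Measure ((R3 × R3) × R3) :=
  (volume : Measure (R3 × R3)).prod sphereMeasure

instance sfin_tri : SFinite tri := by unfold tri; infer_instance
instance sigf_tri : SigmaFinite tri := by unfold tri; infer_instance
instance sfin_tri' : SFinite ((volume : Measure R3).prod ((volume : Measure R3).prod sphereMeasure)) :=
  inferInstance

/-- the collision involution on `(v, v⋆, ω)`. -/
noncomputable def cT (z : (R3 × R3) × R3) : (R3 × R3) × R3 := (T z.2 z.1, z.2)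

/-- the exchange `(v, v⋆) ↦ (v⋆, v)`. -/
def cS (z : (R3 × R3) × R3) : (R3 × R3) × R3 := ((z.1.2, z.1.1), z.2)

lemma continuous_cT : Continuous cT := by
  unfold cT
  simp only [T_apply]
  exact ((continuous_postVel).prodMk continuous_postVelStar).prodMk continuous_snd

lemma measurable_cT : Measurable cT := continuous_cT.measurable




/-- kernel `|⟪v - v⋆, ω⟫|`. -/
noncomputable def ker (z : (R3 × R3) × R3) : ℝ := |inner ℝ (z.1.1 - z.1.2) z.2|


lemma measurable_ker : Measurable ker := by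
  have : Continuous ker := by unfold ker; fun_prop
  exact this.measurable




/-- gain of a velocity profile. -/
noncomputable def gain (g : R3 → ℝ) (v : R3) : ℝ≥0∞ :=
  ∫⁻ vs, ∫⁻ w, ENNReal.ofReal (|inner ℝ (v - vs) w| * g (postVel v vs w) *
    g (postVelStar v vs w)) ∂sphereMeasure

/-- loss of a velocity profile. -/
noncomputable def loss (g : R3 → ℝ) (v : R3) : ℝ≥0∞ :=
  ∫⁻ vs, ∫⁻ w, ENNReal.ofReal (|inner ℝ (v - vs) w| * g v * g vs) ∂sphereMeasure


section param

variable {Y : Type*} [MeasurableSpace Y]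

/-- `b(y,z) = |⟪v-v⋆,ω⟫| g(v') g(v⋆')`. -/
noncomputable def bb (g : Y → R3 → ℝ) (q : Y × ((R3 × R3) × R3)) : ℝ :=
  ker q.2 * g q.1 (cT q.2).1.1 * g q.1 (cT q.2).1.2

/-- `a(y,z) = |⟪v-v⋆,ω⟫| g(v) g(v⋆)`. -/
noncomputable def aa (g : Y → R3 → ℝ) (q : Y × ((R3 × R3) × R3)) : ℝ :=
  ker q.2 * g q.1 q.2.1.1 * g q.1 q.2.1.2

variable {g : Y → R3 → ℝ}

lemma measurable_aa (hg : Measurable (Function.uncurry g)) : Measurable (aa g) := by
  unfold aa
  have h1 : Measurable fun q : Y × ((R3 × R3) × R3) => g q.1 q.2.1.1 :=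
    hg.comp (measurable_fst.prodMk (by fun_prop))
  have h2 : Measurable fun q : Y × ((R3 × R3) × R3) => g q.1 q.2.1.2 :=
    hg.comp (measurable_fst.prodMk (by fun_prop))
  exact ((measurable_ker.comp measurable_snd).mul h1).mul h2

lemma measurable_bb (hg : Measurable (Function.uncurry g)) : Measurable (bb g) := by
  unfold bb
  have hc : Measurable fun q : Y × ((R3 × R3) × R3) => cT q.2 := measurable_cT.comp measurable_snd
  have h1 : Measurable fun q : Y × ((R3 × R3) × R3) => g q.1 (cT q.2).1.1 :=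
    hg.comp (measurable_fst.prodMk hc.fst.fst)
  have h2 : Measurable fun q : Y × ((R3 × R3) × R3) => g q.1 (cT q.2).1.2 :=
    hg.comp (measurable_fst.prodMk hc.fst.snd)
  exact ((measurable_ker.comp measurable_snd).mul h1).mul h2

/-- rearrangement `((y,v),(v⋆,ω)) ↦ (y,((v,v⋆),ω))`. -/
def rho (p : (Y × R3) × (R3 × R3)) : Y × ((R3 × R3) × R3) := (p.1.1, ((p.1.2, p.2.1), p.2.2))








lemma measurable_gain (hg : Measurable (Function.uncurry g)) :
    Measurable fun p : Y × R3 => gain (g p.1) p.2 := by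
  have hb := measurable_bb hg
  have h3 : Measurable fun r : ((Y × R3) × R3) × R3 =>
      ENNReal.ofReal (bb g (r.1.1.1, ((r.1.1.2, r.1.2), r.2))) :=
    (hb.comp (by fun_prop)).ennreal_ofReal
  exact (h3.lintegral_prod_right' (ν := sphereMeasure)).lintegral_prod_right'

lemma measurable_loss (hg : Measurable (Function.uncurry g)) :
    Measurable fun p : Y × R3 => loss (g p.1) p.2 := by
  have hb := measurable_aa hg
  have h3 : Measurable fun r : ((Y × R3) × R3) × R3 =>
      ENNReal.ofReal (aa g (r.1.1.1, ((r.1.1.2, r.1.2), r.2))) :=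
    (hb.comp (by fun_prop)).ennreal_ofReal
  exact (h3.lintegral_prod_right' (ν := sphereMeasure)).lintegral_prod_right'

end param

end Crest.Agent.R68E
end

-- ▼ part R68/ZRot1
section

/-!
Row 68, part Z, module 1: the rotation between the golden frame and the frozen frame.
-/

set_option autoImplicit false
open MeasureTheory Set
open scoped ENNReal
open Crest.AnalysisR.VecCalc3 Crest.AnalysisR.PDE.Boltzmann

namespace Crest.Agent.R68.Z

/-- normalisation `√(1+g²)` -/
noncomputable def nn : ℝ := √(1 + gold ^ 2)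

lemma nn_pos : 0 < nn := Real.sqrt_pos.2 (by positivity)

lemma nn_sq : nn ^ 2 = 1 + gold ^ 2 := Real.sq_sqrt (by positivity)

/-- the planar map `(a,b) ↦ ((b - a g)/n, (a + b g)/n)` -/
noncomputable def A2 (x : P2) : P2 := ((x.2 - x.1 * gold) / nn, (x.1 + x.2 * gold) / nn)

/-- the rotation of `R3` (an involution) as a linear map -/
noncomputable def RotL : R3 →ₗ[ℝ] R3 where
  toFun v := vec3 ((v 1 - v 0 * gold) / nn) ((v 0 + v 1 * gold) / nn) (v 2)
  map_add' v w := by
    rw [vec3_add]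
    refine vec3_ext ?_ ?_ ?_ <;> simp [vec3] <;> ring
  map_smul' c v := by
    simp only [RingHom.id_apply]
    rw [vec3_smul]
    refine vec3_ext ?_ ?_ ?_ <;> simp [vec3] <;> ring

lemma RotL_apply (v : R3) :
    RotL v = vec3 ((v 1 - v 0 * gold) / nn) ((v 0 + v 1 * gold) / nn) (v 2) := rfl

lemma RotL_invol : Function.Involutive RotL := by
  intro v
  have hn := nn_pos.ne'
  have hs := nn_sq
  refine vec3_ext ?_ ?_ ?_
  · simp only [RotL_apply, vec3]
    simp
    field_simp
    rw [hs]; ring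
  · simp only [RotL_apply, vec3]
    simp
    field_simp
    rw [hs]; ring
  · simp only [RotL_apply, vec3]
    simp

/-- the rotation as a linear isometry equivalence -/
noncomputable def Rot : R3 ≃ₗᵢ[ℝ] R3 where
  toLinearEquiv := LinearEquiv.ofInvolutive RotL RotL_invol
  norm_map' v := by
    have h : (LinearEquiv.ofInvolutive RotL RotL_invol) v = RotL v := rfl
    rw [h, RotL_apply]
    have h2 : ‖vec3 ((v 1 - v 0 * gold) / nn) ((v 0 + v 1 * gold) / nn) (v 2)‖ ^ 2 = ‖v‖ ^ 2 := by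
      rw [norm_sq_vec3, ← vec3_eta v, norm_sq_vec3]
      have hn := nn_pos.ne'
      have hs := nn_sq
      simp only [vec3]
      simp
      field_simp
      rw [hs]; ring
    exact (sq_eq_sq₀ (norm_nonneg _) (norm_nonneg _)).1 h2

lemma Rot_apply (v : R3) :
    Rot v = vec3 ((v 1 - v 0 * gold) / nn) ((v 0 + v 1 * gold) / nn) (v 2) := rfl

lemma Rot_Rot (v : R3) : Rot (Rot v) = v := RotL_invol v

lemma norm_Rot (v : R3) : ‖Rot v‖ = ‖v‖ := Rot.norm_map v

lemma bar_Rot (x : R3) : bar (Rot x) = A2 (x 0, x 1) := by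
  rw [Rot_apply]; rfl

lemma bar_add (x y : R3) : bar (x + y) = bar x + bar y := rfl

lemma bar_smul (t : ℝ) (x : R3) : bar (t • x) = t • bar x := rfl


lemma Rot_postVel (v vs w : R3) :
    Rot (postVel v vs w) = postVel (Rot v) (Rot vs) (Rot w) := by
  unfold postVel
  rw [map_sub, LinearIsometryEquiv.map_smul, ← map_sub, LinearIsometryEquiv.inner_map_map]

lemma Rot_postVelStar (v vs w : R3) :
    Rot (postVelStar v vs w) = postVelStar (Rot v) (Rot vs) (Rot w) := by
  unfold postVelStar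
  rw [map_add, LinearIsometryEquiv.map_smul, ← map_sub, LinearIsometryEquiv.inner_map_map]

lemma mp_Rot : MeasurePreserving (Rot : R3 → R3) volume volume := Rot.measurePreserving

lemma me_Rot : MeasurableEmbedding (Rot : R3 → R3) := Rot.toHomeomorph.measurableEmbedding

open Crest.Agent.R68E (gain loss)

lemma inner_aux (v vs w : R3) : inner ℝ (v - Rot vs) (Rot w) = (inner ℝ (Rot v - vs) w : ℝ) := by
  have h : v - Rot vs = Rot (Rot v - vs) := by rw [map_sub, Rot_Rot]
  rw [h, LinearIsometryEquiv.inner_map_map]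

lemma gain_Rot (g : R3 → ℝ) (v : R3) : gain (fun u => g (Rot u)) v = gain g (Rot v) := by
  unfold gain
  rw [← mp_Rot.lintegral_comp_emb me_Rot]
  refine lintegral_congr fun vs => ?_
  rw [← (measurePreserving_sphere_isometry Rot).lintegral_comp_emb me_Rot]
  refine lintegral_congr fun w => ?_
  simp only [Rot_postVel, Rot_postVelStar, Rot_Rot, inner_aux]

lemma loss_Rot (g : R3 → ℝ) (v : R3) : loss (fun u => g (Rot u)) v = loss g (Rot v) := by
  unfold loss
  rw [← mp_Rot.lintegral_comp_emb me_Rot]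
  refine lintegral_congr fun vs => ?_
  rw [← (measurePreserving_sphere_isometry Rot).lintegral_comp_emb me_Rot]
  refine lintegral_congr fun w => ?_
  simp only [Rot_Rot, inner_aux]

/-! ### the planar map -/

/-- `A2` as a linear map -/
noncomputable def A2L : P2 →ₗ[ℝ] P2 where
  toFun := A2
  map_add' x y := by
    ext <;> simp [A2] <;> ring
  map_smul' c x := by
    ext <;> simp [A2] <;> ring

lemma A2_A2 (x : P2) : A2 (A2 x) = x := by
  have hn := nn_pos.ne'
  have hs := nn_sq
  ext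
  · simp only [A2]
    field_simp
    rw [hs]; ring
  · simp only [A2]
    field_simp
    rw [hs]; ring

lemma A2L_det : |LinearMap.det A2L| = 1 := by
  have h : A2L * A2L = 1 := LinearMap.ext fun x => A2_A2 x
  have h2 : LinearMap.det A2L * LinearMap.det A2L = 1 := by
    rw [← map_mul, h, map_one]
  have h3 : |LinearMap.det A2L| * |LinearMap.det A2L| = 1 := by
    rw [← abs_mul, h2, abs_one]
  nlinarith [abs_nonneg (LinearMap.det A2L)]

lemma continuous_A2 : Continuous A2 := by unfold A2; fun_prop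

lemma mp_A2 : MeasurePreserving A2 (volume : Measure P2) volume := by
  have hd := A2L_det
  have hne : LinearMap.det A2L ≠ 0 := by
    intro h; rw [h] at hd; simp at hd
  refine ⟨continuous_A2.measurable, ?_⟩
  have : (volume : Measure P2).IsAddHaarMeasure := by
    rw [Measure.volume_eq_prod]; infer_instance
  have h := Measure.map_linearMap_addHaar_eq_smul_addHaar (volume : Measure P2) hne
  rw [abs_inv, hd, inv_one, ENNReal.ofReal_one, one_smul] at h
  exact h


/-- unit square -/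
def sq : Set P2 := Ico (0 : ℝ) 1 ×ˢ Ico (0 : ℝ) 1

lemma A2_preimage_cellG : A2 ⁻¹' cellG = sq := by
  ext x
  simp only [mem_preimage, cellG, mem_ofPred_eq, sq, mem_prod]
  constructor
  · rintro ⟨s, t, hs, ht, h⟩
    have h2 : A2 x = A2 (s, t) := h
    have h3 : x = (s, t) := by rw [← A2_A2 x, h2, A2_A2]
    rw [h3]
    exact ⟨hs, ht⟩
  · rintro ⟨h1, h2⟩
    exact ⟨x.1, x.2, h1, h2, rfl⟩

lemma measurableSet_cellG : MeasurableSet cellG := by
  have h : cellG = A2 ⁻¹' sq := by
    rw [← A2_preimage_cellG, ← preimage_comp]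
    have : A2 ∘ A2 = id := funext A2_A2
    rw [this, preimage_id]
  rw [h]
  exact continuous_A2.measurable (measurableSet_Ico.prod measurableSet_Ico)

lemma mp_A2_cell : MeasurePreserving A2 ((volume : Measure P2).restrict sq)
    ((volume : Measure P2).restrict cellG) := by
  rw [← A2_preimage_cellG]
  exact mp_A2.restrict_preimage measurableSet_cellG

end Crest.Agent.R68.Z
end

-- ▼ part R68/ZRot2
section

/-!
Row 68, part Z, module 2: measure theory of the change of frame.
-/

set_option autoImplicit false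
open MeasureTheory Set
open scoped ENNReal
open Crest.AnalysisR.VecCalc3 Crest.AnalysisR.PDE.Boltzmann

namespace Crest.Agent.R68.Z

/-- coordinates -/
def co (x : R3) : ℝ × ℝ × ℝ := (x 0, x 1, x 2)

/-- `vec3` as a measurable equivalence -/
noncomputable def vecE : (ℝ × ℝ × ℝ) ≃ᵐ R3 where
  toFun p := vec3 p.1 p.2.1 p.2.2
  invFun := co
  left_inv p := by simp [co, vec3]
  right_inv x := vec3_eta x
  measurable_toFun := continuous_vec3.measurable
  measurable_invFun := by
    show Measurable co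
    unfold co; fun_prop

lemma mp_co : MeasurePreserving co (volume : Measure R3) volume := by
  have h : MeasurePreserving vecE (volume : Measure (ℝ × ℝ × ℝ)) (volume : Measure R3) := mp_vec3
  exact h.symm vecE

lemma co_preimage : co ⁻¹' (Ico (0 : ℝ) 1 ×ˢ (Ico (0 : ℝ) 1 ×ˢ Ico (0 : ℝ) 1)) = cell := by
  ext x
  simp only [mem_preimage, co, mem_prod, cell, mem_ofPred_eq]
  constructor
  · rintro ⟨h0, h1, h2⟩ i
    fin_cases i
    · exact h0
    · exact h1
    · exact h2
  · intro h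
    exact ⟨h 0, h 1, h 2⟩

instance prob_Ico : IsProbabilityMeasure ((volume : Measure ℝ).restrict (Ico 0 1)) :=
  ⟨by rw [Measure.restrict_apply_univ, Real.volume_Ico]; simp⟩

lemma mp_bar : MeasurePreserving bar ((volume : Measure R3).restrict cell)
    ((volume : Measure P2).restrict sq) := by
  have h1 : MeasurePreserving co ((volume : Measure R3).restrict cell)
      ((volume : Measure (ℝ × ℝ × ℝ)).restrict
        (Ico (0 : ℝ) 1 ×ˢ (Ico (0 : ℝ) 1 ×ˢ Ico (0 : ℝ) 1))) := by
    rw [← co_preimage]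
    exact mp_co.restrict_preimage (measurableSet_Ico.prod (measurableSet_Ico.prod measurableSet_Ico))
  have h2 : (volume : Measure (ℝ × ℝ × ℝ)).restrict
        (Ico (0 : ℝ) 1 ×ˢ (Ico (0 : ℝ) 1 ×ˢ Ico (0 : ℝ) 1)) =
      ((volume : Measure ℝ).restrict (Ico 0 1)).prod
        (((volume : Measure ℝ).restrict (Ico 0 1)).prod ((volume : Measure ℝ).restrict (Ico 0 1))) := by
    rw [Measure.prod_restrict, Measure.prod_restrict, ← Measure.volume_eq_prod,
      ← Measure.volume_eq_prod]
  have h3 : MeasurePreserving (Prod.map id Prod.fst : ℝ × (ℝ × ℝ) → ℝ × ℝ)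
      (((volume : Measure ℝ).restrict (Ico 0 1)).prod
        (((volume : Measure ℝ).restrict (Ico 0 1)).prod ((volume : Measure ℝ).restrict (Ico 0 1))))
      (((volume : Measure ℝ).restrict (Ico 0 1)).prod ((volume : Measure ℝ).restrict (Ico 0 1))) :=
    (MeasurePreserving.id _).prod measurePreserving_fst
  have h4 : ((volume : Measure ℝ).restrict (Ico 0 1)).prod
      ((volume : Measure ℝ).restrict (Ico 0 1)) = (volume : Measure P2).restrict sq := by
    rw [Measure.prod_restrict, ← Measure.volume_eq_prod]; rfl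
  rw [h2] at h1
  rw [← h4]
  exact h3.comp h1

/-- the position map -/
noncomputable def posZ (x : R3) : P2 := bar (Rot x)

lemma posZ_eq : posZ = A2 ∘ bar := by
  funext x
  unfold posZ
  rw [bar_Rot]; rfl

lemma mp_posZ : MeasurePreserving posZ ((volume : Measure R3).restrict cell)
    ((volume : Measure P2).restrict cellG) := by
  rw [posZ_eq]
  exact mp_A2_cell.comp mp_bar

lemma qmp_bar : Measure.QuasiMeasurePreserving bar (volume : Measure R3) (volume : Measure P2) := by
  have h1 : Measure.QuasiMeasurePreserving (Prod.map id Prod.fst : ℝ × (ℝ × ℝ) → ℝ × ℝ)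
      ((volume : Measure ℝ).prod ((volume : Measure ℝ).prod volume))
      ((volume : Measure ℝ).prod volume) :=
    QuasiMeasurePreserving.prodMap (Measure.QuasiMeasurePreserving.id _)
      Measure.quasiMeasurePreserving_fst
  exact h1.comp mp_co.quasiMeasurePreserving

lemma qmp_posZ : Measure.QuasiMeasurePreserving posZ (volume : Measure R3) (volume : Measure P2) :=
  qmp_bar.comp mp_Rot.quasiMeasurePreserving

/-- the phase space map -/
noncomputable def phZ (q : R3 × R3) : P2 × R3 := (posZ q.1, Rot q.2)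

lemma qmp_phZ : Measure.QuasiMeasurePreserving phZ (volume : Measure (R3 × R3))
    (volume : Measure (P2 × R3)) :=
  QuasiMeasurePreserving.prodMap qmp_posZ mp_Rot.quasiMeasurePreserving

lemma mp_phZ : MeasurePreserving phZ ((volume : Measure (R3 × R3)).restrict (cell ×ˢ univ))
    ((volume : Measure (P2 × R3)).restrict (cellG ×ˢ univ)) := by
  have h := mp_posZ.prod mp_Rot
  rw [Measure.volume_eq_prod, Measure.volume_eq_prod, ← Measure.prod_restrict,
    ← Measure.prod_restrict, Measure.restrict_univ]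
  exact h

/-- the space-time phase map -/
noncomputable def stZ (p : ℝ × (R3 × R3)) : ℝ × (P2 × R3) := (p.1, phZ p.2)

lemma mp_stZ (A : Set ℝ) : MeasurePreserving stZ
    ((volume : Measure (ℝ × (R3 × R3))).restrict (A ×ˢ (cell ×ˢ univ)))
    ((volume : Measure (ℝ × (P2 × R3))).restrict (A ×ˢ (cellG ×ˢ univ))) := by
  have h := (MeasurePreserving.id ((volume : Measure ℝ).restrict A)).prod mp_phZ
  rw [Measure.prod_restrict, Measure.prod_restrict] at h
  exact h

end Crest.Agent.R68.Z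
end

-- ▼ part R68/ZRot3
section

/-!
Row 68, part Z, module 3: solutions in the rotated (golden) frame give `MildSol` in the frozen
frame.
-/

set_option autoImplicit false
open MeasureTheory Set
open scoped ENNReal
open Crest.AnalysisR.VecCalc3 Crest.AnalysisR.PDE.Boltzmann

namespace Crest.Agent.R68.Z

open Crest.Agent.R68E (gain loss)

/-- A nonnegative `Γ`-periodic mild solution in the rotated frame. -/
structure RotSol (G : ℝ → P2 → R3 → ℝ) (G0 : P2 → R3 → ℝ) (R : ℝ) : Prop where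
  meas : Measurable fun p : ℝ × P2 × R3 => G p.1 p.2.1 p.2.2
  nonneg : ∀ t x v, 0 ≤ t → 0 ≤ G t x v
  per : ∀ t v, PerG fun x => G t x v
  init : ∀ x v, G 0 x v = G0 x v
  meas0 : Measurable fun q : P2 × R3 => G0 q.1 q.2
  supp0 : ∀ x v, R ≤ ‖v‖ → G0 x v = 0
  fin0 : (∫⁻ q in cellG ×ˢ univ,
    ENNReal.ofReal (G0 q.1 q.2 * (1 + ‖q.2‖ ^ 2 + |Real.log (G0 q.1 q.2)|))
      ∂(volume : Measure (P2 × R3))) < ⊤
  mild : ∀ t, 0 ≤ t → ∀ᵐ q ∂(volume : Measure (P2 × R3)),
    G t (q.1 + t • bar q.2) q.2 = G0 q.1 q.2 +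
      ∫ s in (0)..t, ((gain (G s (q.1 + s • bar q.2)) q.2).toReal -
        (loss (G s (q.1 + s • bar q.2)) q.2).toReal)
  int : ∀ (T : ℝ) (k : ℕ), (∫⁻ p in Ioo 0 T ×ˢ (cellG ×ˢ univ),
      ENNReal.ofReal ((1 + ‖p.2.2‖ ^ 2) ^ (k / 2 : ℝ) + Real.log (1 + G p.1 p.2.1 p.2.2)) *
        (gain (G p.1 p.2.1) p.2.2 + loss (G p.1 p.2.1) p.2.2)
      ∂(volume : Measure (ℝ × P2 × R3))) < ⊤

/-- transfer of a kinetic density to the frozen frame. -/
noncomputable def toF (G : ℝ → P2 → R3 → ℝ) (t : ℝ) (x v : R3) : ℝ := G t (posZ x) (Rot v)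

/-- transfer of a datum to the frozen frame. -/
noncomputable def toF0 (G0 : P2 → R3 → ℝ) (x v : R3) : ℝ := G0 (posZ x) (Rot v)

lemma posZ_add_smul (x v : R3) (t : ℝ) : posZ (x + t • v) = posZ x + t • bar (Rot v) := by
  unfold posZ
  rw [map_add, LinearIsometryEquiv.map_smul, bar_add, bar_smul]

lemma posZ_add_single (x : R3) (i : Fin 3) :
    ∃ k : ℤ × ℤ, posZ (x + EuclideanSpace.single i 1) = posZ x + latt k := by
  have h : ∀ y : R3, posZ (x + y) = posZ x + posZ y := by
    intro y; unfold posZ; rw [map_add, bar_add]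
  have hn : nn = √(1 + gold ^ 2) := rfl
  fin_cases i
  · refine ⟨(1, 0), ?_⟩
    rw [h]
    congr 1
    rw [posZ_eq]
    ext <;> simp [A2, bar, latt, hn]
  · refine ⟨(0, 1), ?_⟩
    rw [h]
    congr 1
    rw [posZ_eq]
    ext <;> simp [A2, bar, latt, hn]
  · refine ⟨(0, 0), ?_⟩
    rw [h]
    congr 1
    rw [posZ_eq]
    ext <;> simp [A2, bar, latt]

lemma per_toF {α : Type*} {g : P2 → R3 → α} (hg : ∀ v, PerG fun x => g x v) (v : R3) :
    IsPeriodic3 fun x => g (posZ x) (Rot v) := by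
  intro x i
  obtain ⟨k, hk⟩ := posZ_add_single x i
  simp only [hk]
  exact hg (Rot v) (posZ x) k

lemma gain_toF (G : ℝ → P2 → R3 → ℝ) (t : ℝ) (x v : R3) :
    collGain (toF G) t x v = gain (G t (posZ x)) (Rot v) :=
  gain_Rot (G t (posZ x)) v

lemma loss_toF (G : ℝ → P2 → R3 → ℝ) (t : ℝ) (x v : R3) :
    collLoss (toF G) t x v = loss (G t (posZ x)) (Rot v) :=
  loss_Rot (G t (posZ x)) v

variable {G : ℝ → P2 → R3 → ℝ} {G0 : P2 → R3 → ℝ} {R : ℝ}

lemma measurable_posZ : Measurable posZ := mp_posZ.measurable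

lemma RotSol.admissible (S : RotSol G G0 R) : IsAdmissibleDatum (toF0 G0) R := by
  refine ⟨?_, ?_, ?_, ?_, ?_⟩
  · exact S.meas0.comp ((measurable_posZ.comp measurable_fst).prodMk
      (mp_Rot.measurable.comp measurable_snd))
  · intro x v
    have := S.nonneg 0 (posZ x) (Rot v) le_rfl
    rwa [S.init] at this
  · refine per_toF (g := G0) ?_
    intro v x k
    have h := S.per 0 v x k
    simp only [S.init] at h
    exact h
  · intro x v hv
    exact S.supp0 _ _ (by rw [norm_Rot]; exact hv)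
  · have hm : Measurable fun q : P2 × R3 =>
        ENNReal.ofReal (G0 q.1 q.2 * (1 + ‖q.2‖ ^ 2 + |Real.log (G0 q.1 q.2)|)) := by
      refine Measurable.ennreal_ofReal (S.meas0.mul ?_)
      exact (measurable_const.add (by fun_prop)).add
        (continuous_abs.measurable.comp (Real.measurable_log.comp S.meas0))
    have h := S.fin0
    rw [← mp_phZ.lintegral_comp hm] at h
    refine lt_of_le_of_lt (le_of_eq ?_) h
    refine lintegral_congr fun q => ?_
    simp only [toF0, phZ, norm_Rot]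

lemma RotSol.meas_gl (S : RotSol G G0 R) : Measurable fun p : ℝ × (P2 × R3) =>
    gain (G p.1 p.2.1) p.2.2 + loss (G p.1 p.2.1) p.2.2 := by
  have h0 : Measurable fun z : (ℝ × P2) × R3 => (z.1.1, (z.1.2, z.2)) := by fun_prop
  have hg : Measurable (Function.uncurry fun (y : ℝ × P2) (v : R3) => G y.1 y.2 v) := by
    have h00 := S.meas.comp h0
    exact h00
  have h1 := (R68E.measurable_gain hg).add (R68E.measurable_loss hg)
  have h3 : Measurable fun p : ℝ × (P2 × R3) => ((p.1, p.2.1), p.2.2) := by fun_prop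
  have h4 := h1.comp h3
  exact h4

lemma RotSol.meas_w (S : RotSol G G0 R) (k : ℕ) : Measurable fun p : ℝ × (P2 × R3) =>
    ENNReal.ofReal ((1 + ‖p.2.2‖ ^ 2) ^ (k / 2 : ℝ) + Real.log (1 + G p.1 p.2.1 p.2.2)) := by
  refine Measurable.ennreal_ofReal (Measurable.add ?_ ?_)
  · fun_prop
  · exact Real.measurable_log.comp (measurable_const.add S.meas)

lemma RotSol.int_lt (S : RotSol G G0 R) (T : ℝ) (k : ℕ) :
    (∫⁻ p in Set.Ioo 0 T ×ˢ (cell ×ˢ Set.univ),
      ENNReal.ofReal ((1 + ‖p.2.2‖ ^ 2) ^ (k / 2 : ℝ) + Real.log (1 + toF G p.1 p.2.1 p.2.2)) *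
        (collGain (toF G) p.1 p.2.1 p.2.2 + collLoss (toF G) p.1 p.2.1 p.2.2)
      ∂(volume : Measure (ℝ × R3 × R3))) < ⊤ := by
  have h := S.int T k
  have hm := (S.meas_w k).mul S.meas_gl
  have h5 := (mp_stZ (Ioo 0 T)).lintegral_comp hm
  refine lt_of_le_of_lt (le_of_eq ?_) h
  refine Eq.trans ?_ h5
  refine lintegral_congr fun p => ?_
  simp only [Pi.mul_apply, gain_toF, loss_toF, toF, stZ, phZ, norm_Rot]

/-- **Theorem Z1.** -/
theorem RotSol.mildSol (S : RotSol G G0 R) : MildSol (toF G) (toF0 G0) R where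
  datum := S.admissible
  meas := by
    have h : Measurable fun p : ℝ × (R3 × R3) => (p.1, (posZ p.2.1, Rot p.2.2)) :=
      measurable_fst.prodMk ((measurable_posZ.comp (measurable_fst.comp measurable_snd)).prodMk
        (mp_Rot.measurable.comp (measurable_snd.comp measurable_snd)))
    exact S.meas.comp h
  nonneg t x v ht := S.nonneg t _ _ ht
  per t v := per_toF (g := G t) (S.per t) v
  init x v := S.init _ _
  mild t ht := by
    have h := qmp_phZ.ae (S.mild t ht)
    filter_upwards [h] with q hq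
    have e1 : toF G t (q.1 + t • q.2) q.2 =
        G t ((phZ q).1 + t • bar (phZ q).2) (phZ q).2 := by
      unfold toF phZ
      rw [posZ_add_smul]
    rw [e1, hq]
    congr 1
    refine intervalIntegral.integral_congr fun s _ => ?_
    simp only [Qr, shift]
    rw [gain_toF, loss_toF, posZ_add_smul]
    rfl
  int T k := S.int_lt T k

/-- the two transferred solutions differ on a set of positive measure. -/
theorem volume_ne_pos {G1 G2 : ℝ → P2 → R3 → ℝ} (h1 : Measurable fun p : ℝ × P2 × R3 => G1 p.1 p.2.1 p.2.2)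
    (h2 : Measurable fun p : ℝ × P2 × R3 => G2 p.1 p.2.1 p.2.2)
    (h : 0 < (volume : Measure (ℝ × P2 × R3)) {p | p ∈ Ioi (0 : ℝ) ×ˢ (cellG ×ˢ (univ : Set R3)) ∧
      G1 p.1 p.2.1 p.2.2 ≠ G2 p.1 p.2.1 p.2.2}) :
    0 < volume {p : ℝ × R3 × R3 | p ∈ region ∧ toF G1 p.1 p.2.1 p.2.2 ≠ toF G2 p.1 p.2.1 p.2.2} := by
  have hS : MeasurableSet {p : ℝ × P2 × R3 | G1 p.1 p.2.1 p.2.2 ≠ G2 p.1 p.2.1 p.2.2} :=
    (measurableSet_eq_fun h1 h2).compl
  have e1 : {p : ℝ × P2 × R3 | p ∈ Ioi (0 : ℝ) ×ˢ (cellG ×ˢ (univ : Set R3)) ∧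
      G1 p.1 p.2.1 p.2.2 ≠ G2 p.1 p.2.1 p.2.2} =
      {p : ℝ × P2 × R3 | G1 p.1 p.2.1 p.2.2 ≠ G2 p.1 p.2.1 p.2.2} ∩
        Ioi (0 : ℝ) ×ˢ (cellG ×ˢ (univ : Set R3)) := by
    ext p; simp only [mem_ofPred_eq, mem_inter_iff]; tauto
  rw [e1, ← Measure.restrict_apply hS] at h
  have h3 := (mp_stZ (Ioi 0)).measure_preimage hS.nullMeasurableSet
  rw [← h3, Measure.restrict_apply ((mp_stZ (Ioi 0)).measurable hS)] at h
  refine lt_of_lt_of_le h (measure_mono ?_)
  rintro p ⟨hp1, hp2⟩
  exact ⟨hp2, hp1⟩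

end Crest.Agent.R68.Z
end

-- ▼ part R68/ZMain

/-!
Row 68, part Z: transfer of mild solutions from the planar frame (`MildG`) to `MildSol`.
-/

set_option autoImplicit false
open MeasureTheory Set
open scoped ENNReal
open Crest.AnalysisR.VecCalc3 Crest.AnalysisR.PDE.Boltzmann

noncomputable section

namespace Crest.Agent.R68

open Crest.Agent.R68E (gain loss)

lemma prx_eq : prx = Z.posZ := by
  funext x
  rw [Z.posZ_eq]
  simp only [prx, Function.comp_apply, Z.A2, bar, Z.nn, mul_comm gold]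

lemma rotv_eq (v : R3) : rotv v = Z.Rot v := by
  rw [Z.Rot_apply]
  unfold rotv vec3 Z.nn
  simp only [mul_comm gold]

lemma pull_eq (G : ℝ → P2 → R3 → ℝ) : pull G = Z.toF G := by
  funext t x v
  unfold pull Z.toF
  rw [prx_eq, rotv_eq]

lemma Qp_eq_gain {g : R3 → ℝ} (hg : ∀ v, 0 ≤ g v) (v : R3) :
    Qp (fun z => ENNReal.ofReal (g z)) (fun z => ENNReal.ofReal (g z)) v = gain g v := by
  unfold Qp gain
  refine lintegral_congr fun vs => lintegral_congr fun w => ?_
  rw [ENNReal.ofReal_mul (mul_nonneg (abs_nonneg _) (hg _)), ENNReal.ofReal_mul (abs_nonneg _)]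

lemma Lc_eq_loss {g : R3 → ℝ} (hg : ∀ v, 0 ≤ g v) (v : R3) :
    ENNReal.ofReal (g v) * Lc (fun z => ENNReal.ofReal (g z)) v = loss g v := by
  unfold Lc loss
  rw [← lintegral_const_mul' _ _ ENNReal.ofReal_ne_top]
  refine lintegral_congr fun vs => ?_
  rw [← lintegral_const_mul' _ _ ENNReal.ofReal_ne_top]
  refine lintegral_congr fun w => ?_
  rw [ENNReal.ofReal_mul (mul_nonneg (abs_nonneg _) (hg _)), ENNReal.ofReal_mul (abs_nonneg _)]
  ring

lemma gainG_eq {G : ℝ → P2 → R3 → ℝ} {t : ℝ} {x : P2} (hg : ∀ v, 0 ≤ G t x v) (v : R3) :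
    gainG G t x v = gain (G t x) v := Qp_eq_gain hg v

lemma lossG_eq {G : ℝ → P2 → R3 → ℝ} {t : ℝ} {x : P2} (hg : ∀ v, 0 ≤ G t x v) (v : R3) :
    lossG G t x v = loss (G t x) v := Lc_eq_loss hg v

lemma MildG.rotSol {G : ℝ → P2 → R3 → ℝ} {G0 : P2 → R3 → ℝ} {R : ℝ} (h : MildG G G0 R) :
    Z.RotSol G G0 R where
  meas := h.meas
  nonneg := h.nonneg
  per := h.per
  init := h.init
  meas0 := h.datum.meas
  supp0 := h.datum.supp
  fin0 := h.datum.fin
  mild t ht := by
    filter_upwards [h.mild t ht] with q hq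
    rw [hq]
    congr 1
    refine intervalIntegral.integral_congr fun s hs => ?_
    rw [uIcc_of_le ht] at hs
    have h0 : ∀ v, 0 ≤ G s (q.1 + s • bar q.2) v := fun v => h.nonneg s _ v hs.1
    simp only [gainG_eq h0, lossG_eq h0]
  int T k := by
    refine lt_of_le_of_lt (le_of_eq ?_) (h.int T k)
    refine setLIntegral_congr_fun ?_ ?_
    · exact measurableSet_Ioo.prod (Z.measurableSet_cellG.prod MeasurableSet.univ)
    · intro p hp
      have h0 : ∀ v, 0 ≤ G p.1 p.2.1 v := fun v => h.nonneg p.1 _ v hp.1.1.le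
      simp only [gainG_eq h0, lossG_eq h0]

/-- **Z1: transfer of mild solutions.** -/
theorem mildSol_of_mildG {G : ℝ → P2 → R3 → ℝ} {G0 : P2 → R3 → ℝ} {R : ℝ} (h : MildG G G0 R) :
    MildSol (pull G) (fun x v => G0 (prx x) (rotv v)) R := by
  have h1 := h.rotSol.mildSol
  rw [pull_eq]
  have h2 : (fun x v => G0 (prx x) (rotv v)) = Z.toF0 G0 := by
    funext x v
    unfold Z.toF0
    rw [prx_eq, rotv_eq]
  rw [h2]
  exact h1

/-! ### positive measure -/

lemma latt_eq (k : ℤ × ℤ) : latt k = Z.A2 ((k.1 : ℝ), (k.2 : ℝ)) := by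
  unfold latt Z.A2 Z.nn
  rfl

lemma A2_add (x y : P2) : Z.A2 (x + y) = Z.A2 x + Z.A2 y := Z.A2L.map_add x y

lemma exists_latt_mem (x : P2) : ∃ k : ℤ × ℤ, x + latt k ∈ cellG := by
  obtain ⟨y, rfl⟩ : ∃ y, x = Z.A2 y := ⟨Z.A2 x, (Z.A2_A2 x).symm⟩
  refine ⟨(-⌊y.1⌋, -⌊y.2⌋), ?_⟩
  have h : Z.A2 y + latt (-⌊y.1⌋, -⌊y.2⌋) = Z.A2 (Int.fract y.1, Int.fract y.2) := by
    rw [latt_eq, ← A2_add]
    congr 1
    ext
    · simp only [Prod.fst_add, Int.cast_neg]
      have := Int.floor_add_fract y.1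
      linarith
    · simp only [Prod.snd_add, Int.cast_neg]
      have := Int.floor_add_fract y.2
      linarith
  rw [h]
  have h2 : (Int.fract y.1, Int.fract y.2) ∈ Z.sq :=
    ⟨⟨Int.fract_nonneg _, Int.fract_lt_one _⟩, ⟨Int.fract_nonneg _, Int.fract_lt_one _⟩⟩
  rw [← Z.A2_preimage_cellG] at h2
  exact h2

/-- **Z2: two different solutions in the planar frame differ in the statement's frame.** -/
theorem pos_measure_pull {G G' : ℝ → P2 → R3 → ℝ}
    (hm : Measurable (fun p : ℝ × P2 × R3 => G p.1 p.2.1 p.2.2))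
    (hm' : Measurable (fun p : ℝ × P2 × R3 => G' p.1 p.2.1 p.2.2))
    (hp : ∀ t v, PerG (fun x => G t x v)) (hp' : ∀ t v, PerG (fun x => G' t x v))
    (h : 0 < volume {p : ℝ × P2 × R3 | 0 < p.1 ∧ G p.1 p.2.1 p.2.2 ≠ G' p.1 p.2.1 p.2.2}) :
    0 < volume {p : ℝ × R3 × R3 | p ∈ region ∧
      pull G p.1 p.2.1 p.2.2 ≠ pull G' p.1 p.2.1 p.2.2} := by
  rw [pull_eq, pull_eq]
  refine Z.volume_ne_pos hm hm' ?_
  by_contra hcon
  have h0 : (volume : Measure (ℝ × P2 × R3)) {p | p ∈ Ioi (0 : ℝ) ×ˢ (cellG ×ˢ (univ : Set R3)) ∧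
      G p.1 p.2.1 p.2.2 ≠ G' p.1 p.2.1 p.2.2} = 0 := by
    simpa [pos_iff_ne_zero] using hcon
  refine h.ne' ?_
  -- translations
  let τ : ℤ × ℤ → ℝ × P2 × R3 → ℝ × P2 × R3 := fun k p => (p.1, (p.2.1 + latt k, p.2.2))
  have hτ : ∀ k, MeasurePreserving (τ k) (volume : Measure (ℝ × P2 × R3)) volume := by
    intro k
    have h1 : MeasurePreserving (fun x : P2 => x + latt k) volume volume :=
      measurePreserving_add_right _ _
    have h2 := h1.prod (MeasurePreserving.id (volume : Measure R3))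
    exact (MeasurePreserving.id (volume : Measure ℝ)).prod h2
  have hcov : {p : ℝ × P2 × R3 | 0 < p.1 ∧ G p.1 p.2.1 p.2.2 ≠ G' p.1 p.2.1 p.2.2} ⊆
      ⋃ k, τ k ⁻¹' {p | p ∈ Ioi (0 : ℝ) ×ˢ (cellG ×ˢ (univ : Set R3)) ∧
        G p.1 p.2.1 p.2.2 ≠ G' p.1 p.2.1 p.2.2} := by
    rintro p ⟨hp1, hp2⟩
    obtain ⟨k, hk⟩ := exists_latt_mem p.2.1
    refine mem_iUnion.2 ⟨k, ?_⟩
    have e1 : (τ k p).1 = p.1 := by simp [τ]
    have e2 : (τ k p).2.1 = p.2.1 + latt k := rfl
    have e3 : (τ k p).2.2 = p.2.2 := by simp [τ]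
    refine ⟨⟨?_, ?_, mem_univ _⟩, ?_⟩
    · rw [e1]; exact hp1
    · rw [e2]; exact hk
    · rw [e1, e2, e3]
      have h1 := hp p.1 p.2.2 p.2.1 k
      have h2 := hp' p.1 p.2.2 p.2.1 k
      simp only at h1 h2
      rw [h1, h2]; exact hp2
  refine measure_mono_null hcov (measure_iUnion_null fun k => ?_)
  exact (hτ k).quasiMeasurePreserving.preimage_null h0

end Crest.Agent.R68
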