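import Crest.Agent.R68.EWk2
import Crest.Agent.R68.EEnt9
import Crest.Agent.R68.EWk6
import Crest.Agent.R68.ZMain
import Crest.Agent.R68.Main0

-- ▼ part R68/EL1
section

/-!
R68 / EL1: continuity of translations on the phase cell, L¹ continuity in time (helper485, Part E).
-/

set_option autoImplicit false
open MeasureTheory Filter Topology
open scoped ENNReal
open Crest.AnalysisR.VecCalc3 Crest.AnalysisR.PDE.Boltzmann

namespace Crest.Agent.R68

/-- the shift as a continuous family of continuous maps -/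
noncomputable def shiftC : C(ℝ, C(R3 × R3, R3 × R3)) :=
  ContinuousMap.curry ⟨fun p : ℝ × (R3 × R3) => shift p.1 p.2, by unfold shift; fun_prop⟩

theorem shiftC_apply (t : ℝ) (q : R3 × R3) : shiftC t q = shift t q := rfl


/-- continuity of free transport in L¹(ℝ³ × ℝ³) -/
theorem tendsto_shift_L1 {g : R3 × R3 → ℝ} (hg : Integrable g (volume : Measure (R3 × R3))) :
    Tendsto (fun τ : ℝ => ∫⁻ q, ‖g (shift τ q) - g q‖ₑ ∂(volume : Measure (R3 × R3)))
      (𝓝 0) (𝓝 0) := by
  have hgm : ∀ τ : ℝ, MeasurePreserving (shiftC τ) (volume : Measure (R3 × R3)) volume :=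
    fun τ => measurePreserving_shift τ
  have hcont : Tendsto (fun τ : ℝ => shiftC τ) (𝓝 0) (𝓝 (shiftC 0)) :=
    shiftC.continuous.tendsto 0
  have h := Filter.Tendsto.compMeasurePreservingLp (p := 1) (E := ℝ)
    (f := fun _ : ℝ => hg.toL1 g) (f₀ := hg.toL1 g) (g := fun τ : ℝ => shiftC τ)
    (g₀ := shiftC 0) tendsto_const_nhds hcont hgm (hgm 0) ENNReal.one_ne_top
  rw [tendsto_iff_edist_tendsto_0] at h
  refine h.congr fun τ => ?_
  rw [Lp.edist_def, eLpNorm_one_eq_lintegral_enorm]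
  refine lintegral_congr_ae ?_
  have h1 := Lp.coeFn_compMeasurePreserving (hg.toL1 g) (hgm τ)
  have h2 := Lp.coeFn_compMeasurePreserving (hg.toL1 g) (hgm 0)
  have h3 := hg.coeFn_toL1
  have h4 := (hgm τ).quasiMeasurePreserving.ae h3
  have h5 := (hgm 0).quasiMeasurePreserving.ae h3
  filter_upwards [h1, h2, h4, h5] with q a1 a2 a3 a4
  rw [Pi.sub_apply, a1, a2]
  simp only [Function.comp_apply]
  rw [a3, a4]
  simp only [shiftC_apply, shift_zero]

theorem interior_cell_nonempty : (interior cell).Nonempty := by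
  refine ⟨WithLp.toLp 2 (fun _ => 1 / 2), ?_⟩
  rw [mem_interior]
  refine ⟨{x | ∀ i : Fin 3, x i ∈ Set.Ioo 0 1}, ?_, ?_, ?_⟩
  · intro x hx i
    exact ⟨(hx i).1.le, (hx i).2⟩
  · have : {x : R3 | ∀ i : Fin 3, x i ∈ Set.Ioo 0 1} = ⋂ i : Fin 3, {x : R3 | x i ∈ Set.Ioo 0 1} := by
      ext x; simp
    rw [this]
    refine isOpen_iInter_of_finite fun i => ?_
    exact isOpen_Ioo.preimage (by fun_prop : Continuous fun x : R3 => x i)
  · intro i
    simp only
    norm_num

/-- compact sets have finitely many periods -/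
theorem lintegral_compact_le {K : Set R3} (hK : IsCompact K) : ∃ N : ℕ, ∀ g : R3 → ℝ≥0∞,
    IsPeriodic3 g → ∫⁻ x in K, g x ≤ N * ∫⁻ x in cell, g x := by
  obtain ⟨t, ht⟩ := compact_covered_by_add_left_translates hK interior_cell_nonempty
  refine ⟨t.card, fun g hg => ?_⟩
  calc ∫⁻ x in K, g x ≤ ∫⁻ x in ⋃ a ∈ t, (fun h => a + h) ⁻¹' cell, g x := lintegral_mono_set ht
    _ ≤ ∑ a ∈ t, ∫⁻ x in (fun h => a + h) ⁻¹' cell, g x := by
        have : (⋃ a ∈ t, (fun h => a + h) ⁻¹' cell) = ⋃ a : t, (fun h => (a : R3) + h) ⁻¹' cell := by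
          ext x; simp
        rw [this]
        have h2 := lintegral_iUnion_le (μ := (volume : Measure R3))
          (fun a : t => (fun h => (a : R3) + h) ⁻¹' cell) g
        rw [tsum_fintype, Finset.sum_coe_sort t
          (fun a => ∫⁻ x in (fun h => a + h) ⁻¹' cell, g x)] at h2
        exact h2
    _ = ∑ _a ∈ t, ∫⁻ x in cell, g x := by
        refine Finset.sum_congr rfl fun a _ => ?_
        have hmp := measurePreserving_add_left (volume : Measure R3) a
        have h1 := hmp.setLIntegral_comp_preimage_emb (MeasurableEquiv.addLeft a).measurableEmbedding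
          (fun y => g (y + (-a))) cell
        have h2 : ∀ x, g (a + x + -a) = g x := fun x => by congr 1; abel
        simp only [h2] at h1
        rw [h1]
        exact lintegral_cell_add hg (-a)
    _ = _ := by rw [Finset.sum_const, nsmul_eq_mul]


/-- continuity of free transport in L¹(cell × ℝ³) for periodic functions -/
theorem tendsto_shift_muC {G : R3 × R3 → ℝ} (hG : Measurable G) (hp : PerX G)
    (hfin : ∫⁻ q, ‖G q‖ₑ ∂muC < ⊤) :
    Tendsto (fun τ : ℝ => ∫⁻ q, ‖G (shift τ q) - G q‖ₑ ∂muC) (𝓝 0) (𝓝 0) := by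
  -- tails
  set tail : ℕ → ℝ≥0∞ := fun n => ∫⁻ q, (if (n : ℝ) < ‖q.2‖ then ‖G q‖ₑ else 0) ∂muC with htail
  have hmt : ∀ n : ℕ, MeasurableSet {q : R3 × R3 | (n : ℝ) < ‖q.2‖} := fun n =>
    measurableSet_lt measurable_const (by fun_prop)
  have hmtail : ∀ n : ℕ, Measurable (fun q : R3 × R3 => if (n : ℝ) < ‖q.2‖ then ‖G q‖ₑ else 0) :=
    fun n => Measurable.ite (hmt n) hG.enorm measurable_const
  have htail0 : Tendsto tail atTop (𝓝 0) := by
    have h := tendsto_lintegral_of_dominated_convergence (μ := muC)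
      (F := fun (n : ℕ) (q : R3 × R3) => if (n : ℝ) < ‖q.2‖ then ‖G q‖ₑ else 0) (f := fun _ => 0)
      (fun q => ‖G q‖ₑ) hmtail
      (fun n => Filter.Eventually.of_forall fun q => by
        simp only
        split_ifs
        · exact le_rfl
        · exact zero_le) hfin.ne
      (Filter.Eventually.of_forall fun q => by
        refine tendsto_const_nhds.congr' ?_
        obtain ⟨N, hN⟩ := exists_nat_ge ‖q.2‖
        filter_upwards [eventually_ge_atTop N] with n hn
        have : ¬ ((n : ℝ) < ‖q.2‖) := by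
          push Not
          exact hN.trans (by exact_mod_cast hn)
        rw [if_neg this])
    simpa using h
  -- truncated functions
  have hK : IsCompact (Metric.closedBall (0 : R3) 3) := isCompact_closedBall _ _
  obtain ⟨N, hN⟩ := lintegral_compact_le hK
  set S : ℕ → Set (R3 × R3) := fun n =>
    Metric.closedBall (0 : R3) 3 ×ˢ Metric.closedBall (0 : R3) (n : ℝ) with hS
  have hSm : ∀ n, MeasurableSet (S n) := fun n =>
    Metric.isClosed_closedBall.measurableSet.prod Metric.isClosed_closedBall.measurableSet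
  set g : ℕ → R3 × R3 → ℝ := fun n => (S n).indicator G with hg
  have hgi : ∀ n, Integrable (g n) (volume : Measure (R3 × R3)) := by
    intro n
    refine ⟨(hG.indicator (hSm n)).aestronglyMeasurable, ?_⟩
    rw [hasFiniteIntegral_iff_enorm]
    have h1 : ∫⁻ q, ‖g n q‖ₑ ∂(volume : Measure (R3 × R3)) ≤
        ∫⁻ q in Metric.closedBall (0 : R3) 3 ×ˢ (Set.univ : Set R3), ‖G q‖ₑ
          ∂(volume : Measure (R3 × R3)) := by
      rw [← lintegral_indicator (Metric.isClosed_closedBall.measurableSet.prod MeasurableSet.univ)]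
      refine lintegral_mono fun q => ?_
      by_cases hq : q ∈ S n
      · rw [hg]
        simp only
        rw [Set.indicator_of_mem hq, Set.indicator_of_mem]
        exact ⟨hq.1, trivial⟩
      · rw [hg]
        simp only
        rw [Set.indicator_of_notMem hq, enorm_zero]
        exact zero_le
    refine lt_of_le_of_lt h1 ?_
    rw [Measure.volume_eq_prod, ← Measure.prod_restrict, Measure.restrict_univ,
      lintegral_prod_symm _ hG.enorm.aemeasurable]
    have h2 : ∫⁻ v, (∫⁻ x in Metric.closedBall (0 : R3) 3, ‖G (x, v)‖ₑ) ≤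
        ∫⁻ v, N * (∫⁻ x in cell, ‖G (x, v)‖ₑ) := by
      refine lintegral_mono fun v => ?_
      exact hN (fun x => ‖G (x, v)‖ₑ) (fun x i => by
        have := hp v x i
        simp only at this ⊢
        rw [this])
    refine lt_of_le_of_lt h2 ?_
    rw [lintegral_const_mul]
    · rw [lintegral_muC hG.enorm] at hfin
      exact ENNReal.mul_lt_top (ENNReal.natCast_lt_top N) hfin
    · exact Measurable.lintegral_prod_left' (f := fun q : R3 × R3 => ‖G q‖ₑ) hG.enorm
  -- the main estimate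
  have hmain : ∀ n : ℕ, ∀ τ : ℝ, |τ| * (n : ℝ) ≤ 1 →
      ∫⁻ q, ‖G (shift τ q) - G q‖ₑ ∂muC ≤
        (∫⁻ q, ‖g n (shift τ q) - g n q‖ₑ ∂(volume : Measure (R3 × R3))) + 2 * tail n := by
    intro n τ hτ
    have h1 : ∀ᵐ q ∂muC, ‖G (shift τ q) - G q‖ₑ ≤ ‖g n (shift τ q) - g n q‖ₑ +
        ((if (n : ℝ) < ‖(shift τ q).2‖ then ‖G (shift τ q)‖ₑ else 0) +
          (if (n : ℝ) < ‖q.2‖ then ‖G q‖ₑ else 0)) := by
      filter_upwards [show ∀ᵐ q ∂muC, q.1 ∈ cell from by
        unfold muC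
        filter_upwards [ae_restrict_mem (measurableSet_cell.prod MeasurableSet.univ)] with p hp
        exact hp.1] with q hq
      by_cases hv : (n : ℝ) < ‖q.2‖
      · have hv' : (n : ℝ) < ‖(shift τ q).2‖ := hv
        rw [if_pos hv, if_pos hv']
        exact enorm_sub_le.trans le_add_self
      · have hv' : ¬ ((n : ℝ) < ‖(shift τ q).2‖) := hv
        rw [if_neg hv, if_neg hv', add_zero, add_zero]
        push Not at hv
        have hx : ‖q.1‖ ≤ 2 := by
          rw [EuclideanSpace.norm_eq, Fin.sum_univ_three]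
          have h : ∀ i, ‖q.1 i‖ ^ 2 ≤ 1 := by
            intro i
            have h1 := (hq i).1
            have h2 := (hq i).2
            rw [Real.norm_eq_abs, sq_abs]
            nlinarith
          rw [Real.sqrt_le_left (by norm_num)]
          have := h 0
          have := h 1
          have := h 2
          linarith
        have m1 : q ∈ S n := ⟨by rw [mem_closedBall_zero_iff]; linarith,
          by rw [mem_closedBall_zero_iff]; exact hv⟩
        have m2 : shift τ q ∈ S n := by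
          refine ⟨?_, by rw [mem_closedBall_zero_iff]; exact hv⟩
          rw [mem_closedBall_zero_iff]
          have : ‖τ • q.2‖ ≤ 1 := by
            rw [norm_smul, Real.norm_eq_abs]
            exact (mul_le_mul_of_nonneg_left hv (abs_nonneg _)).trans hτ
          calc ‖(shift τ q).1‖ ≤ ‖q.1‖ + ‖τ • q.2‖ := norm_add_le _ _
            _ ≤ 3 := by linarith
        rw [hg]
        simp only
        rw [Set.indicator_of_mem m1, Set.indicator_of_mem m2]
    refine (lintegral_mono_ae h1).trans ?_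
    have hgm : Measurable (g n) := hG.indicator (hSm n)
    have hsm1 : Measurable (fun q => ‖g n (shift τ q) - g n q‖ₑ) :=
      ((hgm.comp (measurable_shift τ)).sub hgm).enorm
    have hsm2 : Measurable (fun q => if (n : ℝ) < ‖(shift τ q).2‖ then ‖G (shift τ q)‖ₑ else 0) :=
      (hmtail n).comp (measurable_shift τ)
    rw [lintegral_add_left hsm1, lintegral_add_left hsm2]
    refine add_le_add ?_ ?_
    · unfold muC
      exact lintegral_mono' Measure.restrict_le_self le_rfl
    · have hPt : PerX (fun q : R3 × R3 => if (n : ℝ) < ‖q.2‖ then ‖G q‖ₑ else 0) :=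
        (perX_snd (fun v => decide ((n : ℝ) < ‖v‖))).comp₂ hp
          (fun b a => if b = true then ‖a‖ₑ else 0) |> fun h => by simpa using h
      have := lintegral_shift (hmtail n) hPt τ
      rw [this, two_mul]
  -- conclusion
  rw [ENNReal.tendsto_nhds_zero]
  intro ε hε
  rcases eq_or_ne ε ⊤ with rfl | hεt
  · exact Filter.Eventually.of_forall fun _ => le_top
  have hε4 : 0 < ε / 4 := ENNReal.div_pos hε.ne' (by norm_num)
  obtain ⟨n, hn⟩ := ((ENNReal.tendsto_nhds_zero.1 htail0) (ε / 4) hε4).exists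
  have hcont := (ENNReal.tendsto_nhds_zero.1 (tendsto_shift_L1 (hgi n))) (ε / 4) hε4
  have hsmall : ∀ᶠ τ : ℝ in 𝓝 0, |τ| * (n : ℝ) ≤ 1 := by
    have hc : Tendsto (fun τ : ℝ => |τ| * (n : ℝ)) (𝓝 0) (𝓝 0) := by
      have : Continuous (fun τ : ℝ => |τ| * (n : ℝ)) := by fun_prop
      simpa using this.tendsto 0
    exact hc.eventually (eventually_le_nhds (by norm_num : (0 : ℝ) < 1))
  filter_upwards [hcont, hsmall] with τ h1 h2
  refine (hmain n τ h2).trans ?_
  calc _ ≤ ε / 4 + 2 * (ε / 4) := add_le_add h1 (mul_le_mul' le_rfl hn)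
    _ ≤ ε / 4 + 3 * (ε / 4) := by gcongr; norm_num
    _ = ε := by
        rw [← one_add_mul]
        have : (1 + 3 : ℝ≥0∞) = 4 := by norm_num
        rw [this]
        exact ENNReal.mul_div_cancel (by norm_num) (by norm_num)

end Crest.Agent.R68
end

-- ▼ part R68/EL2
section

/-!
R68 / EL2: strong L¹ continuity in time of a mild solution (helper485, Part E).
-/

set_option autoImplicit false
open MeasureTheory Filter Topology
open scoped ENNReal
open Crest.AnalysisR.VecCalc3 Crest.AnalysisR.PDE.Boltzmann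

namespace Crest.Agent.R68

namespace MildSol

variable {F : ℝ → R3 → R3 → ℝ} {F0 : R3 → R3 → ℝ} {R : ℝ}


/-- increments along characteristics -/
theorem enorm_increment_le (h : MildSol F F0 R) {s t : ℝ} (hs : 0 ≤ s) (ht : 0 ≤ t) :
    ∀ᵐ q ∂muC, ‖F s (shift s q).1 (shift s q).2 - F t (shift t q).1 (shift t q).2‖ₑ ≤
      ∫⁻ r in Set.uIoc s t, gl F r (shift r q) := by
  filter_upwards [ae_muC_of_ae (h.mild s hs), ae_muC_of_ae (h.mild t ht),
    h.ae_integrable (max s t)] with q h1 h2 hi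
  have e1 : F s (shift s q).1 (shift s q).2 = F s (q.1 + s • q.2) q.2 := rfl
  have e2 : F t (shift t q).1 (shift t q).2 = F t (q.1 + t • q.2) q.2 := rfl
  have i1 : IntervalIntegrable (fun r => Qr F r (shift r q)) volume 0 s := by
    rw [intervalIntegrable_iff_integrableOn_Ioc_of_le hs]
    exact hi.mono_set (Set.Ioc_subset_Ioc_right (le_max_left _ _))
  have i2 : IntervalIntegrable (fun r => Qr F r (shift r q)) volume 0 t := by
    rw [intervalIntegrable_iff_integrableOn_Ioc_of_le ht]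
    exact hi.mono_set (Set.Ioc_subset_Ioc_right (le_max_right _ _))
  have e3 : F0 q.1 q.2 + (∫ r in (0)..s, Qr F r (shift r q)) -
      (F0 q.1 q.2 + ∫ r in (0)..t, Qr F r (shift r q)) = ∫ r in t..s, Qr F r (shift r q) := by
    rw [← intervalIntegral.integral_interval_sub_left i1 i2]; ring
  rw [e1, e2, h1, h2, e3]
  rw [← ofReal_norm, intervalIntegral.norm_integral_eq_norm_integral_uIoc,
    ofReal_norm, Set.uIoc_comm]
  refine (enorm_integral_le_lintegral_enorm _).trans ?_
  exact lintegral_mono fun r => enorm_Qr_le F r _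


theorem total_lt_top (h : MildSol F F0 R) (T : ℝ) :
    ∫⁻ r in Set.Ioc 0 T, (∫⁻ q, gl F r q ∂muC) < ⊤ := by
  have h0 := h.gl_lt_top T 0
  have e : (fun p : ℝ × R3 × R3 => ENNReal.ofReal (wt 0 p.2.2) * gl F p.1 p.2) =
      fun p => gl F p.1 p.2 := by
    funext p
    rw [wt_zero, ENNReal.ofReal_one, one_mul]
  rw [e, lintegral_nuA h.meas_gl] at h0
  exact h0

theorem L1_continuous (h : MildSol F F0 R) (t : ℝ) (ht : 0 ≤ t) :
    Tendsto (fun s => ∫⁻ q in cell ×ˢ Set.univ, ‖F s q.1 q.2 - F t q.1 q.2‖ₑ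
      ∂(volume : Measure (R3 × R3))) (𝓝[Set.Ici 0] t) (𝓝 0) := by
  change Tendsto (fun s => ∫⁻ q, ‖F s q.1 q.2 - F t q.1 q.2‖ₑ ∂muC) (𝓝[Set.Ici 0] t) (𝓝 0)
  have hfin : ∫⁻ q, ‖F t q.1 q.2‖ₑ ∂muC < ⊤ := by
    have h1 := lt_of_le_of_lt (h.moment_le ht le_rfl 0) (h.momB_lt_top t 0)
    refine lt_of_le_of_lt (lintegral_mono fun q => ?_) h1
    rw [wt_zero, ENNReal.ofReal_one, one_mul, Real.enorm_eq_ofReal (h.nonneg _ _ _ ht)]
  have hB := tendsto_shift_muC (h.measurable_F t) (h.perX_F t) hfin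
  -- bound
  have hbound : ∀ s, 0 ≤ s → ∫⁻ q, ‖F s q.1 q.2 - F t q.1 q.2‖ₑ ∂muC ≤
      (∫⁻ r in Set.uIoc s t, (∫⁻ q, gl F r q ∂muC)) +
      ∫⁻ q, ‖F t (shift (s - t) q).1 (shift (s - t) q).2 - F t q.1 q.2‖ₑ ∂muC := by
    intro s hs
    have hm1 : Measurable (fun q : R3 × R3 => ‖F s q.1 q.2 - F t q.1 q.2‖ₑ) :=
      ((h.measurable_F s).sub (h.measurable_F t)).enorm
    have hp1 : PerX (fun q : R3 × R3 => ‖F s q.1 q.2 - F t q.1 q.2‖ₑ) :=
      (h.perX_F s).comp₂ (h.perX_F t) (fun a b => ‖a - b‖ₑ)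
    rw [← lintegral_shift hm1 hp1 s]
    have hstep : ∀ᵐ q ∂muC, ‖F s (shift s q).1 (shift s q).2 - F t (shift s q).1 (shift s q).2‖ₑ ≤
        (∫⁻ r in Set.uIoc s t, gl F r (shift r q)) +
        ‖F t (shift s q).1 (shift s q).2 - F t (shift t q).1 (shift t q).2‖ₑ := by
      filter_upwards [h.enorm_increment_le hs ht] with q hq
      have e : F s (shift s q).1 (shift s q).2 - F t (shift s q).1 (shift s q).2 =
          (F s (shift s q).1 (shift s q).2 - F t (shift t q).1 (shift t q).2) -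
          (F t (shift s q).1 (shift s q).2 - F t (shift t q).1 (shift t q).2) := by ring
      rw [e]
      exact enorm_sub_le.trans (add_le_add hq le_rfl)
    refine (lintegral_mono_ae hstep).trans ?_
    have hm2 : Measurable (fun q : R3 × R3 => ∫⁻ r in Set.uIoc s t, gl F r (shift r q)) :=
      Measurable.lintegral_prod_left' (f := fun p : ℝ × R3 × R3 => gl F p.1 (shift p.1 p.2))
        h.meas_gl_shift
    rw [lintegral_add_left hm2]
    refine add_le_add ?_ ?_
    · have hm3 : AEMeasurable (Function.uncurry fun (q : R3 × R3) (r : ℝ) => gl F r (shift r q))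
          (muC.prod (volume.restrict (Set.uIoc s t))) := by
        refine Measurable.aemeasurable ?_
        exact Measurable.comp (g := fun p : ℝ × R3 × R3 => gl F p.1 (shift p.1 p.2))
          (f := fun z : (R3 × R3) × ℝ => (z.2, z.1)) h.meas_gl_shift measurable_swap
      rw [lintegral_lintegral_swap hm3]
      refine lintegral_mono fun r => ?_
      have hm4 : Measurable (gl F r) :=
        Measurable.comp (g := fun p : ℝ × R3 × R3 => gl F p.1 p.2)
          (f := fun q : R3 × R3 => (r, q)) h.meas_gl measurable_prodMk_left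
      exact (lintegral_shift hm4 (h.perX_gl r) r).le
    · have hm5 : Measurable (fun q : R3 × R3 =>
          ‖F t (shift (s - t) q).1 (shift (s - t) q).2 - F t q.1 q.2‖ₑ) :=
        (((h.measurable_F t).comp (measurable_shift (s - t))).sub (h.measurable_F t)).enorm
      have hp5 : PerX (fun q : R3 × R3 =>
          ‖F t (shift (s - t) q).1 (shift (s - t) q).2 - F t q.1 q.2‖ₑ) :=
        ((h.perX_F t).shift (s - t)).comp₂ (h.perX_F t) (fun a b => ‖a - b‖ₑ)
      rw [← lintegral_shift hm5 hp5 t]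
      refine lintegral_mono fun q => ?_
      rw [shift_shift, sub_add_cancel]
  -- first term
  have hfirst : Tendsto (fun s => ∫⁻ r in Set.uIoc s t, (∫⁻ q, gl F r q ∂muC))
      (𝓝[Set.Ici 0] t) (𝓝 0) := by
    set μ : Measure ℝ := volume.restrict (Set.Ioc 0 (t + 1)) with hμ
    have h1 : Tendsto (fun s => ∫⁻ r in Set.uIoc s t, (∫⁻ q, gl F r q ∂muC) ∂μ)
        (𝓝[Set.Ici 0] t) (𝓝 0) := by
      refine tendsto_setLIntegral_zero (h.total_lt_top (t + 1)).ne ?_
      have hle : ∀ s, (μ ∘ fun s => Set.uIoc s t) s ≤ ENNReal.ofReal |s - t| := by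
        intro s
        simp only [Function.comp_apply]
        refine (Measure.restrict_apply_le _ _).trans ?_
        rw [Set.uIoc, Real.volume_Ioc, max_sub_min_eq_abs']
      refine tendsto_of_tendsto_of_tendsto_of_le_of_le tendsto_const_nhds ?_
        (fun _ => zero_le) hle
      have hc : Continuous (fun s : ℝ => ENNReal.ofReal |s - t|) :=
        ENNReal.continuous_ofReal.comp (by fun_prop)
      have := hc.tendsto t
      simp only [sub_self, abs_zero, ENNReal.ofReal_zero] at this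
      exact this.mono_left nhdsWithin_le_nhds
    refine h1.congr' ?_
    have hev : ∀ᶠ s in 𝓝[Set.Ici 0] t, s ∈ Set.Icc 0 (t + 1) := by
      have a1 : ∀ᶠ s in 𝓝[Set.Ici 0] t, s ∈ Set.Ici 0 := eventually_mem_nhdsWithin
      have a2 : ∀ᶠ s in 𝓝[Set.Ici 0] t, s ≤ t + 1 :=
        nhdsWithin_le_nhds (eventually_le_nhds (by linarith))
      filter_upwards [a1, a2] with s b1 b2
      exact ⟨b1, b2⟩
    filter_upwards [hev] with s hs
    rw [hμ, Measure.restrict_restrict measurableSet_uIoc]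
    congr 2
    rw [Set.inter_eq_left]
    intro r hr
    rw [Set.mem_uIoc] at hr
    rcases hr with hr | hr
    · exact ⟨lt_of_le_of_lt hs.1 hr.1, by linarith [hr.2]⟩
    · exact ⟨lt_of_le_of_lt ht hr.1, by linarith [hr.2, hs.2]⟩
  have hsecond : Tendsto (fun s => ∫⁻ q, ‖F t (shift (s - t) q).1 (shift (s - t) q).2 -
      F t q.1 q.2‖ₑ ∂muC) (𝓝[Set.Ici 0] t) (𝓝 0) := by
    have hc : Tendsto (fun s : ℝ => s - t) (𝓝[Set.Ici 0] t) (𝓝 0) := by
      have : Continuous (fun s : ℝ => s - t) := by fun_prop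
      have h2 := this.tendsto t
      rw [sub_self] at h2
      exact h2.mono_left nhdsWithin_le_nhds
    exact hB.comp hc
  have hsum := hfirst.add hsecond
  rw [add_zero] at hsum
  refine tendsto_of_tendsto_of_tendsto_of_le_of_le' tendsto_const_nhds hsum
    (Filter.Eventually.of_forall fun _ => zero_le) ?_
  filter_upwards [eventually_mem_nhdsWithin] with s hs
  exact hbound s hs

end MildSol

end Crest.Agent.R68
end

-- ▼ part R68/EFinal
section

/-!
R68 / EFinal: **Part E**. A nonnegative periodic mild solution with integrable weighted gain and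
loss (`MildSol`) is a global solution in the sense of the frozen definition.
-/

set_option autoImplicit false
open MeasureTheory
open scoped ENNReal
open Crest.AnalysisR.VecCalc3 Crest.AnalysisR.PDE.Boltzmann

namespace Crest.Agent.R68

theorem isGlobalSolution_of_mild {F : ℝ → R3 → R3 → ℝ} {F0 : R3 → R3 → ℝ} {R : ℝ}
    (h : MildSol F F0 R) : IsGlobalSolution F F0 :=
  ⟨h.meas, h.nonneg, h.per, h.init, h.isWeakSolution, h.hasLocalConservation,
    h.mass_energy_entropy, h.L1_continuous, h.gain_loss_integrable, h.momentum,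
    fun t ht => (h.energy_eq t ht).le, fun t ht => h.entropy_ineq ht⟩

end Crest.Agent.R68
end

-- ▼ part R68/ZFinal
section

/-!
Row 68, part Z: final assembly. Two different `MildG` solutions with the same datum give S0091.
-/

set_option autoImplicit false
open MeasureTheory Set
open scoped ENNReal
open Crest.AnalysisR.VecCalc3 Crest.AnalysisR.PDE.Boltzmann

namespace Crest.Agent.R68

/-- **Final assembly.** -/
theorem S0091_of_mildG {G G' : ℝ → P2 → R3 → ℝ} {G0 : P2 → R3 → ℝ} {R : ℝ}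
    (h : MildG G G0 R) (h' : MildG G' G0 R)
    (hne : 0 < volume {p : ℝ × P2 × R3 | 0 < p.1 ∧ G p.1 p.2.1 p.2.2 ≠ G' p.1 p.2.1 p.2.2}) :
    ∃ R : ℝ, ∃ F₀ : R3 → R3 → ℝ, IsAdmissibleDatum F₀ R ∧
      ∃ F₁ F₂ : ℝ → R3 → R3 → ℝ, IsGlobalSolution F₁ F₀ ∧ IsGlobalSolution F₂ F₀ ∧
        0 < volume {p : ℝ × R3 × R3 | p ∈ region ∧ F₁ p.1 p.2.1 p.2.2 ≠ F₂ p.1 p.2.1 p.2.2} := by
  have m1 := mildSol_of_mildG h
  have m2 := mildSol_of_mildG h'
  exact ⟨R, _, m1.datum, pull G, pull G', isGlobalSolution_of_mild m1, isGlobalSolution_of_mild m2,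
    pos_measure_pull h.meas h'.meas h.per h'.per hne⟩

end Crest.Agent.R68
end

-- ▼ part R68/Main1

/-!
# Row 68: final assembly, part 2 (helper195): `main0` derives S0091 from the outputs of the parts.
-/

set_option autoImplicit false
open MeasureTheory Set Filter
open scoped ENNReal Topology
open Crest.AnalysisR.VecCalc3 Crest.AnalysisR.PDE.Boltzmann

noncomputable section

namespace Crest.Agent.R68.Main0

open Crest.Agent.R68.A (en Meas3)
open Crest.Agent.R68.N

/-! ### Assembly -/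

theorem main0 {Y : ℝ} (hY : 0 < Y) (hL : LOut Y) (hA : AOut Y) (hC : CKOut Y) (hN : NOut)
    (hW : WOut Y) (hD : DOut Y) : Concl := by
  obtain ⟨K0, hK0⟩ := hL
  obtain ⟨KA, hA⟩ := hA
  obtain ⟨KC, hC⟩ := hC
  obtain ⟨KW, hW⟩ := hW
  obtain ⟨KD, hD⟩ := hD
  obtain ⟨K, hK0', hKA, hKC, hKW, hKD, hK1⟩ : ∃ K : ℝ, K0 ≤ K ∧ KA ≤ K ∧ KC ≤ K ∧ KW ≤ K ∧
      KD ≤ K ∧ 1 ≤ K :=
    ⟨max K0 (max KA (max KC (max KW (max KD 1)))), by simp⟩
  obtain ⟨ey, hey, hey1, a, b, ha, hb, hba, hL⟩ := hK0 K hK0'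
  obtain ⟨p, hLp, hAp, hCp, hWp, hDp, hp3⟩ := (((hL.and ((hA K hK1 hKA ey b hey hey1 hb.le).and
    ((hC K hK1 hKC ey b hey hey1 hb.le).and ((hW K hK1 hKW ey hey hey1).and
      ((hD K hK1 hKD ey hey hey1).and (eventually_ge_atTop 3))))))).exists)
  obtain ⟨R, ε, hε, hWp⟩ := hWp
  have hε2 : 0 < ε / 2 := by positivity
  obtain ⟨j0, hL, hA, hC, hW, hD, hpos, hT1, hrh1, hOk⟩ := (hLp.and ((hAp R (ε / 2) hε2).and
    (hCp.and (hWp.and (hDp.and (ev_pos.and ((ev_T1_le one_pos).and
      ((ev_rh_le one_pos).and (ev_Ok K Y ey p (zero_le_one.trans hK1) hY hey hp3))))))))).exists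
  obtain ⟨hdl, hrh, hT⟩ := hpos
  obtain ⟨Hs, CL, hLi⟩ := hL
  obtain ⟨H1, C1, hH1, hC1, hB1, hcl⟩ := hA
  obtain ⟨V, Mc, Wm, CC, CK, hV, hCi, hKi, hKi'⟩ := hC
  set P := par K Y ey p j0 with hP
  have hsq : √(T1j j0) / 100 < 1 / 50 := by
    have : √(T1j j0) ≤ 1 := by
      rw [Real.sqrt_le_one]
      exact hT1
    linarith
  have hε0 : 0 < ENNReal.ofReal (ε / 2) := ENNReal.ofReal_pos.2 hε2
  obtain ⟨H2, hH2, hdd, hne⟩ := hN (P := P) (T := T1j j0) (V := V) (Cf := coldR P)
    (Sf := coldSpill P) (q := b) (β := b) (g0 := 1 / 10) (g1 := 1 / 25) (g2 := 1 / 25)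
    (g1' := 1 / 50) (g2' := 1 / 50) (a := a) (b := b) hOk hT hT1 hV hOk.c0.le
    (by norm_num) hsq (by norm_num) (by norm_num) (by norm_num) (by norm_num) hb hba le_rfl le_rfl
    ha hCi hKi hKi' (measurable_H0f j0 R) (perG_H0f j0 R) (H0f_zero hrh R) hH1 hC1 hB1 hLi hε0
  -- bounds
  have hpow : ∀ t ∈ Ioc 0 (T1j j0), ENNReal.ofReal (t ^ (min b (a - 2))) ≤ 1 := by
    intro t ht
    rw [← ENNReal.ofReal_one]
    refine ENNReal.ofReal_le_ofReal (Real.rpow_le_one ht.1.le (ht.2.trans hT1) ?_)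
    exact le_min hb.le (by linarith)
  have hdd' : ∀ t ∈ Ioc 0 (T1j j0), ∀ x v, dd (H1 t x v) (H2 t x v) ≤
      ENNReal.ofReal (ε / 2) * Zg P (1 / 50) t x v := by
    intro t ht x v
    refine (hdd t ht x v).trans ?_
    calc ENNReal.ofReal (ε / 2) * ENNReal.ofReal (t ^ (min b (a - 2))) * EE P (1 / 50) (1 / 50) t x v
        ≤ ENNReal.ofReal (ε / 2) * 1 * Zg P (1 / 50) t x v :=
          mul_le_mul' (mul_le_mul_right (hpow t ht) _) (EE_le_Zg P (by norm_num) t x v)
      _ = _ := by rw [mul_one]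
  have htx : ∀ t ∈ Ioc 0 (T1j j0), ∀ x : P2, tx b t x ≤ ENNReal.ofReal (2 ^ b) := by
    intro t ht x
    unfold tx
    refine ENNReal.ofReal_le_ofReal (Real.rpow_le_rpow ?_ ?_ hb.le)
    · have := distG_nonneg x
      have := ht.1
      linarith
    · have := distG_le_one x
      have := ht.2.trans hT1
      linarith
  set A : ℝ≥0∞ := C1 * ENNReal.ofReal (2 ^ b) + ENNReal.ofReal (ε / 2) with hAdef
  have hAne : A ≠ ⊤ := by
    rw [hAdef]
    exact ENNReal.add_ne_top.2 ⟨ENNReal.mul_ne_top hC1 ENNReal.ofReal_ne_top, ENNReal.ofReal_ne_top⟩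
  have hbd1' : ∀ t ∈ Ioc 0 (T1j j0), ∀ x v,
      H1 t x v ≤ C1 * ENNReal.ofReal (2 ^ b) * Zg P (1 / 50) t x v := by
    intro t ht x v
    refine (hB1 t ht x v).trans ?_
    exact mul_le_mul' (mul_le_mul_right (htx t ht x) _) (Zg_mono P (by norm_num) t x v)
  have hbd1 : ∀ t ∈ Ioc 0 (T1j j0), ∀ x v, H1 t x v ≤ A * Zg P (1 / 50) t x v := by
    intro t ht x v
    refine (hbd1' t ht x v).trans ?_
    rw [hAdef, add_mul]
    exact le_self_add
  have hbd2 : ∀ t ∈ Ioc 0 (T1j j0), ∀ x v, H2 t x v ≤ A * Zg P (1 / 50) t x v := by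
    intro t ht x v
    refine (le_add_dd (H2 t x v) (H1 t x v)).trans ?_
    rw [dd_comm, hAdef, add_mul]
    exact add_le_add (hbd1' t ht x v) (hdd' t ht x v)
  have hTm : T1j j0 ∈ Ioc 0 (T1j j0) := ⟨hT, le_rfl⟩
  have hcl1' : ∀ x v, dd (H1 (T1j j0) x v) (H0f j0 R (x - T1j j0 • bar v) v) ≤
      ENNReal.ofReal (ε / 2) * Zg P (1 / 50) (T1j j0) x v := fun x v =>
    (hcl _ hTm x v).trans (mul_le_mul_right (Zg_mono P (by norm_num) _ x v) _)
  have hcl1 : ∀ x v, dd (H1 (T1j j0) x v) (H0f j0 R (x - T1j j0 • bar v) v) ≤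
      ENNReal.ofReal ε * Zg P (1 / 50) (T1j j0) x v := fun x v =>
    (hcl1' x v).trans (mul_le_mul_left (ENNReal.ofReal_le_ofReal (by linarith)) _)
  have hcl2 : ∀ x v, dd (H2 (T1j j0) x v) (H0f j0 R (x - T1j j0 • bar v) v) ≤
      ENNReal.ofReal ε * Zg P (1 / 50) (T1j j0) x v := by
    intro x v
    refine (dd_triangle _ (H1 (T1j j0) x v) _).trans ?_
    have e1 : ENNReal.ofReal ε = ENNReal.ofReal (ε / 2) + ENNReal.ofReal (ε / 2) := by
      rw [← ENNReal.ofReal_add hε2.le hε2.le, add_halves]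
    rw [e1, add_mul]
    refine add_le_add ?_ (hcl1' x v)
    rw [dd_comm]
    exact hdd' _ hTm x v
  obtain ⟨G1, hG1, hE1⟩ := hW H1 A hH1 hAne hbd1 hcl1
  obtain ⟨G2, hG2, hE2⟩ := hW H2 A hH2 hAne hbd2 hcl2
  refine S0091_of_mildG hG1 hG2 ?_
  rw [pos_iff_ne_zero]
  intro h0
  apply hne
  refine hD R H1 H2 A hH1 hH2 hAne hbd1 hbd2 ?_
  have h1 : ∀ᵐ z : ℝ × P2 × R3, ¬ (0 < z.1 ∧ G1 z.1 z.2.1 z.2.2 ≠ G2 z.1 z.2.1 z.2.2) := by
    rw [ae_iff]
    simpa using h0
  filter_upwards [h1, hE1, hE2] with z hz h2 h3 hzT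
  rw [← h2 hzT, ← h3 hzT]
  have h4 : G1 z.1 z.2.1 z.2.2 = G2 z.1 z.2.1 z.2.2 := by
    by_contra h5
    exact hz ⟨hzT.1, h5⟩
  rw [h4]

end Crest.Agent.R68.Main0
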