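import Crest.Agent.R68.NDamp1
import Crest.Agent.R68.NDefs
import Crest.Agent.R68.NAlg

/-!
# Row 68, PART N (helper559): damped Duhamel operators along flights (`[0,∞]`-valued)

`acc n s t x v` = optical depth of the rate `n` between the times `s < t` on the flight ending at
`(t,x,v)`; `Dam n q` = Duhamel integral of `q` damped by the rate `n` (both in `NDefs`);
`Dat n h0` = damped datum.
-/

set_option autoImplicit false
open MeasureTheory Set Filter
open scoped ENNReal Topology
open Crest.AnalysisR.VecCalc3 Crest.AnalysisR.PDE.Boltzmann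

noncomputable section

namespace Crest.Agent.R68.ND

open Crest.Agent.R68.N (Fld dd ddF acc Dam ev EE dd_comm dd_self dd_le_iff dd_le_add dd_add_add dd_mul_left
  dd_lintegral measurable_acc measurable_Dam_integrand)

open Crest.Agent.R68.A (en Meas3 Acc en_top en_zero en_antitone en_le_one en_add continuous_en
  measurable_en en_ne_top one_le_en_add measurable_bar continuous_bar measurable_lintegral_Ioo
  measurable_flight lintegral_triangle flight_pos flight_pos0 Duh_add Duh_const_mul Duh_mono_on)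

/-! ### optical depth and damped Duhamel integral -/

/-- damped datum -/
def Dat (n : ℝ → P2 → R3 → ℝ≥0∞) (h0 : P2 → R3 → ℝ≥0∞) (t : ℝ) (x : P2) (v : R3) : ℝ≥0∞ :=
  en (acc n 0 t x v) * h0 (x - t • bar v) v



/-- optical depth of an earlier point of the flight -/
theorem acc_flight (n : ℝ → P2 → R3 → ℝ≥0∞) (r s t : ℝ) (x : P2) (v : R3) :
    acc n r s (x - (t - s) • bar v) v = O1 (fun r => n r (x - (t - r) • bar v) v) r s := by
  unfold acc O1
  refine lintegral_congr fun a => ?_
  rw [flight_pos]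



theorem acc_mono {n n' : ℝ → P2 → R3 → ℝ≥0∞} {s t : ℝ} {x : P2} {v : R3}
    (h : ∀ r ∈ Ioo s t, n r (x - (t - r) • bar v) v ≤ n' r (x - (t - r) • bar v) v) :
    acc n s t x v ≤ acc n' s t x v :=
  setLIntegral_mono_ae' measurableSet_Ioo (Eventually.of_forall h)












theorem Dam_le_Duh (n q : ℝ → P2 → R3 → ℝ≥0∞) (t : ℝ) (x : P2) (v : R3) :
    Dam n q t x v ≤ Duh q t x v := by
  refine lintegral_mono fun s => ?_
  calc en (acc n s t x v) * q s (x - (t - s) • bar v) v
      ≤ 1 * q s (x - (t - s) • bar v) v := mul_le_mul' (en_le_one _) le_rfl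
    _ = _ := one_mul _



/-! ### periodicity -/




/-! ### flight identities -/

/-- (I1) change of the damping rate `n ↦ n + μ` -/
theorem change_rate_flight {n μ q H : ℝ → P2 → R3 → ℝ≥0∞} {h0 : P2 → R3 → ℝ≥0∞} (hn : Meas3 n)
    (hμ : Meas3 μ) (hq : Meas3 q) {t : ℝ} {x : P2} {v : R3} (ht : 0 < t)
    (hH : ∀ s ∈ Ioc 0 t, H s (x - (t - s) • bar v) v =
      Dat n h0 s (x - (t - s) • bar v) v + Dam n q s (x - (t - s) • bar v) v)
    (hfin : ∀ r, 0 < r → r < t → acc μ r t x v ≠ ⊤) :
    H t x v = Dat (fun s y z => n s y z + μ s y z) h0 t x v +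
      Dam (fun s y z => n s y z + μ s y z) (fun s y z => q s y z + μ s y z * H s y z) t x v := by
  set n1 : ℝ → ℝ≥0∞ := fun r => n r (x - (t - r) • bar v) v with hn1
  set μ1 : ℝ → ℝ≥0∞ := fun r => μ r (x - (t - r) • bar v) v with hμ1
  set q1 : ℝ → ℝ≥0∞ := fun r => q r (x - (t - r) • bar v) v with hq1
  set y1 : ℝ → ℝ≥0∞ := fun r => H r (x - (t - r) • bar v) v with hy1
  have hform : ∀ s ∈ Ioc 0 t, y1 s = en (O1 n1 0 s) * h0 (x - t • bar v) v +
      ∫⁻ r in Ioo 0 s, en (O1 n1 r s) * q1 r := by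
    intro s hs
    rw [hy1]
    simp only
    rw [hH s hs]
    unfold Dat Dam
    rw [acc_flight, flight_pos0]
    congr 1
    refine lintegral_congr fun r => ?_
    rw [acc_flight, flight_pos]
  have key := change_rate (measurable_flight hn t x v) (measurable_flight hμ t x v)
    (measurable_flight hq t x v) ht.le (h0 (x - t • bar v) v) hform hfin
  have h2 : H t x v = y1 t := by simp [hy1]
  rw [h2, hform t ⟨ht, le_rfl⟩, key]
  rfl

/-- (I1) for rates `n ≤ n'` -/
theorem change_rate_flight' {n n' q H : ℝ → P2 → R3 → ℝ≥0∞} {h0 : P2 → R3 → ℝ≥0∞}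
    (hn : Meas3 n) (hn' : Meas3 n') (hq : Meas3 q) {t : ℝ} {x : P2} {v : R3} (ht : 0 < t)
    (hle : ∀ s ∈ Ioo 0 t, n s (x - (t - s) • bar v) v ≤ n' s (x - (t - s) • bar v) v)
    (hH : ∀ s ∈ Ioc 0 t, H s (x - (t - s) • bar v) v =
      Dat n h0 s (x - (t - s) • bar v) v + Dam n q s (x - (t - s) • bar v) v)
    (hfin : ∀ r, 0 < r → r < t → acc n' r t x v ≠ ⊤) :
    H t x v = Dat n' h0 t x v +
      Dam n' (fun s y z => q s y z + (n' s y z - n s y z) * H s y z) t x v := by
  have hμ : Meas3 (fun s y z => n' s y z - n s y z) := Measurable.sub hn' hn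
  rw [change_rate_flight hn hμ hq ht hH (fun r h1 h2 => ne_top_of_le_ne_top (hfin r h1 h2)
    (acc_mono fun s hs => tsub_le_self))]
  have hacc : ∀ s ∈ Ico 0 t, acc (fun s y z => n s y z + (n' s y z - n s y z)) s t x v =
      acc n' s t x v := by
    intro s hs
    unfold acc
    refine setLIntegral_congr_fun measurableSet_Ioo fun r hr => ?_
    exact add_tsub_cancel_of_le (hle r ⟨lt_of_le_of_lt hs.1 hr.1, hr.2⟩)
  unfold Dat Dam
  rw [hacc 0 ⟨le_rfl, ht⟩]
  congr 1
  refine setLIntegral_congr_fun measurableSet_Ioo fun s hs => ?_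
  simp only
  rw [hacc s ⟨hs.1.le, hs.2⟩]



end Crest.Agent.R68.ND
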