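import Crest.Agent.R68.A2
import Crest.Agent.R68.EChain

/-!
# Row 68, PART N (helper559): one-dimensional Duhamel identities with damping in `[0,∞]`
-/

set_option autoImplicit false
open MeasureTheory Set Filter
open scoped ENNReal Topology
open Crest.AnalysisR.VecCalc3 Crest.AnalysisR.PDE.Boltzmann

noncomputable section

namespace Crest.Agent.R68.ND

open Crest.Agent.R68.A

/-- accumulated rate -/
def O1 (m : ℝ → ℝ≥0∞) (s t : ℝ) : ℝ≥0∞ := ∫⁻ r in Ioo s t, m r


theorem O1_split (m : ℝ → ℝ≥0∞) {s r t : ℝ} (h1 : s ≤ r) (h2 : r ≤ t) :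
    O1 m s t = O1 m s r + O1 m r t := by
  unfold O1
  rcases h1.eq_or_lt with rfl | h1
  · simp
  rcases h2.eq_or_lt with rfl | h2
  · simp
  have hs : Ioo s t = Ioo s r ∪ Ico r t := by
    rw [Ioo_union_Ico_eq_Ioo h1 h2.le]
  rw [hs, lintegral_union measurableSet_Ico]
  · congr 1
    exact setLIntegral_congr Ioo_ae_eq_Ico.symm
  · rw [Set.disjoint_left]
    intro x hx hx'
    exact absurd hx.2 (not_lt.2 hx'.1)

theorem O1_mono_left (m : ℝ → ℝ≥0∞) {s r t : ℝ} (h1 : s ≤ r) : O1 m r t ≤ O1 m s t := by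
  unfold O1
  exact lintegral_mono_set (Ioo_subset_Ioo_left h1)

theorem O1_mono_right (m : ℝ → ℝ≥0∞) {s r t : ℝ} (h1 : r ≤ t) : O1 m s r ≤ O1 m s t := by
  unfold O1
  exact lintegral_mono_set (Ioo_subset_Ioo_right h1)

theorem O1_add {m m' : ℝ → ℝ≥0∞} (hm : Measurable m) (s t : ℝ) :
    O1 (fun r => m r + m' r) s t = O1 m s t + O1 m' s t := by
  unfold O1
  rw [lintegral_add_left hm]

theorem O1_mono {m m' : ℝ → ℝ≥0∞} {s t : ℝ} (h : ∀ r ∈ Ioo s t, m r ≤ m' r) :
    O1 m s t ≤ O1 m' s t := by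
  unfold O1
  exact setLIntegral_mono_ae' measurableSet_Ioo (Eventually.of_forall h)

theorem measurable_O1_left {m : ℝ → ℝ≥0∞} (hm : Measurable m) (t : ℝ) :
    Measurable (fun s => O1 m s t) := by
  unfold O1
  exact measurable_lintegral_Ioo (α := ℝ) (q := fun z : ℝ × ℝ => m z.2) (by fun_prop)
    measurable_id measurable_const

theorem measurable_O1_right {m : ℝ → ℝ≥0∞} (hm : Measurable m) (s : ℝ) :
    Measurable (fun t => O1 m s t) := by
  unfold O1
  exact measurable_lintegral_Ioo (α := ℝ) (q := fun z : ℝ × ℝ => m z.2) (by fun_prop)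
    measurable_const measurable_id

/-- `e^{a} e^{-(a+b)} = e^{-b}` for finite `a` -/
theorem exp_mul_en_add {a : ℝ≥0∞} (ha : a ≠ ⊤) (b : ℝ≥0∞) :
    ENNReal.ofReal (Real.exp a.toReal) * en (a + b) = en b := by
  have h1 : en a = ENNReal.ofReal (Real.exp (-a.toReal)) := by
    conv_lhs => rw [← ENNReal.ofReal_toReal ha]
    rw [en_coe_ofReal ENNReal.toReal_nonneg]
  rw [en_add, ← mul_assoc, h1, ← ENNReal.ofReal_mul (Real.exp_pos _).le, ← Real.exp_add]
  simp

theorem en_eq_ofReal {a : ℝ≥0∞} (ha : a ≠ ⊤) : en a = ENNReal.ofReal (Real.exp (-a.toReal)) := by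
  conv_lhs => rw [← ENNReal.ofReal_toReal ha]
  rw [en_coe_ofReal ENNReal.toReal_nonneg]

/-- the fundamental theorem with finite total rate, backward form -/
theorem ftc_back_fin {m : ℝ → ℝ≥0∞} (hm : Measurable m) {t : ℝ} (ht : 0 ≤ t)
    (hfin : O1 m 0 t ≠ ⊤) :
    (∫⁻ s in Ioo 0 t, m s * en (O1 m s t)) + en (O1 m 0 t) = 1 := by
  have hae : ∀ᵐ s ∂(volume.restrict (Ioo 0 t)), m s < ⊤ := ae_lt_top hm hfin
  have hint : IntegrableOn (fun s => (m s).toReal) (Ioo 0 t) :=
    integrable_toReal_of_lintegral_ne_top hm.aemeasurable hfin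
  have hy : ∀ s ∈ Icc 0 t, (∫ r in Ioo 0 s, (m r).toReal) = (O1 m 0 s).toReal := by
    intro s hs
    unfold O1
    rw [integral_toReal hm.aemeasurable]
    exact ae_restrict_of_ae_restrict_of_subset (Ioo_subset_Ioo_right hs.2) hae
  have key := Crest.Agent.R68E.chain_rule ht hint 0 (φ := Real.exp) (φ' := Real.exp) (c := -1)
    (fun z _ => Real.hasDerivAt_exp z) Real.continuous_exp.continuousOn (by
      intro s hs
      rw [hy s hs]
      have : 0 ≤ (O1 m 0 s).toReal := ENNReal.toReal_nonneg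
      linarith)
  obtain ⟨k1, k2⟩ := key
  simp only [zero_add, Real.exp_zero] at k1 k2
  have hnn : 0 ≤ᵐ[volume.restrict (Ioo 0 t)] fun s =>
      Real.exp (∫ r in Ioo 0 s, (m r).toReal) * (m s).toReal := by
    refine Eventually.of_forall fun s => ?_
    have := Real.exp_pos (∫ r in Ioo 0 s, (m r).toReal)
    have h2 : 0 ≤ (m s).toReal := ENNReal.toReal_nonneg
    simp only [Pi.zero_apply]
    positivity
  have h3 := ofReal_integral_eq_lintegral_ofReal k1 hnn
  rw [← k2, hy t ⟨ht, le_rfl⟩] at h3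
  have h4 : (∫⁻ s in Ioo 0 t, ENNReal.ofReal (Real.exp (∫ r in Ioo 0 s, (m r).toReal) * (m s).toReal))
      = ∫⁻ s in Ioo 0 t, ENNReal.ofReal (Real.exp (O1 m 0 s).toReal) * m s := by
    refine lintegral_congr_ae ?_
    filter_upwards [hae, ae_restrict_mem measurableSet_Ioo] with s hs1 hs2
    rw [hy s ⟨hs2.1.le, hs2.2.le⟩, ENNReal.ofReal_mul (Real.exp_pos _).le,
      ENNReal.ofReal_toReal hs1.ne]
  rw [h4] at h3
  have h5 : ∀ s ∈ Ioo 0 t, m s * en (O1 m s t) =
      en (O1 m 0 t) * (ENNReal.ofReal (Real.exp (O1 m 0 s).toReal) * m s) := by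
    intro s hs
    have h6 : O1 m 0 t = O1 m 0 s + O1 m s t := O1_split m hs.1.le hs.2.le
    have h7 : O1 m 0 s ≠ ⊤ := by
      intro h
      rw [h6, h] at hfin
      simp at hfin
    rw [h6, ← exp_mul_en_add h7 (O1 m s t)]
    ring
  rw [setLIntegral_congr_fun measurableSet_Ioo h5, lintegral_const_mul' _ _ (en_ne_top _), ← h3,
    en_eq_ofReal hfin, ← ENNReal.ofReal_mul (Real.exp_pos _).le, ← ENNReal.ofReal_add,
    ]
  · rw [mul_sub, ← Real.exp_add]
    simp
  · have := Real.exp_pos (-(O1 m 0 t).toReal)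
    have h8 : 1 ≤ Real.exp (O1 m 0 t).toReal := Real.one_le_exp ENNReal.toReal_nonneg
    have : 0 ≤ Real.exp (O1 m 0 t).toReal - 1 := by linarith
    positivity
  · positivity

/-- the same, forward form -/
theorem ftc_forw_fin {m : ℝ → ℝ≥0∞} (hm : Measurable m) {t : ℝ} (ht : 0 ≤ t)
    (hfin : O1 m 0 t ≠ ⊤) :
    (∫⁻ s in Ioo 0 t, m s * en (O1 m 0 s)) + en (O1 m 0 t) = 1 := by
  have hae : ∀ᵐ s ∂(volume.restrict (Ioo 0 t)), m s < ⊤ := ae_lt_top hm hfin
  have hint : IntegrableOn (fun s => (m s).toReal) (Ioo 0 t) :=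
    integrable_toReal_of_lintegral_ne_top hm.aemeasurable hfin
  have hy : ∀ s ∈ Icc 0 t, (∫ r in Ioo 0 s, (m r).toReal) = (O1 m 0 s).toReal := by
    intro s hs
    unfold O1
    rw [integral_toReal hm.aemeasurable]
    exact ae_restrict_of_ae_restrict_of_subset (Ioo_subset_Ioo_right hs.2) hae
  have key := Crest.Agent.R68E.chain_rule ht hint 0 (φ := fun z => - Real.exp (-z))
    (φ' := fun z => Real.exp (-z)) (c := -1)
    (fun z _ => by
      have h : HasDerivAt (fun z : ℝ => -Real.exp (-z)) (-(Real.exp (-z) * (-1))) z :=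
        (((hasDerivAt_id z).neg).exp).neg
      rw [mul_neg_one, neg_neg] at h
      exact h) (by fun_prop) (by
      intro s hs
      rw [hy s hs]
      have : 0 ≤ (O1 m 0 s).toReal := ENNReal.toReal_nonneg
      linarith)
  obtain ⟨k1, k2⟩ := key
  simp only [zero_add, neg_zero, Real.exp_zero] at k1 k2
  have hnn : 0 ≤ᵐ[volume.restrict (Ioo 0 t)] fun s =>
      Real.exp (-(∫ r in Ioo 0 s, (m r).toReal)) * (m s).toReal := by
    refine Eventually.of_forall fun s => ?_
    have := Real.exp_pos (-(∫ r in Ioo 0 s, (m r).toReal))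
    have h2 : 0 ≤ (m s).toReal := ENNReal.toReal_nonneg
    simp only [Pi.zero_apply]
    positivity
  have h3 := ofReal_integral_eq_lintegral_ofReal k1 hnn
  rw [← k2, hy t ⟨ht, le_rfl⟩] at h3
  have h4 : (∫⁻ s in Ioo 0 t,
      ENNReal.ofReal (Real.exp (-(∫ r in Ioo 0 s, (m r).toReal)) * (m s).toReal))
      = ∫⁻ s in Ioo 0 t, m s * en (O1 m 0 s) := by
    refine lintegral_congr_ae ?_
    filter_upwards [hae, ae_restrict_mem measurableSet_Ioo] with s hs1 hs2
    have h7 : O1 m 0 s ≠ ⊤ := by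
      intro h
      apply hfin
      rw [O1_split m hs2.1.le hs2.2.le, h]
      simp
    rw [hy s ⟨hs2.1.le, hs2.2.le⟩, ENNReal.ofReal_mul (Real.exp_pos _).le,
      ENNReal.ofReal_toReal hs1.ne, en_eq_ofReal h7, mul_comm]
  rw [h4] at h3
  rw [← h3, en_eq_ofReal hfin, ← ENNReal.ofReal_add]
  · simp
  · have h8 : Real.exp (-(O1 m 0 t).toReal) ≤ 1 :=
      Real.exp_le_one_iff.2 (by simp)
    linarith
  · positivity

/-- changing the left end point: replace `m` by `m` on `(a, ∞)` -/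
theorem O1_indicator (m : ℝ → ℝ≥0∞) {a s t : ℝ} (has : a ≤ s) :
    O1 ((Ioi a).indicator m) s t = O1 m s t := by
  unfold O1
  refine setLIntegral_congr_fun measurableSet_Ioo fun r hr => ?_
  have : r ∈ Ioi a := lt_of_le_of_lt has hr.1
  simp [indicator_of_mem this]

theorem O1_indicator_zero (m : ℝ → ℝ≥0∞) {a s : ℝ} (h0 : 0 ≤ a) (has : a ≤ s) :
    O1 ((Ioi a).indicator m) 0 s = O1 m a s := by
  rw [O1_split _ h0 has, O1_indicator m le_rfl]
  have : O1 ((Ioi a).indicator m) 0 a = 0 := by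
    unfold O1
    rw [setLIntegral_congr_fun (g := fun _ => 0) measurableSet_Ioo]
    · simp
    · intro r hr
      have : r ∉ Ioi a := fun h => absurd hr.2 (not_lt.2 (le_of_lt h))
      simp [indicator_of_notMem this]
  rw [this, zero_add]

theorem lintegral_Ioo_split {f : ℝ → ℝ≥0∞} {a t : ℝ} (h0 : 0 ≤ a) (hf : ∀ s ∈ Ioc 0 a, f s = 0)
    (hat : a ≤ t) : (∫⁻ s in Ioo 0 t, f s) = ∫⁻ s in Ioo a t, f s := by
  have h1 := O1_split f h0 hat
  unfold O1 at h1
  rw [h1]
  have : (∫⁻ s in Ioo 0 a, f s) = 0 := by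
    rw [setLIntegral_congr_fun (g := fun _ => 0) measurableSet_Ioo]
    · simp
    · intro r hr
      exact hf r ⟨hr.1, hr.2.le⟩
  rw [this, zero_add]

/-- backward form with left end `a ≥ 0` -/
theorem ftc_back_fin' {m : ℝ → ℝ≥0∞} (hm : Measurable m) {a t : ℝ} (h0 : 0 ≤ a) (hat : a ≤ t)
    (hfin : O1 m a t ≠ ⊤) :
    (∫⁻ s in Ioo a t, m s * en (O1 m s t)) + en (O1 m a t) = 1 := by
  have h := ftc_back_fin (m := (Ioi a).indicator m) (hm.indicator measurableSet_Ioi)
    (h0.trans hat) (by rwa [O1_indicator_zero m h0 hat])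
  rw [O1_indicator_zero m h0 hat] at h
  rw [lintegral_Ioo_split (a := a) h0 _ hat] at h
  · rw [← h]
    congr 1
    refine setLIntegral_congr_fun measurableSet_Ioo fun s hs => ?_
    have : s ∈ Ioi a := hs.1
    simp only [indicator_of_mem this, O1_indicator m hs.1.le]
  · intro s hs
    have : s ∉ Ioi a := fun h => absurd hs.2 (not_le.2 h)
    simp [indicator_of_notMem this]

theorem ftc_forw_fin' {m : ℝ → ℝ≥0∞} (hm : Measurable m) {a t : ℝ} (h0 : 0 ≤ a) (hat : a ≤ t)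
    (hfin : O1 m a t ≠ ⊤) :
    (∫⁻ s in Ioo a t, m s * en (O1 m a s)) + en (O1 m a t) = 1 := by
  have h := ftc_forw_fin (m := (Ioi a).indicator m) (hm.indicator measurableSet_Ioi)
    (h0.trans hat) (by rwa [O1_indicator_zero m h0 hat])
  rw [O1_indicator_zero m h0 hat] at h
  rw [lintegral_Ioo_split (a := a) h0 _ hat] at h
  · rw [← h]
    congr 1
    refine setLIntegral_congr_fun measurableSet_Ioo fun s hs => ?_
    have : s ∈ Ioi a := hs.1
    simp only [indicator_of_mem this, O1_indicator_zero m h0 hs.1.le]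
  · intro s hs
    have : s ∉ Ioi a := fun h => absurd hs.2 (not_le.2 h)
    simp [indicator_of_notMem this]

/-- monotone limit of integrals over `(r_n, t)`, `r_n ↓ a` -/
theorem tendsto_lintegral_Ioo (f : ℝ → ℝ≥0∞) {a t : ℝ} (hat : a < t) :
    Tendsto (fun n : ℕ => ∫⁻ s in Ioo (a + (t - a) / (n + 1)) t, f s) atTop
      (𝓝 (∫⁻ s in Ioo a t, f s)) := by
  have hU : Ioo a t = ⋃ n : ℕ, Ioo (a + (t - a) / (n + 1)) t := by
    ext s
    simp only [mem_iUnion, mem_Ioo]
    constructor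
    · rintro ⟨h1, h2⟩
      have hpos : 0 < s - a := sub_pos.2 h1
      obtain ⟨n, hn⟩ := exists_nat_gt ((t - a) / (s - a))
      refine ⟨n, ?_, h2⟩
      have h3 : (t - a) / ((n : ℝ) + 1) < s - a := by
        rw [div_lt_iff₀ (by positivity)]
        rw [div_lt_iff₀ hpos] at hn
        nlinarith
      linarith
    · rintro ⟨n, h1, h2⟩
      refine ⟨?_, h2⟩
      have : 0 < (t - a) / ((n : ℝ) + 1) := div_pos (sub_pos.2 hat) (by positivity)
      linarith
  have hmono : Monotone fun n : ℕ => Ioo (a + (t - a) / ((n : ℝ) + 1)) t := by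
    intro n m hnm
    refine Ioo_subset_Ioo_left ?_
    have h1 : (n : ℝ) + 1 ≤ m + 1 := by exact_mod_cast Nat.succ_le_succ hnm
    have h2 : (t - a) / ((m : ℝ) + 1) ≤ (t - a) / (n + 1) :=
      div_le_div_of_nonneg_left (sub_pos.2 hat).le (by positivity) h1
    linarith
  have h := tendsto_measure_iUnion_atTop (μ := volume.withDensity f) hmono
  rw [← hU] at h
  have h2 : ∀ s : ℝ, ∀ t' : ℝ, (volume.withDensity f) (Ioo s t') = ∫⁻ r in Ioo s t', f r := by
    intro s t'
    rw [withDensity_apply _ measurableSet_Ioo]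
  simpa [Function.comp_def, h2] using h

/-- backward form, only locally finite rate -/
theorem ftc_back {m : ℝ → ℝ≥0∞} (hm : Measurable m) {a t : ℝ} (h0 : 0 ≤ a) (hat : a ≤ t)
    (hfin : ∀ r, a < r → r < t → O1 m r t ≠ ⊤) :
    (∫⁻ s in Ioo a t, m s * en (O1 m s t)) + en (O1 m a t) = 1 := by
  rcases hat.eq_or_lt with rfl | hat
  · simp [O1]
  have h1 : Tendsto (fun n : ℕ => (∫⁻ s in Ioo (a + (t - a) / (n + 1)) t, m s * en (O1 m s t)) +
      en (O1 m (a + (t - a) / (n + 1)) t)) atTop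
      (𝓝 ((∫⁻ s in Ioo a t, m s * en (O1 m s t)) + en (O1 m a t))) := by
    refine (tendsto_lintegral_Ioo _ hat).add ?_
    exact (continuous_en.tendsto _).comp (tendsto_lintegral_Ioo m hat)
  have h2 : Tendsto (fun n : ℕ => (∫⁻ s in Ioo (a + (t - a) / (n + 1)) t, m s * en (O1 m s t)) +
      en (O1 m (a + (t - a) / (n + 1)) t)) atTop (𝓝 1) := by
    refine tendsto_const_nhds.congr' ?_
    filter_upwards [eventually_gt_atTop 0] with n hn
    have hpos : 0 < (t - a) / ((n : ℝ) + 1) := div_pos (sub_pos.2 hat) (by positivity)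
    have hlt : (t - a) / ((n : ℝ) + 1) < t - a := by
      have hn' : (0 : ℝ) < n := by exact_mod_cast hn
      have hta : 0 < t - a := sub_pos.2 hat
      rw [div_lt_iff₀ (by positivity)]
      nlinarith
    symm
    exact ftc_back_fin' hm (by linarith) (by linarith) (hfin _ (by linarith) (by linarith))
  exact tendsto_nhds_unique h1 h2

/-- change of the damping rate (I1) -/
theorem change_rate {n μ q y : ℝ → ℝ≥0∞} (hn : Measurable n) (hμ : Measurable μ)
    (hq : Measurable q) {t : ℝ} (ht : 0 ≤ t) (y0 : ℝ≥0∞)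
    (hy : ∀ s ∈ Ioc 0 t, y s = en (O1 n 0 s) * y0 + ∫⁻ r in Ioo 0 s, en (O1 n r s) * q r)
    (hfin : ∀ r, 0 < r → r < t → O1 μ r t ≠ ⊤) :
    en (O1 n 0 t) * y0 + (∫⁻ r in Ioo 0 t, en (O1 n r t) * q r) =
      en (O1 (fun r => n r + μ r) 0 t) * y0 +
        ∫⁻ s in Ioo 0 t, en (O1 (fun r => n r + μ r) s t) * (q s + μ s * y s) := by
  have hO : ∀ s, O1 (fun r => n r + μ r) s t = O1 n s t + O1 μ s t := fun s => O1_add hn s t
  simp only [hO]
  -- the term with μ y
  have hml : Measurable fun s => en (O1 n s t) := measurable_en.comp (measurable_O1_left hn t)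
  have hmμ : Measurable fun s => en (O1 μ s t) := measurable_en.comp (measurable_O1_left hμ t)
  have h1 : (∫⁻ s in Ioo 0 t, en (O1 n s t + O1 μ s t) * (q s + μ s * y s)) =
      (∫⁻ s in Ioo 0 t, en (O1 n s t + O1 μ s t) * q s) +
      ((∫⁻ s in Ioo 0 t, μ s * en (O1 μ s t)) * (en (O1 n 0 t) * y0) +
       ∫⁻ s in Ioo 0 t, (μ s * en (O1 μ s t)) * ∫⁻ r in Ioo 0 s, en (O1 n r t) * q r) := by
    rw [← lintegral_mul_const _ (by fun_prop), ← lintegral_add_left (by fun_prop),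
      ← lintegral_add_left (by simp only [en_add]; fun_prop)]
    refine setLIntegral_congr_fun measurableSet_Ioo fun s hs => ?_
    rw [hy s ⟨hs.1, hs.2.le⟩]
    have e1 : en (O1 n 0 t) = en (O1 n 0 s) * en (O1 n s t) := by
      rw [← en_add, ← O1_split n hs.1.le hs.2.le]
    have e2 : (∫⁻ r in Ioo 0 s, en (O1 n r t) * q r) =
        en (O1 n s t) * ∫⁻ r in Ioo 0 s, en (O1 n r s) * q r := by
      rw [← lintegral_const_mul' _ _ (en_ne_top _)]
      refine setLIntegral_congr_fun measurableSet_Ioo fun r hr => ?_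
      rw [O1_split n hr.2.le hs.2.le, en_add]
      ring
    rw [e1, e2, en_add]
    ring
  rw [h1]
  -- exchange the order
  have h2 : (∫⁻ s in Ioo 0 t, (μ s * en (O1 μ s t)) * ∫⁻ r in Ioo 0 s, en (O1 n r t) * q r) =
      ∫⁻ r in Ioo 0 t, (∫⁻ s in Ioo r t, μ s * en (O1 μ s t)) * (en (O1 n r t) * q r) := by
    rw [lintegral_triangle (p := fun s => μ s * en (O1 μ s t))
      (q := fun r => en (O1 n r t) * q r) (by fun_prop) (by fun_prop)]
  have h3 : ∀ r ∈ Ico 0 t, (∫⁻ s in Ioo r t, μ s * en (O1 μ s t)) + en (O1 μ r t) = 1 := by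
    intro r hr
    exact ftc_back hμ hr.1 hr.2.le (fun r' h1 h2 => hfin r' (lt_of_le_of_lt hr.1 h1) h2)
  rw [h2]
  rcases ht.eq_or_lt with rfl | ht
  · simp [O1]
  have h4 : (∫⁻ r in Ioo 0 t, en (O1 n r t) * q r) =
      (∫⁻ s in Ioo 0 t, en (O1 n s t + O1 μ s t) * q s) +
      ∫⁻ r in Ioo 0 t, (∫⁻ s in Ioo r t, μ s * en (O1 μ s t)) * (en (O1 n r t) * q r) := by
    rw [← lintegral_add_left (by simp only [en_add]; fun_prop)]
    refine setLIntegral_congr_fun measurableSet_Ioo fun r hr => ?_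
    rw [en_add]
    calc en (O1 n r t) * q r = 1 * (en (O1 n r t) * q r) := by rw [one_mul]
      _ = ((∫⁻ s in Ioo r t, μ s * en (O1 μ s t)) + en (O1 μ r t)) * (en (O1 n r t) * q r) := by
          rw [h3 r ⟨hr.1.le, hr.2⟩]
      _ = _ := by ring
  have h5 : en (O1 n 0 t) * y0 = en (O1 n 0 t + O1 μ 0 t) * y0 +
      (∫⁻ s in Ioo 0 t, μ s * en (O1 μ s t)) * (en (O1 n 0 t) * y0) := by
    rw [en_add]
    calc en (O1 n 0 t) * y0 = 1 * (en (O1 n 0 t) * y0) := by rw [one_mul]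
      _ = ((∫⁻ s in Ioo 0 t, μ s * en (O1 μ s t)) + en (O1 μ 0 t)) * (en (O1 n 0 t) * y0) := by
          rw [h3 0 ⟨le_rfl, ht⟩]
      _ = _ := by ring
  rw [h4]
  conv_lhs => rw [h5]
  ring


end Crest.Agent.R68.ND
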