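import Crest.Agent.R68.Sph4
import Crest.Agent.R68.Carl4
import Mathlib
import Crest.Agent.R68.LDefs
import Crest.Agent.R68.DOp
import Crest.Agent.R68.FCell
import Crest.Agent.R68.FLattice
import Crest.Agent.R68.FSum

-- ▼ part R68/XUp
section

/-!
# Row 68, PART X: the upper growth exponent (real inequality)

Weight `Z a = 1 + .23 |a|² + .17 a₃² + .001 |a|⁴`.  For a fuel velocity `b` near `(0,0,±1)` the
sum `M2 a b` of the means of `Z` over the two outgoing velocities (both uniformly distributed on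
the sphere with diameter `[a,b]`) satisfies `|a-b| ((1+1/2000) M2 a b - Z a) ≤ 1.78 Z a`.
-/

set_option autoImplicit false
open MeasureTheory Set
open scoped ENNReal Real
open Crest.AnalysisR.VecCalc3 Crest.AnalysisR.PDE.Boltzmann

noncomputable section

namespace Crest.Agent.R68.XUp

/-- univariate positivity (the discriminant) -/
theorem disc_pos (d : ℝ) (hd : 0 ≤ d) :
    0 < 1.0355 - 0.8648 * d + 0.1028 * d ^ 3 - 0.0082 * d ^ 4 + 0.001 * d ^ 5 := by
  nlinarith [mul_nonneg hd (sq_nonneg (d - 1.79)), sq_nonneg (d - 1.79),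
    mul_nonneg hd (sq_nonneg (d * (d - 1.79))), sq_nonneg (d * (d - 1.79)),
    mul_nonneg hd (sq_nonneg (d * (d - 4.1))), sq_nonneg (d * (d - 4.1)),
    mul_nonneg hd (sq_nonneg (d ^ 2 - 1)), pow_nonneg hd 3, pow_nonneg hd 4, pow_nonneg hd 5]

/-- weight as a function of `n = |a|²` and `z = ± a₃` -/
def Zp (n z : ℝ) : ℝ := 1 + 23 / 100 * n + 17 / 100 * z ^ 2 + 1 / 1000 * n ^ 2

/-- `2 <Z>` for `b = (0,0,1)`, `n = |a|² = d² + 2 z - 1` -/
def Mp (d z : ℝ) : ℝ :=
  2 + 23 / 100 * (d ^ 2 + 2 * z - 1 + 1) + 34 / 100 * (((z + 1) / 2) ^ 2 + d ^ 2 / 12)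
    + 2 / 1000 * (((d ^ 2 + 2 * z - 1 + 1) / 2) ^ 2
      + 1 / 3 * d ^ 2 * ((d ^ 2 + 2 * z - 1 + 1) / 2 - d ^ 2 / 4))

set_option maxHeartbeats 1000000 in
theorem main_poly (d z : ℝ) (hd : 0 ≤ d) :
    d * ((1 + 1 / 2000) * Mp d z - Zp (d ^ 2 + 2 * z - 1) z
      + 1 / 2000 * (1 + (d ^ 2 + 2 * z - 1))) ≤ 1.775 * Zp (d ^ 2 + 2 * z - 1) z := by
  set A : ℝ := 1.775 * (17 / 100 + 4 / 1000)
    + d * (17 / 200 + 2 / 1000 - 1 / 2000 * (17 / 200 + 2 / 1000)) with hA
  set B : ℝ := 1.775 * (46 / 100 + 4 / 1000 * (d ^ 2 - 1))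
    - d * (17 / 100 - 4 / 3000 * d ^ 2 + 4 / 1000 + 2 / 2000
      + 1 / 2000 * (17 / 100 - 4 / 3000 * d ^ 2 + 4 / 1000 + 46 / 100
        + 4 / 1000 * (d ^ 2 - 1))) with hB
  set C : ℝ := 1.775 * (1 + 23 / 100 * (d ^ 2 - 1) + 1 / 1000 * (d ^ 2 - 1) ^ 2)
    - d * (1 + 63 / 200 - 1 / 1000 + d ^ 2 * (17 / 600 + 2 / 1000) - 1 / 3000 * d ^ 4
      + 1 / 2000 * d ^ 2 + 1 / 2000 * (1 + 63 / 200 - 1 / 1000 + d ^ 2 * (17 / 600 + 2 / 1000)
        - 1 / 3000 * d ^ 4 + (1 + 23 / 100 * (d ^ 2 - 1) + 1 / 1000 * (d ^ 2 - 1) ^ 2))) with hC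
  have hApos : 0 < A := by rw [hA]; nlinarith
  have hQ : 1.775 * Zp (d ^ 2 + 2 * z - 1) z
      - d * ((1 + 1 / 2000) * Mp d z - Zp (d ^ 2 + 2 * z - 1) z
        + 1 / 2000 * (1 + (d ^ 2 + 2 * z - 1))) = A * z ^ 2 + B * z + C := by
    rw [hA, hB, hC, Mp, Zp]; ring
  have hD : 0 ≤ 4 * A * C - B ^ 2 := by
    have h := disc_pos d hd
    have h2 : 0 ≤ 4 * A * C - B ^ 2 - (1.0355 - 0.8648 * d + 0.1028 * d ^ 3
          - 0.0082 * d ^ 4 + 0.001 * d ^ 5) := by
      rw [hA, hB, hC]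
      have h3 := pow_nonneg hd 2
      have h4 := pow_nonneg hd 3
      have h5 := pow_nonneg hd 4
      have h6 := pow_nonneg hd 5
      have h7 := pow_nonneg hd 6
      ring_nf
      linarith
    linarith
  have h4 : 0 ≤ 4 * A * (A * z ^ 2 + B * z + C) := by
    have : 4 * A * (A * z ^ 2 + B * z + C) = (2 * A * z + B) ^ 2 + (4 * A * C - B ^ 2) := by ring
    rw [this]; positivity
  have h5 : 0 ≤ A * z ^ 2 + B * z + C := by
    by_contra h
    have h6 := mul_neg_of_pos_of_neg (show 0 < 4 * A by linarith) (not_le.mp h)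
    linarith
  linarith

/-- bound of `2 <Z>` for a perturbed fuel velocity `(e1,e2,s+e3)` -/
theorem M2_perturb (x y z s e1 e2 e3 : ℝ) (hs : s = 1 ∨ s = -1)
    (h1 : |e1| ≤ 1 / 5000) (h2 : |e2| ≤ 1 / 5000) (h3 : |e3| ≤ 1 / 5000) :
    let A := x ^ 2 + y ^ 2 + z ^ 2
    let B := e1 ^ 2 + e2 ^ 2 + (s + e3) ^ 2
    let p := x * e1 + y * e2 + z * (s + e3)
    (23 / 100 * (A + B) + 17 / 100 * ((z + (s + e3)) ^ 2 / 2 + (A + B - 2 * p) / 6)
      + 1 / 1000 * (2 / 3) * ((A + B) ^ 2 - p ^ 2))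
    ≤ (23 / 100 * (A + 1) + 17 / 100 * ((z + s) ^ 2 / 2 + (A + 1 - 2 * (z * s)) / 6)
      + 1 / 1000 * (2 / 3) * ((A + 1) ^ 2 - (z * s) ^ 2)) + 1 / 2500 * (1 + A) := by
  intro A B p
  have hss : s ^ 2 = 1 := by rcases hs with h | h <;> rw [h] <;> norm_num
  obtain ⟨r, hr⟩ : ∃ r, r = x * e1 + y * e2 + z * e3 := ⟨_, rfl⟩
  have hp : p = z * s + r := by rw [hr]; simp only [p]; ring
  obtain ⟨β, hβ⟩ : ∃ β, β = B - 1 := ⟨_, rfl⟩
  have hβ' : β = e1 ^ 2 + e2 ^ 2 + e3 ^ 2 + 2 * (s * e3) := by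
    rw [hβ]; simp only [B]; nlinarith
  have hBβ : B = 1 + β := by rw [hβ]; ring
  obtain ⟨a1, b1⟩ := abs_le.mp h1
  obtain ⟨a2, b2⟩ := abs_le.mp h2
  obtain ⟨a3, b3⟩ := abs_le.mp h3
  have hse : |s * e3| ≤ 1 / 5000 := by
    rcases hs with h | h <;> rw [h] <;> simpa using h3
  obtain ⟨a4, b4⟩ := abs_le.mp hse
  have q1 : e1 ^ 2 ≤ 1 / 25000000 := by nlinarith
  have q2 : e2 ^ 2 ≤ 1 / 25000000 := by nlinarith
  have q3 : e3 ^ 2 ≤ 1 / 25000000 := by nlinarith
  have hβ1 : β ≤ 3 / 5000 := by rw [hβ']; linarith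
  have hβ2 : -(3 / 5000) ≤ β := by rw [hβ']; nlinarith [sq_nonneg e1, sq_nonneg e2, sq_nonneg e3]
  have hA0 : 0 ≤ A := by simp only [A]; positivity
  obtain ⟨S, hS⟩ : ∃ S, S = |x| + |y| + |z| := ⟨_, rfl⟩
  have hS0 : 0 ≤ S := by rw [hS]; positivity
  have hS2 : S ^ 2 ≤ 3 * A := by
    rw [hS]; simp only [A]
    have := sq_abs x; have := sq_abs y; have := sq_abs z
    nlinarith [sq_nonneg (|x| - |y|), sq_nonneg (|x| - |z|), sq_nonneg (|y| - |z|)]
  have hr1 : |r| ≤ 1 / 5000 * S := by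
    rw [hr, hS]
    calc |x * e1 + y * e2 + z * e3| ≤ |x * e1| + |y * e2| + |z * e3| := abs_add_three _ _ _
      _ = |x| * |e1| + |y| * |e2| + |z| * |e3| := by rw [abs_mul, abs_mul, abs_mul]
      _ ≤ |x| * (1 / 5000) + |y| * (1 / 5000) + |z| * (1 / 5000) := by gcongr
      _ = 1 / 5000 * (|x| + |y| + |z|) := by ring
  obtain ⟨r1, r2⟩ := abs_le.mp hr1
  have hz : |z| ≤ S := by rw [hS]; linarith [abs_nonneg x, abs_nonneg y]
  obtain ⟨z1, z2⟩ := abs_le.mp hz
  have hSA : S ≤ 3 / 2 + A / 2 := by nlinarith [sq_nonneg (S - 3)]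
  -- the pieces
  have t1 : (z + (s + e3)) ^ 2 ≤ (z + s) ^ 2 + (2 * S + 3) / 5000 := by
    have e : (z + (s + e3)) ^ 2 = (z + s) ^ 2 + (2 * (z * e3) + 2 * (s * e3) + e3 ^ 2) := by ring
    have : z * e3 ≤ S * (1 / 5000) := by
      calc z * e3 ≤ |z * e3| := le_abs_self _
        _ = |z| * |e3| := abs_mul _ _
        _ ≤ S * (1 / 5000) := by gcongr
    rw [e]; linarith
  have hzs : (z * s) * r ≤ S * (1 / 5000 * S) ∧ -(S * (1 / 5000 * S)) ≤ (z * s) * r := by
    have hzs1 : |z * s| ≤ S := by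
      rcases hs with h | h <;> rw [h] <;> simpa using hz
    have : |z * s * r| ≤ S * (1 / 5000 * S) := by
      rw [abs_mul]; gcongr
    exact ⟨(abs_le.mp this).2, (abs_le.mp this).1⟩
  have t2 : (A + B) ^ 2 ≤ (A + 1) ^ 2 + 3 / 5000 * (2 * A + 3) := by
    have : (A + B) ^ 2 = (A + 1) ^ 2 + β * (2 * A + 2 + β) := by rw [hBβ]; ring
    rw [this]
    have h5 : β * (2 * A + 2 + β) ≤ 3 / 5000 * (2 * A + 2 + β) :=
      mul_le_mul_of_nonneg_right hβ1 (by linarith)
    linarith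
  have t3 : (z * s) ^ 2 - p ^ 2 ≤ 2 * (S * (1 / 5000 * S)) := by
    have e : p ^ 2 = (z * s) ^ 2 + 2 * ((z * s) * r) + r ^ 2 := by rw [hp]; ring
    have := sq_nonneg r
    linarith [hzs.2]
  have hp2 : - p ≤ -(z * s) + 1 / 5000 * S := by rw [hp]; linarith
  have hSS : S * (1 / 5000 * S) ≤ 3 / 5000 * A := by linarith [show S * (1 / 5000 * S) = 1 / 5000 * S ^ 2 by ring]
  have t4 : A + B - 2 * p ≤ A + 1 - 2 * (z * s) + (3 / 5000 + 2 / 5000 * S) := by
    rw [hBβ]; linarith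
  have t5 : A + B ≤ A + 1 + 3 / 5000 := by rw [hBβ]; linarith
  linarith

/-- the weight -/
def Z (a : R3) : ℝ := 1 + 23 / 100 * ‖a‖ ^ 2 + 17 / 100 * (a 2) ^ 2 + 1 / 1000 * ‖a‖ ^ 4

/-- sum of the means of `Z` over the two outgoing velocities of a collision of `a` and `b` -/
def M2 (a b : R3) : ℝ :=
  2 + 23 / 100 * (‖a‖ ^ 2 + ‖b‖ ^ 2)
    + 17 / 100 * ((a 2 + b 2) ^ 2 / 2 + (‖a‖ ^ 2 + ‖b‖ ^ 2 - 2 * inner ℝ a b) / 6)
    + 1 / 1000 * (2 / 3) * ((‖a‖ ^ 2 + ‖b‖ ^ 2) ^ 2 - (inner ℝ a b : ℝ) ^ 2)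

theorem one_le_Z (a : R3) : 1 ≤ Z a := by
  unfold Z; nlinarith [sq_nonneg ‖a‖, sq_nonneg (a 2), sq_nonneg (‖a‖ ^ 2)]

theorem norm_sq_coord (a : R3) : ‖a‖ ^ 2 = a 0 ^ 2 + a 1 ^ 2 + a 2 ^ 2 := by
  rw [EuclideanSpace.norm_sq_eq]; simp [Fin.sum_univ_three]

theorem inner_coord (a b : R3) : (inner ℝ a b : ℝ) = a 0 * b 0 + a 1 * b 1 + a 2 * b 2 := by
  simp [PiLp.inner_apply, Fin.sum_univ_three, mul_comm]

theorem M2_le (a b : R3) (s : ℝ) (hs : s = 1 ∨ s = -1) (h0 : |b 0| ≤ 1 / 5000)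
    (h1 : |b 1| ≤ 1 / 5000) (h2 : |b 2 - s| ≤ 1 / 5000) :
    M2 a b ≤ Mp (√(‖a‖ ^ 2 + 1 - 2 * (s * a 2))) (s * a 2) + 1 / 2500 * (1 + ‖a‖ ^ 2) := by
  have h := M2_perturb (a 0) (a 1) (a 2) s (b 0) (b 1) (b 2 - s) hs h0 h1 h2
  simp only [add_sub_cancel] at h
  have hss : s ^ 2 = 1 := by rcases hs with h | h <;> rw [h] <;> norm_num
  have hnn : 0 ≤ ‖a‖ ^ 2 + 1 - 2 * (s * a 2) := by
    rw [norm_sq_coord]; nlinarith [sq_nonneg (a 0), sq_nonneg (a 1), sq_nonneg (a 2 - s)]
  have hd := Real.sq_sqrt hnn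
  unfold M2 Mp
  rw [hd]
  rw [norm_sq_coord a, norm_sq_coord b, inner_coord]
  have e : (s * a 2 + 1) ^ 2 = (a 2 + s) ^ 2 := by
    have : (s * a 2 + 1) ^ 2 - (a 2 + s) ^ 2 = (s ^ 2 - 1) * (a 2 ^ 2 - 1) := by ring
    rw [hss] at this; linarith
  have e2 : (s * a 2) ^ 2 = (a 2) ^ 2 := by rw [mul_pow, hss, one_mul]
  nlinarith [h, e, e2]

end Crest.Agent.R68.XUp
end
end

-- ▼ part R68/XUpB
section

/-!
# Row 68, PART X: the upper growth exponent, vector form and ω-form
-/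

set_option autoImplicit false
open MeasureTheory Set
open scoped ENNReal Real
open Crest.AnalysisR.VecCalc3 Crest.AnalysisR.PDE.Boltzmann

noncomputable section

namespace Crest.Agent.R68.XUp

theorem M2_nonneg_le (a b : R3) (s : ℝ) (hs : s = 1 ∨ s = -1) (h0 : |b 0| ≤ 1 / 5000)
    (h1 : |b 1| ≤ 1 / 5000) (h2 : |b 2 - s| ≤ 1 / 5000) : M2 a b ≤ 4 * Z a := by
  obtain ⟨a0, b0⟩ := abs_le.mp h0
  obtain ⟨a1, b1⟩ := abs_le.mp h1
  obtain ⟨a2, b2⟩ := abs_le.mp h2
  have q0 : b 0 ^ 2 ≤ 1 / 25000000 := by nlinarith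
  have q1 : b 1 ^ 2 ≤ 1 / 25000000 := by nlinarith
  have q2 : b 2 ^ 2 ≤ 101 / 100 := by
    rcases hs with h | h <;> rw [h] at a2 b2 <;> nlinarith
  have hB : ‖b‖ ^ 2 ≤ 102 / 100 := by rw [norm_sq_coord]; linarith
  have hB0 : 0 ≤ ‖b‖ ^ 2 := by positivity
  have hA0 : 0 ≤ ‖a‖ ^ 2 := by positivity
  have hin : -2 * (inner ℝ a b : ℝ) ≤ ‖a‖ ^ 2 + ‖b‖ ^ 2 := by
    have := norm_add_sq_real a b
    nlinarith [sq_nonneg ‖a + b‖]
  have h3 : (a 2 + b 2) ^ 2 ≤ 2 * (a 2) ^ 2 + 2 * (b 2) ^ 2 := by nlinarith [sq_nonneg (a 2 - b 2)]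
  have h4 : (‖a‖ ^ 2 + ‖b‖ ^ 2) ^ 2 ≤ 2 * ‖a‖ ^ 4 + 3 := by
    have e : ‖a‖ ^ 4 = (‖a‖ ^ 2) ^ 2 := by ring
    rw [e]
    nlinarith [sq_nonneg (‖a‖ ^ 2 - ‖b‖ ^ 2)]
  unfold M2 Z
  nlinarith [sq_nonneg (inner ℝ a b : ℝ), sq_nonneg (a 2)]

theorem Z_eq_Zp (a : R3) (s : ℝ) (hs : s = 1 ∨ s = -1) :
    Z a = Zp (‖a‖ ^ 2 + 1 - 2 * (s * a 2) + 2 * (s * a 2) - 1) (s * a 2) := by
  have hss : s ^ 2 = 1 := by rcases hs with h | h <;> rw [h] <;> norm_num
  unfold Z Zp
  rw [mul_pow, hss]; ring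

/-- **upper exponent**: `|a-b| ((1+1/2000) Σ<Z> - Z a) ≤ 1.78 Z a` -/
theorem upper (a b : R3) (s : ℝ) (hs : s = 1 ∨ s = -1) (h0 : |b 0| ≤ 1 / 5000)
    (h1 : |b 1| ≤ 1 / 5000) (h2 : |b 2 - s| ≤ 1 / 5000) :
    ‖a - b‖ * ((1 + 1 / 2000) * M2 a b - Z a) ≤ 1.78 * Z a := by
  have hM := M2_le a b s hs h0 h1 h2
  have hM4 := M2_nonneg_le a b s hs h0 h1 h2
  have hZ1 := one_le_Z a
  obtain ⟨d, hd⟩ : ∃ d, d = √(‖a‖ ^ 2 + 1 - 2 * (s * a 2)) := ⟨_, rfl⟩
  have hd0 : 0 ≤ d := by rw [hd]; positivity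
  have hss : s ^ 2 = 1 := by rcases hs with h | h <;> rw [h] <;> norm_num
  have hnn : 0 ≤ ‖a‖ ^ 2 + 1 - 2 * (s * a 2) := by
    rw [norm_sq_coord]; nlinarith [sq_nonneg (a 0), sq_nonneg (a 1), sq_nonneg (a 2 - s)]
  have hd2 : d ^ 2 = ‖a‖ ^ 2 + 1 - 2 * (s * a 2) := by rw [hd, Real.sq_sqrt hnn]
  have hmain := main_poly d (s * a 2) hd0
  rw [hd2] at hmain
  rw [← Z_eq_Zp a s hs] at hmain
  rw [← hd] at hM
  -- distance
  obtain ⟨b0, hb0⟩ : ∃ b0 : R3, b0 = !₂[0, 0, s] := ⟨_, rfl⟩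
  have hb00 : b0 0 = 0 := by rw [hb0]; rfl
  have hb01 : b0 1 = 0 := by rw [hb0]; rfl
  have hb02 : b0 2 = s := by rw [hb0]; rfl
  have hdd : ‖a - b0‖ = d := by
    rw [hd, ← Real.sqrt_sq (norm_nonneg (a - b0))]
    congr 1
    rw [norm_sq_coord, norm_sq_coord]
    simp only [PiLp.sub_apply, hb00, hb01, hb02]
    nlinarith
  have hbb : ‖b - b0‖ ≤ 1 / 2500 := by
    have h3 : ‖b - b0‖ ^ 2 ≤ (1 / 2500) ^ 2 := by
      rw [norm_sq_coord]
      simp only [PiLp.sub_apply, hb00, hb01, hb02, sub_zero]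
      have := sq_abs (b 0); have := sq_abs (b 1); have := sq_abs (b 2 - s)
      nlinarith [abs_nonneg (b 0), abs_nonneg (b 1), abs_nonneg (b 2 - s)]
    exact le_of_sq_le_sq h3 (by norm_num) |> fun h => h
  have hab : ‖a - b‖ ≤ d + 1 / 2500 := by
    calc ‖a - b‖ = ‖(a - b0) - (b - b0)‖ := by congr 1; abel
      _ ≤ ‖a - b0‖ + ‖b - b0‖ := norm_sub_le _ _
      _ ≤ d + 1 / 2500 := by rw [hdd]; linarith
  by_cases hX : (1 + 1 / 2000) * M2 a b - Z a ≤ 0
  · have := mul_nonpos_of_nonneg_of_nonpos (norm_nonneg (a - b)) hX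
    nlinarith [norm_nonneg (a - b)]
  · push Not at hX
    have e1 : ‖a - b‖ * ((1 + 1 / 2000) * M2 a b - Z a)
        ≤ (d + 1 / 2500) * ((1 + 1 / 2000) * M2 a b - Z a) :=
      mul_le_mul_of_nonneg_right hab hX.le
    have e2 : d * ((1 + 1 / 2000) * M2 a b - Z a)
        ≤ d * ((1 + 1 / 2000) * Mp d (s * a 2) - Z a
          + 1 / 2000 * (1 + (‖a‖ ^ 2 + 1 - 2 * (s * a 2) + 2 * (s * a 2) - 1))) := by
      apply mul_le_mul_of_nonneg_left _ hd0
      nlinarith [sq_nonneg ‖a‖]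
    nlinarith

theorem Z_continuous : Continuous Z := by
  unfold Z
  fun_prop

/-- mean of `Z` over the sphere with centre `m` and radius `|R|` -/
theorem integral_Z (m : R3) (R : ℝ) :
    ∫ s, Z (m + R • s) ∂sphereMeasure = 4 * π * (1 + 23 / 100 * (‖m‖ ^ 2 + R ^ 2)
      + 17 / 100 * ((m 2) ^ 2 + R ^ 2 / 3)
      + 1 / 1000 * ((‖m‖ ^ 2 + R ^ 2) ^ 2 + 4 / 3 * (R ^ 2 * ‖m‖ ^ 2))) := by
  have h1 : ∀ᵐ s ∂sphereMeasure, Z (m + R • s) =
      (1 + 23 / 100 * (‖m‖ ^ 2 + R ^ 2) + 17 / 100 * (m 2) ^ 2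
          + 1 / 1000 * (‖m‖ ^ 2 + R ^ 2) ^ 2)
        + ((46 / 100 * R + 4 / 1000 * (‖m‖ ^ 2 + R ^ 2) * R) * (inner ℝ m s : ℝ)
        + ((34 / 100 * (m 2) * R) * (inner ℝ ez s : ℝ)
        + ((17 / 100 * R ^ 2) * ((inner ℝ ez s : ℝ) * inner ℝ ez s)
        + (4 / 1000 * R ^ 2) * ((inner ℝ m s : ℝ) * inner ℝ m s)))) := by
    filter_upwards [ae_sphereMeasure] with s hs
    have e1 : ‖m + R • s‖ ^ 2 = ‖m‖ ^ 2 + R ^ 2 + 2 * R * inner ℝ m s := by
      rw [norm_add_sq_real, norm_smul, hs, real_inner_smul_right, mul_pow, Real.norm_eq_abs,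
        sq_abs]
      ring
    have e2 : (m + R • s) 2 = m 2 + R * inner ℝ ez s := by
      rw [inner_ez]; simp
    have e4 : ‖m + R • s‖ ^ 4 = (‖m‖ ^ 2 + R ^ 2 + 2 * R * inner ℝ m s) ^ 2 := by
      rw [← e1]; ring
    unfold Z
    rw [e1, e2, e4]
    ring
  rw [integral_congr_ae h1]
  have i1 := integrable_inner_sphere m
  have i2 := integrable_inner_sphere ez
  have i3 := integrable_inner_mul_sphere ez ez
  have i4 := integrable_inner_mul_sphere m m
  rw [integral_add (integrable_const _), integral_add (i1.const_mul _),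
    integral_add (i2.const_mul _), integral_add (i3.const_mul _) (i4.const_mul _),
    integral_const_mul, integral_const_mul, integral_const_mul, integral_const_mul,
    integral_inner_sphere, integral_inner_sphere, integral_inner_mul_sphere,
    integral_inner_mul_sphere, integral_one_sphere, real_inner_self_eq_norm_sq,
    real_inner_self_eq_norm_sq, norm_ez]
  · ring
  · exact (i3.const_mul _).add (i4.const_mul _)
  · exact (i2.const_mul _).add ((i3.const_mul _).add (i4.const_mul _))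
  · exact (i1.const_mul _).add ((i2.const_mul _).add ((i3.const_mul _).add (i4.const_mul _)))

/-- the sphere with diameter `[a,b]` -/
theorem integral_Z_diam (a b : R3) :
    ∫ s, Z ((1 / 2 : ℝ) • (a + b) + (‖a - b‖ / 2) • s) ∂sphereMeasure = 2 * π * M2 a b := by
  rw [integral_Z]
  have e1 : ‖(1 / 2 : ℝ) • (a + b)‖ ^ 2 = (‖a‖ ^ 2 + 2 * inner ℝ a b + ‖b‖ ^ 2) / 4 := by
    rw [norm_smul, mul_pow, norm_add_sq_real]; norm_num; ring
  have e2 : (‖a - b‖ / 2) ^ 2 = (‖a‖ ^ 2 - 2 * inner ℝ a b + ‖b‖ ^ 2) / 4 := by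
    rw [div_pow, norm_sub_sq_real]; norm_num
  have e3 : ((1 / 2 : ℝ) • (a + b)) 2 = (a 2 + b 2) / 2 := by simp; ring
  rw [e1, e2, e3]
  unfold M2
  ring


end Crest.Agent.R68.XUp
end
end

-- ▼ part R68/XColl
section

/-!
# Row 68, PART X: collisional inequality for the weight `Z` (fixed time and position)
-/

set_option autoImplicit false
open MeasureTheory Set
open scoped ENNReal Real
open Crest.AnalysisR.VecCalc3 Crest.AnalysisR.PDE.Boltzmann
open Crest.Agent.R68.XUp

noncomputable section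

namespace Crest.Agent.R68.X

/-- the weight in the frame moving with velocity `c` -/
def Ze (c v : R3) : ℝ≥0∞ := ENNReal.ofReal (Z (v - c))

theorem measurable_Ze (c : R3) : Measurable (Ze c) := by
  unfold Ze
  have := Z_continuous
  exact (Measurable.ennreal_ofReal (by fun_prop))

theorem measurable_Ze2 : Measurable fun p : R3 × R3 => Ze p.1 p.2 := by
  unfold Ze
  have := Z_continuous
  exact (Measurable.ennreal_ofReal (by fun_prop))

theorem one_le_Ze (c v : R3) : 1 ≤ Ze c v := by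
  unfold Ze; rw [ENNReal.one_le_ofReal]; exact one_le_Z _


theorem M2_nonneg (a b : R3) : 0 ≤ M2 a b := by
  unfold M2
  have h1 : (inner ℝ a b : ℝ) ^ 2 ≤ (‖a‖ ^ 2 + ‖b‖ ^ 2) ^ 2 := by
    have h := abs_real_inner_le_norm a b
    have h2 : |(inner ℝ a b : ℝ)| ≤ ‖a‖ ^ 2 + ‖b‖ ^ 2 := by
      nlinarith [sq_nonneg (‖a‖ - ‖b‖), norm_nonneg a, norm_nonneg b]
    rw [← sq_abs]
    exact pow_le_pow_left₀ (abs_nonneg _) h2 2
  have h3 : 0 ≤ ‖a‖ ^ 2 + ‖b‖ ^ 2 - 2 * (inner ℝ a b : ℝ) := by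
    have := norm_sub_sq_real a b
    nlinarith [sq_nonneg ‖a - b‖]
  have h4 := sq_nonneg (a 2 + b 2)
  have h5 := sq_nonneg ‖a‖
  have h6 := sq_nonneg ‖b‖
  linarith

theorem M2_comm (a b : R3) : M2 a b = M2 b a := by
  unfold M2
  rw [real_inner_comm]; ring

theorem lintegral_Ze_diam (v u c : R3) :
    ∫⁻ s, Ze c ((1 / 2 : ℝ) • (v + u) + (‖v - u‖ / 2) • s) ∂sphereMeasure
      = ENNReal.ofReal (2 * π * M2 (v - c) (u - c)) := by
  rw [← integral_Z_diam, ofReal_integral_eq_lintegral_ofReal]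
  · refine lintegral_congr fun s => ?_
    unfold Ze
    congr 2
    have : v - c - (u - c) = v - u := by abel
    rw [this]
    module
  · have hc : Continuous fun s : R3 =>
        Z ((1 / 2 : ℝ) • ((v - c) + (u - c)) + (‖(v - c) - (u - c)‖ / 2) • s) := by
      have := Z_continuous
      fun_prop
    obtain ⟨C, hC⟩ := (isCompact_sphere (0 : R3) 1).exists_bound_of_continuousOn hc.continuousOn
    exact integrable_sphere_of_bounded hc.measurable (C := C) fun w hw => by
      have := hC w (by simpa using hw)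
      simpa using this
  · exact Filter.Eventually.of_forall fun s => zero_le_one.trans (one_le_Z _)

theorem two_aux {N m : ℝ} (hN : 0 ≤ N) (hm : 0 ≤ m) : ENNReal.ofReal (2 * π * N * m)
    = 2 * (ENNReal.ofReal (N / 2) * ENNReal.ofReal (2 * π * m)) := by
  rw [← ENNReal.ofReal_mul (by positivity), ← ENNReal.ofReal_ofNat 2,
    ← ENNReal.ofReal_mul (by norm_num)]
  congr 1; ring

/-- `φ` is concentrated near the two points `c ± e₃` -/
def NearFrame (φ : R3 → ℝ≥0∞) (c : R3) : Prop :=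
  ∀ u, φ u ≠ 0 → ∃ s : ℝ, (s = 1 ∨ s = -1) ∧ |u 0 - c 0| ≤ 1 / 5000 ∧ |u 1 - c 1| ≤ 1 / 5000 ∧
    |u 2 - c 2 - s| ≤ 1 / 5000

/-- **collisional inequality**: rate of growth of the `Z`-mass -/
theorem coll {φ h : R3 → ℝ≥0∞} (hφ : Measurable φ) (hh : Measurable h) {c : R3}
    (hn : NearFrame φ c) :
    ∫⁻ v, Ze c v * (2 * Qp φ h v) ≤ (∫⁻ v, Ze c v * (Lc φ v * h v))
      + ENNReal.ofReal (3.56 * π) * (∫⁻ u, φ u) * ∫⁻ v, Ze c v * h v := by
  have hZ := measurable_Ze c
  have e1 : ∫⁻ v, Ze c v * (2 * Qp φ h v)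
      = ∫⁻ u, ∫⁻ v, φ u * h v * ENNReal.ofReal (2 * π * ‖v - u‖ * M2 (v - c) (u - c)) := by
    have : ∀ v, Ze c v * (2 * Qp φ h v) = 2 * (Ze c v * Qp φ h v) := fun v => by ring
    simp_rw [this]
    have hm0 : Measurable fun v : R3 => Ze c v * Qp φ h v := hZ.mul (measurable_Qp hφ hh)
    rw [lintegral_const_mul _ hm0, lintegral_mul_Qp_sigma hZ hφ hh,
      ← lintegral_const_mul']
    · refine lintegral_congr fun u => ?_
      rw [← lintegral_const_mul']
      · refine lintegral_congr fun v => ?_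
        rw [lintegral_Ze_diam, M2_comm, norm_sub_rev u v]
        have h3 := M2_nonneg (v - c) (u - c)
        have h4 : ENNReal.ofReal (2 * π * ‖v - u‖ * M2 (v - c) (u - c))
            = 2 * (ENNReal.ofReal (‖v - u‖ / 2) * ENNReal.ofReal (2 * π * M2 (v - c) (u - c))) := by
          exact two_aux (norm_nonneg _) h3
        rw [h4]; ring
      · simp
    · simp
  have e2 : ∫⁻ v, Ze c v * (Lc φ v * h v)
      = ∫⁻ u, ∫⁻ v, φ u * h v * ENNReal.ofReal (2 * π * ‖v - u‖ * Z (v - c)) := by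
    have h1 : ∀ v, Ze c v * (Lc φ v * h v)
        = ∫⁻ u, φ u * h v * ENNReal.ofReal (2 * π * ‖v - u‖ * Z (v - c)) := by
      intro v
      have hm : Measurable fun u : R3 => ENNReal.ofReal ‖v - u‖ * φ u :=
        Measurable.mul (by fun_prop) hφ
      rw [Lc_eq hφ, show Ze c v * (ENNReal.ofReal (2 * π) * (∫⁻ vs, ENNReal.ofReal ‖v - vs‖ * φ vs)
        * h v) = (Ze c v * ENNReal.ofReal (2 * π) * h v) *
          ∫⁻ vs, ENNReal.ofReal ‖v - vs‖ * φ vs by ring, ← lintegral_const_mul _ hm]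
      refine lintegral_congr fun u => ?_
      unfold Ze
      rw [ENNReal.ofReal_mul (p := 2 * π * ‖v - u‖) (by positivity),
        ENNReal.ofReal_mul (p := 2 * π) (by positivity)]
      ring
    simp_rw [h1]
    refine lintegral_lintegral_swap ?_
    have hZc := Z_continuous
    have m1 : Measurable fun p : R3 × R3 => ENNReal.ofReal (2 * π * ‖p.1 - p.2‖ * Z (p.1 - c)) :=
      Measurable.ennreal_ofReal (by fun_prop)
    exact (((hφ.comp measurable_snd).mul (hh.comp measurable_fst)).mul m1).aemeasurable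
  have e3 : ENNReal.ofReal (3.56 * π) * (∫⁻ u, φ u) * ∫⁻ v, Ze c v * h v
      = ∫⁻ u, ∫⁻ v, φ u * h v * ENNReal.ofReal (3.56 * π * Z (v - c)) := by
    have hm : Measurable fun v : R3 => Ze c v * h v := hZ.mul hh
    rw [mul_assoc, ← lintegral_mul_const _ hφ, ← lintegral_const_mul _ (hφ.mul_const _)]
    refine lintegral_congr fun u => ?_
    rw [← mul_assoc, ← lintegral_const_mul _ hm]
    refine lintegral_congr fun v => ?_
    unfold Ze
    rw [ENNReal.ofReal_mul (p := 3.56 * π) (by positivity)]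
    ring
  rw [e1, e2, e3, ← lintegral_add_left]
  · refine lintegral_mono fun u => ?_
    by_cases hu : φ u = 0
    · simp [hu]
    obtain ⟨s, hs, h0, h1, h2⟩ := hn u hu
    have hm : Measurable fun v : R3 => φ u * h v * ENNReal.ofReal (2 * π * ‖v - u‖ * Z (v - c)) := by
      have hZc := Z_continuous
      exact (hh.const_mul _).mul (Measurable.ennreal_ofReal (by fun_prop))
    rw [← lintegral_add_left hm]
    refine lintegral_mono fun v => ?_
    rw [← mul_add]
    refine mul_le_mul_right ?_ _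
    have hZ0 : 0 ≤ Z (v - c) := zero_le_one.trans (one_le_Z _)
    rw [← ENNReal.ofReal_add (by positivity) (by positivity)]
    refine ENNReal.ofReal_le_ofReal ?_
    have hup := upper (v - c) (u - c) s hs (by simpa using h0) (by simpa using h1)
      (by simpa using h2)
    have e : v - c - (u - c) = v - u := by abel
    rw [e] at hup
    have hM := M2_nonneg (v - c) (u - c)
    have hn := norm_nonneg (v - u)
    have h5 : ‖v - u‖ * M2 (v - c) (u - c) ≤ ‖v - u‖ * Z (v - c) + 1.78 * Z (v - c) := by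
      nlinarith [mul_nonneg hn hM]
    have hpi := Real.pi_pos
    calc 2 * π * ‖v - u‖ * M2 (v - c) (u - c) = 2 * π * (‖v - u‖ * M2 (v - c) (u - c)) := by ring
      _ ≤ 2 * π * (‖v - u‖ * Z (v - c) + 1.78 * Z (v - c)) := by gcongr
      _ = _ := by ring
  · have hZc := Z_continuous
    have m1 : Measurable fun p : R3 × R3 => φ p.1 * h p.2 *
        ENNReal.ofReal (2 * π * ‖p.2 - p.1‖ * Z (p.2 - c)) :=
      ((hφ.comp measurable_fst).mul (hh.comp measurable_snd)).mul
        (Measurable.ennreal_ofReal (by fun_prop))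
    exact m1.lintegral_prod_right'

end Crest.Agent.R68.X
end
end

-- ▼ part R68/XGron
section

/-!
# Row 68, PART X: the one dimensional lemmas (damped flight with a decreasing weight, Gronwall)
-/

set_option autoImplicit false
open MeasureTheory Set
open scoped ENNReal Real

noncomputable section

namespace Crest.Agent.R68.X

/-- Fubini on the triangle `0 < s < r < t` -/
theorem lintegral_triangle (t : ℝ) {f : ℝ → ℝ → ℝ≥0∞} (hf : Measurable (Function.uncurry f)) :
    ∫⁻ r in Ioo 0 t, ∫⁻ s in Ioo 0 r, f s r = ∫⁻ s in Ioo 0 t, ∫⁻ r in Ioo s t, f s r := by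
  have e1 : ∀ r ∈ Ioo 0 t, ∫⁻ s in Ioo 0 r, f s r
      = ∫⁻ s in Ioo 0 t, {p : ℝ × ℝ | p.1 < p.2}.indicator (Function.uncurry f) (s, r) := by
    intro r hr
    rw [← lintegral_indicator measurableSet_Ioo, ← lintegral_indicator measurableSet_Ioo]
    refine lintegral_congr fun s => ?_
    by_cases h1 : s ∈ Ioo 0 r
    · rw [indicator_of_mem h1, indicator_of_mem (show s ∈ Ioo 0 t from ⟨h1.1, h1.2.trans hr.2⟩),
        indicator_of_mem (by exact h1.2)]
      rfl
    · rw [indicator_of_notMem h1]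
      by_cases h2 : s ∈ Ioo 0 t
      · rw [indicator_of_mem h2, indicator_of_notMem]
        exact fun h3 => h1 ⟨h2.1, h3⟩
      · rw [indicator_of_notMem h2]
  have e2 : ∀ s ∈ Ioo 0 t, ∫⁻ r in Ioo s t, f s r
      = ∫⁻ r in Ioo 0 t, {p : ℝ × ℝ | p.1 < p.2}.indicator (Function.uncurry f) (s, r) := by
    intro s hs
    rw [← lintegral_indicator measurableSet_Ioo, ← lintegral_indicator measurableSet_Ioo]
    refine lintegral_congr fun r => ?_
    by_cases h1 : r ∈ Ioo s t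
    · rw [indicator_of_mem h1, indicator_of_mem (show r ∈ Ioo 0 t from ⟨hs.1.trans h1.1, h1.2⟩),
        indicator_of_mem (by exact h1.1)]
      rfl
    · rw [indicator_of_notMem h1]
      by_cases h2 : r ∈ Ioo 0 t
      · rw [indicator_of_mem h2, indicator_of_notMem]
        exact fun h3 => h1 ⟨h3, h2.2⟩
      · rw [indicator_of_notMem h2]
  rw [setLIntegral_congr_fun measurableSet_Ioo e1, setLIntegral_congr_fun measurableSet_Ioo e2]
  have hm : Measurable ({p : ℝ × ℝ | p.1 < p.2}.indicator (Function.uncurry f)) :=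
    hf.indicator (measurableSet_lt measurable_fst measurable_snd)
  exact lintegral_lintegral_swap
    ((hm.comp measurable_swap).aemeasurable)

/-- damped flight with a decreasing weight: the undamped weighted inequality -/
theorem flight {t : ℝ} (ht : 0 < t) {ν q z : ℝ → ℝ≥0∞} {E : ℝ → ℝ → ℝ≥0∞} {h : ℝ → ℝ≥0∞}
    (hν : Measurable ν) (hq : Measurable q)
    (hE : Measurable (Function.uncurry E))
    (hE1 : ∀ s, 0 < s → s < t → E s t + ∫⁻ r in Ioo s t, ν r * E s r ≤ 1)
    (hz : ∀ s r, 0 < s → s ≤ r → r ≤ t → z r ≤ z s)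
    (hh : ∀ r, 0 < r → r ≤ t → h r ≤ ∫⁻ s in Ioo 0 r, q s * E s r) (hzm : Measurable z) :
    z t * h t + ∫⁻ r in Ioo 0 t, ν r * (z r * h r) ≤ ∫⁻ s in Ioo 0 t, z s * q s := by
  have hEt : ∀ t, Measurable fun s => E s t := fun t =>
    hE.comp (measurable_id.prodMk measurable_const)
  have hqE : ∀ r, Measurable fun s => q s * E s r := fun r => hq.mul (hEt r)
  have h1 : z t * h t ≤ ∫⁻ s in Ioo 0 t, z s * (q s * E s t) := by
    calc z t * h t ≤ z t * ∫⁻ s in Ioo 0 t, q s * E s t := mul_le_mul_right (hh t ht le_rfl) _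
      _ = ∫⁻ s in Ioo 0 t, z t * (q s * E s t) :=
        (lintegral_const_mul _ (hqE t)).symm
      _ ≤ _ := setLIntegral_mono' measurableSet_Ioo fun s hs =>
        mul_le_mul_left (hz s t hs.1 hs.2.le le_rfl) _
  have h2 : ∫⁻ r in Ioo 0 t, ν r * (z r * h r)
      ≤ ∫⁻ s in Ioo 0 t, ∫⁻ r in Ioo s t, z s * (q s * (ν r * E s r)) := by
    rw [← lintegral_triangle t (f := fun s r => z s * (q s * (ν r * E s r)))]
    · refine setLIntegral_mono' measurableSet_Ioo fun r hr => ?_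
      calc ν r * (z r * h r) ≤ ν r * (z r * ∫⁻ s in Ioo 0 r, q s * E s r) := by
            gcongr; exact hh r hr.1 hr.2.le
        _ = ∫⁻ s in Ioo 0 r, ν r * (z r * (q s * E s r)) := by
            rw [← lintegral_const_mul _ (hqE r), ← lintegral_const_mul _ ((hqE r).const_mul _)]
        _ ≤ _ := setLIntegral_mono' measurableSet_Ioo fun s hs => by
            calc ν r * (z r * (q s * E s r)) ≤ ν r * (z s * (q s * E s r)) := by
                  gcongr; exact hz s r hs.1 hs.2.le hr.2.le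
              _ = _ := by ring
    · have : Measurable fun p : ℝ × ℝ => E p.1 p.2 := hE
      exact (hzm.comp measurable_fst).mul ((hq.comp measurable_fst).mul
        ((hν.comp measurable_snd).mul this))
  calc z t * h t + ∫⁻ r in Ioo 0 t, ν r * (z r * h r)
      ≤ (∫⁻ s in Ioo 0 t, z s * (q s * E s t))
        + ∫⁻ s in Ioo 0 t, ∫⁻ r in Ioo s t, z s * (q s * (ν r * E s r)) := add_le_add h1 h2
    _ = ∫⁻ s in Ioo 0 t, (z s * (q s * E s t)
        + ∫⁻ r in Ioo s t, z s * (q s * (ν r * E s r))) := by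
        rw [lintegral_add_left]
        exact hzm.mul (hqE t)
    _ ≤ ∫⁻ s in Ioo 0 t, z s * q s := by
        refine setLIntegral_mono' measurableSet_Ioo fun s hs => ?_
        have hEs : Measurable fun r => ν r * E s r :=
          hν.mul (hE.comp (measurable_const.prodMk measurable_id))
        rw [lintegral_const_mul _ (hEs.const_mul _), lintegral_const_mul _ hEs, ← mul_add,
          ← mul_add]
        calc z s * (q s * (E s t + ∫⁻ r in Ioo s t, ν r * E s r)) ≤ z s * (q s * 1) := by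
              gcongr; exact hE1 s hs.1 hs.2
          _ = _ := by rw [mul_one]

theorem lintegral_rpow_Ioo {a b l c : ℝ} (ha : 0 ≤ a) (hab : a ≤ b) (hl : 0 < l) (hc : 0 ≤ c) :
    ∫⁻ r in Ioo a b, ENNReal.ofReal (c * r ^ (l - 1))
      = ENNReal.ofReal (c * ((b ^ l - a ^ l) / l)) := by
  have hint : IntervalIntegrable (fun r : ℝ => c * r ^ (l - 1)) volume a b :=
    (intervalIntegral.intervalIntegrable_rpow' (by linarith)).const_mul c
  have hval : ∫ r in a..b, c * r ^ (l - 1) = c * ((b ^ l - a ^ l) / l) := by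
    rw [intervalIntegral.integral_const_mul, integral_rpow (Or.inl (by linarith))]
    congr 3 <;> ring_nf
  rw [← hval, intervalIntegral.integral_of_le hab, integral_Ioc_eq_integral_Ioo,
    ofReal_integral_eq_lintegral_ofReal]
  · rw [intervalIntegrable_iff_integrableOn_Ioo_of_le hab] at hint
    exact hint
  · refine (ae_restrict_iff' measurableSet_Ioo).2 (Filter.Eventually.of_forall fun r hr => ?_)
    exact mul_nonneg hc (Real.rpow_nonneg (ha.trans hr.1.le) _)

theorem kernel_eq {k s r l : ℝ} (hs : 0 < s) (hr : 0 < r) :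
    k / r * (r / s) ^ l = k * s ^ (-l) * r ^ (l - 1) := by
  rw [Real.div_rpow hr.le hs.le, Real.rpow_sub hr, Real.rpow_neg hs.le, Real.rpow_one]
  field_simp

/-- **Gronwall** in log-time, `ENNReal` version -/
theorem gronwall {k τ0 t0 : ℝ} (hk : 0 < k) (hτ : 0 < τ0) {m g : ℝ → ℝ≥0∞}
    (hg : Measurable g) (hm : Measurable m) (hm0 : ∀ t, t < τ0 → m t = 0) {B : ℝ≥0∞}
    (hB : B ≠ ⊤) (hmB : ∀ t, 0 < t → t ≤ t0 → m t ≤ B)
    (hin : ∀ t, 0 < t → t ≤ t0 →
      m t ≤ (∫⁻ s in Ioo 0 t, g s) + ∫⁻ s in Ioo 0 t, ENNReal.ofReal (k / s) * m s) :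
    ∀ t, 0 < t → t ≤ t0 → m t ≤ ∫⁻ s in Ioo 0 t, ENNReal.ofReal ((t / s) ^ k) * g s := by
  set G : ℝ → ℝ≥0∞ := fun t => ∫⁻ s in Ioo 0 t, ENNReal.ofReal ((t / s) ^ k) * g s with hGdef
  have hGm : ∀ t, Measurable fun s => ENNReal.ofReal ((t / s) ^ k) * g s := fun t =>
    (Measurable.ennreal_ofReal (by fun_prop)).mul hg
  -- the fixed point property of `G`
  have hG : ∀ t, 0 < t →
      (∫⁻ s in Ioo 0 t, g s) + ∫⁻ r in Ioo 0 t, ENNReal.ofReal (k / r) * G r ≤ G t := by
    intro t ht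
    have h1 : ∫⁻ r in Ioo 0 t, ENNReal.ofReal (k / r) * G r
        = ∫⁻ s in Ioo 0 t, ∫⁻ r in Ioo s t,
          ENNReal.ofReal (k / r) * (ENNReal.ofReal ((r / s) ^ k) * g s) := by
      rw [← lintegral_triangle t
        (f := fun s r => ENNReal.ofReal (k / r) * (ENNReal.ofReal ((r / s) ^ k) * g s))]
      · refine lintegral_congr fun r => ?_
        rw [hGdef]
        exact (lintegral_const_mul _ (hGm r)).symm
      · have m1 : Measurable fun p : ℝ × ℝ => ENNReal.ofReal (k / p.2) :=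
          Measurable.ennreal_ofReal (by fun_prop)
        have m2 : Measurable fun p : ℝ × ℝ => ENNReal.ofReal ((p.2 / p.1) ^ k) :=
          Measurable.ennreal_ofReal (by fun_prop)
        exact m1.mul (m2.mul (hg.comp measurable_fst))
    have h2 : ∀ s ∈ Ioo 0 t, g s + ∫⁻ r in Ioo s t,
          ENNReal.ofReal (k / r) * (ENNReal.ofReal ((r / s) ^ k) * g s)
        = ENNReal.ofReal ((t / s) ^ k) * g s := by
      intro s hs
      have h3 : ∫⁻ r in Ioo s t, ENNReal.ofReal (k / r) * (ENNReal.ofReal ((r / s) ^ k) * g s)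
          = (∫⁻ r in Ioo s t, ENNReal.ofReal (k * s ^ (-k) * r ^ (k - 1))) * g s := by
        rw [← lintegral_mul_const _ (Measurable.ennreal_ofReal (by fun_prop))]
        refine setLIntegral_congr_fun measurableSet_Ioo fun r hr => ?_
        have hr0 : 0 < r := hs.1.trans hr.1
        rw [← kernel_eq hs.1 hr0, ENNReal.ofReal_mul (by positivity), mul_assoc]
      rw [h3, lintegral_rpow_Ioo hs.1.le hs.2.le hk (by have := hs.1; positivity)]
      have h4 : k * s ^ (-k) * ((t ^ k - s ^ k) / k) = (t / s) ^ k - 1 := by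
        rw [Real.div_rpow ht.le hs.1.le, Real.rpow_neg hs.1.le]
        have : s ^ k ≠ 0 := (Real.rpow_pos_of_pos hs.1 k).ne'
        field_simp
      have h5 : (1 : ℝ) ≤ (t / s) ^ k :=
        Real.one_le_rpow ((one_le_div hs.1).2 hs.2.le) hk.le
      rw [h4]
      nth_rewrite 1 [← one_mul (g s)]
      rw [← add_mul, ← ENNReal.ofReal_one, ← ENNReal.ofReal_add (by norm_num) (by linarith)]
      congr 2; ring
    rw [h1, ← lintegral_add_left hg]
    exact (setLIntegral_congr_fun measurableSet_Ioo h2).le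
  -- induction
  have hind : ∀ n : ℕ, ∀ t, 0 < t → t ≤ t0 →
      m t ≤ G t + B * ENNReal.ofReal ((1 / 2) ^ n * (t / τ0) ^ (2 * k)) := by
    intro n
    induction n with
    | zero =>
      intro t ht ht0
      by_cases h : t < τ0
      · rw [hm0 t h]; exact bot_le
      · have h1 : (1 : ℝ) ≤ (t / τ0) ^ (2 * k) :=
          Real.one_le_rpow ((one_le_div hτ).2 (not_lt.1 h)) (by linarith)
        calc m t ≤ B * 1 := by rw [mul_one]; exact hmB t ht ht0
          _ ≤ B * ENNReal.ofReal ((1 / 2) ^ 0 * (t / τ0) ^ (2 * k)) := by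
            gcongr
            rw [ENNReal.one_le_ofReal]
            simpa using h1
          _ ≤ _ := le_add_self
    | succ n ih =>
      intro t ht ht0
      have hGm2 : Measurable fun s => ENNReal.ofReal (k / s) * G s := by
        have m1 : Measurable fun s : ℝ => ENNReal.ofReal (k / s) :=
          Measurable.ennreal_ofReal (by fun_prop)
        refine m1.mul ?_
        have m2 : Measurable fun p : ℝ × ℝ => {p : ℝ × ℝ | 0 < p.2 ∧ p.2 < p.1}.indicator
            (fun p => ENNReal.ofReal ((p.1 / p.2) ^ k) * g p.2) p := by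
          refine Measurable.indicator ?_ ?_
          · exact (Measurable.ennreal_ofReal (by fun_prop)).mul (hg.comp measurable_snd)
          · exact (measurableSet_lt measurable_const measurable_snd).inter
              (measurableSet_lt measurable_snd measurable_fst)
        have m3 : Measurable fun t : ℝ => ∫⁻ s : ℝ, {p : ℝ × ℝ | 0 < p.2 ∧ p.2 < p.1}.indicator
            (fun p => ENNReal.ofReal ((p.1 / p.2) ^ k) * g p.2) (t, s) :=
          m2.lintegral_prod_right'
        have e : G = fun t : ℝ => ∫⁻ s : ℝ, {p : ℝ × ℝ | 0 < p.2 ∧ p.2 < p.1}.indicator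
            (fun p => ENNReal.ofReal ((p.1 / p.2) ^ k) * g p.2) (t, s) := by
          funext t
          rw [hGdef]
          simp only
          rw [← lintegral_indicator measurableSet_Ioo]
          rfl
        rw [e]; exact m3
      calc m t ≤ (∫⁻ s in Ioo 0 t, g s) + ∫⁻ s in Ioo 0 t, ENNReal.ofReal (k / s) * m s :=
            hin t ht ht0
        _ ≤ (∫⁻ s in Ioo 0 t, g s) + ∫⁻ s in Ioo 0 t, (ENNReal.ofReal (k / s) * G s
            + B * ENNReal.ofReal ((1 / 2) ^ n * (k * τ0 ^ (-(2 * k))) * s ^ (2 * k - 1))) := by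
            refine add_le_add le_rfl (setLIntegral_mono' measurableSet_Ioo fun s hs => ?_)
            calc ENNReal.ofReal (k / s) * m s
                ≤ ENNReal.ofReal (k / s) *
                  (G s + B * ENNReal.ofReal ((1 / 2) ^ n * (s / τ0) ^ (2 * k))) := by
                  gcongr; exact ih s hs.1 (hs.2.le.trans ht0)
              _ = ENNReal.ofReal (k / s) * G s + B * (ENNReal.ofReal (k / s) *
                  ENNReal.ofReal ((1 / 2) ^ n * (s / τ0) ^ (2 * k))) := by ring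
              _ = _ := by
                  have hs0 := hs.1
                  have e := kernel_eq (k := k) (l := 2 * k) hτ hs0
                  rw [← ENNReal.ofReal_mul (by positivity), mul_assoc ((1 / 2 : ℝ) ^ n), ← e]
                  congr 3
                  ring
        _ = ((∫⁻ s in Ioo 0 t, g s) + ∫⁻ s in Ioo 0 t, ENNReal.ofReal (k / s) * G s)
            + B * ∫⁻ s in Ioo 0 t, ENNReal.ofReal
              ((1 / 2) ^ n * (k * τ0 ^ (-(2 * k))) * s ^ (2 * k - 1)) := by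
            rw [lintegral_add_left hGm2, add_assoc, lintegral_const_mul _
              (Measurable.ennreal_ofReal (by fun_prop))]
        _ ≤ G t + B * ENNReal.ofReal ((1 / 2) ^ (n + 1) * (t / τ0) ^ (2 * k)) := by
            refine add_le_add (hG t ht) ?_
            rw [lintegral_rpow_Ioo le_rfl ht.le (by linarith) (by positivity)]
            refine mul_le_mul_right (ENNReal.ofReal_le_ofReal (le_of_eq ?_)) _
            rw [Real.zero_rpow (by linarith), Real.div_rpow ht.le hτ.le, Real.rpow_neg hτ.le]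
            have : τ0 ^ (2 * k) ≠ 0 := (Real.rpow_pos_of_pos hτ _).ne'
            field_simp
            ring
  intro t ht ht0
  have hlim : Filter.Tendsto (fun n : ℕ => G t + B * ENNReal.ofReal ((1 / 2) ^ n *
      (t / τ0) ^ (2 * k))) Filter.atTop (nhds (G t + B * 0)) := by
    refine Filter.Tendsto.const_add _ (ENNReal.Tendsto.const_mul ?_ (Or.inr hB))
    rw [← ENNReal.ofReal_zero]
    refine ENNReal.tendsto_ofReal ?_
    have := (tendsto_pow_atTop_nhds_zero_of_lt_one (r := (1 / 2 : ℝ)) (by norm_num)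
      (by norm_num)).mul_const ((t / τ0) ^ (2 * k))
    rwa [zero_mul] at this
  have := ge_of_tendsto hlim (Filter.Eventually.of_forall fun n => hind n t ht ht0)
  rwa [mul_zero, add_zero] at this

end Crest.Agent.R68.X
end
end

-- ▼ part R68/X1a
section

/-!
# Row 68, PART X: upper growth estimate (X1), abstract form
-/

set_option autoImplicit false
open MeasureTheory Set Filter
open scoped ENNReal Real
open Crest.AnalysisR.VecCalc3 Crest.AnalysisR.PDE.Boltzmann

noncomputable section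

namespace Crest.Agent.R68.X1

open Crest.Agent.R68.A Crest.Agent.R68.L Crest.Agent.R68.X

theorem en_eq_dec (a : ℝ≥0∞) : en a = D.dec a := by
  by_cases ha : a = ⊤
  · simp [ha]
  · rw [D.dec_of_ne_top ha, ← en_coe_ofReal ENNReal.toReal_nonneg, ENNReal.ofReal_toReal ha]

/-- damping identity along a flight -/
theorem en_ftc {α : ℝ → ℝ≥0∞} (hα : Measurable α) {s t : ℝ} (hst : s ≤ t)
    (hfin : ∫⁻ τ in Ioo s t, α τ ≠ ⊤) :
    en (∫⁻ τ in Ioo s t, α τ) + ∫⁻ τ in Ioo s t, α τ * en (∫⁻ r in Ioo s τ, α r) = 1 := by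
  simp_rw [en_eq_dec]
  exact D.dec_ftc hα hst (lt_top_iff_ne_top.2 hfin)

/-- phase space integrals along the flow: shift invariance and Tonelli -/
theorem shift {g : Den} (hg : Meas3 g) (hp : ∀ t v, PerG fun x => g t x v) (t : ℝ) (S : Set ℝ) :
    ∫⁻ x in cellG, ∫⁻ v, ∫⁻ s in S, g s (x - (t - s) • bar v) v
      = ∫⁻ s in S, ∫⁻ x in cellG, ∫⁻ v, g s x v := by
  have m1 : Measurable fun p : (P2 × R3) × ℝ => g p.2 (p.1.1 - (t - p.2) • bar p.1.2) p.1.2 :=
    hg.comp (by fun_prop) (by fun_prop) (by fun_prop)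
  calc ∫⁻ x in cellG, ∫⁻ v, ∫⁻ s in S, g s (x - (t - s) • bar v) v
      = ∫⁻ x in cellG, ∫⁻ s in S, ∫⁻ v, g s (x - (t - s) • bar v) v := by
        refine lintegral_congr fun x => ?_
        refine lintegral_lintegral_swap ?_
        exact (hg.comp (by fun_prop) (by fun_prop) (by fun_prop) :
          Measurable fun p : R3 × ℝ => g p.2 (x - (t - p.2) • bar p.1) p.1).aemeasurable
    _ = ∫⁻ s in S, ∫⁻ x in cellG, ∫⁻ v, g s (x - (t - s) • bar v) v := by
        refine lintegral_lintegral_swap ?_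
        have m2 : Measurable fun p : (P2 × ℝ) × R3 => g p.1.2 (p.1.1 - (t - p.1.2) • bar p.2) p.2 :=
          hg.comp (by fun_prop) (by fun_prop) (by fun_prop)
        exact m2.lintegral_prod_right'.aemeasurable
    _ = _ := by
        refine lintegral_congr fun s => ?_
        have a1 : AEMeasurable (Function.uncurry fun (x : P2) (v : R3) =>
            g s (x - (t - s) • bar v) v) ((volume.restrict cellG).prod volume) :=
          (hg.comp (by fun_prop) (by fun_prop) (by fun_prop) :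
            Measurable fun p : P2 × R3 => g s (p.1 - (t - s) • bar p.2) p.2).aemeasurable
        have a2 : AEMeasurable (Function.uncurry fun (x : P2) (v : R3) =>
            g s x v) ((volume.restrict cellG).prod volume) :=
          (hg.comp (by fun_prop) (by fun_prop) (by fun_prop) :
            Measurable fun p : P2 × R3 => g s p.1 p.2).aemeasurable
        rw [lintegral_lintegral_swap a1, lintegral_lintegral_swap a2]
        refine lintegral_congr fun v => ?_
        have hm : Measurable fun x => g s x v := hg.comp (by fun_prop) (by fun_prop) (by fun_prop)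
        have := lintegral_cellG_add hm (hp s v) (-((t - s) • bar v))
        rw [← this]
        rfl


/-- the frame of the fuel `φ` -/
structure Frame (φ : Den) (c : ℝ → P2 → R3) (t0 Cc K : ℝ) : Prop where
  mc : Measurable fun p : ℝ × P2 => c p.1 p.2
  per : ∀ t x k, c t (x + latt k) = c t x
  near : ∀ t, 0 < t → t ≤ t0 → ∀ x, NearFrame (φ t x) (c t x)
  dens : ∀ t, 0 < t → t ≤ t0 → ∀ x, ∫⁻ u, φ t x u ≤ ENNReal.ofReal (K / t)
  anti : ∀ s t x v, 0 < s → s ≤ t → t ≤ t0 →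
    ENNReal.ofReal (Real.exp (-(Cc * √t))) * Ze (c t x) v
      ≤ ENNReal.ofReal (Real.exp (-(Cc * √s))) * Ze (c s (x - (t - s) • bar v)) v

variable {φ H σ : Den} {c : ℝ → P2 → R3} {t0 Cc K : ℝ}

/-- damped time weight -/
def zw (c : ℝ → P2 → R3) (Cc : ℝ) : Den := fun t x v =>
  ENNReal.ofReal (Real.exp (-(Cc * √t))) * Ze (c t x) v

theorem measurable_frame (hc : Measurable fun p : ℝ × P2 => c p.1 p.2) :
    Measurable fun p : ℝ × P2 × R3 => c p.1 p.2.1 :=
  hc.comp (measurable_fst.prodMk (measurable_fst.comp measurable_snd))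

theorem measurable_frame2 (hc : Measurable fun p : ℝ × P2 => c p.1 p.2) :
    Measurable fun p : ℝ × P2 × R3 => ((c p.1 p.2.1, p.2.2) : R3 × R3) :=
  (measurable_frame hc).prodMk (measurable_snd.comp measurable_snd)

theorem measurable_ZeF (hc : Measurable fun p : ℝ × P2 => c p.1 p.2) :
    Measurable fun p : ℝ × P2 × R3 => Ze (c p.1 p.2.1) p.2.2 :=
  Measurable.comp (g := fun p : R3 × R3 => Ze p.1 p.2)
    (f := fun p : ℝ × P2 × R3 => (c p.1 p.2.1, p.2.2)) measurable_Ze2 (measurable_frame2 hc)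

theorem measurable_damp : Measurable fun p : ℝ × P2 × R3 =>
    ENNReal.ofReal (Real.exp (-(Cc * √p.1))) := by
  have h3 : Measurable fun t : ℝ => ENNReal.ofReal (Real.exp (-(Cc * √t))) :=
    Measurable.ennreal_ofReal (by fun_prop)
  exact h3.comp measurable_fst

theorem meas3_zw (hc : Measurable fun p : ℝ × P2 => c p.1 p.2) : Meas3 (zw c Cc) :=
  measurable_damp.mul (measurable_ZeF hc)

theorem zw_per (hp : ∀ t x k, c t (x + latt k) = c t x) (t : ℝ) (v : R3) :
    PerG fun x => zw c Cc t x v := by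
  intro x k
  simp only [zw, hp]

/-- collisional inequality at one time, integrated over the cell -/
theorem coll_int (hφ : Meas3 φ) (hH : Meas3 H) (hf : Frame φ c t0 Cc K) {t : ℝ} (ht : 0 < t)
    (ht0 : t ≤ t0) :
    ∫⁻ x in cellG, ∫⁻ v, zw c Cc t x v * Gf φ H t x v
      ≤ (∫⁻ x in cellG, ∫⁻ v, zw c Cc t x v * (Lc (φ t x) v * H t x v))
        + ENNReal.ofReal (3.56 * π * K / t) * ∫⁻ x in cellG, ∫⁻ v, zw c Cc t x v * H t x v := by
  have hm1 : Meas3 (fun t x v => zw c Cc t x v * (Lc (φ t x) v * H t x v)) := by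
    have h1 := meas3_zw (Cc := Cc) hf.mc
    have h2 := meas3_Lc hφ
    unfold Meas3 at *
    exact h1.mul (h2.mul hH)
  have hm2 : Meas3 (fun t x v => zw c Cc t x v * H t x v) := by
    have h1 := meas3_zw (Cc := Cc) hf.mc
    unfold Meas3 at *
    exact h1.mul hH
  have s1 : Measurable fun x : P2 => ∫⁻ v, zw c Cc t x v * H t x v := by
    have : Measurable fun p : P2 × R3 => zw c Cc t p.1 p.2 * H t p.1 p.2 :=
      hm2.comp (f := fun _ => t) (g := Prod.fst) (h := Prod.snd) measurable_const measurable_fst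
        measurable_snd
    exact this.lintegral_prod_right'
  have s2 : Measurable fun x : P2 => ∫⁻ v, zw c Cc t x v * (Lc (φ t x) v * H t x v) := by
    have : Measurable fun p : P2 × R3 =>
        zw c Cc t p.1 p.2 * (Lc (φ t p.1) p.2 * H t p.1 p.2) :=
      hm1.comp (f := fun _ => t) (g := Prod.fst) (h := Prod.snd) measurable_const measurable_fst
        measurable_snd
    exact this.lintegral_prod_right'
  rw [← lintegral_const_mul _ s1, ← lintegral_add_left s2]
  refine lintegral_mono fun x => ?_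
  have h := coll (hφ.slice t x) (hH.slice t x) (hf.near t ht ht0 x)
  have hd := hf.dens t ht ht0 x
  have e : ∀ (f : R3 → ℝ≥0∞), ∫⁻ v, zw c Cc t x v * f v
      = ENNReal.ofReal (Real.exp (-(Cc * √t))) * ∫⁻ v, Ze (c t x) v * f v := by
    intro f
    rw [← lintegral_const_mul' _ _ ENNReal.ofReal_ne_top]
    refine lintegral_congr fun v => ?_
    unfold zw; rw [mul_assoc]
  rw [e, e, e]
  calc ENNReal.ofReal (Real.exp (-(Cc * √t))) * ∫⁻ v, Ze (c t x) v * Gf φ H t x v
      ≤ ENNReal.ofReal (Real.exp (-(Cc * √t))) * ((∫⁻ v, Ze (c t x) v * (Lc (φ t x) v * H t x v))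
        + ENNReal.ofReal (3.56 * π) * ENNReal.ofReal (K / t) * ∫⁻ v, Ze (c t x) v * H t x v) := by
        gcongr
        refine h.trans ?_
        gcongr
    _ = _ := by
        rw [← ENNReal.ofReal_mul (by positivity), mul_add]
        congr 1
        rw [show 3.56 * π * (K / t) = 3.56 * π * K / t by ring]
        ring

end Crest.Agent.R68.X1
end
end

-- ▼ part R68/X1b
section

/-!
# Row 68, PART X: upper growth estimate (X1), abstract form, main theorem
-/

set_option autoImplicit false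
open MeasureTheory Set Filter
open scoped ENNReal Real
open Crest.AnalysisR.VecCalc3 Crest.AnalysisR.PDE.Boltzmann

noncomputable section

namespace Crest.Agent.R68.X1

open Crest.Agent.R68.A Crest.Agent.R68.L Crest.Agent.R68.X

variable {φ H σ : Den} {c : ℝ → P2 → R3} {t0 Cc K : ℝ}

/-- weighted mass with the damped weight -/
def mz (c : ℝ → P2 → R3) (Cc : ℝ) (h : Den) (t : ℝ) : ℝ≥0∞ :=
  ∫⁻ x in cellG, ∫⁻ v, zw c Cc t x v * h t x v

/-- weighted loss -/
def nz (φ : Den) (c : ℝ → P2 → R3) (Cc : ℝ) (h : Den) (t : ℝ) : ℝ≥0∞ :=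
  ∫⁻ x in cellG, ∫⁻ v, Lc (φ t x) v * (zw c Cc t x v * h t x v)

theorem meas_int {g : Den} (hg : Meas3 g) : Measurable fun t => ∫⁻ x in cellG, ∫⁻ v, g t x v := by
  have h1 : Measurable fun p : (ℝ × P2) × R3 => g p.1.1 p.1.2 p.2 :=
    hg.comp (f := fun p : (ℝ × P2) × R3 => p.1.1) (g := fun p => p.1.2) (h := fun p => p.2)
      (measurable_fst.comp measurable_fst) (measurable_snd.comp measurable_fst) measurable_snd
  have h2 : Measurable fun p : ℝ × P2 => ∫⁻ v, g p.1 p.2 v := h1.lintegral_prod_right'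
  exact h2.lintegral_prod_right'

theorem meas_slice {g : Den} (hg : Meas3 g) (t : ℝ) : Measurable fun x => ∫⁻ v, g t x v := by
  have h1 : Measurable fun p : P2 × R3 => g t p.1 p.2 :=
    hg.comp (f := fun _ => t) (g := Prod.fst) (h := Prod.snd) measurable_const measurable_fst
        measurable_snd
  exact h1.lintegral_prod_right'

theorem meas_slice1 {g : Den} (hg : Meas3 g) (t : ℝ) (x : P2) : Measurable fun v => g t x v :=
  hg.comp (f := fun _ => t) (g := fun _ => x) (h := fun v => v) measurable_const measurable_const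
        measurable_id

theorem int_add {g h : Den} (hg : Meas3 g) (t : ℝ) :
    ∫⁻ x in cellG, ∫⁻ v, (g t x v + h t x v)
      = (∫⁻ x in cellG, ∫⁻ v, g t x v) + ∫⁻ x in cellG, ∫⁻ v, h t x v := by
  rw [← lintegral_add_left (meas_slice hg t)]
  exact lintegral_congr fun x => lintegral_add_left (meas_slice1 hg t x) _

/-- the pointwise flight inequality -/
theorem flight_ineq (hφ : Meas3 φ) (hH : Meas3 H) (hσ : Meas3 σ) (hf : Frame φ c t0 Cc K)
    (hacc : ∀ s t x v, 0 < s → s ≤ t → t ≤ t0 → Acc φ s t x v ≠ ⊤)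
    (heq : ∀ t, 0 < t → t ≤ t0 → ∀ x v,
      H t x v ≤ Dam φ (fun t x v => Gf φ H t x v + σ t x v) t x v)
    {t : ℝ} (ht : 0 < t) (ht0 : t ≤ t0) (x : P2) (v : R3) :
    zw c Cc t x v * H t x v + ∫⁻ r in Ioo 0 t, Lc (φ r (x - (t - r) • bar v)) v *
        (zw c Cc r (x - (t - r) • bar v) v * H r (x - (t - r) • bar v) v)
      ≤ ∫⁻ s in Ioo 0 t, zw c Cc s (x - (t - s) • bar v) v *
        (Gf φ H s (x - (t - s) • bar v) v + σ s (x - (t - s) • bar v) v) := by
  have hz := meas3_zw (Cc := Cc) hf.mc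
  have hq : Meas3 (fun t x v => Gf φ H t x v + σ t x v) := Meas3.add (meas3_Gf hφ hH) hσ
  have hν : Measurable fun r => Lc (φ r (x - (t - r) • bar v)) v := measurable_Lc_flight hφ t x v
  have hE : Measurable (Function.uncurry fun s r : ℝ =>
      en (∫⁻ τ in Ioo s r, Lc (φ τ (x - (t - τ) • bar v)) v)) := by
    refine measurable_en.comp ?_
    exact A.measurable_lintegral_Ioo (α := ℝ × ℝ)
      (q := fun z : (ℝ × ℝ) × ℝ => Lc (φ z.2 (x - (t - z.2) • bar v)) v)
      (hν.comp measurable_snd) measurable_fst measurable_snd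
  have hfl := flight ht (ν := fun r => Lc (φ r (x - (t - r) • bar v)) v)
    (q := fun s => Gf φ H s (x - (t - s) • bar v) v + σ s (x - (t - s) • bar v) v)
    (z := fun s => zw c Cc s (x - (t - s) • bar v) v)
    (E := fun s r => en (∫⁻ τ in Ioo s r, Lc (φ τ (x - (t - τ) • bar v)) v))
    (h := fun r => H r (x - (t - r) • bar v) v) hν (measurable_flight hq t x v) hE
    (by
      intro s hs hst
      have hfin : ∫⁻ τ in Ioo s t, Lc (φ τ (x - (t - τ) • bar v)) v ≠ ⊤ :=
        hacc s t x v hs hst.le ht0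
      exact (en_ftc hν hst.le hfin).le)
    (by
      intro s r hs hsr hrt
      have h := hf.anti s r (x - (t - r) • bar v) v hs hsr (hrt.trans ht0)
      rw [flight_pos] at h
      exact h)
    (by
      intro r hr hrt
      have h := heq r hr (hrt.trans ht0) (x - (t - r) • bar v) v
      unfold Dam at h
      simp only [flight_pos] at h
      refine h.trans (le_of_eq (setLIntegral_congr_fun measurableSet_Ioo fun s _ => ?_))
      have e : Acc φ s r (x - (t - r) • bar v) v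
          = ∫⁻ τ in Ioo s r, Lc (φ τ (x - (t - τ) • bar v)) v := by
        unfold A.Acc
        refine lintegral_congr fun τ => ?_
        rw [flight_pos]
      simp only [e]
      rw [mul_comm])
    (measurable_flight hz t x v)
  simpa using hfl

/-- **(X1), abstract form** -/
theorem x1_abs (hφ : Meas3 φ) (hφp : ∀ t v, PerG fun x => φ t x v) (hH : Meas3 H)
    (hHp : ∀ t v, PerG fun x => H t x v) (hσ : Meas3 σ) (hσp : ∀ t v, PerG fun x => σ t x v)
    (hf : Frame φ c t0 Cc K) (hK : 0 < K)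
    (hacc : ∀ s t x v, 0 < s → s ≤ t → t ≤ t0 → Acc φ s t x v ≠ ⊤)
    (heq : ∀ t, 0 < t → t ≤ t0 → ∀ x v,
      H t x v ≤ Dam φ (fun t x v => Gf φ H t x v + σ t x v) t x v)
    {τ0 : ℝ} (hτ : 0 < τ0) (h0 : ∀ t, t < τ0 → ∀ x v, H t x v = 0)
    {B : ℝ≥0∞} (hB : B ≠ ⊤) (hMB : ∀ t, 0 < t → t ≤ t0 → mz c Cc H t ≤ B)
    (hN : ∀ t, 0 < t → t ≤ t0 → ∫⁻ s in Ioo 0 t, nz φ c Cc H s ≠ ⊤) :
    ∀ t, 0 < t → t ≤ t0 →
      mz c Cc H t ≤ ∫⁻ s in Ioo 0 t, ENNReal.ofReal ((t / s) ^ (3.56 * π * K)) * mz c Cc σ s := by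
  have hz := meas3_zw (Cc := Cc) hf.mc
  have hzH : Meas3 fun t x v => zw c Cc t x v * H t x v := Measurable.mul hz hH
  have hzσ : Meas3 fun t x v => zw c Cc t x v * σ t x v := Measurable.mul hz hσ
  have hzG : Meas3 fun t x v => zw c Cc t x v * Gf φ H t x v := Measurable.mul hz (meas3_Gf hφ hH)
  have hnz : Meas3 fun t x v => Lc (φ t x) v * (zw c Cc t x v * H t x v) :=
    Measurable.mul (meas3_Lc hφ) hzH
  have hφx : ∀ t x k, φ t (x + latt k) = φ t x := fun t x k => funext fun v => hφp t v x k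
  have hHx : ∀ t x k, H t (x + latt k) = H t x := fun t x k => funext fun v => hHp t v x k
  have hzx := zw_per (Cc := Cc) hf.per
  refine gronwall (by positivity) hτ (meas_int hzσ) (meas_int hzH) ?_ hB hMB ?_
  · intro t ht
    simp [mz, h0 t ht]
  intro t ht ht0
  -- integrate the flight inequality
  have h1 : mz c Cc H t + ∫⁻ s in Ioo 0 t, nz φ c Cc H s
      ≤ ∫⁻ s in Ioo 0 t, ∫⁻ x in cellG, ∫⁻ v,
        (zw c Cc s x v * Gf φ H s x v + zw c Cc s x v * σ s x v) := by
    have e1 : ∫⁻ s in Ioo 0 t, nz φ c Cc H s = ∫⁻ x in cellG, ∫⁻ v, ∫⁻ r in Ioo 0 t,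
        Lc (φ r (x - (t - r) • bar v)) v *
        (zw c Cc r (x - (t - r) • bar v) v * H r (x - (t - r) • bar v) v) := by
      refine (shift hnz (fun s v x k => ?_) t _).symm
      simp only [hφx, hzx s v x k, hHx]
    have e2 : ∫⁻ s in Ioo 0 t, ∫⁻ x in cellG, ∫⁻ v,
        (zw c Cc s x v * Gf φ H s x v + zw c Cc s x v * σ s x v)
        = ∫⁻ x in cellG, ∫⁻ v, ∫⁻ s in Ioo 0 t, (zw c Cc s (x - (t - s) • bar v) v *
          Gf φ H s (x - (t - s) • bar v) v + zw c Cc s (x - (t - s) • bar v) v *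
          σ s (x - (t - s) • bar v) v) := by
      refine (shift (g := fun s x v => zw c Cc s x v * Gf φ H s x v + zw c Cc s x v * σ s x v)
        (Meas3.add hzG hzσ) (fun s v x k => ?_) t _).symm
      simp only [hφx, hzx s v x k, hHx, Gf, hσp s v x k]
    rw [e1, e2]
    unfold mz
    rw [← lintegral_add_left (meas_slice hzH t)]
    refine lintegral_mono fun x => ?_
    rw [← lintegral_add_left (meas_slice1 hzH t x)]
    refine lintegral_mono fun v => ?_
    have h := flight_ineq hφ hH hσ hf hacc heq ht ht0 x v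
    simpa only [mul_add] using h
  have h2 : ∫⁻ s in Ioo 0 t, ∫⁻ x in cellG, ∫⁻ v,
        (zw c Cc s x v * Gf φ H s x v + zw c Cc s x v * σ s x v)
      ≤ ∫⁻ s in Ioo 0 t, (nz φ c Cc H s + (mz c Cc σ s +
        ENNReal.ofReal (3.56 * π * K / s) * mz c Cc H s)) := by
    refine setLIntegral_mono' measurableSet_Ioo fun s hs => ?_
    have hia := int_add (g := fun t x v => zw c Cc t x v * Gf φ H t x v)
      (h := fun t x v => zw c Cc t x v * σ t x v) hzG s
    refine hia.le.trans ?_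
    have h3 := coll_int (Cc := Cc) hφ hH hf hs.1 (hs.2.le.trans ht0)
    have e3 : ∫⁻ x in cellG, ∫⁻ v, zw c Cc s x v * (Lc (φ s x) v * H s x v)
        = nz φ c Cc H s := by
      unfold nz
      refine lintegral_congr fun x => lintegral_congr fun v => ?_
      ring
    rw [e3] at h3
    calc _ ≤ (nz φ c Cc H s + ENNReal.ofReal (3.56 * π * K / s) * mz c Cc H s)
          + mz c Cc σ s := add_le_add h3 le_rfl
      _ = _ := by ring
  have h4 : ∫⁻ s in Ioo 0 t, (nz φ c Cc H s + (mz c Cc σ s +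
        ENNReal.ofReal (3.56 * π * K / s) * mz c Cc H s))
      = (∫⁻ s in Ioo 0 t, nz φ c Cc H s) + ((∫⁻ s in Ioo 0 t, mz c Cc σ s)
        + ∫⁻ s in Ioo 0 t, ENNReal.ofReal (3.56 * π * K / s) * mz c Cc H s) := by
    have m1 : Measurable (nz φ c Cc H) := meas_int hnz
    have m2 : Measurable (mz c Cc σ) := meas_int hzσ
    rw [lintegral_add_left m1, lintegral_add_left m2]
  have h5 := h1.trans (h2.trans h4.le)
  rw [add_comm (mz c Cc H t)] at h5
  exact (ENNReal.add_le_add_iff_left (hN t ht ht0)).1 h5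

end Crest.Agent.R68.X1
end
end

-- ▼ part R68/X1c
section

/-!
# Row 68, PART X: the frame (periodised clamp of `x₂ / (t + r)`), monotonicity along flights
-/

set_option autoImplicit false
open MeasureTheory Set Filter
open scoped ENNReal Real
open Crest.AnalysisR.VecCalc3 Crest.AnalysisR.PDE.Boltzmann

noncomputable section

namespace Crest.Agent.R68.X1

/-! ### clamp -/

/-- clamp to `[-M, M]` -/
def cl (M w : ℝ) : ℝ := max (-M) (min M w)

theorem cl_of_abs_le {M w : ℝ} (h : |w| ≤ M) : cl M w = w := by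
  unfold cl
  rw [abs_le] at h
  rw [min_eq_right h.2, max_eq_right h.1]

theorem abs_cl_le {M : ℝ} (hM : 0 ≤ M) (w : ℝ) : |cl M w| ≤ M := by
  unfold cl
  rw [abs_le]
  exact ⟨le_max_left _ _, max_le (by linarith) (min_le_left _ _)⟩

theorem cl_mono {M w w' : ℝ} (h : w ≤ w') : cl M w ≤ cl M w' := by
  unfold cl; gcongr

theorem abs_cl_sub {M w w' : ℝ} : |cl M w - cl M w'| ≤ |w - w'| := by
  unfold cl
  calc |max (-M) (min M w) - max (-M) (min M w')| ≤ |min M w - min M w'| := by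
        have := abs_max_sub_max_le_abs (-M) (min M w) (min M w')
        simpa [max_comm] using abs_max_sub_max_le_abs (min M w) (min M w') (-M)
    _ ≤ |w - w'| := by
        have := abs_min_sub_min_le_max M w M w'
        simpa using this

theorem abs_cl_sub_M {M M' w : ℝ} : |cl M w - cl M' w| ≤ |M - M'| := by
  unfold cl
  refine (abs_max_sub_max_le_max _ _ _ _).trans (max_le ?_ ?_)
  · rw [show -M - -M' = -(M - M') by ring, abs_neg]
  · refine (abs_min_sub_min_le_max _ _ _ _).trans ?_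
    simp

theorem cl_of_ge {M w : ℝ} (h0 : 0 ≤ M) (h : M ≤ w) : cl M w = M := by
  unfold cl; rw [min_eq_left h, max_eq_right (by linarith)]

theorem cl_of_le {M w : ℝ} (h0 : 0 ≤ M) (h : w ≤ -M) : cl M w = -M := by
  unfold cl; rw [min_eq_right (by linarith), max_eq_left h]

/-- moving `w` towards `v` moves the clamp towards `v` -/
theorem cl_proj {M v w θ : ℝ} (hM : 0 ≤ M) (h0 : 0 ≤ θ) (h1 : θ ≤ 1) :
    |v - cl M (v + θ * (w - v))| ≤ |v - cl M w| := by
  rcases le_total v w with h | h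
  · -- v ≤ w' ≤ w
    have a1 : v ≤ v + θ * (w - v) := by nlinarith
    have a2 : v + θ * (w - v) ≤ w := by nlinarith
    have b1 := cl_mono (M := M) a1
    have b2 := cl_mono (M := M) a2
    rcases le_total (-M) v with h2 | h2
    · rcases le_total v M with h3 | h3
      · rw [cl_of_abs_le (abs_le.2 ⟨h2, h3⟩)] at b1
        rw [abs_of_nonpos (by linarith), abs_of_nonpos (by linarith)]; linarith
      · rw [cl_of_ge hM (h3.trans a1), cl_of_ge hM ((h3.trans a1).trans a2)]
    · have c1 := abs_le.1 (abs_cl_le hM (v + θ * (w - v)))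
      have c2 := abs_le.1 (abs_cl_le hM w)
      rw [abs_of_nonpos (by linarith), abs_of_nonpos (by linarith)]; linarith
  · have a1 : v + θ * (w - v) ≤ v := by nlinarith
    have a2 : w ≤ v + θ * (w - v) := by nlinarith
    have b1 := cl_mono (M := M) a1
    have b2 := cl_mono (M := M) a2
    rcases le_total v M with h2 | h2
    · rcases le_total (-M) v with h3 | h3
      · rw [cl_of_abs_le (abs_le.2 ⟨h3, h2⟩)] at b1
        rw [abs_of_nonneg (by linarith), abs_of_nonneg (by linarith)]; linarith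
      · rw [cl_of_le hM (a1.trans h3), cl_of_le hM ((a2.trans a1).trans h3)]
    · have c1 := abs_le.1 (abs_cl_le hM (v + θ * (w - v)))
      have c2 := abs_le.1 (abs_cl_le hM w)
      rw [abs_of_nonneg (by linarith), abs_of_nonneg (by linarith)]; linarith

/-- change of the denominator, clamp of level `M` -/
theorem cl_ratio {M X A B m : ℝ} (hM : 0 ≤ M) (hm : 0 < m) (hA : m ≤ A) (hB : m ≤ B) :
    |cl M (X / A) - cl M (X / B)| ≤ M * (|A - B| / m) := by
  have hA0 : 0 < A := hm.trans_le hA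
  have hB0 : 0 < B := hm.trans_le hB
  have key : ∀ {X A B : ℝ}, 0 < A → 0 < B → m ≤ B → |X / A| ≤ M →
      |cl M (X / A) - cl M (X / B)| ≤ M * (|A - B| / m) := by
    intro X A B hA0 hB0 hB h
    refine abs_cl_sub.trans ?_
    have e : X / A - X / B = (X / A) * ((B - A) / B) := by field_simp
    rw [e, abs_mul, abs_div (B - A), abs_of_pos hB0, abs_sub_comm B A]
    gcongr
  rcases le_total |X / A| M with h | h
  · exact key hA0 hB0 hB h
  rcases le_total |X / B| M with h' | h'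
  · rw [abs_sub_comm, abs_sub_comm A B]
    exact key hB0 hA0 hA h'
  -- both clamped with the same sign
  have hz : cl M (X / A) = cl M (X / B) := by
    rcases le_total 0 X with hX | hX
    · rw [abs_of_nonneg (by positivity)] at h h'
      rw [cl_of_ge hM h, cl_of_ge hM h']
    · rw [abs_of_nonpos (div_nonpos_of_nonpos_of_nonneg hX hA0.le)] at h
      rw [abs_of_nonpos (div_nonpos_of_nonpos_of_nonneg hX hB0.le)] at h'
      rw [cl_of_le hM (by linarith), cl_of_le hM (by linarith)]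
  rw [hz, sub_self, abs_zero]
  positivity

/-- labels: `r(ℓ) = ℓ²` -/
theorem cl_label {M X t l l' h : ℝ} (hM : 0 ≤ M) (ht : 0 < t) (hh : |l - l'| ≤ h) :
    |cl M (X / (t + l ^ 2)) - cl M (X / (t + l' ^ 2))| ≤ 4 * M * (h / √t) := by
  have hh0 : 0 ≤ h := (abs_nonneg _).trans hh
  have hst : 0 < √t := Real.sqrt_pos.2 ht
  have hts : √t ^ 2 = t := Real.sq_sqrt ht.le
  by_cases hc : 1 ≤ h / √t
  · have h1 := abs_cl_le hM (X / (t + l ^ 2))
    have h2 := abs_cl_le hM (X / (t + l' ^ 2))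
    have h3 := abs_sub (cl M (X / (t + l ^ 2))) (cl M (X / (t + l' ^ 2)))
    nlinarith
  · push Not at hc
    set m := min |l| |l'| with hm
    have hm0 : 0 ≤ m := le_min (abs_nonneg _) (abs_nonneg _)
    have e1 : t + m ^ 2 ≤ t + l ^ 2 := by
      rw [← sq_abs l]; gcongr; exact min_le_left _ _
    have e2 : t + m ^ 2 ≤ t + l' ^ 2 := by
      rw [← sq_abs l']; gcongr; exact min_le_right _ _
    refine (cl_ratio hM (m := t + m ^ 2) (by positivity) e1 e2).trans ?_
    have e3 : |t + l ^ 2 - (t + l' ^ 2)| ≤ h * (2 * m + h) := by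
      have : t + l ^ 2 - (t + l' ^ 2) = (l - l') * (l + l') := by ring
      rw [this, abs_mul]
      have h4 : |l + l'| ≤ 2 * m + h := by
        rcases le_total |l| |l'| with h5 | h5
        · rw [hm, min_eq_left h5]
          have : l + l' = 2 * l - (l - l') := by ring
          rw [this]
          refine (abs_sub _ _).trans ?_
          rw [abs_mul]; norm_num; linarith
        · rw [hm, min_eq_right h5]
          have : l + l' = 2 * l' + (l - l') := by ring
          rw [this]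
          refine (abs_add_le _ _).trans ?_
          rw [abs_mul]; norm_num; linarith
      gcongr
    have e4 : |t + l ^ 2 - (t + l' ^ 2)| / (t + m ^ 2) ≤ 2 * (h / √t) := by
      rw [div_le_iff₀ (by positivity)]
      refine e3.trans ?_
      have h6 : h ^ 2 ≤ (h / √t) * t := by
        have : h = (h / √t) * √t := by field_simp
        calc h ^ 2 = (h / √t) * ((h / √t) * √t ^ 2) := by rw [this]; field_simp
          _ ≤ (h / √t) * (1 * √t ^ 2) := by gcongr
          _ = _ := by rw [hts, one_mul]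
      have h7 : 2 * m * √t ≤ t + m ^ 2 := by nlinarith [sq_nonneg (m - √t)]
      have h8 : h * (2 * m) ≤ (h / √t) * (t + m ^ 2) := by
        have : h * (2 * m) = (h / √t) * (2 * m * √t) := by field_simp
        rw [this]; gcongr
      have h9 : (h / √t) * t ≤ (h / √t) * (t + m ^ 2) := by
        gcongr; nlinarith [sq_nonneg m]
      nlinarith
    calc M * (|t + l ^ 2 - (t + l' ^ 2)| / (t + m ^ 2)) ≤ M * (2 * (h / √t)) := by gcongr
      _ ≤ 4 * M * (h / √t) := by
        have : 0 ≤ M * (h / √t) := by positivity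
        linarith

/-! ### the frame, one period -/

/-- cutoff: `1` for `‖x‖ ≤ 1/5`, `0` for `‖x‖ ≥ 3/10` -/
def chi (x : P2) : ℝ := max 0 (min 1 (3 - 10 * ‖x‖))

theorem chi_nonneg (x : P2) : 0 ≤ chi x := le_max_left _ _
theorem chi_le_one (x : P2) : chi x ≤ 1 := max_le zero_le_one (min_le_left _ _)
theorem chi_eq_one {x : P2} (h : ‖x‖ ≤ 1 / 5) : chi x = 1 := by
  unfold chi; rw [min_eq_left (by linarith), max_eq_right zero_le_one]
theorem chi_eq_zero {x : P2} (h : 3 / 10 ≤ ‖x‖) : chi x = 0 := by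
  unfold chi; exact max_eq_left ((min_le_right _ _).trans (by linarith))
theorem abs_chi_sub (x y : P2) : |chi x - chi y| ≤ 10 * ‖x - y‖ := by
  unfold chi
  have h1 := abs_max_sub_max_le_max (0 : ℝ) (min 1 (3 - 10 * ‖x‖)) 0 (min 1 (3 - 10 * ‖y‖))
  have h2 := abs_min_sub_min_le_max (1 : ℝ) (3 - 10 * ‖x‖) 1 (3 - 10 * ‖y‖)
  have h3 : |3 - 10 * ‖x‖ - (3 - 10 * ‖y‖)| ≤ 10 * ‖x - y‖ := by
    rw [show 3 - 10 * ‖x‖ - (3 - 10 * ‖y‖) = -(10 * (‖x‖ - ‖y‖)) by ring, abs_neg, abs_mul]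
    norm_num
    exact abs_norm_sub_norm_le x y
  have h0 : 0 ≤ 10 * ‖x - y‖ := by positivity
  refine h1.trans (max_le (by simp) (h2.trans (max_le (by simp) h3)))

/-- the frame near the origin -/
def fr (P : Par) (t : ℝ) (x : P2) : ℝ := cl (2 * P.Y * chi x) (x.2 / (t + rr (lab P t x)))

theorem fr_eq_zero {P : Par} {t : ℝ} {x : P2} (h : 3 / 10 ≤ ‖x‖) : fr P t x = 0 := by
  unfold fr
  rw [chi_eq_zero h, mul_zero]
  unfold cl
  simp

theorem abs_fr_le {P : Par} (hY : 0 ≤ P.Y) (t : ℝ) (x : P2) : |fr P t x| ≤ 2 * P.Y := by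
  have h1 := chi_nonneg x
  have h2 := chi_le_one x
  refine (abs_cl_le (by positivity) _).trans ?_
  nlinarith

/-- frame along a short flight, one period -/
theorem fr_flight {P : Par} (hY : 0 ≤ P.Y) (hκ : 0 ≤ P.kap) (hdl : 0 < P.dl) {s t : ℝ} (hs : 0 < s) (hst : s ≤ t)
    (ht1 : t ≤ 1) (x : P2) (hx : ‖x‖ ≤ 1) (v : R3) :
    |v 1 - fr P t (x + (t - s) • bar v)| ≤ |v 1 - fr P s x|
      + 56 * P.Y * (1 + P.kap) * (1 + ‖v‖) * (√t - √s) := by
  have ht : 0 < t := hs.trans_le hst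
  set x' : P2 := x + (t - s) • bar v with hx'
  set l := lab P s x with hl
  set l' := lab P t x' with hl'
  have hMn : 0 ≤ 2 * P.Y * chi x := by have := chi_nonneg x; positivity
  have hMle : 2 * P.Y * chi x ≤ 2 * P.Y := by
    have := chi_le_one x; nlinarith
  have hv0 : |v 0| ≤ ‖v‖ := by simpa using EuclideanSpace.norm_eq v ▸ PiLp.norm_apply_le v 0
  have hv1 : |v 1| ≤ ‖v‖ := by simpa using PiLp.norm_apply_le v 1
  have hroot : t - s ≤ 2 * (√t - √s) := by
    have h1 := Real.sq_sqrt ht.le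
    have h2 := Real.sq_sqrt hs.le
    have h3 : √t ≤ 1 := Real.sqrt_le_one.2 ht1
    have h4 : √s ≤ √t := Real.sqrt_le_sqrt hst
    have h5 := Real.sqrt_nonneg s
    nlinarith
  have hroot2 : (t - s) / √t ≤ 2 * (√t - √s) := by
    have h1 := Real.sq_sqrt ht.le
    have h2 := Real.sq_sqrt hs.le
    have h4 : √s ≤ √t := Real.sqrt_le_sqrt hst
    have h5 := Real.sqrt_nonneg s
    have h6 : 0 < √t := Real.sqrt_pos.2 ht
    rw [div_le_iff₀ h6]
    nlinarith
  have hroot0 : 0 ≤ √t - √s := by have : √s ≤ √t := Real.sqrt_le_sqrt hst; linarith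
  have hbar : ‖bar v‖ ≤ ‖v‖ := by
    unfold bar
    rw [Prod.norm_def]
    exact max_le hv0 hv1
  -- labels
  have hlab : |l' - l| ≤ (‖v‖ + P.kap) * (t - s) := by
    have e1 : l = x.1 / (1 + P.kap * s) := by
      rw [hl]; unfold lab Par.kap; field_simp
    have e2 : l' = (x.1 + (t - s) * v 0) / (1 + P.kap * t) := by
      rw [hl']; unfold lab Par.kap
      rw [hx']
      simp only [bar, Prod.fst_add, Prod.smul_fst, smul_eq_mul]
      field_simp
    have hs1 : 0 < 1 + P.kap * s := by positivity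
    have ht1 : 0 < 1 + P.kap * t := by positivity
    have e3 : l' - l = ((t - s) * v 0) / (1 + P.kap * t)
        - (x.1 * P.kap * (t - s)) / ((1 + P.kap * t) * (1 + P.kap * s)) := by
      rw [e1, e2]; field_simp; ring
    have hx1 : |x.1| ≤ 1 := (norm_fst_le x).trans hx
    have hts : 0 ≤ t - s := by linarith
    have b1 : |((t - s) * v 0) / (1 + P.kap * t)| ≤ ‖v‖ * (t - s) := by
      rw [abs_div, abs_of_pos ht1, abs_mul, abs_of_nonneg hts, div_le_iff₀ ht1]
      have : 0 ≤ ‖v‖ * (t - s) * (P.kap * t) := by positivity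
      nlinarith
    have b2 : |(x.1 * P.kap * (t - s)) / ((1 + P.kap * t) * (1 + P.kap * s))|
        ≤ P.kap * (t - s) := by
      rw [abs_div, abs_of_pos (mul_pos ht1 hs1), abs_mul, abs_mul, abs_of_nonneg hts,
        abs_of_nonneg hκ, div_le_iff₀ (mul_pos ht1 hs1)]
      have h1 : 1 ≤ (1 + P.kap * t) * (1 + P.kap * s) := by
        have := mul_nonneg hκ ht.le
        have := mul_nonneg hκ hs.le
        nlinarith
      have h2 : 0 ≤ P.kap * (t - s) := by positivity
      calc |x.1| * P.kap * (t - s) ≤ 1 * P.kap * (t - s) := by gcongr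
        _ = P.kap * (t - s) * 1 := by ring
        _ ≤ _ := by gcongr
    rw [e3]
    refine (abs_sub _ _).trans ?_
    linarith
  -- steps
  have k1 : |fr P t x' - cl (2 * P.Y * chi x) (x'.2 / (t + l' ^ 2))| ≤ 20 * P.Y * (‖v‖ * (t - s)) := by
    unfold fr
    refine abs_cl_sub_M.trans ?_
    rw [← mul_sub, abs_mul, abs_of_nonneg (by positivity : (0:ℝ) ≤ 2 * P.Y)]
    have h1 := abs_chi_sub x' x
    have h2 : ‖x' - x‖ ≤ ‖v‖ * (t - s) := by
      rw [hx', add_sub_cancel_left, norm_smul, Real.norm_of_nonneg (by linarith), mul_comm]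
      gcongr
    calc 2 * P.Y * |chi x' - chi x| ≤ 2 * P.Y * (10 * (‖v‖ * (t - s))) := by gcongr; linarith
      _ = _ := by ring
  have k2 : |cl (2 * P.Y * chi x) (x'.2 / (t + l' ^ 2))
      - cl (2 * P.Y * chi x) (x'.2 / (t + l ^ 2))|
      ≤ 8 * P.Y * ((‖v‖ + P.kap) * (2 * (√t - √s))) := by
    refine (cl_label hMn ht hlab).trans ?_
    have h1 : (‖v‖ + P.kap) * (t - s) / √t ≤ (‖v‖ + P.kap) * (2 * (√t - √s)) := by
      rw [mul_div_assoc]; gcongr
    have h0 : 0 ≤ (‖v‖ + P.kap) * (t - s) / √t := by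
      have : 0 ≤ t - s := by linarith
      positivity
    calc 4 * (2 * P.Y * chi x) * ((‖v‖ + P.kap) * (t - s) / √t)
        ≤ 4 * (2 * P.Y) * ((‖v‖ + P.kap) * (t - s) / √t) := by gcongr
      _ ≤ 4 * (2 * P.Y) * ((‖v‖ + P.kap) * (2 * (√t - √s))) := by gcongr
      _ = _ := by ring
  have k3 : |v 1 - cl (2 * P.Y * chi x) (x'.2 / (t + l ^ 2))| ≤ |v 1 - fr P s x| := by
    have hsl : 0 < s + l ^ 2 := by positivity
    have htl : 0 < t + l ^ 2 := by positivity
    have e : x'.2 / (t + l ^ 2) = v 1 + ((s + l ^ 2) / (t + l ^ 2)) * (x.2 / (s + l ^ 2) - v 1) := by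
      rw [hx']
      simp only [bar, Prod.snd_add, Prod.smul_snd, smul_eq_mul]
      field_simp; ring
    rw [e]
    exact cl_proj hMn (by positivity) (by rw [div_le_one htl]; linarith)
  have k4 : |v 1 - fr P t x'| ≤ |v 1 - cl (2 * P.Y * chi x) (x'.2 / (t + l ^ 2))|
      + |cl (2 * P.Y * chi x) (x'.2 / (t + l' ^ 2)) - cl (2 * P.Y * chi x) (x'.2 / (t + l ^ 2))|
      + |fr P t x' - cl (2 * P.Y * chi x) (x'.2 / (t + l' ^ 2))| := by
    have e : v 1 - fr P t x' = (v 1 - cl (2 * P.Y * chi x) (x'.2 / (t + l ^ 2)))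
      - (cl (2 * P.Y * chi x) (x'.2 / (t + l' ^ 2)) - cl (2 * P.Y * chi x) (x'.2 / (t + l ^ 2)))
      - (fr P t x' - cl (2 * P.Y * chi x) (x'.2 / (t + l' ^ 2))) := by ring
    rw [e]
    refine (abs_sub _ _).trans ?_
    gcongr
    exact abs_sub _ _
  have f1 : 20 * P.Y * (‖v‖ * (t - s)) ≤ 40 * P.Y * (1 + P.kap) * (1 + ‖v‖) * (√t - √s) := by
    have h1 : ‖v‖ * (t - s) ≤ ‖v‖ * (2 * (√t - √s)) := by gcongr
    have h2 : ‖v‖ ≤ (1 + P.kap) * (1 + ‖v‖) := by
      have := norm_nonneg v; nlinarith [mul_nonneg hκ this]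
    calc 20 * P.Y * (‖v‖ * (t - s)) ≤ 20 * P.Y * (‖v‖ * (2 * (√t - √s))) := by gcongr
      _ = 40 * P.Y * ‖v‖ * (√t - √s) := by ring
      _ ≤ 40 * P.Y * ((1 + P.kap) * (1 + ‖v‖)) * (√t - √s) := by gcongr
      _ = _ := by ring
  have f2 : 8 * P.Y * ((‖v‖ + P.kap) * (2 * (√t - √s)))
      ≤ 16 * P.Y * (1 + P.kap) * (1 + ‖v‖) * (√t - √s) := by
    have h2 : ‖v‖ + P.kap ≤ (1 + P.kap) * (1 + ‖v‖) := by
      have := norm_nonneg v; nlinarith [mul_nonneg hκ this]
    calc 8 * P.Y * ((‖v‖ + P.kap) * (2 * (√t - √s))) = 16 * P.Y * (‖v‖ + P.kap) * (√t - √s) := by ring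
      _ ≤ 16 * P.Y * ((1 + P.kap) * (1 + ‖v‖)) * (√t - √s) := by gcongr
      _ = _ := by ring
  nlinarith

/-! ### the periodised frame -/

/-- the periodised frame, second velocity component -/
def yfr (P : Par) (t : ℝ) (x : P2) : ℝ := ∑' k : ℤ × ℤ, fr P t (x + latt k)

/-- the frame -/
def cfr (P : Par) (t : ℝ) (x : P2) : R3 := !₂[0, yfr P t x, 0]

theorem fr_ne_zero {P : Par} {t : ℝ} {x : P2} {k l : ℤ × ℤ} (hk : ‖x + latt k‖ < 7 / 20)
    (hl : fr P t (x + latt l) ≠ 0) : l = k := by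
  by_contra h
  by_cases h2 : ‖x + latt l‖ < 7 / 20
  · exact h (latt_unique h2 hk)
  · exact hl (fr_eq_zero (by push Not at h2; linarith))

theorem yfr_eq {P : Par} {t : ℝ} {x : P2} {k : ℤ × ℤ} (hk : ‖x + latt k‖ < 7 / 20) :
    yfr P t x = fr P t (x + latt k) := by
  unfold yfr
  refine tsum_eq_single k fun l hl => ?_
  by_contra h
  exact hl (fr_ne_zero hk h)

theorem yfr_eq_zero {P : Par} {t : ℝ} {x : P2} (hk : ∀ k, 3 / 10 ≤ ‖x + latt k‖) :
    yfr P t x = 0 := by
  unfold yfr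
  rw [tsum_congr fun k => fr_eq_zero (hk k), tsum_zero]

theorem abs_yfr_le {P : Par} (hY : 0 ≤ P.Y) (t : ℝ) (x : P2) : |yfr P t x| ≤ 2 * P.Y := by
  by_cases h : ∃ k, ‖x + latt k‖ < 7 / 20
  · obtain ⟨k, hk⟩ := h
    rw [yfr_eq hk]; exact abs_fr_le hY _ _
  · push Not at h
    rw [yfr_eq_zero fun k => by have := h k; linarith]
    simpa using hY

theorem yfr_per (P : Par) (t : ℝ) (x : P2) (l : ℤ × ℤ) : yfr P t (x + latt l) = yfr P t x := by
  unfold yfr
  rw [← (Equiv.addLeft l).tsum_eq (fun k => fr P t (x + latt k))]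
  refine tsum_congr fun k => ?_
  rw [Equiv.coe_addLeft, latt_add, add_assoc]

theorem measurable_fr (P : Par) : Measurable fun p : ℝ × P2 => fr P p.1 p.2 := by
  unfold fr cl chi lab rr
  fun_prop

theorem yfr_pos_neg (P : Par) (t : ℝ) (x : P2) : yfr P t x
    = (∑' k : ℤ × ℤ, ENNReal.ofReal (fr P t (x + latt k))).toReal
      - (∑' k : ℤ × ℤ, ENNReal.ofReal (-fr P t (x + latt k))).toReal := by
  by_cases h : ∃ k, ‖x + latt k‖ < 7 / 20
  · obtain ⟨k, hk⟩ := h
    have hz : ∀ l, l ≠ k → fr P t (x + latt l) = 0 := fun l hl => by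
      by_contra h; exact hl (fr_ne_zero hk h)
    rw [yfr_eq hk, tsum_eq_single k fun l hl => by rw [hz l hl]; simp,
      tsum_eq_single k fun l hl => by rw [hz l hl]; simp]
    rw [ENNReal.toReal_ofReal', ENNReal.toReal_ofReal']
    rcases le_total 0 (fr P t (x + latt k)) with h | h
    · rw [max_eq_left h, max_eq_right (by linarith)]; ring
    · rw [max_eq_right h, max_eq_left (by linarith)]; ring
  · push Not at h
    have hz : ∀ k, fr P t (x + latt k) = 0 := fun k => fr_eq_zero (by have := h k; linarith)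
    unfold yfr
    simp [hz]

theorem measurable_yfr (P : Par) : Measurable fun p : ℝ × P2 => yfr P p.1 p.2 := by
  simp_rw [yfr_pos_neg]
  have h1 : ∀ k : ℤ × ℤ, Measurable fun p : ℝ × P2 => fr P p.1 (p.2 + latt k) := fun k =>
    (measurable_fr P).comp (g := fun p : ℝ × P2 => fr P p.1 p.2)
      (f := fun p : ℝ × P2 => ((p.1, p.2 + latt k) : ℝ × P2))
      (measurable_fst.prodMk (measurable_snd.add_const _))
  refine Measurable.sub (Measurable.ennreal_toReal ?_) (Measurable.ennreal_toReal ?_)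
  · exact Measurable.tsum fun k => (h1 k).ennreal_ofReal
  · exact Measurable.tsum fun k => (h1 k).neg.ennreal_ofReal

theorem cfr_zero (P : Par) (t : ℝ) (x : P2) : cfr P t x 0 = 0 := rfl
theorem cfr_one (P : Par) (t : ℝ) (x : P2) : cfr P t x 1 = yfr P t x := rfl
theorem cfr_two (P : Par) (t : ℝ) (x : P2) : cfr P t x 2 = 0 := rfl

theorem measurable_cfr (P : Par) : Measurable fun p : ℝ × P2 => cfr P p.1 p.2 := by
  unfold cfr
  exact Fuel.measurable_vec measurable_const (measurable_yfr P) measurable_const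

/-- the distance of `v₁` to the frame, along a flight -/
theorem yfr_flight {P : Par} (hY : 0 ≤ P.Y) (hκ : 0 ≤ P.kap) (hdl : 0 < P.dl) {s t : ℝ}
    (hs : 0 < s) (hst : s ≤ t) (ht1 : t ≤ 1) (x : P2) (v : R3) :
    |v 1 - yfr P t (x + (t - s) • bar v)| ≤ |v 1 - yfr P s x|
      + 800 * P.Y * (1 + P.kap) * (1 + ‖v‖) * (√t - √s) := by
  have ht : 0 < t := hs.trans_le hst
  have hroot0 : 0 ≤ √t - √s := by have : √s ≤ √t := Real.sqrt_le_sqrt hst; linarith
  have hroot : t - s ≤ 2 * (√t - √s) := by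
    have h1 := Real.sq_sqrt ht.le
    have h2 := Real.sq_sqrt hs.le
    have h3 : √t ≤ 1 := Real.sqrt_le_one.2 ht1
    have h4 : √s ≤ √t := Real.sqrt_le_sqrt hst
    have h5 := Real.sqrt_nonneg s
    nlinarith
  have hbar : ‖bar v‖ ≤ ‖v‖ := by
    unfold bar
    rw [Prod.norm_def]
    exact max_le (by simpa using PiLp.norm_apply_le v 0) (by simpa using PiLp.norm_apply_le v 1)
  have hv := norm_nonneg v
  have hmono : 56 * P.Y * (1 + P.kap) * (1 + ‖v‖) * (√t - √s)
      ≤ 800 * P.Y * (1 + P.kap) * (1 + ‖v‖) * (√t - √s) := by gcongr; norm_num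
  have hpos : 0 ≤ 800 * P.Y * (1 + P.kap) * (1 + ‖v‖) * (√t - √s) := by positivity
  have hd : ‖(t - s) • bar v‖ ≤ (t - s) * ‖v‖ := by
    rw [norm_smul, Real.norm_of_nonneg (by linarith)]
    gcongr
  by_cases hlong : 1 / 100 ≤ (t - s) * ‖v‖
  · have h1 := abs_yfr_le hY t (x + (t - s) • bar v)
    have h2 := abs_yfr_le hY s x
    have h3 : |v 1 - yfr P t (x + (t - s) • bar v)| ≤ |v 1 - yfr P s x| + 4 * P.Y := by
      have e : v 1 - yfr P t (x + (t - s) • bar v) = (v 1 - yfr P s x) + yfr P s x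
        - yfr P t (x + (t - s) • bar v) := by ring
      rw [e]
      refine (abs_sub _ _).trans ?_
      have := abs_add_le (v 1 - yfr P s x) (yfr P s x)
      linarith
    have h4 : 4 * P.Y ≤ 800 * P.Y * (1 + P.kap) * (1 + ‖v‖) * (√t - √s) := by
      have h5 : (t - s) * ‖v‖ ≤ 2 * (√t - √s) * ‖v‖ := by gcongr
      have h6 : 1 ≤ 200 * (√t - √s) * ‖v‖ := by linarith
      calc 4 * P.Y = 4 * P.Y * 1 := by ring
        _ ≤ 4 * P.Y * (200 * (√t - √s) * ‖v‖) := by gcongr
        _ = 800 * P.Y * ‖v‖ * (√t - √s) := by ring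
        _ ≤ 800 * P.Y * ((1 + P.kap) * (1 + ‖v‖)) * (√t - √s) := by
            gcongr
            nlinarith [mul_nonneg hκ hv]
        _ = _ := by ring
    linarith
  · push Not at hlong
    by_cases hk : ∃ k, ‖x + latt k‖ < 31 / 100
    · obtain ⟨k, hk⟩ := hk
      have hk1 : ‖x + latt k‖ < 7 / 20 := by linarith
      have e : x + (t - s) • bar v + latt k = (x + latt k) + (t - s) • bar v := by abel
      have hk2 : ‖x + (t - s) • bar v + latt k‖ < 7 / 20 := by
        rw [e]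
        have := norm_add_le (x + latt k) ((t - s) • bar v)
        linarith
      rw [yfr_eq hk1, yfr_eq hk2, e]
      exact (fr_flight hY hκ hdl hs hst ht1 (x + latt k) (by linarith) v).trans (by linarith)
    · push Not at hk
      rw [yfr_eq_zero (t := s) fun k => by have := hk k; linarith, yfr_eq_zero (t := t) fun k => ?_]
      · linarith
      · have e : x + latt k = (x + (t - s) • bar v + latt k) - (t - s) • bar v := by abel
        have h1 := norm_sub_le (x + (t - s) • bar v + latt k) ((t - s) • bar v)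
        rw [← e] at h1
        have := hk k
        linarith

end Crest.Agent.R68.X1
end
end

-- ▼ part R68/X1d

/-!
# Row 68, PART X: the concrete frame satisfies `Frame`
-/

set_option autoImplicit false
open MeasureTheory Set Filter
open scoped ENNReal Real
open Crest.AnalysisR.VecCalc3 Crest.AnalysisR.PDE.Boltzmann

noncomputable section

namespace Crest.Agent.R68.X1

open Crest.Agent.R68.A Crest.Agent.R68.L Crest.Agent.R68.X Crest.Agent.R68.XUp

theorem Z_coord (a : R3) : Z a = 1 + 23 / 100 * (a 0 ^ 2 + a 1 ^ 2 + a 2 ^ 2)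
    + 17 / 100 * (a 2) ^ 2 + 1 / 1000 * (a 0 ^ 2 + a 1 ^ 2 + a 2 ^ 2) ^ 2 := by
  unfold Z
  have : ‖a‖ ^ 4 = (‖a‖ ^ 2) ^ 2 := by ring
  rw [this, norm_sq_coord]

theorem Z_growth {a b : R3} {C δ : ℝ} (hC : 0 ≤ C) (hδ : 0 ≤ δ) (hδ1 : δ ≤ 1) (h0 : b 0 = a 0)
    (h2 : b 2 = a 2) (h1 : |b 1| ≤ |a 1| + C * (1 + ‖a‖) * δ) :
    Z b ≤ Real.exp (2 * (4 * C + 2 * C ^ 2) * δ) * Z a := by
  set n := a 0 ^ 2 + a 1 ^ 2 + a 2 ^ 2 with hn
  set m := b 0 ^ 2 + b 1 ^ 2 + b 2 ^ 2 with hm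
  set N := ‖a‖ with hN
  have hNn : N ^ 2 = n := norm_sq_coord a
  have hN0 : 0 ≤ N := norm_nonneg _
  have hn0 : 0 ≤ n := by positivity
  have ha1 : |a 1| ≤ N := by simpa using PiLp.norm_apply_le a 1
  have hsq : b 1 ^ 2 ≤ (|a 1| + C * (1 + N) * δ) ^ 2 := by
    rw [← sq_abs (b 1)]; gcongr
  have hmn : 1 + m ≤ (1 + n) * (1 + (4 * C + 2 * C ^ 2) * δ) := by
    have e1 : m = n + (b 1 ^ 2 - a 1 ^ 2) := by rw [hm, hn, h0, h2]; ring
    have e2 : b 1 ^ 2 - a 1 ^ 2 ≤ 2 * |a 1| * (C * (1 + N) * δ) + (C * (1 + N) * δ) ^ 2 := by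
      have : (|a 1| + C * (1 + N) * δ) ^ 2
        = a 1 ^ 2 + 2 * |a 1| * (C * (1 + N) * δ) + (C * (1 + N) * δ) ^ 2 := by
        rw [← sq_abs (a 1)]; ring
      linarith
    have e3 : 2 * |a 1| * (C * (1 + N) * δ) ≤ 4 * C * (1 + n) * δ := by
      calc 2 * |a 1| * (C * (1 + N) * δ) ≤ 2 * N * (C * (1 + N) * δ) := by gcongr
        _ = 2 * C * (N + N ^ 2) * δ := by ring
        _ ≤ 2 * C * (2 * (1 + N ^ 2)) * δ := by
            gcongr
            nlinarith [sq_nonneg (N - 1)]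
        _ = _ := by rw [hNn]; ring
    have e4 : (C * (1 + N) * δ) ^ 2 ≤ 2 * C ^ 2 * (1 + n) * δ := by
      calc (C * (1 + N) * δ) ^ 2 = C ^ 2 * (1 + N) ^ 2 * (δ * δ) := by ring
        _ ≤ C ^ 2 * (2 * (1 + N ^ 2)) * (δ * 1) := by
            gcongr
            nlinarith [sq_nonneg (N - 1)]
        _ = _ := by rw [hNn]; ring
    rw [e1]
    nlinarith
  set q := 1 + (4 * C + 2 * C ^ 2) * δ with hq
  have hq1 : 1 ≤ q := by
    rw [hq]; have : 0 ≤ (4 * C + 2 * C ^ 2) * δ := by positivity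
    linarith
  have hm0 : 0 ≤ m := by positivity
  have hZb : Z b = 1 + 23 / 100 * m + 17 / 100 * (a 2) ^ 2 + 1 / 1000 * m ^ 2 := by
    rw [Z_coord, h2, hm, h2]
  have hZa : Z a = 1 + 23 / 100 * n + 17 / 100 * (a 2) ^ 2 + 1 / 1000 * n ^ 2 := Z_coord a
  have h3 : Z b ≤ q ^ 2 * Z a := by
    rw [hZb, hZa]
    obtain ⟨e, he⟩ : ∃ e, q = 1 + e := ⟨q - 1, by ring⟩
    have he0 : 0 ≤ e := by linarith
    rw [he] at hmn ⊢
    have hm1 : m ≤ n + e * (1 + n) := by nlinarith
    have hm2 : m ^ 2 ≤ (n + e * (1 + n)) ^ 2 := by gcongr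
    have hz := sq_nonneg (a 2)
    nlinarith [mul_nonneg he0 hn0, mul_nonneg he0 hz, mul_nonneg (mul_nonneg he0 he0) hz,
      mul_nonneg (mul_nonneg he0 he0) hn0, mul_nonneg he0 (mul_nonneg hn0 hn0),
      mul_nonneg (mul_nonneg he0 he0) (mul_nonneg hn0 hn0), mul_nonneg he0 he0]
  refine h3.trans ?_
  have hZ0 : 0 ≤ Z a := zero_le_one.trans (one_le_Z a)
  gcongr
  have h4 : q ≤ Real.exp ((4 * C + 2 * C ^ 2) * δ) := by
    have := Real.add_one_le_exp ((4 * C + 2 * C ^ 2) * δ)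
    rw [hq]; linarith
  calc q ^ 2 ≤ Real.exp ((4 * C + 2 * C ^ 2) * δ) ^ 2 := by gcongr
    _ = _ := by rw [← Real.exp_nat_mul]; congr 1; push_cast; ring

/-- constant of the flight estimate -/
def C2f (P : Par) : ℝ := 800 * P.Y * (1 + P.kap) * (1 + 2 * P.Y)

/-- growth constant of the weight -/
def Ccf (P : Par) : ℝ := 2 * (4 * C2f P + 2 * C2f P ^ 2)

theorem Ze_anti {P : Par} (hY : 0 ≤ P.Y) (hκ : 0 ≤ P.kap) (hdl : 0 < P.dl) {s t : ℝ}
    (hs : 0 < s) (hst : s ≤ t) (ht1 : t ≤ 1) (x : P2) (v : R3) :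
    ENNReal.ofReal (Real.exp (-(Ccf P * √t))) * Ze (cfr P t x) v
      ≤ ENNReal.ofReal (Real.exp (-(Ccf P * √s))) * Ze (cfr P s (x - (t - s) • bar v)) v := by
  set x' : P2 := x - (t - s) • bar v with hx'
  have hx : x = x' + (t - s) • bar v := by rw [hx']; abel
  have hfl := yfr_flight hY hκ hdl hs hst ht1 x' v
  rw [← hx] at hfl
  have hroot0 : 0 ≤ √t - √s := by have : √s ≤ √t := Real.sqrt_le_sqrt hst; linarith
  have hroot1 : √t - √s ≤ 1 := by
    have := Real.sqrt_nonneg s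
    have : √t ≤ 1 := Real.sqrt_le_one.2 ht1
    linarith
  have hC : 0 ≤ C2f P := by unfold C2f; positivity
  have hc : ‖cfr P s x'‖ ≤ 2 * P.Y := by
    have h1 : ‖cfr P s x'‖ ^ 2 = yfr P s x' ^ 2 := by
      rw [norm_sq_coord, cfr_zero, cfr_one, cfr_two]; ring
    have h2 : ‖cfr P s x'‖ = |yfr P s x'| := by
      rw [← abs_of_nonneg (norm_nonneg (cfr P s x'))]
      exact (sq_eq_sq_iff_abs_eq_abs _ _).1 h1
    rw [h2]; exact abs_yfr_le hY _ _
  have hv : ‖v‖ ≤ ‖v - cfr P s x'‖ + 2 * P.Y := by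
    have := norm_sub_norm_le v (cfr P s x')
    linarith
  have h := Z_growth (a := v - cfr P s x') (b := v - cfr P t x) hC hroot0 hroot1
    (by simp [cfr_zero]) (by simp [cfr_two]) (by
      have e1 : (v - cfr P t x) 1 = v 1 - yfr P t x := by simp [cfr_one]
      have e2 : (v - cfr P s x') 1 = v 1 - yfr P s x' := by simp [cfr_one]
      rw [e1, e2]
      refine hfl.trans ?_
      gcongr ?_ + ?_ * _
      · exact le_rfl
      unfold C2f
      have h1 : 1 + ‖v‖ ≤ (1 + 2 * P.Y) * (1 + ‖v - cfr P s x'‖) := by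
        have h0 := norm_nonneg (v - cfr P s x')
        nlinarith [mul_nonneg hY h0]
      calc 800 * P.Y * (1 + P.kap) * (1 + ‖v‖)
          ≤ 800 * P.Y * (1 + P.kap) * ((1 + 2 * P.Y) * (1 + ‖v - cfr P s x'‖)) := by gcongr
        _ = _ := by ring)
  unfold Ze
  rw [← ENNReal.ofReal_mul (Real.exp_pos _).le, ← ENNReal.ofReal_mul (Real.exp_pos _).le]
  apply ENNReal.ofReal_le_ofReal
  calc Real.exp (-(Ccf P * √t)) * Z (v - cfr P t x)
      ≤ Real.exp (-(Ccf P * √t)) * (Real.exp (2 * (4 * C2f P + 2 * C2f P ^ 2) * (√t - √s)) *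
        Z (v - cfr P s x')) := by gcongr
    _ = _ := by
      rw [← mul_assoc, ← Real.exp_add]
      congr 2
      unfold Ccf
      ring


/-! ### the fuel is concentrated near the frame -/

theorem eta_small {P : Par} (h : P.Ok) : (P.Y + 2) * etaj P.p P.j0 ≤ 1 / 1000000 := by
  have hj : (200 : ℝ) ≤ P.j0 := by exact_mod_cast h.j0
  set m : ℝ := 2 * (P.j0 : ℝ) + 1 with hm
  have hm401 : 401 ≤ m := by rw [hm]; linarith
  have hdl := Fuel.Ok.dlp h
  have hdl2 : P.dl ^ 2 = 1 / (2 * P.j0) := Fuel.dl_sq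
  have hY := h.Y0
  have hYs := h.Ysm
  -- Y ≤ m / 20
  have hYm : P.Y ≤ m / 20 := by
    have h1 : P.Y * P.dl * P.dl ≤ 1 / 20 * P.dl := by gcongr
    have h2 : P.Y * P.dl ^ 2 ≤ 1 / 20 * P.dl := by rw [pow_two, ← mul_assoc]; exact h1
    rw [hdl2] at h2
    have h3 := Fuel.Ok.dl20 h
    have h4 : P.Y ≤ 1 / 20 * P.dl * (2 * P.j0) := by
      have h5 : (0 : ℝ) < 2 * P.j0 := by linarith
      rw [mul_one_div, div_le_iff₀ h5] at h2
      exact h2
    nlinarith
  have he : etaj P.p P.j0 ≤ 1 / m ^ 3 := by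
    unfold etaj
    have h1 : (1 / m) ^ P.p ≤ (1 / m) ^ 3 :=
      pow_le_pow_of_le_one (by positivity) (by rw [div_le_one (by linarith)]; linarith) h.p3
    calc (1 / (2 * (P.j0 : ℝ) + 1)) ^ P.p = (1 / m) ^ P.p := by rw [hm]
      _ ≤ (1 / m) ^ 3 := h1
      _ = _ := by rw [one_div_pow]
  have he0 := Fuel.etaj_pos P.p P.j0
  calc (P.Y + 2) * etaj P.p P.j0 ≤ (m / 20 + m / 20) * (1 / m ^ 3) := by
        gcongr
        linarith
    _ = 1 / (10 * m ^ 2) := by field_simp; ring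
    _ ≤ 1 / 1000000 := by
        apply one_div_le_one_div_of_le (by norm_num)
        nlinarith

theorem wj_pm (j : ℕ) : wj j = 1 ∨ wj j = -1 := by
  unfold wj
  exact neg_one_pow_eq_or ℝ j

theorem near_cfr {P : Par} (h : P.Ok) (hY1 : 1 ≤ P.Y) (hc : P.c ≤ 1 / 10000) {t : ℝ} (ht : 0 < t)
    (ht0 : t ≤ 1 / (10 * (P.Y + 2))) (x : P2) : NearFrame (phiE P t x) (cfr P t x) := by
  intro u hu
  have hφ : phi P t x u ≠ 0 := by
    intro h0; apply hu; unfold phiE; rw [h0]; simp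
  obtain ⟨k, j, hj, hk⟩ := Fuel.exists_of_phi_ne h hφ
  have hvis : k ∈ Fuel.vis P t x := ⟨j, hj, u, hk⟩
  have hnorm := Fuel.norm_of_vis h ht.le hvis
  have hY := h.Y0
  have hη0 := Fuel.etaj_pos P.p P.j0
  have hηY := eta_small h
  have hη1 : etaj P.p P.j0 ≤ 1 / 1000000 := by nlinarith
  have hc0 := h.c0
  have hdl := Fuel.Ok.dlp h
  have hdl20 := Fuel.Ok.dl20 h
  have hYs := h.Ysm
  have ht10 : t * (P.Y + 2) ≤ 1 / 10 := by
    rw [le_div_iff₀ (by positivity)] at ht0
    linarith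
  have ht1 : t ≤ 1 := by nlinarith
  have hx5 : ‖x + latt k‖ ≤ 1 / 5 := by
    refine hnorm.trans ?_
    nlinarith [h.c1]
  rw [Fuel.mem_lset] at hk
  obtain ⟨⟨hl, hz⟩, h0, h1, h2⟩ := hk
  have hηj := Fuel.etaj_anti P.p hj
  have hηj0 := Fuel.etaj_pos P.p j
  set X := x + latt k with hX
  set a := X.1 - t * u 0 with ha
  have hadl := Fuel.lane_lt_dl (Fuel.Ok.j1 h) hj hl
  have hκ := Fuel.Ok.kap0 h
  have hκ' : P.kap * P.dl = P.c := by unfold Par.kap; field_simp
  have hr : 0 < rr a := Fuel.rr_pos hl.1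
  refine ⟨wj j, wj_pm j, ?_, ?_, ?_⟩
  · rw [cfr_zero, sub_zero]
    have e : u 0 = P.kap * a + (u 0 - P.kap * a) := by ring
    rw [e]
    refine (abs_add_le _ _).trans ?_
    rw [abs_mul, abs_of_nonneg hκ]
    have : P.kap * |a| ≤ P.kap * P.dl := by gcongr
    linarith
  · rw [cfr_one, yfr_eq (k := k) (by rw [← hX]; linarith)]
    set z := X.2 - t * u 1 with hzz
    set l := lab P t X with hll
    have htr : 0 < t + rr a := by positivity
    have htl : 0 < t + rr l := by have := Fuel.rr_nonneg l; positivity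
    -- first
    have e1 : u 1 - X.2 / (t + rr a) = (u 1 - z / rr a) * (rr a / (t + rr a)) := by
      rw [hzz]; field_simp; ring
    have b1 : |u 1 - X.2 / (t + rr a)| ≤ etaj P.p P.j0 := by
      rw [e1, abs_mul, abs_of_nonneg (show 0 ≤ rr a / (t + rr a) by positivity)]
      have : rr a / (t + rr a) ≤ 1 := by rw [div_le_one htr]; linarith
      calc |u 1 - z / rr a| * (rr a / (t + rr a)) ≤ etaj P.p P.j0 * 1 := by
            gcongr
            exact h1.le.trans hηj
        _ = _ := mul_one _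
    have bu : |u 1| ≤ P.Y + 1 / 1000000 := by
      have e : u 1 = z / rr a + (u 1 - z / rr a) := by ring
      rw [e]
      refine (abs_add_le _ _).trans ?_
      have : |z / rr a| ≤ P.Y := by
        rw [abs_div, abs_of_pos hr, div_le_iff₀ hr]; exact hz.le
      linarith [h1.le.trans hηj]
    have bX : |X.2 / (t + rr a)| ≤ P.Y + 1 := by
      have e : X.2 / (t + rr a) = u 1 - (u 1 - X.2 / (t + rr a)) := by ring
      rw [e]
      refine (abs_sub _ _).trans ?_
      linarith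
    have hla : |l - a| ≤ t * etaj P.p P.j0 := by
      have hκt : 0 < 1 + P.kap * t := by positivity
      have e : l - a = t * (u 0 - P.kap * a) / (1 + P.kap * t) := by
        have e0 : l = X.1 / (1 + P.kap * t) := by
          rw [hll]; unfold lab Par.kap; field_simp
        rw [e0]
        have e2 : X.1 = a + t * u 0 := by rw [ha]; ring
        rw [e2]; field_simp; ring
      rw [e, abs_div, abs_of_pos hκt, abs_mul, abs_of_pos ht, div_le_iff₀ hκt]
      have : t * |u 0 - P.kap * a| ≤ t * etaj P.p P.j0 := by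
        gcongr; exact h0.le.trans hηj
      have h5 : 0 ≤ t * etaj P.p P.j0 * (P.kap * t) := by positivity
      nlinarith
    have b2 : |X.2 / (t + rr a) - X.2 / (t + rr l)| ≤ 2 * (P.Y + 1) * etaj P.p P.j0 := by
      have e : X.2 / (t + rr a) - X.2 / (t + rr l)
          = (X.2 / (t + rr a)) * ((l - a) * (l + a) / (t + rr l)) := by
        unfold rr at *
        field_simp
        ring
      have hal : |l + a| ≤ 2 := by
        have e : l + a = (l - a) + 2 * a := by ring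
        rw [e]
        refine (abs_add_le _ _).trans ?_
        rw [abs_mul]; norm_num
        nlinarith
      rw [e, abs_mul, abs_div ((l - a) * (l + a)), abs_mul (l - a), abs_of_pos htl]
      have hrl := Fuel.rr_nonneg l
      have hq : |l - a| * |l + a| / (t + rr l) ≤ 2 * etaj P.p P.j0 := by
        rw [div_le_iff₀ htl]
        calc |l - a| * |l + a| ≤ (t * etaj P.p P.j0) * 2 := by gcongr
          _ = 2 * etaj P.p P.j0 * t := by ring
          _ ≤ _ := by gcongr; linarith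
      calc |X.2 / (t + rr a)| * (|l - a| * |l + a| / (t + rr l))
          ≤ (P.Y + 1) * (2 * etaj P.p P.j0) := by gcongr
        _ = _ := by ring
    have b3 : |u 1 - X.2 / (t + rr l)| ≤ 1 / 5000 := by
      have e : u 1 - X.2 / (t + rr l) = (u 1 - X.2 / (t + rr a))
        + (X.2 / (t + rr a) - X.2 / (t + rr l)) := by ring
      rw [e]
      refine (abs_add_le _ _).trans ?_
      nlinarith
    have hcl : fr P t X = X.2 / (t + rr l) := by
      unfold fr
      rw [chi_eq_one hx5, mul_one]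
      apply cl_of_abs_le
      have e : X.2 / (t + rr (lab P t X)) = u 1 - (u 1 - X.2 / (t + rr l)) := by rw [hll]; ring
      rw [e]
      refine (abs_sub _ _).trans ?_
      linarith
    rw [hcl]
    exact b3
  · rw [cfr_two, sub_zero]
    linarith

theorem dens_cfr {P : Par} (h : P.Ok) {t : ℝ} (ht : 0 < t)
    (ht0 : t ≤ 1 / (10 * (P.Y + 2))) (x : P2) :
    ∫⁻ u, phiE P t x u ≤ ENNReal.ofReal (P.K / t) := by
  have hη0 := Fuel.etaj_pos P.p P.j0
  have hηY := eta_small h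
  have hY := h.Y0
  have hη1 : etaj P.p P.j0 ≤ 1 / 1000000 := by nlinarith
  have hc0 := h.c0
  have hdl := Fuel.Ok.dlp h
  have hdl20 := Fuel.Ok.dl20 h
  have hYs := h.Ysm
  have ht10 : t * (P.Y + 2) ≤ 1 / 10 := by
    rw [le_div_iff₀ (by positivity)] at ht0
    linarith
  have hss := Fuel.vis_subsingleton h ht.le (by nlinarith [h.c1]) x
  have h1 := Fuel.lint_phi_le h ht.le x (g := fun _ => 1) measurable_const
    (B := ENNReal.ofReal (P.K / t)) fun k j hj _ => by
      have h2 := Fuel.lint_phij_le h j ht.le (x + latt k) (g := fun _ => 1) measurable_const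
        (A := ENNReal.ofReal (P.K / t)) (B := 1)
        (fun a _ => ENNReal.ofReal_le_ofReal ((Fuel.dens_le h ht a).trans (by
          have hκ := Fuel.Ok.kap0 h
          have hK := h.K0
          gcongr
          have := mul_nonneg hκ ht.le
          nlinarith))) (fun _ _ => le_rfl)
      rwa [mul_one] at h2
  simp only [mul_one] at h1
  unfold phiE
  refine h1.trans ?_
  have h3 : (Fuel.vis P t x).ncard ≤ 1 := by
    have := hss.finite.to_subtype
    rw [Set.ncard_le_one_iff_subsingleton]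
    exact hss
  calc ((Fuel.vis P t x).ncard : ℝ≥0∞) * ENNReal.ofReal (P.K / t)
      ≤ 1 * ENNReal.ofReal (P.K / t) := by
        gcongr
        exact_mod_cast h3
    _ = _ := one_mul _

/-- the concrete frame -/
theorem frame_phi {P : Par} (h : P.Ok) (hY1 : 1 ≤ P.Y) (hc : P.c ≤ 1 / 10000) {t0 : ℝ}
    (ht0 : t0 ≤ 1 / (10 * (P.Y + 2))) : Frame (phiE P) (cfr P) t0 (Ccf P) P.K where
  mc := measurable_cfr P
  per := fun t x k => by unfold cfr; rw [yfr_per]
  near := fun t ht htt x => near_cfr h hY1 hc ht (htt.trans ht0) x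
  dens := fun t ht htt x => dens_cfr h ht (htt.trans ht0) x
  anti := fun s t x v hs hst htt => by
    refine Ze_anti h.Y0.le (Fuel.Ok.kap0 h) (Fuel.Ok.dlp h) hs hst ?_ x v
    refine (htt.trans ht0).trans ?_
    have := h.Y0
    rw [div_le_one (by positivity)]
    linarith

end Crest.Agent.R68.X1
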