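import Crest.Agent.R68.LAncF
import Crest.Agent.R68.LNull
import Crest.Agent.R68.NExt
import Crest.Agent.R68.LSol4
import Crest.Agent.R68.NExt2
import Crest.Agent.R68.Main0
import Crest.Agent.R68.LProps
import Crest.Agent.R68.X1d_Mg
import Crest.Agent.R68.LMass
import Crest.Agent.R68.LK

-- ▼ part R68/LBridge
section

/-!
# Row 68, Part L: bridge between Part N's `TT P` and `TL (phiE P)`; null sets
-/

set_option autoImplicit false
open MeasureTheory Set Filter
open scoped ENNReal Topology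
open Crest.AnalysisR.VecCalc3 Crest.AnalysisR.PDE.Boltzmann

noncomputable section

namespace Crest.Agent.R68.L

open Crest.Agent.R68.A

variable {P : Par}

theorem NGf_eq (hφ : Meas3 (phiE P)) {f : Den} {t : ℝ} {x : P2} (hf : Measurable (f t x))
    (v : R3) : N.Gf P f t x v = Gf (phiE P) f t x v := by
  show Qp (phiE P t x) (f t x) v + Qp (f t x) (phiE P t x) v = 2 * Qp (phiE P t x) (f t x) v
  rw [Qp_comm hf (hφ.slice t x), two_mul]


/-- Part N's operator on functions that are measurable for positive times -/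
theorem TT_eq {f f' : Den} (hφ : Meas3 (phiE P)) (hf' : Meas3 f') {t : ℝ}
    (h : ∀ s ∈ Ioo 0 t, ∀ y z, f s y z = f' s y z) (x : P2) (v : R3) :
    N.TT P f t x v = TL (phiE P) f' t x v := by
  show Dam (phiE P) (N.Gf P f) t x v = Dam (phiE P) (Gf (phiE P) f') t x v
  have key : ∀ s ∈ Ioo 0 t, ∀ y z, N.Gf P f s y z = Gf (phiE P) f' s y z := by
    intro s hs y z
    have e : f s y = f' s y := by funext z; exact h s hs y z
    have hm : Measurable (f s y) := by rw [e]; exact hf'.slice s y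
    rw [NGf_eq hφ hm]
    simp only [Gf, e]
  refine le_antisymm (Dam_mono_at fun s hs => ?_) (Dam_mono_at fun s hs => ?_)
  · rw [key s hs]
  · rw [key s hs]


/-! ### null sets -/

theorem nullOK {φ : Den} (hφ : Meas3 φ) : NullOK φ := by
  intro f hf h
  have h0 : Meas3 (fun _ _ _ => (0 : ℝ≥0∞)) := measurable_const
  have hm : Meas3 (TL φ f) := meas3_TL hφ hf
  have hms : MeasurableSet {p : XX | unc (TL φ f) p = 0} := hm (measurableSet_singleton 0)
  have : (volume : Measure XX) = (volume : Measure ℝ).prod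
      ((volume : Measure P2).prod (volume : Measure R3)) := rfl
  rw [this, Measure.ae_prod_iff_ae_ae hms]
  refine Eventually.of_forall fun t => ?_
  have hms2 : MeasurableSet {q : P2 × R3 | unc (TL φ f) (t, q) = 0} :=
    measurable_prodMk_left hms
  rw [Measure.ae_prod_iff_ae_ae hms2]
  refine Eventually.of_forall fun x => ?_
  have h1 := TL_ae_vel hφ hf h0 (h.mono fun p hp _ => hp) t x
  filter_upwards [h1] with v hv
  show TL φ f t x v = 0
  rw [hv]
  exact ND.TL_zero t x v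

theorem twoOK {φ : Den} (hφ : Meas3 φ) : TwoOK φ :=
  fun _ _ hf hg h => TL_TL_congr hφ hf hg h

end Crest.Agent.R68.L
end
end

-- ▼ part R68/LExt
section

/-!
# Row 68, Part L: extension of the ancient solution from `(0,t0]` to `(0,T]`
-/

set_option autoImplicit false
open MeasureTheory Set Filter
open scoped ENNReal Topology
open Crest.AnalysisR.VecCalc3 Crest.AnalysisR.PDE.Boltzmann

noncomputable section

namespace Crest.Agent.R68.L

open Crest.Agent.R68.A
open Crest.Agent.R68.ND (neuL neuL_eq neuL_ext WtHyp meas3_neuL TL_congr_lt TL_zero)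

variable {φ E : Den} {T C : ℝ}

/-- extension of a solution of `H = TL H` from `(0,t0]` to `(0,T]` -/
theorem exists_ext (hφ : Meas3 φ) (pφ : PerF φ) (hW : WtHyp φ E T C) {t0 : ℝ} (ht0 : 0 < t0)
    (ht0T : t0 ≤ T) {H : Den} (hH : Meas3 H) (pH : PerF H)
    (heq : ∀ t ∈ Ioc 0 t0, ∀ x v, H t x v = TL φ H t x v) {c : ℝ} (hc : 0 < c) {A : ℝ}
    (hA : 0 ≤ A)
    (hle : ∀ t ∈ Ioc 0 t0, ∀ x v, H t x v ≤ ENNReal.ofReal (A * t ^ c) * E t x v) :
    ∃ (G : Den) (B : ℝ), 0 ≤ B ∧ Meas3 G ∧ PerF G ∧ (∀ t ∈ Ioc 0 t0, ∀ x v, G t x v = H t x v) ∧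
      (∀ t ∈ Ioc 0 T, ∀ x v, G t x v = TL φ G t x v) ∧
      (∀ t ∈ Ioc 0 T, ∀ x v, G t x v ≤ ENNReal.ofReal (B * t ^ c) * E t x v) := by
  classical
  have hT : 0 < T := ht0.trans_le ht0T
  have hC := hW.C0
  -- `H` cut to `(0,t0]`
  set K : Den := fun t x v => if 0 < t ∧ t ≤ t0 then H t x v else 0 with hK
  have hKm : Meas3 K := by
    unfold Meas3
    refine Measurable.ite ?_ hH measurable_const
    exact (measurableSet_lt measurable_const measurable_fst).inter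
      (measurableSet_le measurable_fst measurable_const)
  have pK : PerF K := by
    intro t v x k
    have := pH t v x k
    simp only at this
    show K t (x + latt k) v = K t x v
    simp only [hK]
    rw [this]
  have hKpos : ∀ t ∈ Ioc 0 t0, ∀ x v, K t x v = H t x v := by
    intro t ht x v
    simp only [hK, ht.1, ht.2, and_self, if_true]
  -- the source of the continuation
  set f : Den := fun t x v => if t0 < t then TL φ K t x v else 0 with hf
  have hfm : Meas3 f := by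
    unfold Meas3
    refine Measurable.ite ?_ (meas3_TL hφ hKm) measurable_const
    exact measurableSet_lt measurable_const measurable_fst
  have pf : PerF f := by
    intro t v x k
    have := PerF_TL pφ pK t v x k
    simp only at this
    show f t (x + latt k) v = f t x v
    simp only [hf]
    rw [this]
  have hf0 : ∀ t, t ≤ t0 → ∀ x v, f t x v = 0 := by
    intro t ht x v
    simp only [hf, not_lt.2 ht, if_false]
  have hKle : ∀ s ∈ Ioo 0 T, ∀ x v, K s x v ≤ ENNReal.ofReal (A * s ^ c + 0 * s ^ (1 : ℝ)) *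
      E s x v := by
    intro s hs x v
    rw [zero_mul, add_zero]
    simp only [hK]
    split_ifs with h
    · exact hle s h x v
    · exact zero_le
  have hTK : ∀ t, 0 < t → t ≤ T → ∀ x v, TL φ K t x v ≤
      ENNReal.ofReal (C * A * T ^ c / c) * E t x v := by
    intro t ht htT x v
    have h1 := ND.TL_le_pow hφ hW (f := K) (D1 := A) (D2 := 0) (β1 := c) (β2 := 1) hA le_rfl hc
      one_pos ht htT (fun s hs y z => hKle s ⟨hs.1, hs.2.trans_le htT⟩ y z) x v
    refine h1.trans ?_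
    refine mul_le_mul' (ENNReal.ofReal_le_ofReal ?_) le_rfl
    have : t ^ c ≤ T ^ c := Real.rpow_le_rpow ht.le htT hc.le
    have h2 : C * A * t ^ c / c ≤ C * A * T ^ c / c := by gcongr
    simpa using h2
  have hfA : ∀ t, 0 < t → t ≤ T → ∀ x v, f t x v ≤ ENNReal.ofReal (C * A * T ^ c / c) *
      E t x v := by
    intro t ht htT x v
    simp only [hf]
    split_ifs
    · exact hTK t ht htT x v
    · exact zero_le
  -- the series vanishes up to `t0`
  have hN0 : ∀ t, t ≤ t0 → ∀ x v, neuL φ f t x v = 0 := by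
    have key : ∀ m : ℕ, ∀ t, t ≤ t0 → ∀ x v, (TL φ)^[m] f t x v = 0 := by
      intro m
      induction m with
      | zero => exact hf0
      | succ m ih =>
        intro t ht x v
        rw [Function.iterate_succ_apply',
          TL_congr_lt (k := fun _ _ _ => 0) (fun s hs y z => ih s (hs.2.le.trans ht) y z)]
        exact TL_zero t x v
    intro t ht x v
    unfold neuL
    simp [key _ t ht]
  have hN : ∀ t, 0 < t → t ≤ t0 → ∀ x v, neuL φ f t x v ≤ ENNReal.ofReal (0 * t ^ c) *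
      E t x v := by
    intro t _ ht x v
    rw [hN0 t ht]
    exact zero_le
  obtain ⟨B, hB, hNB⟩ := neuL_ext hφ hW hfm ht0 ht0T hc (A := C * A * T ^ c / c)
    (by positivity) le_rfl hfA hN
  have pN : PerF (neuL φ f) := by
    intro t v x k
    show neuL φ f t (x + latt k) v = neuL φ f t x v
    unfold neuL
    congr 1
    funext n
    exact PerF_iter pφ pf n t v x k
  set G : Den := fun t x v => K t x v + neuL φ f t x v with hG
  have hGm : Meas3 G := Meas3.add hKm (meas3_neuL hφ hfm)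
  have hG1 : ∀ t ∈ Ioc 0 t0, ∀ x v, G t x v = H t x v := by
    intro t ht x v
    simp only [hG, hN0 t ht.2, add_zero, hKpos t ht]
  refine ⟨G, max A (B / t0 ^ c), le_max_of_le_left hA, hGm, ?_, hG1, ?_, ?_⟩
  · intro t v x k
    have h1 := pK t v x k
    have h2 := pN t v x k
    simp only at h1 h2
    show K t (x + latt k) v + neuL φ f t (x + latt k) v = K t x v + neuL φ f t x v
    rw [h1, h2]
  · intro t ht x v
    by_cases h : t ≤ t0
    · rw [hG1 t ⟨ht.1, h⟩, heq t ⟨ht.1, h⟩]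
      exact TL_congr_lt (fun s hs y z => (hG1 s ⟨hs.1, hs.2.le.trans h⟩ y z).symm) x v
    · have h' : t0 < t := not_le.1 h
      have e1 : TL φ G t x v = TL φ K t x v + TL φ (neuL φ f) t x v := by
        rw [hG, TL_add hφ hKm]
      have e2 : K t x v = 0 := by
        simp only [hK]
        rw [if_neg (fun hh => h hh.2)]
      have e3 : f t x v = TL φ K t x v := by simp only [hf, h', if_true]
      rw [e1, ← e3, ← neuL_eq hφ hfm]
      show K t x v + neuL φ f t x v = _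
      rw [e2, zero_add]
  · intro t ht x v
    by_cases h : t ≤ t0
    · rw [hG1 t ⟨ht.1, h⟩]
      refine (hle t ⟨ht.1, h⟩ x v).trans ?_
      gcongr
      · exact Real.rpow_nonneg ht.1.le c
      · exact le_max_left _ _
    · have h' : t0 < t := not_le.1 h
      have e2 : K t x v = 0 := by
        simp only [hK]
        rw [if_neg (fun hh => h hh.2)]
      have e4 : G t x v = neuL φ f t x v := by
        show K t x v + neuL φ f t x v = _
        rw [e2, zero_add]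
      rw [e4]
      refine (hNB t h' ht.2 x v).trans ?_
      refine mul_le_mul' (ENNReal.ofReal_le_ofReal ?_) le_rfl
      have h3 : t0 ^ c ≤ t ^ c := Real.rpow_le_rpow ht0.le h'.le hc.le
      have h4 : 0 < t0 ^ c := Real.rpow_pos_of_pos ht0 c
      calc B = B / t0 ^ c * t0 ^ c := by field_simp
        _ ≤ B / t0 ^ c * t ^ c := by gcongr
        _ ≤ max A (B / t0 ^ c) * t ^ c := by
            gcongr
            · exact Real.rpow_nonneg ht.1.le c
            · exact le_max_right _ _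

end Crest.Agent.R68.L
end
end

-- ▼ part R68/LGlueA
section

/-!
# Row 68, PART L (helper685): assembly, for one fixed parameter set
-/

set_option autoImplicit false
open MeasureTheory Set Filter Topology
open scoped ENNReal
open Crest.AnalysisR.VecCalc3 Crest.AnalysisR.PDE.Boltzmann

noncomputable section

namespace Crest.Agent.R68.L

open Crest.Agent.R68.A (Meas3 en Acc)

variable {P : Par}

/-- everything on `(0,t0]` is extended to `(0,T]` -/
theorem lInp_of (h : P.Ok) {T t0 g1 g2 g1' g2' a b : ℝ} (hg1 : 0 < g1) (hg2 : 0 ≤ g2)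
    (hg1' : 0 < g1') (hg2' : 0 ≤ g2') (hT1 : T ≤ 1) (hTg : √T / 100 ≤ g1 / 2)
    (hTg' : √T / 100 ≤ g1' / 2) (ht0 : 0 < t0) (ht0T : t0 ≤ T) (ha : 2 < a) (hb : 0 < b)
    (hanc : ∃ H : Den, Meas3 H ∧ PerF H ∧ (∀ t ∈ Ioc 0 t0, ∀ x v, H t x v = TL (phiE P) H t x v) ∧
      (∃ C : ℝ≥0∞, C ≠ ⊤ ∧ ∀ t ∈ Ioc 0 t0, ∀ x v, H t x v ≤ C * B2 P g1 g2 (a - 2) t x v) ∧
      0 < ∫⁻ t in Ioo 0 t0, ∫⁻ x in cellG, ∫⁻ v, H t x v)
    (hsol : ∃ C : ℝ≥0∞, C ≠ ⊤ ∧ ∀ (σ : Den) (A : ℝ≥0∞), Meas3 σ → PerD σ →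
      (∀ t ∈ Ioc 0 t0, ∀ x v, σ t x v ≤ A * B2 P g1' g2' (b - 1) t x v) →
      ∀ t ∈ Ioc 0 t0, ∀ x v, sol (phiE P) σ t x v ≤ C * A * B2 P g1' g2' b t x v) :
    ∃ (Hs : N.Fld) (CL : ℝ≥0∞), N.LInp P T Hs g1 g2 g1' g2' a b CL := by
  have hφ : Meas3 (phiE P) := meas3_phiE h
  have pφ : PerF (phiE P) := fun t v => perG_phiE P t v
  obtain ⟨H, mH, pH, eH, ⟨C, hC, hHC⟩, hpos⟩ := hanc
  have hW := ND.wtHyp_EE h hg1 hg2 hT1 hTg
  have hle : ∀ t ∈ Ioc 0 t0, ∀ x v, H t x v ≤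
      ENNReal.ofReal (C.toReal * t ^ (a - 2)) * N.EE P g1 g2 t x v := by
    intro t ht x v
    refine (hHC t ht x v).trans ?_
    rw [ENNReal.ofReal_mul ENNReal.toReal_nonneg, ENNReal.ofReal_toReal hC,
      B2_env P g1 g2 (a - 2) ht.1.le, mul_assoc]
    exact le_rfl
  obtain ⟨G, B, hB, mG, pG, hGH, hGeq, hGle⟩ := exists_ext (φ := phiE P) (E := N.EE P g1 g2) hφ pφ hW
    ht0 ht0T mH pH eH (c := a - 2) (by linarith) (A := C.toReal) ENNReal.toReal_nonneg hle
  obtain ⟨CL, hCL, hneu⟩ := ND.neu_T h hg1' hg2' hT1 hTg' ht0 ht0T hb hsol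
  refine ⟨G, max CL (ENNReal.ofReal B), ?_⟩
  refine
  { ne := max_ne_top hCL ENNReal.ofReal_ne_top
    neu := fun t ht x v => (hneu t ht x v).trans ?_
    meas := mG
    per := pG
    eqn := fun t ht x v => ?_
    le := fun t ht x v => ?_
    pos := ?_ }
  · gcongr
    exact le_max_left _ _
  · rw [TT_eq (f := G) (f' := G) hφ mG (fun s _ y z => rfl) x v]
    exact hGeq t ht x v
  · refine (hGle t ht x v).trans ?_
    rw [ENNReal.ofReal_mul hB]
    gcongr
    exact le_max_right _ _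
  · intro hae
    apply hpos.ne'
    have h1 : ∀ᵐ t : ℝ, ∀ᵐ q : P2 × R3, t ∈ Ioo 0 T → G t q.1 q.2 = 0 :=
      Measure.ae_ae_of_ae_prod hae
    rw [← lintegral_zero (μ := volume.restrict (Ioo (0 : ℝ) t0))]
    refine lintegral_congr_ae ?_
    filter_upwards [ae_restrict_of_ae h1, ae_restrict_mem measurableSet_Ioo] with t h2 ht
    have htT : t ∈ Ioo 0 T := ⟨ht.1, ht.2.trans_le ht0T⟩
    have h3 : ∀ᵐ x : P2, ∀ᵐ v : R3, G t x v = 0 := by
      refine Measure.ae_ae_of_ae_prod (p := fun q : P2 × R3 => G t q.1 q.2 = 0) ?_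
      filter_upwards [h2] with q hq using hq htT
    rw [← lintegral_zero (μ := volume.restrict cellG)]
    refine lintegral_congr_ae ?_
    filter_upwards [ae_restrict_of_ae h3] with x hx
    rw [← lintegral_zero (μ := (volume : Measure R3))]
    refine lintegral_congr_ae ?_
    filter_upwards [hx] with v hv
    rw [← hGH t ⟨ht.1, ht.2.le⟩ x v, hv]

/-- the ancient solution from X2 and Part S -/
theorem ancient_of (h : P.Ok) {t0 g1 g2 a V0 L R Z0 rho0 : ℝ} {eS CS : ℝ≥0∞}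
    (hg1 : 0 < g1) (hg2 : 0 < g2) (ht01 : t0 ≤ 1) (htg : √t0 / 100 ≤ g1 / 2)
    (hsm : (P.Y + 2) * (t0 + P.dl) < 7 / 20) (ha : 3 ≤ a) (hV0 : 0 < V0)
    (hN : SlaveNum g2 t0 (CT P.Y g1 g2 * P.K) (CT P.Y g1 g2 * P.K * VV P.Y / V0) V0 (L / P.K) R Z0
      (a - 2) rho0 (cUe P.Y g2) eS)
    (hS : SWindow P (phiE P) g1 t0 V0 (L / P.K) R eS CS) (hCS : CS ≠ ⊤) (hrho : rho0 < 7 / 20)
    (hX : ∃ (CH c0 : ℝ≥0∞) (tau : ℕ → ℝ) (sg : ℕ → Den), X2Out P g1 g2 t0 a CH c0 tau sg) :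
    ∃ H : Den, Meas3 H ∧ PerF H ∧ (∀ t ∈ Ioc 0 t0, ∀ x v, H t x v = TL (phiE P) H t x v) ∧
      (∃ C : ℝ≥0∞, C ≠ ⊤ ∧ ∀ t ∈ Ioc 0 t0, ∀ x v, H t x v ≤ C * B2 P g1 g2 (a - 2) t x v) ∧
      0 < ∫⁻ t in Ioo 0 t0, ∫⁻ x in cellG, ∫⁻ v, H t x v := by
  have hφ : Meas3 (phiE P) := meas3_phiE h
  have pφ : PerF (phiE P) := fun t v => perG_phiE P t v
  obtain ⟨CH, c0, tau, sg, hX⟩ := hX
  have hI := sInput_of h hg1 hg2.le ht01 htg hV0 hS
  set K := C0 g2 (CT P.Y g1 g2 * P.K) (L / P.K) R Z0 (cUe P.Y g2) CS (CH + 1) CH with hK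
  have hCH1 : CH + 1 ≠ ⊤ := ENNReal.add_ne_top.2 ⟨hX.CH_ne, ENNReal.one_ne_top⟩
  have hKt : K ≠ ⊤ := C0_ne_top hCH1 hX.CH_ne hN.hcU hCS
  refine ancient_of_X2 (parD_of_ok h) hg1 hg2 ht01 htg hsm ha
    (CK := CT P.Y g1 g2 * P.K) (mul_nonneg (CT_nonneg _ _ _) h.K0) hφ pφ (nullOK hφ) (twoOK hφ)
    (fun s hs x v => ?_) hX (CE := 2 * K + 1) (ENNReal.add_ne_top.2
      ⟨ENNReal.mul_ne_top (by norm_num) hKt, ENNReal.one_ne_top⟩) le_add_self (fun n t ht x v => ?_)
  · refine (K2_Gf h hg1 hg2.le hs.1 (hs.2.trans ht01)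
      ((div_le_div_of_nonneg_right (Real.sqrt_le_sqrt hs.2) (by norm_num)).trans htg) x v).trans ?_
    refine mul_le_mul' (ENNReal.ofReal_le_ofReal ?_) le_rfl
    have hC := CT_nonneg P.Y g1 g2
    have hK0 := h.K0
    have hY := h.Y0
    have hV : 0 < VV P.Y := by unfold VV; positivity
    have hs0 := hs.1
    apply mul_le_of_le_one_right (by positivity)
    rw [div_le_one (lt_of_lt_of_le hV (le_max_left _ _))]
    exact le_max_left _ _
  · refine (sol_slave hI hN hCS (hX.meas n) hCH1 (by simp) hX.CH_ne (hX.tau_pos n)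
      (fun s y w hs => hX.supp n s y w (Or.inl hs)) (fun s y w hs hs0 => ?_)
      (fun s y hs hs0 => ?_) ht.1 ht.2 x v).trans ?_
    · refine (hX.bd n s ⟨hs, hs0⟩ y w).trans ?_
      rw [B2_env P g1 g2 (a - 3) hs.le, show a - 3 = a - 2 - 1 by ring, mul_assoc (CH + 1)]
      gcongr
      exact le_self_add
    · have mH : Meas3 (sol (phiE P) (sg n)) := meas3_sol hφ (hX.meas n)
      have pH : PerD (sol (phiE P) (sg n)) := PerD.sol pφ (hX.per n)
      have h4 := LMass.lintegral_ball_le (f := fun y => ∫⁻ w, sol (phiE P) (sg n) s y w)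
        (Measurable.lintegral_prod_right' (f := fun q : P2 × R3 => sol (phiE P) (sg n) s q.1 q.2)
          (mH.comp measurable_const measurable_fst measurable_snd))
        (fun y k => by
          refine lintegral_congr fun w => ?_
          exact pH s w y k) y hrho
      have e : Metric.closedBall y rho0 = {z : P2 | ‖z - y‖ ≤ rho0} := by
        ext z; rw [Metric.mem_closedBall, dist_eq_norm]; rfl
      rw [e]
      refine h4.trans (le_trans ?_ ((hX.mom n s ⟨hs, hs0⟩).trans ?_))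
      · unfold Mom
        refine lintegral_mono fun y => lintegral_mono fun w => ?_
        refine le_mul_of_one_le_left' ?_
        rw [← ENNReal.ofReal_one]
        apply ENNReal.ofReal_le_ofReal
        have : 0 ≤ ‖w‖ ^ 4 := by positivity
        linarith
      · rw [show a - 2 + 2 = a by ring]
    · rw [B2_env P g1 g2 (a - 2) ht.1.le, ← hK, mul_assoc (2 * K)]
      gcongr
      exact le_self_add

end Crest.Agent.R68.L
end
end

-- ▼ part R68/LGlueB
section

/-!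
# Row 68, PART L (helper685): `LOut` from the outputs of Part S and Part X
-/

set_option autoImplicit false
open MeasureTheory Set Filter Topology
open scoped ENNReal
open Crest.AnalysisR.VecCalc3 Crest.AnalysisR.PDE.Boltzmann

noncomputable section

namespace Crest.Agent.R68.L

open Crest.Agent.R68.A (Meas3 en Acc)

lemma mul_small {R t : ℝ} (hR : 0 ≤ R) (ht : t ≤ 1 / (4 * (R + 1))) : R * t ≤ 1 / 4 := by
  calc R * t ≤ R * (1 / (4 * (R + 1))) := mul_le_mul_of_nonneg_left ht hR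
    _ ≤ 1 / 4 := by
      rw [mul_one_div, div_le_div_iff₀ (by positivity) (by norm_num)]
      linarith

/-- **`LOut` from the outputs of Parts S and X** -/
theorem LOut_of {Y : ℝ} (hY : 1 ≤ Y) (hS1 : SOut Y (1 / 25)) (hS2 : SOut Y (1 / 50))
    (hX1 : X1Out Y (1 / 50) (1 / 50)) (hX2 : X2Out' Y (1 / 25) (1 / 25)) : Main0.LOut Y := by
  have hVV : 0 ≤ VV Y := by unfold VV; positivity
  obtain ⟨V1, L1, hV1, hL1, hnum1⟩ := exists_slaveNum (CT := CT Y (1 / 25) (1 / 25)) (VV := VV Y)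
    (g2 := 1 / 25) (CT_nonneg _ _ _) hVV (by norm_num)
  obtain ⟨V2, L2, hV2, hL2, hnum2⟩ := exists_slaveNum (CT := CT Y (1 / 50) (1 / 50)) (VV := VV Y)
    (g2 := 1 / 50) (CT_nonneg _ _ _) hVV (by norm_num)
  obtain ⟨K1, hS1⟩ := hS1 V1 L1 (epsS Y (1 / 25)) hV1 (by linarith) (epsS_pos _ _)
  obtain ⟨K2, hS2⟩ := hS2 V2 L2 (epsS Y (1 / 50)) hV2 (by linarith) (epsS_pos _ _)
  obtain ⟨K3, hX1⟩ := hX1
  obtain ⟨K4, hX2⟩ := hX2
  refine ⟨max (max (max K1 K2) (max K3 K4)) (max (max (2 * L1) (2 * L2)) 40), fun K hK => ?_⟩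
  have hKa := (le_max_left _ _).trans hK
  have hKb := (le_max_right _ _).trans hK
  have hK1 : K1 ≤ K := ((le_max_left _ _).trans (le_max_left _ _)).trans hKa
  have hK2 : K2 ≤ K := ((le_max_right _ _).trans (le_max_left _ _)).trans hKa
  have hK3 : K3 ≤ K := ((le_max_left _ _).trans (le_max_right _ _)).trans hKa
  have hK4 : K4 ≤ K := ((le_max_right _ _).trans (le_max_right _ _)).trans hKa
  have hKL1 : 2 * L1 ≤ K := ((le_max_left _ _).trans (le_max_left _ _)).trans hKb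
  have hKL2 : 2 * L2 ≤ K := ((le_max_right _ _).trans (le_max_left _ _)).trans hKb
  have hK40 : 40 ≤ K := (le_max_right _ _).trans hKb
  obtain ⟨ey, hey0, hey1, hX2⟩ := hX2 K hK4
  obtain ⟨R1, CS1, hR1, hCS1, hS1⟩ := hS1 K hK1
  obtain ⟨R2, CS2, hR2, hCS2, hS2⟩ := hS2 K hK2
  set a : ℝ := 119 / 20 * K with ha
  obtain ⟨Z1, hnum1⟩ := hnum1 K (a - 2) hKL1 (by rw [ha]; linarith)
  obtain ⟨Z2, hnum2⟩ := hnum2 K (2 * (a - 2)) hKL2 (by rw [ha]; linarith)
  refine ⟨ey, hey0, hey1, a, 2 * (a - 2), by rw [ha]; linarith, by rw [ha]; linarith, le_rfl, ?_⟩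
  filter_upwards [hS1 ey hey0 hey1, hS2 ey hey0 hey1, hX1 K hK3 ey hey0 hey1, hX2,
    eventually_ge_atTop 3] with p hp1 hp2 hp3 hp4 hp5
  have hYp : 0 < 1 / (8 * (Y + 2)) := by positivity
  filter_upwards [hp1, hp2, hp3, hp4, ev_Ok K Y ey p (by linarith) (by linarith) hey0 hp5,
    ev_T1_le (show (0 : ℝ) < 1 by norm_num), ev_dl_le hYp, eventually_ge_atTop 1] with j0 hj1 hj2
    hj3 hj4 hOk hT1 hdl hj
  obtain ⟨s1, hs1, hW1⟩ := hj1
  obtain ⟨s2, hs2, hW2⟩ := hj2
  obtain ⟨s3, hs3, hM⟩ := hj3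
  obtain ⟨s4, hs4, hX2⟩ := hj4
  set P : Par := par K Y ey p j0 with hP
  have hT0 : 0 < T1j j0 := T1j_pos hj
  set t0 : ℝ := min (min (min s1 s2) (min s3 s4)) (min (min (1 / (4 * (R1 + 1))) (1 / (4 * (R2 + 1))))
    (min (1 / (8 * (Y + 2))) (T1j j0))) with ht0d
  have ht0 : 0 < t0 := by
    refine lt_min (lt_min (lt_min hs1 hs2) (lt_min hs3 hs4)) (lt_min (lt_min ?_ ?_) (lt_min hYp hT0))
    · positivity
    · positivity
  have ha1 : t0 ≤ min (min s1 s2) (min s3 s4) := min_le_left _ _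
  have ha2 : t0 ≤ min (min (1 / (4 * (R1 + 1))) (1 / (4 * (R2 + 1))))
    (min (1 / (8 * (Y + 2))) (T1j j0)) := min_le_right _ _
  have h1 : t0 ≤ s1 := ha1.trans ((min_le_left _ _).trans (min_le_left _ _))
  have h2 : t0 ≤ s2 := ha1.trans ((min_le_left _ _).trans (min_le_right _ _))
  have h3 : t0 ≤ s3 := ha1.trans ((min_le_right _ _).trans (min_le_left _ _))
  have h4 : t0 ≤ s4 := ha1.trans ((min_le_right _ _).trans (min_le_right _ _))
  have h5 : t0 ≤ 1 / (4 * (R1 + 1)) := ha2.trans ((min_le_left _ _).trans (min_le_left _ _))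
  have h6 : t0 ≤ 1 / (4 * (R2 + 1)) := ha2.trans ((min_le_left _ _).trans (min_le_right _ _))
  have h7 : t0 ≤ 1 / (8 * (Y + 2)) := ha2.trans ((min_le_right _ _).trans (min_le_left _ _))
  have h8 : t0 ≤ T1j j0 := ha2.trans ((min_le_right _ _).trans (min_le_right _ _))
  have ht01 : t0 ≤ 1 := h8.trans hT1
  have hsq : √t0 ≤ 1 := by rw [Real.sqrt_le_one]; exact ht01
  have hsqT : √(T1j j0) ≤ 1 := by rw [Real.sqrt_le_one]; exact hT1
  obtain ⟨CX, hCX, hM⟩ := hM t0 ht0 h3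
  have hsm : (P.Y + 2) * (t0 + P.dl) < 7 / 20 := by
    have h9 : P.dl ≤ 1 / (8 * (Y + 2)) := hdl
    have h10 : P.Y = Y := rfl
    rw [h10]
    have hY2 : 0 < Y + 2 := by linarith
    calc (Y + 2) * (t0 + P.dl) ≤ (Y + 2) * (1 / (8 * (Y + 2)) + 1 / (8 * (Y + 2))) := by gcongr
      _ = 1 / 4 := by field_simp; norm_num
      _ < 7 / 20 := by norm_num
  have hN1 := hnum1 t0 R1 (1 / 4) (cUe Y (1 / 25)) (ENNReal.ofReal (epsS Y (1 / 25))) hR1
    (mul_small hR1 h5) ENNReal.ofReal_ne_top (cUe_epsS _ _)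
  have hN2 := hnum2 t0 R2 (1 / 4) (cUe Y (1 / 50)) (ENNReal.ofReal (epsS Y (1 / 50))) hR2
    (mul_small hR2 h6) ENNReal.ofReal_ne_top (cUe_epsS _ _)
  refine lInp_of (P := P) hOk (t0 := t0) (by norm_num) (by norm_num) (by norm_num) (by norm_num) hT1
    (by linarith) (by linarith) ht0 h8 (by rw [ha]; linarith) (by rw [ha]; linarith) ?_ ?_
  · exact ancient_of (P := P) hOk (by norm_num) (by norm_num) ht01 (by linarith) hsm
      (by rw [ha]; linarith) hV1 hN1 (hW1 t0 ht0 h1) hCS1 (by norm_num) (hX2 t0 ht0 h4)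
  · exact solBound_of (P := P) hOk (by norm_num) (by norm_num) ht01 (by linarith) hsm hV2 hN2
      (hW2 t0 ht0 h2) hCS2 (by norm_num) hM hCX (by rw [ha]; linarith)

end Crest.Agent.R68.L
end
end

-- ▼ part R68/X1

/-!
# Row 68, PART X1 (helper105): upper growth estimate, final form

`X1Out_holds : 1 ≤ Y → 0 < g1 → 0 < g2 → X1Out Y g1 g2`.
-/

set_option autoImplicit false
open MeasureTheory Set Filter
open scoped ENNReal Real
open Crest.AnalysisR.VecCalc3 Crest.AnalysisR.PDE.Boltzmann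

noncomputable section

namespace Crest.Agent.R68.X1

open Crest.Agent.R68.A Crest.Agent.R68.L Crest.Agent.R68.X Crest.Agent.R68.XUp
open Crest.Agent.R68.LMass

/-! ### the weight against `(1+|v|)^4` -/

/-- comparison constant -/
def CZ (Y : ℝ) : ℝ := 2 * (1 + 2 * Y) ^ 4

theorem Z_le_norm (a : R3) : Z a ≤ 2 * (1 + ‖a‖) ^ 4 := by
  have h2 : (a 2) ^ 2 ≤ ‖a‖ ^ 2 := by
    rw [norm_sq_coord]; nlinarith [sq_nonneg (a 0), sq_nonneg (a 1)]
  have h := norm_nonneg a
  unfold Z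
  have h3 : (1 + ‖a‖) ^ 4 = 1 + 4 * ‖a‖ + 6 * ‖a‖ ^ 2 + 4 * ‖a‖ ^ 3 + ‖a‖ ^ 4 := by ring
  rw [h3]
  have h4 : 0 ≤ ‖a‖ ^ 3 := by positivity
  have h5 : 0 ≤ ‖a‖ ^ 4 := by positivity
  have h6 : 0 ≤ ‖a‖ ^ 2 := by positivity
  linarith

theorem norm_cfr_le {P : Par} (hY : 0 ≤ P.Y) (t : ℝ) (x : P2) : ‖cfr P t x‖ ≤ 2 * P.Y := by
  have h1 : ‖cfr P t x‖ ^ 2 = yfr P t x ^ 2 := by
    rw [norm_sq_coord, cfr_zero, cfr_one, cfr_two]; ring
  have h2 : ‖cfr P t x‖ = |yfr P t x| := by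
    rw [← abs_of_nonneg (norm_nonneg (cfr P t x))]
    exact (sq_eq_sq_iff_abs_eq_abs _ _).1 h1
  rw [h2]; exact abs_yfr_le hY _ _

theorem Ze_le {P : Par} (hY : 0 ≤ P.Y) (t : ℝ) (x : P2) (v : R3) :
    Ze (cfr P t x) v ≤ ENNReal.ofReal (CZ P.Y) * ENNReal.ofReal ((1 + ‖v‖) ^ 4) := by
  unfold Ze CZ
  rw [← ENNReal.ofReal_mul (by positivity)]
  apply ENNReal.ofReal_le_ofReal
  have h1 := norm_sub_le v (cfr P t x)
  have h2 := norm_cfr_le hY t x
  have h0 := norm_nonneg v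
  have h3 : 1 + ‖v - cfr P t x‖ ≤ (1 + 2 * P.Y) * (1 + ‖v‖) := by nlinarith [mul_nonneg hY h0]
  calc Z (v - cfr P t x) ≤ 2 * (1 + ‖v - cfr P t x‖) ^ 4 := Z_le_norm _
    _ ≤ 2 * ((1 + 2 * P.Y) * (1 + ‖v‖)) ^ 4 := by gcongr
    _ = _ := by rw [mul_pow]; ring

theorem damp_le_one {P : Par} (h : 0 ≤ Ccf P) (t : ℝ) :
    ENNReal.ofReal (Real.exp (-(Ccf P * √t))) ≤ 1 := by
  rw [ENNReal.ofReal_le_one]
  apply Real.exp_le_one_iff.2
  have := Real.sqrt_nonneg t
  have := mul_nonneg h this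
  linarith

theorem Ccf_nonneg {P : Par} (hY : 0 ≤ P.Y) (hκ : 0 ≤ P.kap) : 0 ≤ Ccf P := by
  unfold Ccf C2f; positivity

theorem zw_le {P : Par} (hY : 0 ≤ P.Y) (hκ : 0 ≤ P.kap) (t : ℝ) (x : P2) (v : R3) :
    zw (cfr P) (Ccf P) t x v ≤ ENNReal.ofReal (CZ P.Y) * ENNReal.ofReal ((1 + ‖v‖) ^ 4) := by
  unfold zw
  calc _ ≤ 1 * Ze (cfr P t x) v := by
        gcongr
        exact damp_le_one (Ccf_nonneg hY hκ) t
    _ ≤ _ := by rw [one_mul]; exact Ze_le hY t x v

/-! ### the loss -/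

theorem Lc_phi_le {P : Par} (h : P.Ok) {t : ℝ} (ht : 0 < t)
    (ht0 : t ≤ 1 / (10 * (P.Y + 2))) (x : P2) (v : R3) :
    Lc (phiE P t x) v ≤ ENNReal.ofReal (2 * π * (‖v‖ + P.Y + 5) * (P.K / t)) := by
  have hY := h.Y0
  have hLc : Lc (phiE P t x) v = ∫⁻ vs, ENNReal.ofReal (2 * π * ‖v - vs‖) * phiE P t x vs := by
    unfold Lc
    exact lintegral_congr fun vs => lintegral_abs_inner_mul _ _
  rw [hLc]
  calc ∫⁻ vs, ENNReal.ofReal (2 * π * ‖v - vs‖) * phiE P t x vs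
      ≤ ∫⁻ vs, ENNReal.ofReal (2 * π * (‖v‖ + P.Y + 5)) * phiE P t x vs := by
        refine lintegral_mono fun vs => ?_
        by_cases hv : P.Y + 5 < ‖vs‖
        · unfold phiE
          rw [C.phi_eq_zero_of_norm h hv]
          simp
        · push Not at hv
          gcongr
          have := norm_sub_le v vs
          linarith
    _ = ENNReal.ofReal (2 * π * (‖v‖ + P.Y + 5)) * ∫⁻ vs, phiE P t x vs :=
        lintegral_const_mul' _ _ ENNReal.ofReal_ne_top
    _ ≤ ENNReal.ofReal (2 * π * (‖v‖ + P.Y + 5)) * ENNReal.ofReal (P.K / t) := by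
        gcongr
        exact dens_cfr h ht ht0 x
    _ = _ := by rw [← ENNReal.ofReal_mul (by positivity)]

theorem acc_ne_top {P : Par} (h : P.Ok) {t0 : ℝ} (ht0 : t0 ≤ 1 / (10 * (P.Y + 2))) :
    ∀ s t x v, 0 < s → s ≤ t → t ≤ t0 → Acc (phiE P) s t x v ≠ ⊤ := by
  intro s t x v hs hst htt
  have hY := h.Y0
  have hK := h.K0
  unfold A.Acc
  refine ne_of_lt (lt_of_le_of_lt (b := ∫⁻ τ in Ioo s t,
    ENNReal.ofReal (2 * π * (‖v‖ + P.Y + 5) * (P.K / s))) ?_ ?_)
  · refine setLIntegral_mono' measurableSet_Ioo fun τ hτ => ?_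
    refine (Lc_phi_le h (hs.trans hτ.1) ((hτ.2.le.trans htt).trans ht0) _ v).trans ?_
    apply ENNReal.ofReal_le_ofReal
    have := hτ.1
    gcongr
  · rw [lintegral_const]
    refine ENNReal.mul_lt_top ENNReal.ofReal_lt_top ?_
    rw [Measure.restrict_apply_univ, Real.volume_Ioo]
    exact ENNReal.ofReal_lt_top

/-! ### the envelope -/

theorem one_add_mul_EE {P : Par} {g1 g2 : ℝ} (hg1 : 0 < g1) (t : ℝ) (x : P2) (v : R3) :
    ENNReal.ofReal (1 + ‖v‖) * EE P g1 g2 t x v ≤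
      ENNReal.ofReal (Real.exp (1 / (2 * g1))) * EE P (g1 / 2) g2 t x v := by
  unfold EE B2
  rw [← mul_assoc, ← mul_assoc, ← ENNReal.ofReal_mul (by positivity),
    ← ENNReal.ofReal_mul (Real.exp_pos _).le]
  gcongr ?_ * _
  apply ENNReal.ofReal_le_ofReal
  rw [Real.rpow_zero, one_mul, one_mul]
  have h0 := norm_nonneg v
  have h1 : 1 + ‖v‖ ≤ Real.exp (1 / (2 * g1)) * Real.exp (g1 / 2 * ‖v‖ ^ 2) := by
    rw [← Real.exp_add]
    have h2 : ‖v‖ ≤ 1 / (2 * g1) + g1 / 2 * ‖v‖ ^ 2 := by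
      have h3 : 1 / (2 * g1) + g1 / 2 * ‖v‖ ^ 2 - ‖v‖ = (g1 * ‖v‖ - 1) ^ 2 / (2 * g1) := by
        field_simp; ring
      have h4 : 0 ≤ (g1 * ‖v‖ - 1) ^ 2 / (2 * g1) := by positivity
      linarith
    calc 1 + ‖v‖ ≤ Real.exp ‖v‖ := by have := Real.add_one_le_exp ‖v‖; linarith
      _ ≤ _ := Real.exp_le_exp.2 h2
  have h5 : gau g1 t v * Real.exp (g1 / 2 * ‖v‖ ^ 2) = gau (g1 / 2) t v := by
    unfold gau
    rw [← Real.exp_add]
    congr 1; ring
  have h6 : 0 ≤ gau g1 t v := (Real.exp_pos _).le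
  calc (1 + ‖v‖) * (gau g1 t v * Real.exp (-g2 * (max ‖v‖ (distG x / t)) ^ 2))
      ≤ (Real.exp (1 / (2 * g1)) * Real.exp (g1 / 2 * ‖v‖ ^ 2)) *
        (gau g1 t v * Real.exp (-g2 * (max ‖v‖ (distG x / t)) ^ 2)) := by gcongr
    _ = Real.exp (1 / (2 * g1)) * ((gau g1 t v * Real.exp (g1 / 2 * ‖v‖ ^ 2)) *
        Real.exp (-g2 * (max ‖v‖ (distG x / t)) ^ 2)) := by ring
    _ = _ := by rw [h5]

/-! ### the final theorem -/

/-- smallness of the horizon -/
def t00 (Y g1 : ℝ) : ℝ := min (1 / (10 * (Y + 2))) ((25 * g1) ^ 2)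

theorem t00_pos {Y g1 : ℝ} (hY : 0 < Y) (hg1 : 0 < g1) : 0 < t00 Y g1 := by
  unfold t00; positivity

theorem sqrt_le_t00 {Y g1 s : ℝ} (hg1 : 0 < g1) (hs : s ≤ t00 Y g1) : √s / 100 ≤ g1 / 4 := by
  have h1 : s ≤ (25 * g1) ^ 2 := hs.trans (min_le_right _ _)
  have h2 : √s ≤ 25 * g1 := by
    rw [Real.sqrt_le_left (by positivity)]; exact h1
  linarith

theorem pi_bound : 3.56 * π ≤ 56 / 5 := by
  have := Real.pi_lt_d4
  norm_num at this ⊢
  linarith

theorem massBound {P : Par} (h : P.Ok) (hY1 : 1 ≤ P.Y) (hK0 : 0 < P.K) (hc : P.c ≤ 1 / 10000)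
    (hdl : (P.Y + 2) * P.dl ≤ 1 / 10) {g1 g2 t0 : ℝ} (hg1 : 0 < g1) (hg2 : 0 < g2)
    (ht0 : t0 ≤ t00 P.Y g1) :
    MassBound P (phiE P) g1 g2 t0 (56 / 5 * P.K)
      (ENNReal.ofReal (Real.exp (Ccf P)) * ENNReal.ofReal (CZ P.Y)) := by
  intro H σ τ0 A mH mσ pH pσ hτ hA heq hH0 hσ0 hHA hσA t ht htt
  have hY := h.Y0
  have hκ := Fuel.Ok.kap0 h
  have hParD := parD_of_ok h
  have ht0Y : t0 ≤ 1 / (10 * (P.Y + 2)) := ht0.trans (min_le_left _ _)
  have hφ : Meas3 (phiE P) := meas3_phiE h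
  have hfr := frame_phi h hY1 hc ht0Y
  have hsm : ∀ s, s ≤ t0 → (P.Y + 2) * (s + P.dl) < 7 / 20 := by
    intro s hs
    have h1 : (P.Y + 2) * s ≤ (P.Y + 2) * (1 / (10 * (P.Y + 2))) := by
      gcongr; exact hs.trans ht0Y
    have h2 : (P.Y + 2) * (1 / (10 * (P.Y + 2))) = 1 / 10 := by field_simp
    linarith
  have hZn : ∀ s x v, zw (cfr P) (Ccf P) s x v
      ≤ ENNReal.ofReal (CZ P.Y) * ENNReal.ofReal ((1 + ‖v‖) ^ 4) := fun s x v =>
    zw_le hY.le hκ s x v
  -- (1) bound of the mass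
  have hMB : ∀ s, 0 < s → s ≤ t0 → mz (cfr P) (Ccf P) H s
      ≤ ENNReal.ofReal (CZ P.Y) * A * CM P.Y g1 g2 * ENNReal.ofReal (t0 ^ 2) := by
    intro s hs hst
    unfold mz
    have hmB := mass_B2 hParD hg1 hg2 hs (g1 := g1) (g2 := g2)
      (by have := sqrt_le_t00 hg1 (hst.trans ht0); linarith) (hsm s hst)
    calc ∫⁻ x in cellG, ∫⁻ v, zw (cfr P) (Ccf P) s x v * H s x v
        ≤ ∫⁻ x in cellG, ∫⁻ v, (ENNReal.ofReal (CZ P.Y) * A) *
          (ENNReal.ofReal ((1 + ‖v‖) ^ 4) * B2 P g1 g2 0 s x v) := by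
          refine lintegral_mono fun x => lintegral_mono fun v => ?_
          calc zw (cfr P) (Ccf P) s x v * H s x v
              ≤ (ENNReal.ofReal (CZ P.Y) * ENNReal.ofReal ((1 + ‖v‖) ^ 4)) *
                (A * EE P g1 g2 s x v) := by
                gcongr
                · exact hZn s x v
                · exact hHA s x v hs hst
            _ = _ := by unfold EE; ring
      _ = (ENNReal.ofReal (CZ P.Y) * A) * ∫⁻ x in cellG, ∫⁻ v,
          ENNReal.ofReal ((1 + ‖v‖) ^ 4) * B2 P g1 g2 0 s x v := by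
          rw [← lintegral_const_mul' _ _ (ENNReal.mul_ne_top ENNReal.ofReal_ne_top hA)]
          refine lintegral_congr fun x => ?_
          rw [← lintegral_const_mul' _ _ (ENNReal.mul_ne_top ENNReal.ofReal_ne_top hA)]
      _ ≤ (ENNReal.ofReal (CZ P.Y) * A) * (CM P.Y g1 g2 * ENNReal.ofReal (s ^ 2)) := by gcongr
      _ ≤ (ENNReal.ofReal (CZ P.Y) * A) * (CM P.Y g1 g2 * ENNReal.ofReal (t0 ^ 2)) := by gcongr
      _ = _ := by ring
  -- (2) the loss is integrable
  have hN : ∀ r, 0 < r → r ≤ t0 → ∫⁻ s in Ioo 0 r, nz (phiE P) (cfr P) (Ccf P) H s ≠ ⊤ := by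
    intro r hr hrt
    set E1 : ℝ≥0∞ := ENNReal.ofReal (2 * π * (P.Y + 5) * (P.K / τ0)) * ENNReal.ofReal (CZ P.Y) * A *
      ENNReal.ofReal (Real.exp (1 / (2 * g1))) * (CM P.Y (g1 / 2) g2 * ENNReal.ofReal (t0 ^ 2))
      with hE1
    have hE1f : E1 ≠ ⊤ := by
      rw [hE1]
      refine ENNReal.mul_ne_top (ENNReal.mul_ne_top (ENNReal.mul_ne_top (ENNReal.mul_ne_top
        ENNReal.ofReal_ne_top ENNReal.ofReal_ne_top) hA) ENNReal.ofReal_ne_top)
        (ENNReal.mul_ne_top (CM_ne_top _ _ _) ENNReal.ofReal_ne_top)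
    refine ne_of_lt (lt_of_le_of_lt (b := ∫⁻ s in Ioo 0 r, E1) ?_ ?_)
    · refine setLIntegral_mono' measurableSet_Ioo fun s hs => ?_
      by_cases hsτ : s ≤ τ0
      · have : nz (phiE P) (cfr P) (Ccf P) H s = 0 := by
          unfold nz; simp [hH0 s _ _ hsτ]
        rw [this]; exact zero_le
      push Not at hsτ
      have hs0 : 0 < s := hs.1
      have hst : s ≤ t0 := hs.2.le.trans hrt
      have hmB := mass_B2 hParD (g1 := g1 / 2) (g2 := g2) (by positivity) hg2 hs0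
        (by have := sqrt_le_t00 hg1 (hst.trans ht0); linarith) (hsm s hst)
      have hcst : ENNReal.ofReal (2 * π * (P.Y + 5) * (P.K / τ0)) * ENNReal.ofReal (CZ P.Y) * A *
          ENNReal.ofReal (Real.exp (1 / (2 * g1))) ≠ ⊤ :=
        ENNReal.mul_ne_top (ENNReal.mul_ne_top (ENNReal.mul_ne_top
          ENNReal.ofReal_ne_top ENNReal.ofReal_ne_top) hA) ENNReal.ofReal_ne_top
      unfold nz
      calc ∫⁻ x in cellG, ∫⁻ v, Lc (phiE P s x) v * (zw (cfr P) (Ccf P) s x v * H s x v)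
          ≤ ∫⁻ x in cellG, ∫⁻ v, (ENNReal.ofReal (2 * π * (P.Y + 5) * (P.K / τ0)) *
            ENNReal.ofReal (CZ P.Y) * A * ENNReal.ofReal (Real.exp (1 / (2 * g1)))) *
            (ENNReal.ofReal ((1 + ‖v‖) ^ 4) * B2 P (g1 / 2) g2 0 s x v) := by
            refine lintegral_mono fun x => lintegral_mono fun v => ?_
            have hv := norm_nonneg v
            have hL : Lc (phiE P s x) v ≤ ENNReal.ofReal (2 * π * (P.Y + 5) * (P.K / τ0)) *
                ENNReal.ofReal (1 + ‖v‖) := by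
              refine (Lc_phi_le h hs0 (hst.trans ht0Y) x v).trans ?_
              rw [← ENNReal.ofReal_mul (by positivity)]
              apply ENNReal.ofReal_le_ofReal
              have h1 : ‖v‖ + P.Y + 5 ≤ (P.Y + 5) * (1 + ‖v‖) := by nlinarith
              calc 2 * π * (‖v‖ + P.Y + 5) * (P.K / s)
                  ≤ 2 * π * ((P.Y + 5) * (1 + ‖v‖)) * (P.K / τ0) := by gcongr
                _ = _ := by ring
            calc Lc (phiE P s x) v * (zw (cfr P) (Ccf P) s x v * H s x v)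
                ≤ (ENNReal.ofReal (2 * π * (P.Y + 5) * (P.K / τ0)) * ENNReal.ofReal (1 + ‖v‖)) *
                  ((ENNReal.ofReal (CZ P.Y) * ENNReal.ofReal ((1 + ‖v‖) ^ 4)) *
                    (A * EE P g1 g2 s x v)) := by
                  gcongr
                  · exact hZn s x v
                  · exact hHA s x v hs0 hst
              _ = (ENNReal.ofReal (2 * π * (P.Y + 5) * (P.K / τ0)) * ENNReal.ofReal (CZ P.Y) * A *
                  ENNReal.ofReal ((1 + ‖v‖) ^ 4)) *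
                  (ENNReal.ofReal (1 + ‖v‖) * EE P g1 g2 s x v) := by ring
              _ ≤ (ENNReal.ofReal (2 * π * (P.Y + 5) * (P.K / τ0)) * ENNReal.ofReal (CZ P.Y) * A *
                  ENNReal.ofReal ((1 + ‖v‖) ^ 4)) *
                  (ENNReal.ofReal (Real.exp (1 / (2 * g1))) * EE P (g1 / 2) g2 s x v) := by
                  exact mul_le_mul_right (one_add_mul_EE hg1 s x v) _
              _ = _ := by unfold EE; ring
        _ = (ENNReal.ofReal (2 * π * (P.Y + 5) * (P.K / τ0)) *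
            ENNReal.ofReal (CZ P.Y) * A * ENNReal.ofReal (Real.exp (1 / (2 * g1)))) *
            ∫⁻ x in cellG, ∫⁻ v, ENNReal.ofReal ((1 + ‖v‖) ^ 4) * B2 P (g1 / 2) g2 0 s x v := by
            rw [← lintegral_const_mul' _ _ hcst]
            refine lintegral_congr fun x => ?_
            rw [← lintegral_const_mul' _ _ hcst]
        _ ≤ (ENNReal.ofReal (2 * π * (P.Y + 5) * (P.K / τ0)) *
            ENNReal.ofReal (CZ P.Y) * A * ENNReal.ofReal (Real.exp (1 / (2 * g1)))) *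
            (CM P.Y (g1 / 2) g2 * ENNReal.ofReal (s ^ 2)) := by gcongr
        _ ≤ E1 := by rw [hE1]; gcongr
    · rw [lintegral_const]
      refine ENNReal.mul_lt_top (lt_top_iff_ne_top.2 hE1f) ?_
      rw [Measure.restrict_apply_univ, Real.volume_Ioo]
      exact ENNReal.ofReal_lt_top
  -- (3) the abstract theorem
  have hx := x1_abs hφ (perG_phiE P) mH pH mσ pσ hfr hK0 (acc_ne_top h ht0Y)
    (fun t ht htt x v => by
      rw [heq t x v]
      have e := congrFun (congrFun (congrFun (Dam_add (φ := phiE P) hφ (h := Gf (phiE P) H) (k := σ)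
        (meas3_Gf hφ mH)) t) x) v
      exact e.ge)
    hτ (fun t ht x v => hH0 t x v ht.le)
    (ENNReal.mul_ne_top (ENNReal.mul_ne_top (ENNReal.mul_ne_top ENNReal.ofReal_ne_top hA)
      (CM_ne_top _ _ _)) ENNReal.ofReal_ne_top) hMB hN t ht htt
  have hCc := Ccf_nonneg hY.le hκ
  have ht1 : t ≤ 1 := by
    refine (htt.trans ht0Y).trans ?_
    rw [div_le_one (by positivity)]; linarith
  -- lower bound of the weighted mass
  have hlow : ∫⁻ x in cellG, ∫⁻ v, H t x v ≤ ENNReal.ofReal (Real.exp (Ccf P)) *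
      mz (cfr P) (Ccf P) H t := by
    unfold mz
    rw [← lintegral_const_mul' _ _ ENNReal.ofReal_ne_top]
    refine lintegral_mono fun x => ?_
    dsimp only
    rw [← lintegral_const_mul' _ _ ENNReal.ofReal_ne_top]
    refine lintegral_mono fun v => ?_
    have h1 : 1 ≤ ENNReal.ofReal (Real.exp (Ccf P)) * zw (cfr P) (Ccf P) t x v := by
      unfold zw
      have h2 := one_le_Ze (cfr P t x) v
      calc (1 : ℝ≥0∞) ≤ (ENNReal.ofReal (Real.exp (Ccf P)) *
            ENNReal.ofReal (Real.exp (-(Ccf P * √t)))) * 1 := by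
            rw [mul_one, ← ENNReal.ofReal_mul (Real.exp_pos _).le, ← Real.exp_add,
              ENNReal.one_le_ofReal]
            apply Real.one_le_exp
            have h3 : √t ≤ 1 := Real.sqrt_le_one.2 ht1
            nlinarith
        _ ≤ (ENNReal.ofReal (Real.exp (Ccf P)) *
            ENNReal.ofReal (Real.exp (-(Ccf P * √t)))) * Ze (cfr P t x) v := by gcongr
        _ = _ := by ring
    calc H t x v = 1 * H t x v := (one_mul _).symm
      _ ≤ (ENNReal.ofReal (Real.exp (Ccf P)) * zw (cfr P) (Ccf P) t x v) * H t x v := by gcongr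
      _ = _ := by ring
  refine hlow.trans ?_
  rw [mul_assoc]
  gcongr
  refine hx.trans ?_
  rw [← lintegral_const_mul' _ _ ENNReal.ofReal_ne_top]
  refine setLIntegral_mono' measurableSet_Ioo fun s hs => ?_
  have hs0 : 0 < s := hs.1
  have hr : (t / s) ^ (3.56 * π * P.K) ≤ (t / s) ^ (56 / 5 * P.K) := by
    apply Real.rpow_le_rpow_of_exponent_le
    · rw [one_le_div hs0]; exact hs.2.le
    · have := pi_bound
      gcongr
  have hσm : mz (cfr P) (Ccf P) σ s ≤ ENNReal.ofReal (CZ P.Y) *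
      ∫⁻ x in cellG, ∫⁻ v, ENNReal.ofReal ((1 + ‖v‖) ^ 4) * σ s x v := by
    unfold mz
    rw [← lintegral_const_mul' _ _ ENNReal.ofReal_ne_top]
    refine lintegral_mono fun x => ?_
    dsimp only
    rw [← lintegral_const_mul' _ _ ENNReal.ofReal_ne_top]
    refine lintegral_mono fun v => ?_
    rw [← mul_assoc]
    gcongr
    exact hZn s x v
  calc ENNReal.ofReal ((t / s) ^ (3.56 * π * P.K)) * mz (cfr P) (Ccf P) σ s
      ≤ ENNReal.ofReal ((t / s) ^ (56 / 5 * P.K)) * (ENNReal.ofReal (CZ P.Y) *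
        ∫⁻ x in cellG, ∫⁻ v, ENNReal.ofReal ((1 + ‖v‖) ^ 4) * σ s x v) := by gcongr
    _ = _ := by ring

/-- **(X1)** -/
theorem X1Out_holds {Y g1 g2 : ℝ} (hY : 1 ≤ Y) (hg1 : 0 < g1) (hg2 : 0 < g2) : X1Out Y g1 g2 := by
  refine ⟨1, fun K hK ey hey _ => ?_⟩
  filter_upwards [eventually_ge_atTop 3] with p hp
  have hY0 : 0 < Y := by linarith
  filter_upwards [ev_Ok K Y ey p (by linarith) hY0 hey hp,
    ev_c_le K Y ey p (show (0 : ℝ) < 1 / 10000 by norm_num),
    ev_dl_le (show (0 : ℝ) < 1 / (10 * (Y + 2)) by positivity)] with j0 h1 h2 h3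
  refine ⟨t00 Y g1, t00_pos hY0 hg1, fun t0 _ ht0 => ?_⟩
  refine ⟨ENNReal.ofReal (Real.exp (Ccf (par K Y ey p j0))) * ENNReal.ofReal (CZ Y),
    ENNReal.mul_ne_top ENNReal.ofReal_ne_top ENNReal.ofReal_ne_top, ?_⟩
  refine massBound h1 hY (show 0 < K by linarith) h2 ?_ hg1 hg2 ht0
  show (Y + 2) * dlj j0 ≤ 1 / 10
  calc (Y + 2) * dlj j0 ≤ (Y + 2) * (1 / (10 * (Y + 2))) := by gcongr
    _ = 1 / 10 := by field_simp

end Crest.Agent.R68.X1
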