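import Mathlib
import Crest.Agent.R68.Carl4
import Crest.Agent.R68.Sph4
import Crest.Agent.R68.XTent

-- ▼ part R68/XSph
section

/-!
R68 / XSph: dual form of the gain (`gs`), sphere means, Archimedes for coordinates and for the
energy, Povzner moments (helper211).
-/

set_option autoImplicit false
open MeasureTheory Set
open scoped ENNReal Real
open Crest.AnalysisR.VecCalc3 Crest.AnalysisR.PDE.Boltzmann

namespace Crest.Agent.R68.XSph

attribute [local irreducible] rot vec3

/-- point of the collision sphere of `v, u` in direction `s` -/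
noncomputable def pt (v u s : R3) : R3 := (1 / 2 : ℝ) • (v + u) + (‖v - u‖ / 2) • s

/-- dual gain of `g` at velocity `v` against a partner `u` -/
noncomputable def gs (g : R3 → ℝ≥0∞) (v u : R3) : ℝ≥0∞ :=
  ∫⁻ w, ENNReal.ofReal |inner ℝ (v - u) w| * (g (postVel v u w) + g (postVelStar v u w))
    ∂sphereMeasure


theorem measurable_pt_s (v u : R3) : Measurable fun s : R3 => pt v u s := by
  unfold pt; fun_prop

theorem continuous_pt_s (v u : R3) : Continuous fun s : R3 => pt v u s := by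
  unfold pt; fun_prop

/-- the two halves of `gs` -/
theorem lintegral_post (g : R3 → ℝ≥0∞) (hg : Measurable g) (v u : R3) :
    ∫⁻ w, ENNReal.ofReal |inner ℝ (v - u) w| * g (postVel v u w) ∂sphereMeasure
      = ENNReal.ofReal (‖v - u‖ / 2) * ∫⁻ s, g (pt v u s) ∂sphereMeasure := by
  have h := lintegral_gain_sigma hg (measurable_const (a := (1 : ℝ≥0∞))) v u
  simp only [mul_one] at h
  rw [h]
  congr 1
  have hm : Measurable fun s : R3 => g (pt v u s) := hg.comp (measurable_pt_s v u)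
  rw [← lintegral_sphere_neg hm]
  refine lintegral_congr fun s => ?_
  unfold pt
  rw [smul_neg, ← sub_eq_add_neg]

theorem lintegral_postStar (g : R3 → ℝ≥0∞) (hg : Measurable g) (v u : R3) :
    ∫⁻ w, ENNReal.ofReal |inner ℝ (v - u) w| * g (postVelStar v u w) ∂sphereMeasure
      = ENNReal.ofReal (‖v - u‖ / 2) * ∫⁻ s, g (pt v u s) ∂sphereMeasure := by
  have h := lintegral_gain_sigma (measurable_const (a := (1 : ℝ≥0∞))) hg v u
  simp only [mul_one, one_mul] at h
  rw [h]
  rfl

/-- **(D3)** σ form of `gs` -/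
theorem gs_eq {g : R3 → ℝ≥0∞} (hg : Measurable g) (v u : R3) :
    gs g v u = ENNReal.ofReal ‖v - u‖ * ∫⁻ s, g (pt v u s) ∂sphereMeasure := by
  unfold gs
  have h1 : Measurable fun w : R3 => ENNReal.ofReal |inner ℝ (v - u) w| * g (postVel v u w) := by
    refine Measurable.mul (by fun_prop) (hg.comp ?_)
    unfold postVel; fun_prop
  simp_rw [mul_add]
  rw [lintegral_add_left h1, lintegral_post g hg, lintegral_postStar g hg, ← add_mul,
    ← ENNReal.ofReal_add (by positivity) (by positivity), add_halves]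



theorem gs_mono {g h : R3 → ℝ≥0∞} (hgh : ∀ v, g v ≤ h v) (v u : R3) : gs g v u ≤ gs h v u :=
  lintegral_mono fun _ => mul_le_mul_right (add_le_add (hgh _) (hgh _)) _

theorem gs_add {g h : R3 → ℝ≥0∞} (hg : Measurable g) (hh : Measurable h) (v u : R3) :
    gs (fun w => g w + h w) v u = gs g v u + gs h v u := by
  have h1 : Measurable fun s : R3 => g (pt v u s) := hg.comp (measurable_pt_s v u)
  have h2 : Measurable fun w : R3 => g w + h w := hg.add hh
  rw [gs_eq hg, gs_eq hh, gs_eq h2, lintegral_add_left h1, mul_add]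

theorem gs_const_mul {g : R3 → ℝ≥0∞} (hg : Measurable g) (c : ℝ≥0∞) (v u : R3) :
    gs (fun w => c * g w) v u = c * gs g v u := by
  have h1 : Measurable fun s : R3 => g (pt v u s) := hg.comp (measurable_pt_s v u)
  rw [gs_eq hg, gs_eq (hg.const_mul c), lintegral_const_mul _ h1]
  ring

theorem gs_one (v u : R3) : gs (fun _ => 1) v u = ENNReal.ofReal (4 * π * ‖v - u‖) := by
  rw [gs_eq measurable_const]
  simp only [lintegral_const, one_mul]
  rw [sphereMeasure_univ, ← ENNReal.ofReal_mul (by positivity)]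
  congr 1; ring

theorem gs_const (c : ℝ≥0∞) (v u : R3) :
    gs (fun _ => c) v u = c * ENNReal.ofReal (4 * π * ‖v - u‖) := by
  have h := gs_const_mul (measurable_const (a := (1 : ℝ≥0∞))) c v u
  simp only [mul_one] at h
  rw [h, gs_one]










/-- **(D2)** -/
theorem Lc_eq' {f : R3 → ℝ≥0∞} (hf : Measurable f) (v : R3) :
    Lc f v = ∫⁻ u, f u * ENNReal.ofReal (2 * π * ‖v - u‖) := by
  rw [Lc_eq hf]
  have hm : Measurable fun vs : R3 => ENNReal.ofReal ‖v - vs‖ * f vs :=
    Measurable.mul (by fun_prop) hf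
  rw [← lintegral_const_mul _ hm]
  refine lintegral_congr fun u => ?_
  rw [ENNReal.ofReal_mul (p := 2 * π) (by positivity)]
  ring

/-- the sphere mean of a real function -/
noncomputable def smean (g : R3 → ℝ) (v u : R3) : ℝ :=
  (4 * π)⁻¹ * ∫ s, g (pt v u s) ∂sphereMeasure

theorem norm_pt_le {v u s : R3} (hs : ‖s‖ = 1) : ‖pt v u s‖ ≤ ‖v‖ + ‖u‖ := by
  unfold pt
  calc ‖(1 / 2 : ℝ) • (v + u) + (‖v - u‖ / 2) • s‖
      ≤ ‖(1 / 2 : ℝ) • (v + u)‖ + ‖(‖v - u‖ / 2) • s‖ := norm_add_le _ _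
    _ = 1 / 2 * ‖v + u‖ + ‖v - u‖ / 2 := by
        rw [norm_smul, norm_smul, hs, mul_one, Real.norm_of_nonneg (by norm_num),
          Real.norm_of_nonneg (by positivity)]
    _ ≤ 1 / 2 * (‖v‖ + ‖u‖) + (‖v‖ + ‖u‖) / 2 := by
        gcongr
        · exact norm_add_le _ _
        · exact norm_sub_le _ _
    _ = _ := by ring

/-- integrability on the collision sphere -/
theorem integrable_pt_of_bounded {g : R3 → ℝ} (hg : Measurable g) (v u : R3) {C : ℝ}
    (hC : ∀ a : R3, ‖a‖ ≤ ‖v‖ + ‖u‖ → |g a| ≤ C) :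
    Integrable (fun s => g (pt v u s)) sphereMeasure :=
  integrable_sphere_of_bounded (hg.comp (measurable_pt_s v u)) fun _ hw => hC _ (norm_pt_le hw)

theorem integrable_pt_of_continuous {g : R3 → ℝ} (hg : Continuous g) (v u : R3) :
    Integrable (fun s => g (pt v u s)) sphereMeasure := by
  have hc : Continuous fun s : R3 => g (pt v u s) := hg.comp (continuous_pt_s v u)
  obtain ⟨C, hC⟩ := (isCompact_sphere (0 : R3) 1).exists_bound_of_continuousOn hc.continuousOn
  exact integrable_sphere_of_bounded hc.measurable (C := C) fun w hw => by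
    have := hC w (by simpa using hw)
    simpa using this

/-- `gs` of a nonnegative real function through its sphere mean -/
theorem gs_ofReal {g : R3 → ℝ} (hg : Measurable g) (h0 : ∀ a, 0 ≤ g a) (v u : R3)
    (hi : Integrable (fun s => g (pt v u s)) sphereMeasure) :
    gs (fun a => ENNReal.ofReal (g a)) v u
      = ENNReal.ofReal (2 * π * ‖v - u‖ * (2 * smean g v u)) := by
  rw [gs_eq hg.ennreal_ofReal, ← ofReal_integral_eq_lintegral_ofReal hi
    (Filter.Eventually.of_forall fun s => h0 _), ← ENNReal.ofReal_mul (norm_nonneg _)]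
  congr 1
  unfold smean
  have : (4 * π) ≠ 0 := by positivity
  field_simp
  ring

theorem smean_nonneg {g : R3 → ℝ} (h0 : ∀ a, 0 ≤ g a) (v u : R3) : 0 ≤ smean g v u := by
  unfold smean
  have : 0 ≤ ∫ s, g (pt v u s) ∂sphereMeasure := integral_nonneg fun s => h0 _
  positivity

theorem smean_mono {g h : R3 → ℝ} (v u : R3)
    (hgi : Integrable (fun s => g (pt v u s)) sphereMeasure)
    (hhi : Integrable (fun s => h (pt v u s)) sphereMeasure)
    (hgh : ∀ s : R3, ‖s‖ = 1 → g (pt v u s) ≤ h (pt v u s)) : smean g v u ≤ smean h v u := by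
  unfold smean
  refine mul_le_mul_of_nonneg_left (integral_mono_ae hgi hhi ?_) (by positivity)
  filter_upwards [ae_sphereMeasure] with s hs using hgh s hs

theorem smean_add {g h : R3 → ℝ} (v u : R3)
    (hgi : Integrable (fun s => g (pt v u s)) sphereMeasure)
    (hhi : Integrable (fun s => h (pt v u s)) sphereMeasure) :
    smean (fun a => g a + h a) v u = smean g v u + smean h v u := by
  unfold smean
  rw [integral_add hgi hhi, mul_add]

theorem smean_sub {g h : R3 → ℝ} (v u : R3)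
    (hgi : Integrable (fun s => g (pt v u s)) sphereMeasure)
    (hhi : Integrable (fun s => h (pt v u s)) sphereMeasure) :
    smean (fun a => g a - h a) v u = smean g v u - smean h v u := by
  unfold smean
  rw [integral_sub hgi hhi, mul_sub]

theorem smean_const_mul (c : ℝ) (g : R3 → ℝ) (v u : R3) :
    smean (fun a => c * g a) v u = c * smean g v u := by
  unfold smean
  rw [integral_const_mul]; ring

theorem smean_const (c : ℝ) (v u : R3) : smean (fun _ => c) v u = c := by
  unfold smean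
  rw [integral_one_sphere]
  have : (4 * π) ≠ 0 := by positivity
  field_simp


theorem smean_le_const {g : R3 → ℝ} (v u : R3) {c : ℝ}
    (hgi : Integrable (fun s => g (pt v u s)) sphereMeasure)
    (h : ∀ s : R3, ‖s‖ = 1 → g (pt v u s) ≤ c) : smean g v u ≤ c := by
  have h1 := smean_mono (h := fun _ => c) v u hgi (integrable_const _) h
  rwa [smean_const] at h1

theorem const_le_smean {g : R3 → ℝ} (v u : R3) {c : ℝ}
    (hgi : Integrable (fun s => g (pt v u s)) sphereMeasure)
    (h : ∀ s : R3, ‖s‖ = 1 → c ≤ g (pt v u s)) : c ≤ smean g v u := by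
  have h1 := smean_mono (g := fun _ => c) v u (integrable_const _) hgi h
  rwa [smean_const] at h1




/-- energy of a point of the collision sphere -/
theorem norm_sq_pt (v u : R3) {s : R3} (hs : ‖s‖ = 1) :
    ‖pt v u s‖ ^ 2 = (‖v‖ ^ 2 + ‖u‖ ^ 2) / 2 + ‖v - u‖ / 2 * (inner ℝ (v + u) s : ℝ) := by
  unfold pt
  rw [norm_add_sq_real, norm_smul, norm_smul, hs, mul_one, inner_smul_left, inner_smul_right,
    Real.norm_of_nonneg (by norm_num : (0 : ℝ) ≤ 1 / 2), Real.norm_of_nonneg (by positivity)]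
  have h1 := norm_add_sq_real v u
  have h2 := norm_sub_sq_real v u
  simp only [RCLike.conj_to_real]
  have e : (1 / 2 * ‖v + u‖) ^ 2 + (‖v - u‖ / 2) ^ 2 = (‖v‖ ^ 2 + ‖u‖ ^ 2) / 2 := by
    rw [mul_pow, div_pow ‖v - u‖, h1, h2]; ring
  nlinarith [e]

/-- unit vector in the direction of `a` (any one if `a = 0`) -/
theorem exists_unit (a : R3) : ∃ e : R3, ‖e‖ = 1 ∧ a = ‖a‖ • e := by
  by_cases ha : a = 0
  · exact ⟨ez, norm_ez, by simp [ha]⟩
  · refine ⟨‖a‖⁻¹ • a, ?_, ?_⟩
    · rw [norm_smul, norm_inv, norm_norm, inv_mul_cancel₀ (norm_ne_zero_iff.2 ha)]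
    · rw [smul_smul, mul_inv_cancel₀ (norm_ne_zero_iff.2 ha), one_smul]

/-- half-width of the interval of energies on the collision sphere -/
noncomputable def Dw (v u : R3) : ℝ := ‖v - u‖ * ‖v + u‖ / 2

theorem Dw_nonneg (v u : R3) : 0 ≤ Dw v u := by unfold Dw; positivity

theorem Dw_le (v u : R3) : Dw v u ≤ (‖v‖ ^ 2 + ‖u‖ ^ 2) / 2 := by
  unfold Dw
  have h1 := norm_add_sq_real v u
  have h2 := norm_sub_sq_real v u
  nlinarith [sq_nonneg (‖v - u‖ - ‖v + u‖)]

theorem energy_aux (v u : R3) {s e : R3} (hs : ‖s‖ = 1) (hve : v + u = ‖v + u‖ • e) :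
    ‖pt v u s‖ ^ 2 = (‖v‖ ^ 2 + ‖u‖ ^ 2) / 2 + Dw v u * (inner ℝ e s : ℝ) := by
  rw [norm_sq_pt v u hs]
  have h1 : (inner ℝ (v + u) s : ℝ) = ‖v + u‖ * inner ℝ e s := by
    conv_lhs => rw [hve]
    rw [inner_smul_left]; simp
  rw [h1]
  unfold Dw
  ring

/-- **the energy is uniformly distributed on the collision sphere** (Bochner) -/
theorem integral_energy (v u : R3) (f : ℝ → ℝ) (hf : Measurable f) :
    ∫ s, f (‖pt v u s‖ ^ 2) ∂sphereMeasure
      = 2 * π * ∫ t in Ioo (-1 : ℝ) 1, f ((‖v‖ ^ 2 + ‖u‖ ^ 2) / 2 + Dw v u * t) := by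
  obtain ⟨e, he, hve⟩ := exists_unit (v + u)
  have h := integral_sphere_inner he (fun t => f ((‖v‖ ^ 2 + ‖u‖ ^ 2) / 2 + Dw v u * t))
    (hf.comp (by fun_prop)).stronglyMeasurable
  rw [smul_eq_mul] at h
  rw [← h]
  refine integral_congr_ae ?_
  filter_upwards [ae_sphereMeasure] with s hs
  rw [energy_aux v u hs hve]


/-- **(D4)** coordinates are uniformly distributed on the collision sphere (Bochner) -/
theorem integral_coord (v u : R3) (i : Fin 3) (f : ℝ → ℝ) (hf : Measurable f) :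
    ∫ s, f (pt v u s i) ∂sphereMeasure
      = 2 * π * ∫ t in Ioo (-1 : ℝ) 1, f ((v i + u i) / 2 + ‖v - u‖ / 2 * t) := by
  have he : ‖(EuclideanSpace.single i (1 : ℝ) : R3)‖ = 1 := by simp
  have h := integral_sphere_inner he (fun t => f ((v i + u i) / 2 + ‖v - u‖ / 2 * t))
    (hf.comp (by fun_prop)).stronglyMeasurable
  rw [smul_eq_mul] at h
  rw [← h]
  refine integral_congr_ae (Filter.Eventually.of_forall fun s => ?_)
  simp only
  congr 1
  rw [EuclideanSpace.inner_single_left]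
  simp [pt]
  ring


end Crest.Agent.R68.XSph
end

-- ▼ part R68/XSph2

/-!
R68 / XSph2: Povzner moments on the collision sphere, mean of `|q_i|`, caps (helper211).
-/

set_option autoImplicit false
open MeasureTheory Set
open scoped ENNReal Real
open Crest.AnalysisR.VecCalc3 Crest.AnalysisR.PDE.Boltzmann

namespace Crest.Agent.R68.XSph

attribute [local irreducible] rot vec3

theorem integral_Ioo_eq (f : ℝ → ℝ) : ∫ t in Ioo (-1 : ℝ) 1, f t = ∫ t in (-1 : ℝ)..1, f t := by
  rw [intervalIntegral.integral_of_le (by norm_num), integral_Ioc_eq_integral_Ioo]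

/-- sphere mean of a function of the energy -/
theorem smean_energy (v u : R3) (f : ℝ → ℝ) (hf : Measurable f) :
    smean (fun a => f (‖a‖ ^ 2)) v u
      = 1 / 2 * ∫ t in (-1 : ℝ)..1, f ((‖v‖ ^ 2 + ‖u‖ ^ 2) / 2 + Dw v u * t) := by
  unfold smean
  rw [integral_energy v u f hf, integral_Ioo_eq]
  have := Real.pi_pos
  field_simp
  ring

/-- sphere mean of a function of a coordinate -/
theorem smean_coord (v u : R3) (i : Fin 3) (f : ℝ → ℝ) (hf : Measurable f) :
    smean (fun a => f (a i)) v u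
      = 1 / 2 * ∫ t in (-1 : ℝ)..1, f ((v i + u i) / 2 + ‖v - u‖ / 2 * t) := by
  unfold smean
  rw [integral_coord v u i f hf, integral_Ioo_eq]
  have := Real.pi_pos
  field_simp
  ring

theorem integral_lin (m R : ℝ) : ∫ t in (-1 : ℝ)..1, (m + R * t) = 2 * m := by
  have hd : ∀ t : ℝ, HasDerivAt (fun t : ℝ => m * t + R * t ^ 2 / 2) (m + R * t) t := by
    intro t
    have h1 := ((hasDerivAt_id t).const_mul m)
    have h2 := (((hasDerivAt_pow 2 t).const_mul R).div_const 2)
    refine (h1.add h2).congr_deriv ?_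
    simp; ring
  rw [intervalIntegral.integral_eq_sub_of_hasDerivAt (fun t _ => hd t)
      (Continuous.intervalIntegrable (by fun_prop) _ _)]
  ring



theorem smean_norm_pow12 (v u : R3) :
    smean (fun a => ‖a‖ ^ 12) v u = ((‖v‖ ^ 2 + ‖u‖ ^ 2) / 2) ^ 6
      + 5 * ((‖v‖ ^ 2 + ‖u‖ ^ 2) / 2) ^ 4 * Dw v u ^ 2
      + 3 * ((‖v‖ ^ 2 + ‖u‖ ^ 2) / 2) ^ 2 * Dw v u ^ 4 + Dw v u ^ 6 / 7 := by
  have e : (fun a : R3 => ‖a‖ ^ 12) = fun a => (fun x : ℝ => x ^ 6) (‖a‖ ^ 2) := by
    funext a; ring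
  rw [e, smean_energy v u (fun x => x ^ 6) (by fun_prop)]
  generalize (‖v‖ ^ 2 + ‖u‖ ^ 2) / 2 = A
  generalize Dw v u = D
  have h : ∀ t ∈ Set.uIcc (-1 : ℝ) 1, HasDerivAt (fun t : ℝ => A ^ 6 * t + 3 * A ^ 5 * D * t ^ 2
      + 5 * A ^ 4 * D ^ 2 * t ^ 3 + 5 * A ^ 3 * D ^ 3 * t ^ 4 + 3 * A ^ 2 * D ^ 4 * t ^ 5
      + A * D ^ 5 * t ^ 6 + D ^ 6 / 7 * t ^ 7) ((A + D * t) ^ 6) t := by
    intro t _
    have h1 := ((hasDerivAt_id t).const_mul (A ^ 6))
    have h2 := ((hasDerivAt_pow 2 t).const_mul (3 * A ^ 5 * D))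
    have h3 := ((hasDerivAt_pow 3 t).const_mul (5 * A ^ 4 * D ^ 2))
    have h4 := ((hasDerivAt_pow 4 t).const_mul (5 * A ^ 3 * D ^ 3))
    have h5 := ((hasDerivAt_pow 5 t).const_mul (3 * A ^ 2 * D ^ 4))
    have h6 := ((hasDerivAt_pow 6 t).const_mul (A * D ^ 5))
    have h7 := ((hasDerivAt_pow 7 t).const_mul (D ^ 6 / 7))
    refine ((((((h1.add h2).add h3).add h4).add h5).add h6).add h7).congr_deriv ?_
    simp; ring
  rw [intervalIntegral.integral_eq_sub_of_hasDerivAt h
    (Continuous.intervalIntegrable (by fun_prop) _ _)]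
  ring

/-- **Povzner, 12th power** -/
theorem smean_norm_pow12_le (v u : R3) :
    smean (fun a => ‖a‖ ^ 12) v u ≤ (‖v‖ ^ 2 + ‖u‖ ^ 2) ^ 6 / 7 := by
  rw [smean_norm_pow12]
  have hD := Dw_le v u
  have hD0 := Dw_nonneg v u
  set A := (‖v‖ ^ 2 + ‖u‖ ^ 2) / 2 with hA
  have hA0 : 0 ≤ A := by positivity
  have e : ‖v‖ ^ 2 + ‖u‖ ^ 2 = 2 * A := by rw [hA]; ring
  rw [e]
  have h2 : Dw v u ^ 2 ≤ A ^ 2 := pow_le_pow_left₀ hD0 hD 2
  have h4 : Dw v u ^ 4 ≤ A ^ 4 := pow_le_pow_left₀ hD0 hD 4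
  have h6 : Dw v u ^ 6 ≤ A ^ 6 := pow_le_pow_left₀ hD0 hD 6
  have h2' : 5 * A ^ 4 * Dw v u ^ 2 ≤ 5 * A ^ 4 * A ^ 2 := by gcongr
  have h4' : 3 * A ^ 2 * Dw v u ^ 4 ≤ 3 * A ^ 2 * A ^ 4 := by gcongr
  nlinarith




/-- mean of the absolute value of a coordinate: exact value inside -/
theorem integral_abs_lin {m R : ℝ} (hR : 0 < R) (hm : |m| ≤ R) :
    1 / 2 * ∫ t in (-1 : ℝ)..1, |m + R * t| = (R ^ 2 + m ^ 2) / (2 * R) := by
  obtain ⟨h1, h2⟩ := abs_le.1 hm
  have hc : Continuous fun t : ℝ => |m + R * t| := by fun_prop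
  have e : ∫ t in (-1 : ℝ)..1, |m + R * t| = (∫ t in (-1 : ℝ)..(-m / R), |m + R * t|)
      + ∫ t in (-m / R)..1, |m + R * t| :=
    (intervalIntegral.integral_add_adjacent_intervals (hc.intervalIntegrable _ _)
      (hc.intervalIntegrable _ _)).symm
  have l1 : (-1 : ℝ) ≤ -m / R := by rw [le_div_iff₀ hR]; linarith
  have l2 : -m / R ≤ 1 := by rw [div_le_iff₀ hR]; linarith
  have e1 : ∫ t in (-1 : ℝ)..(-m / R), |m + R * t| = ∫ t in (-1 : ℝ)..(-m / R), -(m + R * t) := by
    refine intervalIntegral.integral_congr fun t ht => ?_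
    rw [uIcc_of_le l1] at ht
    rw [abs_of_nonpos]
    have := (le_div_iff₀ hR).1 ht.2
    linarith
  have e2 : ∫ t in (-m / R)..1, |m + R * t| = ∫ t in (-m / R)..1, (m + R * t) := by
    refine intervalIntegral.integral_congr fun t ht => ?_
    rw [uIcc_of_le l2] at ht
    rw [abs_of_nonneg]
    have := (div_le_iff₀ hR).1 ht.1
    linarith
  have hd : ∀ t : ℝ, HasDerivAt (fun t : ℝ => m * t + R * t ^ 2 / 2) (m + R * t) t := by
    intro t
    have h1 := ((hasDerivAt_id t).const_mul m)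
    have h2 := (((hasDerivAt_pow 2 t).const_mul R).div_const 2)
    refine (h1.add h2).congr_deriv ?_
    simp; ring
  rw [e, e1, e2, intervalIntegral.integral_neg,
    intervalIntegral.integral_eq_sub_of_hasDerivAt (fun t _ => hd t)
      (Continuous.intervalIntegrable (by fun_prop) _ _),
    intervalIntegral.integral_eq_sub_of_hasDerivAt (fun t _ => hd t)
      (Continuous.intervalIntegrable (by fun_prop) _ _)]
  field_simp
  ring


/-- `mean |a_i| = |m|` outside -/
theorem integral_abs_lin_out {m R : ℝ} (hm : |R| ≤ |m|) :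
    1 / 2 * ∫ t in (-1 : ℝ)..1, |m + R * t| = |m| := by
  have hR : ∀ t ∈ Icc (-1 : ℝ) 1, |R * t| ≤ |m| := by
    intro t ht
    rw [abs_mul]
    have : |t| ≤ 1 := abs_le.2 ht
    nlinarith [abs_nonneg R, abs_nonneg t]
  rcases le_total 0 m with h | h
  · rw [abs_of_nonneg h] at hR ⊢
    have e : ∫ t in (-1 : ℝ)..1, |m + R * t| = ∫ t in (-1 : ℝ)..1, (m + R * t) := by
      refine intervalIntegral.integral_congr fun t ht => ?_
      rw [uIcc_of_le (by norm_num)] at ht
      have := abs_le.1 (hR t ht)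
      exact abs_of_nonneg (by linarith)
    rw [e, integral_lin]; ring
  · rw [abs_of_nonpos h] at hR ⊢
    have e : ∫ t in (-1 : ℝ)..1, |m + R * t| = ∫ t in (-1 : ℝ)..1, -(m + R * t) := by
      refine intervalIntegral.integral_congr fun t ht => ?_
      rw [uIcc_of_le (by norm_num)] at ht
      have := abs_le.1 (hR t ht)
      exact abs_of_nonpos (by linarith)
    rw [e, intervalIntegral.integral_neg, integral_lin]; ring

/-- mean of `|a_i|` on the collision sphere -/
theorem smean_abs_coord {v u : R3} {i : Fin 3} (h0 : v ≠ u) (h : |v i + u i| ≤ ‖v - u‖) :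
    smean (fun a => |a i|) v u = (‖v - u‖ ^ 2 + (v i + u i) ^ 2) / (4 * ‖v - u‖) := by
  have hn : 0 < ‖v - u‖ := norm_pos_iff.2 (sub_ne_zero.2 h0)
  rw [smean_coord v u i (fun x => |x|) (by fun_prop), integral_abs_lin (by positivity)]
  · field_simp; ring
  · rw [abs_div, abs_two]; linarith

theorem smean_abs_coord_out {v u : R3} {i : Fin 3} (h : ‖v - u‖ ≤ |v i + u i|) :
    smean (fun a => |a i|) v u = |v i + u i| / 2 := by
  rw [smean_coord v u i (fun x => |x|) (by fun_prop), integral_abs_lin_out, abs_div, abs_two]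
  rw [abs_div, abs_div, abs_two, abs_norm]; linarith

theorem sphere_compl_neg (f : R3 → ℝ) (hf : Measurable f) :
    ∫ s, f (-s) ∂sphereMeasure = ∫ s, f s ∂sphereMeasure := by
  have h := measurePreserving_sphere_isometry (LinearIsometryEquiv.neg ℝ (E := R3))
  have h2 := h.integral_comp (LinearIsometryEquiv.neg ℝ (E := R3)).toHomeomorph.measurableEmbedding f
  simpa using h2

/-- relation with the Bochner gain of XTent -/
theorem gainT_eq_smean {f : R3 → ℝ} (hf : Measurable f) (v u : R3)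
    (hi : Integrable (fun s => f (pt v u s)) sphereMeasure) :
    XTent.gainT f v u = 2 * π * ‖v - u‖ * (2 * smean f v u) := by
  rw [XTent.gainT_eq hf]
  have e2 : ∀ s, XTent.out2 v u s = pt v u s := by
    intro s; unfold XTent.out2 pt; module
  have e1 : ∀ s, XTent.out1 v u s = pt v u (-s) := by
    intro s; unfold XTent.out1 pt; module
  have hm : Measurable fun s => f (pt v u s) := hf.comp (measurable_pt_s v u)
  have hi' : Integrable (fun s => f (pt v u (-s))) sphereMeasure := by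
    have h := measurePreserving_sphere_isometry (LinearIsometryEquiv.neg ℝ (E := R3))
    exact h.integrable_comp_of_integrable hi
  simp_rw [e1, e2]
  rw [integral_add hi' hi, sphere_compl_neg (fun s => f (pt v u s)) hm]
  unfold smean
  have := Real.pi_pos
  field_simp
  ring

end Crest.Agent.R68.XSph
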