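import Mathlib
import Crest.Agent.R68.XLane
import Crest.Agent.R68.XDefs
import Crest.Agent.R68.X2Gs

-- ▼ part R68/XLane2
section

set_option autoImplicit false

namespace Crest.Agent.R68.X

open Real MeasureTheory Set Filter Topology
open scoped ENNReal
open Crest.AnalysisR.VecCalc3 Crest.AnalysisR.PDE.Boltzmann

noncomputable section

/-- the factor of the corrector -/
def mF (P : Par) (t0 : ℝ) (x : P2) (v : R3) (t : ℝ) : ℝ :=
  (P.dl + P.c * t) / (P.dl * qF P t0 x v t)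

variable {P : Par} {t0 t1 t2 : ℝ} {x : P2} {v : R3}

lemma mF_mul (hj : 1 ≤ P.j0) {t : ℝ} (h : P.dl + P.c * t ≠ 0) (hq : qF P t0 x v t ≠ 0) :
    P.dl / (P.dl + P.c * t) * qF P t0 x v t * mF P t0 x v t = 1 := by
  unfold mF
  have := (dl_pos hj).ne'
  field_simp

lemma mF_eq {t : ℝ} (h : P.dl + P.c * t ≠ 0) :
    mF P t0 x v t = (P.dl + P.c * t) ^ 2 / (P.dl * ((P.dl + P.c * t0) * v 0 - P.c * x.1)) := by
  unfold mF
  rw [qF_eq h]
  rw [mul_div_assoc', div_div_eq_mul_div]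
  ring

lemma hasDerivAt_mF {t : ℝ} (h : P.dl + P.c * t ≠ 0) :
    HasDerivAt (mF P t0 x v) (2 * P.c / (P.dl * qF P t0 x v t)) t := by
  set A := (P.dl + P.c * t0) * v 0 - P.c * x.1 with hA
  have h1 : HasDerivAt (fun t : ℝ => (P.dl + P.c * t) ^ 2 / (P.dl * A))
      (2 * (P.dl + P.c * t) * P.c / (P.dl * A)) t := by
    have h2 : HasDerivAt (fun t : ℝ => P.dl + P.c * t) P.c t := by
      have := ((hasDerivAt_id t).const_mul P.c).const_add P.dl
      simpa using this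
    refine ((h2.fun_pow 2).div_const (P.dl * A)).congr_deriv ?_
    norm_num
  have h2 : 2 * P.c / (P.dl * qF P t0 x v t) = 2 * (P.dl + P.c * t) * P.c / (P.dl * A) := by
    rw [qF_eq h, ← hA, mul_div_assoc', div_div_eq_mul_div]
    ring
  rw [h2]
  refine h1.congr_of_eventuallyEq ?_
  have hn : ∀ᶠ τ in 𝓝 t, P.dl + P.c * τ ≠ 0 :=
    (by fun_prop : Continuous fun τ : ℝ => P.dl + P.c * τ).continuousAt.eventually_ne h
  filter_upwards [hn] with τ hτ
  rw [mF_eq hτ]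

lemma qF_ne {t : ℝ} (h1 : P.dl + P.c * t1 ≠ 0) (h : P.dl + P.c * t ≠ 0)
    (hq : qF P t0 x v t1 ≠ 0) : qF P t0 x v t ≠ 0 := by
  intro h0
  have := qF_mul (t0 := t0) (x := x) (v := v) h1 h
  rw [h0, mul_zero] at this
  exact hq ((mul_eq_zero.1 this).resolve_left h1)

/-- the label vanishes at most once along a flight with `qF ≠ 0` -/
lemma aF_zero_unique (hj : 1 ≤ P.j0) {t t' : ℝ} (h : P.dl + P.c * t ≠ 0)
    (h' : P.dl + P.c * t' ≠ 0) (hq : qF P t0 x v t ≠ 0)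
    (ha : aF P t0 x v t = 0) (ha' : aF P t0 x v t' = 0) : t = t' := by
  have hd := (dl_pos hj).ne'
  unfold aF lab at ha ha'
  rw [pos_fst] at ha ha'
  rw [div_eq_zero_iff] at ha ha'
  have e1 := (mul_eq_zero.1 (ha.resolve_right h)).resolve_left hd
  have e2 := (mul_eq_zero.1 (ha'.resolve_right h')).resolve_left hd
  by_contra hne
  have hv : v 0 = 0 := by
    have : (t - t') * v 0 = 0 := by linarith
    exact (mul_eq_zero.1 this).resolve_left (sub_ne_zero.2 hne)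
  have hx : x.1 = 0 := by rw [hv] at e1; linarith
  apply hq
  rw [qF_eq h, hv, hx]
  simp

lemma ae_aF_ne (hj : 1 ≤ P.j0) (h12 : t1 ≤ t2) (hpos : ∀ t ∈ Icc t1 t2, 0 < P.dl + P.c * t)
    (hq : qF P t0 x v t1 ≠ 0) :
    ∀ᵐ t : ℝ, t ∈ Icc t1 t2 → aF P t0 x v t ≠ 0 := by
  have hs : ({t : ℝ | t ∈ Icc t1 t2 ∧ aF P t0 x v t = 0}).Subsingleton := by
    intro a ha b hb
    have h1 := (hpos t1 (left_mem_Icc.2 h12)).ne'
    exact aF_zero_unique hj (hpos a ha.1).ne' (hpos b hb.1).ne'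
      (qF_ne h1 (hpos a ha.1).ne' hq) ha.2 hb.2
  have h0 : volume {t : ℝ | t ∈ Icc t1 t2 ∧ aF P t0 x v t = 0} = 0 := hs.measure_zero _
  rw [ae_iff]
  convert h0 using 2
  ext t
  simp [and_assoc]

/-- `τ ↦ Cs s (a τ)` is absolutely continuous -/
lemma ac_Cs_aF (s : ℝ) (h12 : t1 ≤ t2) (hpos : ∀ t ∈ Icc t1 t2, 0 < P.dl + P.c * t) :
    AbsolutelyContinuousOnInterval (fun t => Cs s (aF P t0 x v t)) t1 t2 := by
  have hcq : ContinuousOn (qF P t0 x v) (Icc t1 t2) := fun t ht =>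
    (hasDerivAt_qF (hpos t ht).ne').continuousAt.continuousWithinAt
  have hca : ContinuousOn (aF P t0 x v) (Icc t1 t2) := fun t ht =>
    (hasDerivAt_aF (hpos t ht).ne').continuousAt.continuousWithinAt
  have hcd : ContinuousOn (fun t => (1 + aF P t0 x v t ^ 2) *
      (P.dl / (P.dl + P.c * t) * qF P t0 x v t)) (Icc t1 t2) := by
    refine (continuousOn_const.add (hca.pow 2)).mul (ContinuousOn.mul ?_ hcq)
    exact continuousOn_const.div (by fun_prop) fun t ht => (hpos t ht).ne'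
  obtain ⟨C, hC⟩ := isCompact_Icc.exists_bound_of_continuousOn hcd
  have hC0 : 0 ≤ C := (norm_nonneg _).trans (hC t1 (left_mem_Icc.2 h12))
  have hL : LipschitzOnWith C.toNNReal (fun t => Cs s (aF P t0 x v t)) (Icc t1 t2) := by
    refine (convex_Icc t1 t2).lipschitzOnWith_of_nnnorm_hasDerivWithin_le
      (f' := fun t => deriv (Cs s) (aF P t0 x v t) * (P.dl / (P.dl + P.c * t) * qF P t0 x v t))
      (fun t ht => ?_) (fun t ht => ?_)
    · exact (((differentiable_Cs s _).hasDerivAt).comp t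
        (hasDerivAt_aF (hpos t ht).ne')).hasDerivWithinAt
    · rw [← NNReal.coe_le_coe, coe_nnnorm, Real.coe_toNNReal _ hC0]
      refine le_trans ?_ (hC t ht)
      rw [Real.norm_eq_abs, Real.norm_eq_abs, abs_mul, abs_mul (1 + aF P t0 x v t ^ 2),
        abs_of_nonneg (by positivity : (0 : ℝ) ≤ 1 + aF P t0 x v t ^ 2)]
      exact mul_le_mul_of_nonneg_right (abs_deriv_Cs_le s _) (abs_nonneg _)
  rw [← uIcc_of_le h12] at hL
  exact hL.absolutelyContinuousOnInterval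

lemma ac_mF (h12 : t1 ≤ t2) (hpos : ∀ t ∈ Icc t1 t2, 0 < P.dl + P.c * t) :
    AbsolutelyContinuousOnInterval (mF P t0 x v) t1 t2 := by
  apply ContDiffOn.absolutelyContinuousOnInterval
  rw [uIcc_of_le h12]
  have : ContDiffOn ℝ 1 (fun t : ℝ => (P.dl + P.c * t) ^ 2 /
      (P.dl * ((P.dl + P.c * t0) * v 0 - P.c * x.1))) (Icc t1 t2) :=
    ContDiff.contDiffOn (by fun_prop)
  exact this.congr fun t ht => mF_eq (hpos t ht).ne'

lemma ii_mul180 {F G : ℝ → ℝ} {C : ℝ} (h12 : t1 ≤ t2)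
    (hF : AEStronglyMeasurable F (volume.restrict (Icc t1 t2)))
    (hC : ∀ t ∈ Icc t1 t2, |F t| ≤ C) (hG : ContinuousOn G (Icc t1 t2)) :
    IntervalIntegrable (fun t => F t * G t) volume t1 t2 := by
  rw [intervalIntegrable_iff_integrableOn_Icc_of_le h12]
  obtain ⟨D, hD⟩ := isCompact_Icc.exists_bound_of_continuousOn hG
  refine Integrable.of_bound (C := C * D)
    (hF.mul (hG.aestronglyMeasurable measurableSet_Icc))
    ((ae_restrict_iff' measurableSet_Icc).2 (Eventually.of_forall fun t ht => ?_))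
  rw [norm_mul]
  exact mul_le_mul (hC t ht) (hD t ht) (norm_nonneg _) ((abs_nonneg _).trans (hC t ht))


lemma ii_chs (h12 : t1 ≤ t2) (hpos : ∀ t ∈ Icc t1 t2, 0 < P.dl + P.c * t)
    (s : ℝ) {G : ℝ → ℝ}
    (hGc : ContinuousOn G (Icc t1 t2)) :
    IntervalIntegrable (fun t => (chs P s (aF P t0 x v t) - 197 / 400) * G t) volume t1 t2 := by
  have hca : ContinuousOn (aF P t0 x v) (Icc t1 t2) := fun t ht =>
    (hasDerivAt_aF (hpos t ht).ne').continuousAt.continuousWithinAt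
  refine ii_mul180 (C := 1) h12
    (((measurable_chs P s).comp_aemeasurable
      (hca.aemeasurable measurableSet_Icc)).sub_const _).aestronglyMeasurable
    (fun t ht => ?_) hGc
  rw [abs_le]
  have := chs_nonneg P s (aF P t0 x v t)
  have := chs_le_one P s (aF P t0 x v t)
  constructor <;> linarith



end

end Crest.Agent.R68.X
end

-- ▼ part R68/X2Fl1
section

/-!
# Row 68, PART X2 (helper180): the test function along flights (file 1)
-/

set_option autoImplicit false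
open MeasureTheory Set Filter
open scoped ENNReal NNReal Real Topology
open Crest.AnalysisR.VecCalc3 Crest.AnalysisR.PDE.Boltzmann

noncomputable section

namespace Crest.Agent.R68.X2.Fl

/-! ### absolutely continuous functions -/

theorem ac_comp_lip {f g : ℝ → ℝ} {a b : ℝ} {K : ℝ≥0} (hg : LipschitzWith K g)
    (hf : AbsolutelyContinuousOnInterval f a b) :
    AbsolutelyContinuousOnInterval (fun x => g (f x)) a b := by
  rw [absolutelyContinuousOnInterval_iff] at hf ⊢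
  intro ε hε
  obtain ⟨δ, hδ, h⟩ := hf (ε / (K + 1)) (by positivity)
  refine ⟨δ, hδ, fun E hE hlt => ?_⟩
  have h1 := h E hE hlt
  calc ∑ i ∈ Finset.range E.1, dist (g (f (E.2 i).1)) (g (f (E.2 i).2))
      ≤ ∑ i ∈ Finset.range E.1, (K : ℝ) * dist (f (E.2 i).1) (f (E.2 i).2) :=
        Finset.sum_le_sum fun i _ => hg.dist_le_mul _ _
    _ = K * ∑ i ∈ Finset.range E.1, dist (f (E.2 i).1) (f (E.2 i).2) := by
        rw [Finset.mul_sum]
    _ ≤ K * (ε / (K + 1)) := by gcongr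
    _ < (K + 1) * (ε / (K + 1)) := by
        have : 0 < ε / ((K : ℝ) + 1) := by positivity
        nlinarith
    _ = ε := by field_simp

theorem ac_abs {f : ℝ → ℝ} {a b : ℝ} (hf : AbsolutelyContinuousOnInterval f a b) :
    AbsolutelyContinuousOnInterval (fun x => |f x|) a b := by
  have h : LipschitzWith 1 (fun x : ℝ => |x|) := by
    refine LipschitzWith.of_dist_le_mul fun x y => ?_
    simp only [NNReal.coe_one, one_mul, Real.dist_eq]
    exact abs_abs_sub_abs_le x y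
  exact ac_comp_lip h hf

theorem ac_max0 {f : ℝ → ℝ} {a b : ℝ} (hf : AbsolutelyContinuousOnInterval f a b) :
    AbsolutelyContinuousOnInterval (fun x => max 0 (f x)) a b := by
  have h : LipschitzWith 1 (fun x : ℝ => max 0 x) := by
    refine LipschitzWith.of_dist_le_mul fun x y => ?_
    simp only [NNReal.coe_one, one_mul, Real.dist_eq]
    rw [max_comm 0 x, max_comm 0 y]
    exact abs_max_sub_max_le_abs x y 0
  exact ac_comp_lip h hf

theorem ac_const (c a b : ℝ) : AbsolutelyContinuousOnInterval (fun _ => c) a b := by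
  apply ContDiffOn.absolutelyContinuousOnInterval
  exact contDiffOn_const

/-! ### derivatives of `|m|` and `max 0 F` -/

theorem deriv_abs_of_diff {m : ℝ → ℝ} {m' ρ : ℝ} (hm : HasDerivAt m m' ρ)
    (hd : DifferentiableAt ℝ (fun x => |m x|) ρ) :
    HasDerivAt (fun x => |m x|) (sg (m ρ) * m') ρ := by
  rcases lt_trichotomy (m ρ) 0 with h | h | h
  · have hs : sg (m ρ) = -1 := by unfold sg; rw [if_neg (not_le.2 h)]
    rw [hs, neg_one_mul]
    refine hm.neg.congr_of_eventuallyEq ?_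
    filter_upwards [hm.continuousAt.eventually_lt_const h] with x hx
    rw [abs_of_neg hx]; rfl
  · have hs : sg (m ρ) = 1 := by unfold sg; rw [if_pos h.ge]
    have h1 : IsLocalMin (fun x => |m x|) ρ := by
      refine Eventually.of_forall fun x => ?_
      simp [h]
    have h2 := hd.hasDerivAt
    rw [h1.deriv_eq_zero] at h2
    have h3 : HasDerivAt m 0 ρ := by
      rw [hasDerivAt_iff_isLittleO] at h2 ⊢
      simp only [h, abs_zero, sub_zero, smul_zero] at h2 ⊢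
      exact (Asymptotics.isLittleO_abs_left).1 h2
    have h4 : m' = 0 := hm.unique h3
    rw [h4, mul_zero]
    exact h2
  · have hs : sg (m ρ) = 1 := by unfold sg; rw [if_pos h.le]
    rw [hs, one_mul]
    refine hm.congr_of_eventuallyEq ?_
    filter_upwards [hm.continuousAt.eventually_const_lt h] with x hx
    rw [abs_of_pos hx]

theorem hasDerivAt_max0_of_nonpos {F : ℝ → ℝ} {ρ : ℝ} (h : F ρ ≤ 0)
    (hd : DifferentiableAt ℝ (fun x => max 0 (F x)) ρ) :
    HasDerivAt (fun x => max 0 (F x)) 0 ρ := by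
  have h1 : IsLocalMin (fun x => max 0 (F x)) ρ := by
    refine Eventually.of_forall fun x => ?_
    simp [max_eq_left h]
  have h2 := hd.hasDerivAt
  rwa [h1.deriv_eq_zero] at h2

theorem hasDerivAt_max0_of_pos {F : ℝ → ℝ} {F' ρ : ℝ} (h : 0 < F ρ) (hF : HasDerivAt F F' ρ) :
    HasDerivAt (fun x => max 0 (F x)) F' ρ := by
  refine hF.congr_of_eventuallyEq ?_
  filter_upwards [hF.continuousAt.eventually_const_lt h] with x hx
  rw [max_eq_right hx.le]

/-! ### self-similar position along a flight -/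

/-- self-similar position at time `ρ` of the flight which is at `x` at time `s` -/
def zF (s : ℝ) (x : P2) (v : R3) (ρ : ℝ) : P2 := ρ⁻¹ • (x + (ρ - s) • bar v)

variable {s r : ℝ} {x : P2} {v : R3} {ρ ρ' : ℝ}

theorem zF_fst (s : ℝ) (x : P2) (v : R3) (ρ : ℝ) :
    (zF s x v ρ).1 = ρ⁻¹ * (x.1 + (ρ - s) * v 0) := by
  simp [zF, bar, mul_add]

theorem zF_snd (s : ℝ) (x : P2) (v : R3) (ρ : ℝ) :
    (zF s x v ρ).2 = ρ⁻¹ * (x.2 + (ρ - s) * v 1) := by
  simp [zF, bar, mul_add]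

theorem zF_sub (hρ : ρ ≠ 0) (hρ' : ρ' ≠ 0) :
    zF s x v ρ - zF s x v ρ' = ((ρ - ρ') / ρ') • (bar v - zF s x v ρ) := by
  refine Prod.ext ?_ ?_
  · simp only [Prod.fst_sub, Prod.smul_fst, zF_fst, smul_eq_mul, bar]
    field_simp
    ring
  · simp only [Prod.snd_sub, Prod.smul_snd, zF_snd, smul_eq_mul, bar]
    field_simp
    ring

theorem norm_zF_sub (hρ : 0 < ρ) (hρ' : 0 < ρ') :
    ‖zF s x v ρ - zF s x v ρ'‖ = |ρ - ρ'| / ρ' * ‖bar v - zF s x v ρ‖ := by
  rw [zF_sub hρ.ne' hρ'.ne', norm_smul, Real.norm_eq_abs, abs_div, abs_of_pos hρ']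

theorem hasDerivAt_zF_fst (hρ : ρ ≠ 0) :
    HasDerivAt (fun ρ => (zF s x v ρ).1) (ρ⁻¹ * (v 0 - (zF s x v ρ).1)) ρ := by
  have e : (fun ρ => (zF s x v ρ).1) = fun ρ => ρ⁻¹ * (x.1 + (ρ - s) * v 0) := by
    ext ρ; rw [zF_fst]
  rw [e, zF_fst]
  have h1 : HasDerivAt (fun ρ : ℝ => x.1 + (ρ - s) * v 0) (v 0) ρ := by
    refine ((((hasDerivAt_id ρ).sub_const s).mul_const (v 0)).const_add x.1).congr_deriv ?_
    simp
  refine ((hasDerivAt_inv hρ).fun_mul h1).congr_deriv ?_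
  field_simp
  ring

theorem hasDerivAt_zF_snd (hρ : ρ ≠ 0) :
    HasDerivAt (fun ρ => (zF s x v ρ).2) (ρ⁻¹ * (v 1 - (zF s x v ρ).2)) ρ := by
  have e : (fun ρ => (zF s x v ρ).2) = fun ρ => ρ⁻¹ * (x.2 + (ρ - s) * v 1) := by
    ext ρ; rw [zF_snd]
  rw [e, zF_snd]
  have h1 : HasDerivAt (fun ρ : ℝ => x.2 + (ρ - s) * v 1) (v 1) ρ := by
    refine ((((hasDerivAt_id ρ).sub_const s).mul_const (v 1)).const_add x.2).congr_deriv ?_
    simp
  refine ((hasDerivAt_inv hρ).fun_mul h1).congr_deriv ?_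
  field_simp
  ring

theorem cd_zF_fst (hs : 0 < s) (hsr : s ≤ r) :
    ContDiffOn ℝ 1 (fun ρ => (zF s x v ρ).1) (uIcc s r) := by
  have e : (fun ρ => (zF s x v ρ).1) = fun ρ => ρ⁻¹ * (x.1 + (ρ - s) * v 0) := by
    ext ρ; rw [zF_fst]
  rw [e, uIcc_of_le hsr]
  refine ContDiffOn.mul (contDiffOn_id.inv fun y hy => (hs.trans_le hy.1).ne') ?_
  exact ContDiff.contDiffOn (by fun_prop)

theorem cd_zF_snd (hs : 0 < s) (hsr : s ≤ r) :
    ContDiffOn ℝ 1 (fun ρ => (zF s x v ρ).2) (uIcc s r) := by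
  have e : (fun ρ => (zF s x v ρ).2) = fun ρ => ρ⁻¹ * (x.2 + (ρ - s) * v 1) := by
    ext ρ; rw [zF_snd]
  rw [e, uIcc_of_le hsr]
  refine ContDiffOn.mul (contDiffOn_id.inv fun y hy => (hs.trans_le hy.1).ne') ?_
  exact ContDiff.contDiffOn (by fun_prop)

/-! ### the tent along a flight -/

theorem fr_zero (y : ℝ) (v : R3) : fr y v 0 = v 0 := by simp [fr]
theorem fr_one (y : ℝ) (v : R3) : fr y v 1 = v 1 - y := by simp [fr]
theorem fr_two (y : ℝ) (v : R3) : fr y v 2 = v 2 := by simp [fr]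

theorem norm_fr_sq (y : ℝ) (v : R3) : ‖fr y v‖ ^ 2 = v 0 ^ 2 + (v 1 - y) ^ 2 + v 2 ^ 2 := by
  rw [EuclideanSpace.norm_sq_eq, Fin.sum_univ_three]
  simp only [Real.norm_eq_abs, sq_abs, fr_zero, fr_one, fr_two]

/-- `m = (1+A) z₂ + q₁` along the flight -/
def mTent (A s : ℝ) (x : P2) (v : R3) (ρ : ℝ) : ℝ :=
  (1 + A) * (zF s x v ρ).2 + fr (zF s x v ρ).2 v 1

theorem hasDerivAt_mTent (A : ℝ) (hρ : ρ ≠ 0) :
    HasDerivAt (mTent A s x v) (ρ⁻¹ * (A * fr (zF s x v ρ).2 v 1)) ρ := by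
  have e : mTent A s x v = fun ρ => (1 + A) * (zF s x v ρ).2 + (v 1 - (zF s x v ρ).2) := by
    ext ρ; rw [mTent, fr_one]
  rw [e, fr_one]
  have h := hasDerivAt_zF_snd (s := s) (x := x) (v := v) hρ
  refine ((h.const_mul (1 + A)).add (h.const_sub (v 1))).congr_deriv ?_
  ring

theorem hasDerivAt_normsq (hρ : ρ ≠ 0) :
    HasDerivAt (fun ρ => ‖fr (zF s x v ρ).2 v‖ ^ 2)
      (-(ρ⁻¹ * (2 * fr (zF s x v ρ).2 v 1 ^ 2))) ρ := by
  have e : (fun ρ => ‖fr (zF s x v ρ).2 v‖ ^ 2) =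
      fun ρ => v 0 ^ 2 + (v 1 - (zF s x v ρ).2) ^ 2 + v 2 ^ 2 := by
    ext ρ; rw [norm_fr_sq]
  rw [e, fr_one]
  have h := hasDerivAt_zF_snd (s := s) (x := x) (v := v) hρ
  refine ((((h.const_sub (v 1)).fun_pow 2).const_add (v 0 ^ 2)).add_const (v 2 ^ 2)).congr_deriv ?_
  norm_num
  ring

/-- the tent along the flight -/
def FT (X : XP) (s : ℝ) (x : P2) (v : R3) (ρ : ℝ) : ℝ :=
  tent X.A X.Yp X.e (zF s x v ρ).2 (fr (zF s x v ρ).2 v)

theorem FT_eq (X : XP) (s : ℝ) (x : P2) (v : R3) :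
    FT X s x v = fun ρ => (1 + X.A) * X.Yp - |mTent X.A s x v ρ| -
      X.e * ‖fr (zF s x v ρ).2 v‖ ^ 2 := by
  ext ρ; rfl

theorem ac_mTent (A : ℝ) (hs : 0 < s) (hsr : s ≤ r) :
    AbsolutelyContinuousOnInterval (mTent A s x v) s r := by
  have e : mTent A s x v = fun ρ => (1 + A) * (zF s x v ρ).2 + (v 1 - (zF s x v ρ).2) := by
    ext ρ; rw [mTent, fr_one]
  rw [e]
  apply ContDiffOn.absolutelyContinuousOnInterval
  have h := cd_zF_snd (x := x) (v := v) hs hsr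
  exact (contDiffOn_const.mul h).add (contDiffOn_const.sub h)

theorem ac_FT (X : XP) (hs : 0 < s) (hsr : s ≤ r) :
    AbsolutelyContinuousOnInterval (FT X s x v) s r := by
  rw [FT_eq]
  have h1 : AbsolutelyContinuousOnInterval (fun ρ => X.e * ‖fr (zF s x v ρ).2 v‖ ^ 2) s r := by
    have e : (fun ρ => X.e * ‖fr (zF s x v ρ).2 v‖ ^ 2) =
        fun ρ => X.e * (v 0 ^ 2 + (v 1 - (zF s x v ρ).2) ^ 2 + v 2 ^ 2) := by
      ext ρ; rw [norm_fr_sq]
    rw [e]
    apply ContDiffOn.absolutelyContinuousOnInterval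
    have h := cd_zF_snd (x := x) (v := v) hs hsr
    exact contDiffOn_const.mul
      ((contDiffOn_const.add ((contDiffOn_const.sub h).pow 2)).add contDiffOn_const)
  exact ((ac_const _ s r).sub (ac_abs (ac_mTent X.A hs hsr))).sub h1

theorem hasDerivAt_FT (X : XP) (hρ : ρ ≠ 0)
    (hd : DifferentiableAt ℝ (fun ρ => |mTent X.A s x v ρ|) ρ) :
    HasDerivAt (FT X s x v) (ρ⁻¹ * (-sg ((1 + X.A) * (zF s x v ρ).2 + fr (zF s x v ρ).2 v 1) *
      X.A * (fr (zF s x v ρ).2 v 1) + 2 * X.e * (fr (zF s x v ρ).2 v 1) ^ 2)) ρ := by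
  rw [FT_eq]
  have h1 := deriv_abs_of_diff (hasDerivAt_mTent (s := s) (x := x) (v := v) X.A hρ) hd
  have h2 := (hasDerivAt_normsq (s := s) (x := x) (v := v) hρ).const_mul X.e
  refine ((h1.const_sub ((1 + X.A) * X.Yp)).sub h2).congr_deriv ?_
  unfold mTent
  ring

/-! ### the cut-off `cutB` -/

theorem hasDerivAt_max0_sq (u : ℝ) : HasDerivAt (fun y : ℝ => (max 0 y) ^ 2) (2 * max 0 u) u := by
  have h := Crest.Agent.R68.X.hasDerivAt_sqpos 0 u
  simp only [sub_zero] at h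
  have e : (fun y : ℝ => (max 0 y) ^ 2) = fun y : ℝ => (max y 0) ^ 2 := by
    ext y; rw [max_comm]
  rw [e, max_comm]
  exact h

theorem hasDerivAt_cutB (B : ℝ) (hρ : ρ ≠ 0) :
    HasDerivAt (fun ρ => cutB B (zF s x v ρ).1)
      (ρ⁻¹ * (2 * max 0 (1 - (zF s x v ρ).1 ^ 2 / B ^ 2) *
        (-(2 * (zF s x v ρ).1 * (v 0 - (zF s x v ρ).1) / B ^ 2)))) ρ := by
  have h := hasDerivAt_zF_fst (s := s) (x := x) (v := v) hρ
  have h1 : HasDerivAt (fun ρ => 1 - (zF s x v ρ).1 ^ 2 / B ^ 2)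
      (-(2 * (zF s x v ρ).1 * (ρ⁻¹ * (v 0 - (zF s x v ρ).1)) / B ^ 2)) ρ := by
    refine (((h.fun_pow 2).div_const (B ^ 2)).const_sub 1).congr_deriv ?_
    norm_num
  have h2 := (hasDerivAt_max0_sq (1 - (zF s x v ρ).1 ^ 2 / B ^ 2)).comp ρ h1
  refine h2.congr_deriv ?_
  ring

theorem ac_cutB (B : ℝ) (hs : 0 < s) (hsr : s ≤ r) :
    AbsolutelyContinuousOnInterval (fun ρ => cutB B (zF s x v ρ).1) s r := by
  have h := cd_zF_fst (x := x) (v := v) hs hsr
  have h1 : AbsolutelyContinuousOnInterval (fun ρ => 1 - (zF s x v ρ).1 ^ 2 / B ^ 2) s r := by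
    apply ContDiffOn.absolutelyContinuousOnInterval
    exact contDiffOn_const.sub ((h.pow 2).div_const (B ^ 2))
  have h2 := ac_max0 h1
  have e : (fun ρ => cutB B (zF s x v ρ).1) =
      (fun ρ => max 0 (1 - (zF s x v ρ).1 ^ 2 / B ^ 2)) *
        fun ρ => max 0 (1 - (zF s x v ρ).1 ^ 2 / B ^ 2) := by
    ext ρ; simp only [cutB, Pi.mul_apply, sq]
  rw [e]
  exact h2.mul h2

/-! ### `psi0` along a flight -/

theorem psi0_flight_eq (X : XP) (s : ℝ) (x : P2) (v : R3) (ρ : ℝ) :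
    psi0 X ρ (x + (ρ - s) • bar v) v =
      max 0 (FT X s x v ρ) * cutB X.B (zF s x v ρ).1 * lamd X.d (v 0) := rfl

theorem ac_psi0 (X : XP) (hs : 0 < s) (hsr : s ≤ r) :
    AbsolutelyContinuousOnInterval (fun ρ => psi0 X ρ (x + (ρ - s) • bar v) v) s r := by
  have e : (fun ρ => psi0 X ρ (x + (ρ - s) • bar v) v) =
      ((fun ρ => max 0 (FT X s x v ρ)) * (fun ρ => cutB X.B (zF s x v ρ).1)) *
        (fun _ => lamd X.d (v 0)) := by
    ext ρ; rw [psi0_flight_eq]; rfl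
  rw [e]
  exact ((ac_max0 (ac_FT X hs hsr)).mul (ac_cutB X.B hs hsr)).mul (ac_const _ s r)

theorem ae_deriv_psi0 (X : XP) (hs : 0 < s) (hsr : s ≤ r) :
    ∀ᵐ ρ : ℝ, ρ ∈ uIcc s r →
      HasDerivAt (fun ρ => psi0 X ρ (x + (ρ - s) • bar v) v) (ρ⁻¹ * L0 X (zF s x v ρ) v) ρ := by
  filter_upwards [(ac_abs (ac_mTent (x := x) (v := v) X.A hs hsr)).ae_differentiableAt,
    (ac_max0 (ac_FT (x := x) (v := v) X hs hsr)).ae_differentiableAt] with ρ h1 h2 hρ
  have hρ0 : ρ ≠ 0 := by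
    rw [uIcc_of_le hsr] at hρ
    exact (hs.trans_le hρ.1).ne'
  have e : (fun ρ => psi0 X ρ (x + (ρ - s) • bar v) v) =
      fun ρ => max 0 (FT X s x v ρ) * cutB X.B (zF s x v ρ).1 * lamd X.d (v 0) := by
    ext ρ; rw [psi0_flight_eq]
  rw [e]
  have hc := hasDerivAt_cutB (s := s) (x := x) (v := v) X.B hρ0
  rcases le_or_gt (FT X s x v ρ) 0 with h | h
  · have h3 := hasDerivAt_max0_of_nonpos h (h2 hρ)
    refine ((h3.fun_mul hc).mul_const (lamd X.d (v 0))).congr_deriv ?_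
    have h4 : L0 X (zF s x v ρ) v = 0 := by
      have h' : ¬ 0 < tent X.A X.Yp X.e (zF s x v ρ).2 (fr (zF s x v ρ).2 v) := not_lt.2 h
      unfold L0
      rw [if_neg h']
    rw [h4, max_eq_left h]
    ring
  · have h3 := hasDerivAt_max0_of_pos h (hasDerivAt_FT X hρ0 (h1 hρ))
    refine ((h3.fun_mul hc).mul_const (lamd X.d (v 0))).congr_deriv ?_
    have h4 : L0 X (zF s x v ρ) v =
      ((-sg ((1 + X.A) * (zF s x v ρ).2 + fr (zF s x v ρ).2 v 1) * X.A * (fr (zF s x v ρ).2 v 1)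
          + 2 * X.e * (fr (zF s x v ρ).2 v 1) ^ 2) * cutB X.B (zF s x v ρ).1
        + FT X s x v ρ *
          (2 * max 0 (1 - (zF s x v ρ).1 ^ 2 / X.B ^ 2) *
            (-(2 * (zF s x v ρ).1 * (v 0 - (zF s x v ρ).1) / X.B ^ 2)))) * lamd X.d (v 0) := by
      have h' : 0 < tent X.A X.Yp X.e (zF s x v ρ).2 (fr (zF s x v ρ).2 v) := h
      unfold L0
      rw [if_pos h']
      rfl
    rw [h4, max_eq_right h.le]
    ring

/-- the increment of `psi0` along a flight -/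
theorem psi0_flight (X : XP) (hs : 0 < s) (hsr : s ≤ r) :
    IntervalIntegrable (fun ρ => ρ⁻¹ * L0 X (zF s x v ρ) v) volume s r ∧
    ∫ ρ in s..r, ρ⁻¹ * L0 X (zF s x v ρ) v =
      psi0 X r (x + (r - s) • bar v) v - psi0 X s x v := by
  have h := ac_psi0 (x := x) (v := v) X hs hsr
  have hae : ∀ᵐ ρ : ℝ, ρ ∈ uIoc s r →
      deriv (fun ρ => psi0 X ρ (x + (ρ - s) • bar v) v) ρ = ρ⁻¹ * L0 X (zF s x v ρ) v := by
    filter_upwards [ae_deriv_psi0 (x := x) (v := v) X hs hsr] with ρ h1 hρ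
    exact (h1 (uIoc_subset_uIcc hρ)).deriv
  refine ⟨h.intervalIntegrable_deriv.congr_ae ?_, ?_⟩
  · rw [EventuallyEq, ae_restrict_iff' measurableSet_uIoc]
    exact hae
  · rw [← intervalIntegral.integral_congr_ae hae, h.integral_deriv_eq_sub]
    simp

end Crest.Agent.R68.X2.Fl
end
end

-- ▼ part R68/X2Fl2
section

/-!
# Row 68, PART X2 (helper180): the corrector along flights (file 2)
-/

set_option autoImplicit false
open MeasureTheory Set Filter
open scoped ENNReal NNReal Real Topology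
open Crest.AnalysisR.VecCalc3 Crest.AnalysisR.PDE.Boltzmann

noncomputable section

namespace Crest.Agent.R68.X2.Fl

variable {s r : ℝ} {x : P2} {v : R3} {ρ ρ' : ℝ}

/-! ### elementary Lipschitz bounds -/

theorem norm_bar_le180 (v : R3) : ‖bar v‖ ≤ ‖v‖ := by
  rw [bar, Prod.norm_def]
  exact max_le (PiLp.norm_apply_le v 0) (PiLp.norm_apply_le v 1)

theorem ramp_nonneg (a : ℝ) : 0 ≤ ramp a := le_max_left _ _
theorem ramp_le_one (a : ℝ) : ramp a ≤ 1 := max_le zero_le_one (min_le_left _ _)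
theorem abs_ramp_le (a : ℝ) : |ramp a| ≤ 1 := by
  rw [abs_of_nonneg (ramp_nonneg a)]; exact ramp_le_one a
theorem ramp_eq_zero {a : ℝ} (h : 2 ≤ a) : ramp a = 0 := by
  unfold ramp
  apply max_eq_left
  exact (min_le_right _ _).trans (by linarith)

theorem abs_ramp_sub (a b : ℝ) : |ramp a - ramp b| ≤ |a - b| := by
  unfold ramp
  rw [max_comm 0 _, max_comm 0 _, min_comm 1 _, min_comm 1 _]
  refine (abs_max_sub_max_le_abs _ _ _).trans ?_
  refine (abs_min_sub_min_le_max _ _ _ _).trans ?_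
  rw [sub_self, abs_zero, max_eq_left (abs_nonneg _)]
  rw [show (2 - a) - (2 - b) = b - a by ring, abs_sub_comm]

theorem lamd_nonneg (d a : ℝ) : 0 ≤ lamd d a := le_max_left _ _
theorem lamd_le_one (d a : ℝ) : lamd d a ≤ 1 := max_le zero_le_one (min_le_left _ _)
theorem lamd_eq_zero {d a : ℝ} (hd : 0 < d) (h : |a| ≤ d) : lamd d a = 0 := by
  unfold lamd
  apply max_eq_left
  refine (min_le_right _ _).trans ?_
  have : |a| / d ≤ 1 := (div_le_one hd).2 h
  linarith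

theorem abs_ky_le180 (P : Par) (y : ℝ) : |ky P y| ≤ 1 := by
  rw [abs_of_nonneg (le_max_left _ _)]
  exact max_le zero_le_one (min_le_left _ _)

theorem abs_ky_sub180 {P : Par} (hey : 0 < P.ey) (y y' : ℝ) : |ky P y - ky P y'| ≤ |y - y'| / P.ey := by
  unfold ky
  rw [max_comm 0 _, max_comm 0 _, min_comm 1 _, min_comm 1 _]
  refine (abs_max_sub_max_le_abs _ _ _).trans ?_
  refine (abs_min_sub_min_le_max _ _ _ _).trans ?_
  rw [sub_self, abs_zero, max_eq_left (abs_nonneg _)]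
  rw [← sub_div, abs_div, abs_of_pos hey]
  apply div_le_div_of_nonneg_right _ hey.le
  rw [show P.Y - |y| - (P.Y - |y'|) = |y'| - |y| by ring]
  refine (abs_abs_sub_abs_le _ _).trans ?_
  rw [abs_sub_comm]

/-! ### functions of the self-similar position along a flight -/

/-- bounded Lipschitz function on the plane with support in a ball -/
structure BL (g : P2 → ℝ) (Cb CL R : ℝ) : Prop where
  b : ∀ z, |g z| ≤ Cb
  l : ∀ z z', |g z - g z'| ≤ CL * ‖z - z'‖
  z : ∀ z, R ≤ ‖z‖ → g z = 0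

theorem BL.Cb0 {g : P2 → ℝ} {Cb CL R : ℝ} (h : BL g Cb CL R) : 0 ≤ Cb := (abs_nonneg _).trans (h.b 0)

theorem BL.CL0 {g : P2 → ℝ} {Cb CL R : ℝ} (h : BL g Cb CL R) : 0 ≤ CL := by
  have h1 := (abs_nonneg _).trans (h.l (1, 0) (0, 0))
  have h2 : ‖((1 : ℝ), (0 : ℝ)) - (0, 0)‖ = 1 := by simp [Prod.norm_def]
  rw [h2, mul_one] at h1
  exact h1


theorem prod_BL {a w : P2 → ℝ} {R A1 W0 W1 : ℝ} (ha : ∀ z, |a z| ≤ 1)
    (haL : ∀ z z', |a z - a z'| ≤ A1 * ‖z - z'‖) (ha0 : ∀ z, R ≤ ‖z‖ → a z = 0)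
    (hW0 : 0 ≤ W0) (hW1 : 0 ≤ W1) (hA1 : 0 ≤ A1)
    (hw : ∀ z, ‖z‖ ≤ R → |w z| ≤ W0)
    (hwL : ∀ z z', ‖z‖ ≤ R → ‖z'‖ ≤ R → |w z - w z'| ≤ W1 * ‖z - z'‖) :
    BL (fun z => a z * w z) W0 (A1 * W0 + W1) R where
  b := fun z => by
    rcases le_or_gt R ‖z‖ with h | h
    · rw [ha0 z h, zero_mul, abs_zero]; exact hW0
    · rw [abs_mul]
      calc |a z| * |w z| ≤ 1 * W0 := mul_le_mul (ha z) (hw z h.le) (abs_nonneg _) zero_le_one
        _ = W0 := one_mul _
  l := by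
    have key : ∀ z z', ‖z‖ < R → |a z * w z - a z' * w z'| ≤ (A1 * W0 + W1) * ‖z - z'‖ := by
      intro z z' h
      have h1 : a z * w z - a z' * w z' = (a z - a z') * w z + a z' * (w z - w z') := by ring
      rw [h1]
      refine (abs_add_le _ _).trans ?_
      rw [abs_mul, abs_mul, add_mul]
      apply add_le_add
      · calc |a z - a z'| * |w z| ≤ (A1 * ‖z - z'‖) * W0 :=
              mul_le_mul (haL z z') (hw z h.le) (abs_nonneg _) (by positivity)
          _ = A1 * W0 * ‖z - z'‖ := by ring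
      · rcases le_or_gt R ‖z'‖ with h' | h'
        · rw [ha0 z' h', abs_zero, zero_mul]; positivity
        · calc |a z'| * |w z - w z'| ≤ 1 * (W1 * ‖z - z'‖) :=
                mul_le_mul (ha z') (hwL z z' h.le h'.le) (abs_nonneg _) zero_le_one
            _ = W1 * ‖z - z'‖ := one_mul _
    intro z z'
    rcases le_or_gt R ‖z‖ with h | h
    · rcases le_or_gt R ‖z'‖ with h' | h'
      · simp only [ha0 z h, ha0 z' h', zero_mul, sub_self, abs_zero]
        positivity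
      · have := key z' z h'
        rw [abs_sub_comm, norm_sub_rev] at this
        exact this
    · exact key z z' h
  z := fun z h => by simp only [ha0 z h, zero_mul]

theorem BL.flight {g : P2 → ℝ} {Cb CL R V : ℝ} (h : BL g Cb CL R) (hR : 0 ≤ R) (hv : ‖v‖ ≤ V)
    (hρ : 0 < ρ) (hρ' : 0 < ρ') :
    |g (zF s x v ρ) - g (zF s x v ρ')| ≤ CL * (V + R) * (|ρ - ρ'| / min ρ ρ') := by
  have hV : 0 ≤ V := (norm_nonneg v).trans hv
  have hCL := h.CL0
  have hmin : 0 < min ρ ρ' := lt_min hρ hρ'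
  have key : ∀ a b : ℝ, 0 < a → 0 < b → min ρ ρ' ≤ b → |a - b| = |ρ - ρ'| → ‖zF s x v a‖ < R →
      CL * ‖zF s x v a - zF s x v b‖ ≤ CL * (V + R) * (|ρ - ρ'| / min ρ ρ') := by
    intro a b ha hb hm hab hz
    rw [norm_zF_sub ha hb, hab]
    have h1 : ‖bar v - zF s x v a‖ ≤ V + R :=
      (norm_sub_le _ _).trans (add_le_add ((norm_bar_le180 v).trans hv) hz.le)
    have h2 : |ρ - ρ'| / b ≤ |ρ - ρ'| / min ρ ρ' :=
      div_le_div_of_nonneg_left (abs_nonneg _) hmin hm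
    calc CL * (|ρ - ρ'| / b * ‖bar v - zF s x v a‖)
        ≤ CL * (|ρ - ρ'| / min ρ ρ' * (V + R)) := by
          apply mul_le_mul_of_nonneg_left _ hCL
          exact mul_le_mul h2 h1 (norm_nonneg _) (by positivity)
      _ = _ := by ring
  rcases le_or_gt R ‖zF s x v ρ‖ with h1 | h1
  · rcases le_or_gt R ‖zF s x v ρ'‖ with h2 | h2
    · rw [h.z _ h1, h.z _ h2, sub_self, abs_zero]
      positivity
    · refine (h.l _ _).trans ?_
      rw [norm_sub_rev]
      exact key ρ' ρ hρ' hρ (min_le_left _ _) (abs_sub_comm _ _) h2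
  · exact (h.l _ _).trans (key ρ ρ' hρ hρ' (min_le_right _ _) rfl h1)

theorem continuousAt_zF (hρ : ρ ≠ 0) : ContinuousAt (zF s x v) ρ := by
  have h1 := (hasDerivAt_zF_fst (s := s) (x := x) (v := v) hρ).continuousAt
  have h2 := (hasDerivAt_zF_snd (s := s) (x := x) (v := v) hρ).continuousAt
  exact h1.prodMk h2

theorem BL.ac {g : P2 → ℝ} {Cb CL R : ℝ} (h : BL g Cb CL R) (hR : 0 ≤ R) (hs : 0 < s)
    (hsr : s ≤ r) : AbsolutelyContinuousOnInterval (fun ρ => g (zF s x v ρ)) s r := by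
  have hCL := h.CL0
  have hC : 0 ≤ CL * (‖v‖ + R) / s := by positivity
  have hL : LipschitzOnWith (CL * (‖v‖ + R) / s).toNNReal (fun ρ => g (zF s x v ρ)) (uIcc s r) := by
    rw [uIcc_of_le hsr]
    refine LipschitzOnWith.of_dist_le_mul fun a ha b hb => ?_
    rw [Real.coe_toNNReal _ hC, Real.dist_eq, Real.dist_eq]
    have ha0 : 0 < a := hs.trans_le ha.1
    have hb0 : 0 < b := hs.trans_le hb.1
    refine (h.flight hR le_rfl ha0 hb0).trans ?_
    have h1 : |a - b| / min a b ≤ |a - b| / s :=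
      div_le_div_of_nonneg_left (abs_nonneg _) hs (le_min ha.1 hb.1)
    calc CL * (‖v‖ + R) * (|a - b| / min a b) ≤ CL * (‖v‖ + R) * (|a - b| / s) :=
          mul_le_mul_of_nonneg_left h1 (by positivity)
      _ = _ := by ring
  exact hL.absolutelyContinuousOnInterval

theorem BL.deriv_le {g : P2 → ℝ} {Cb CL R V : ℝ} (h : BL g Cb CL R) (hR : 0 ≤ R) (hv : ‖v‖ ≤ V)
    (hρ : 0 < ρ) : |deriv (fun ρ => g (zF s x v ρ)) ρ| ≤ 2 * CL * (V + R) / ρ := by
  have hV : 0 ≤ V := (norm_nonneg v).trans hv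
  have hCL := h.CL0
  have h0 : 0 ≤ 2 * CL * (V + R) / ρ := by positivity
  rw [← Real.norm_eq_abs]
  apply norm_deriv_le_of_lip' h0
  have hn : ∀ᶠ a in 𝓝 ρ, ρ / 2 < a := eventually_gt_nhds (by linarith)
  filter_upwards [hn] with a ha
  have ha0 : 0 < a := by linarith
  rw [Real.norm_eq_abs, Real.norm_eq_abs]
  refine (h.flight hR hv ha0 hρ).trans ?_
  have h1 : |a - ρ| / min a ρ ≤ |a - ρ| / (ρ / 2) :=
    div_le_div_of_nonneg_left (abs_nonneg _) (by linarith) (le_min ha.le (by linarith))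
  calc CL * (V + R) * (|a - ρ| / min a ρ) ≤ CL * (V + R) * (|a - ρ| / (ρ / 2)) :=
        mul_le_mul_of_nonneg_left h1 (by positivity)
    _ = _ := by field_simp

theorem BL.deriv_zero {g : P2 → ℝ} {Cb CL R : ℝ} (h : BL g Cb CL R)
    (hρ : 0 < ρ) (hz : R < ‖zF s x v ρ‖) : deriv (fun ρ => g (zF s x v ρ)) ρ = 0 := by
  have h1 : (fun ρ => g (zF s x v ρ)) =ᶠ[𝓝 ρ] fun _ => (0 : ℝ) := by
    have h2 : ContinuousAt (fun ρ => ‖zF s x v ρ‖) ρ := (continuousAt_zF hρ.ne').norm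
    filter_upwards [h2.eventually_const_lt hz] with a ha
    exact h.z _ ha.le
  rw [h1.deriv_eq]
  simp

end Crest.Agent.R68.X2.Fl
end
end

-- ▼ part R68/X2Fl3

/-!
# Row 68, PART X2 (helper180): Lipschitz bounds of the oscillating part (file 3)
-/

set_option autoImplicit false
open MeasureTheory Set Filter
open scoped ENNReal NNReal Real Topology
open Crest.AnalysisR.VecCalc3 Crest.AnalysisR.PDE.Boltzmann

noncomputable section

namespace Crest.Agent.R68.X2.Fl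

/-- what we use about `f0` -/
structure F0H (X : XP) (C : ℝ) : Prop where
  C1 : 1 ≤ C
  n : ∀ z v, 0 ≤ f0 X z v
  b : ∀ z v, f0 X z v ≤ C
  l : ∀ z v z' v', |f0 X z v - f0 X z' v'| ≤ C * (‖z - z'‖ + ‖v - v'‖)

theorem F0H.abs {X : XP} {C : ℝ} (h : F0H X C) (z : P2) (v : R3) : |f0 X z v| ≤ C := by
  rw [abs_of_nonneg (h.n z v)]; exact h.b z v

theorem F0H.meas {X : XP} {C : ℝ} (h : F0H X C) (z : P2) : Measurable (f0 X z) := by
  have : LipschitzWith C.toNNReal (f0 X z) := by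
    refine LipschitzWith.of_dist_le_mul fun a b => ?_
    rw [Real.coe_toNNReal _ (zero_le_one.trans h.C1), Real.dist_eq, dist_eq_norm]
    simpa using h.l z a z b
  exact this.continuous.measurable

theorem norm_us_sub (y y' s : ℝ) : ‖us y s - us y' s‖ = |y - y'| := by
  have h : us y s - us y' s = !₂[0, y - y', 0] := by
    unfold us
    ext i
    fin_cases i <;> simp
  rw [h, EuclideanSpace.norm_eq, Fin.sum_univ_three]
  simp [Real.sqrt_sq_eq_abs]

theorem norm_us_le (y s : ℝ) (hs : |s| = 1) : ‖us y s‖ ≤ |y| + 1 := by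
  have h : us y s = !₂[0, y, 0] + !₂[0, 0, s] := by
    unfold us
    ext i
    fin_cases i <;> simp
  rw [h]
  refine (norm_add_le _ _).trans ?_
  rw [EuclideanSpace.norm_eq, EuclideanSpace.norm_eq, Fin.sum_univ_three, Fin.sum_univ_three]
  simp [Real.sqrt_sq_eq_abs, hs]

theorem abs_snd_le (z : P2) : |z.2| ≤ ‖z‖ := by
  rw [Prod.norm_def]; exact le_max_right _ _

theorem abs_fst_le (z : P2) : |z.1| ≤ ‖z‖ := by
  rw [Prod.norm_def]; exact le_max_left _ _

theorem abs_snd_sub_le (z z' : P2) : |z.2 - z'.2| ≤ ‖z - z'‖ := abs_snd_le (z - z')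

/-- the ideal collision term without the density -/
def W0 (X : XP) (d1 s : ℝ) (z : P2) (v : R3) : ℝ :=
  (1 - d1) * gsR (f0 X z) v (us z.2 s) - 2 * π * ‖v - us z.2 s‖ * f0 X z v

theorem ws_eq (X : XP) (d1 ρ s : ℝ) (z : P2) (v : R3) : ws X d1 ρ s z v = ρ * W0 X d1 s z v := rfl

variable {X : XP} {C d1 s : ℝ}

theorem norm_sub_us_le {D : ℝ} (hs : |s| = 1) {z : P2} {v : R3} (h : ‖v‖ + ‖z‖ + 1 ≤ D) :
    ‖v - us z.2 s‖ ≤ D := by
  refine (norm_sub_le _ _).trans ?_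
  have h1 := norm_us_le z.2 s hs
  have h2 := abs_snd_le z
  linarith

theorem W0_bound (hF : F0H X C) (hd0 : 0 < d1) (hd1 : d1 < 1) (hs : |s| = 1) {D : ℝ} {z : P2} {v : R3}
    (h : ‖v‖ + ‖z‖ + 1 ≤ D) : |W0 X d1 s z v| ≤ 6 * π * C * D := by
  have hC : 0 ≤ C := zero_le_one.trans hF.C1
  have hn := norm_sub_us_le hs h
  have hD : 0 ≤ D := (norm_nonneg _).trans hn
  have h1 : |gsR (f0 X z) v (us z.2 s)| ≤ 4 * π * D * C := by
    refine (abs_gsR_le (hF.meas z) (C := C) fun w _ => hF.abs z w).trans ?_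
    gcongr
  unfold W0
  refine (abs_sub _ _).trans ?_
  rw [abs_mul, abs_mul, abs_of_nonneg (by linarith : 0 ≤ 1 - d1),
    abs_of_nonneg (by positivity : 0 ≤ 2 * π * ‖v - us z.2 s‖)]
  have h2 : (1 - d1) * |gsR (f0 X z) v (us z.2 s)| ≤ 1 * (4 * π * D * C) :=
    mul_le_mul (by linarith) h1 (abs_nonneg _) zero_le_one
  have h3 : 2 * π * ‖v - us z.2 s‖ * |f0 X z v| ≤ 2 * π * D * C := by
    apply mul_le_mul _ (hF.abs z v) (abs_nonneg _) (by positivity)
    gcongr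
  calc _ ≤ 1 * (4 * π * D * C) + 2 * π * D * C := add_le_add h2 h3
    _ = _ := by ring

theorem W0_lip (hF : F0H X C) (hd0 : 0 < d1) (hd1 : d1 < 1) (hs : |s| = 1) {D : ℝ} (hD1 : 1 ≤ D)
    {z z' : P2} {v : R3} (h : ‖v‖ + ‖z‖ + 1 ≤ D) (h' : ‖v‖ + ‖z'‖ + 1 ≤ D) :
    |W0 X d1 s z v - W0 X d1 s z' v| ≤ 30 * π * C * D * ‖z - z'‖ := by
  have hC : 0 ≤ C := zero_le_one.trans hF.C1
  have hD : 0 ≤ D := zero_le_one.trans hD1
  have hn := norm_sub_us_le hs h
  have hn' := norm_sub_us_le hs h'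
  have hu : ‖us z.2 s - us z'.2 s‖ ≤ ‖z - z'‖ := by
    rw [norm_us_sub]; exact abs_snd_sub_le z z'
  set N := ‖z - z'‖ with hN
  have hN0 : 0 ≤ N := norm_nonneg _
  have h1 : |gsR (f0 X z) v (us z.2 s) - gsR (f0 X z') v (us z'.2 s)| ≤
      8 * π * C * N + 8 * π * D * (C * N + C * N) := by
    refine (gsR_lip (hF.meas z) (hF.meas z') (C := C) (L := C) (ε := C * N)
      (fun w => hF.abs z w) (fun w => hF.abs z' w)
      (fun w w' => by simpa using hF.l z w z w') (fun w => by simpa using hF.l z w z' w) v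
      (us z.2 s) (us z'.2 s)).trans ?_
    gcongr
  have h2 : |2 * π * ‖v - us z.2 s‖ * f0 X z v - 2 * π * ‖v - us z'.2 s‖ * f0 X z' v| ≤
      2 * π * (N * C + D * (C * N)) := by
    have e : 2 * π * ‖v - us z.2 s‖ * f0 X z v - 2 * π * ‖v - us z'.2 s‖ * f0 X z' v =
        2 * π * ((‖v - us z.2 s‖ - ‖v - us z'.2 s‖) * f0 X z v +
          ‖v - us z'.2 s‖ * (f0 X z v - f0 X z' v)) := by ring
    rw [e, abs_mul, abs_of_nonneg (by positivity : 0 ≤ 2 * π)]
    apply mul_le_mul_of_nonneg_left _ (by positivity)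
    refine (abs_add_le _ _).trans ?_
    rw [abs_mul, abs_mul]
    apply add_le_add
    · apply mul_le_mul _ (hF.abs z v) (abs_nonneg _) hN0
      refine (abs_norm_sub_norm_le _ _).trans ?_
      rw [show v - us z.2 s - (v - us z'.2 s) = -(us z.2 s - us z'.2 s) by abel, norm_neg]
      exact hu
    · rw [abs_of_nonneg (norm_nonneg _)]
      apply mul_le_mul hn' _ (abs_nonneg _) hD
      simpa using hF.l z v z' v
  have e : W0 X d1 s z v - W0 X d1 s z' v =
      (1 - d1) * (gsR (f0 X z) v (us z.2 s) - gsR (f0 X z') v (us z'.2 s)) -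
      (2 * π * ‖v - us z.2 s‖ * f0 X z v - 2 * π * ‖v - us z'.2 s‖ * f0 X z' v) := by
    unfold W0; ring
  rw [e]
  refine (abs_sub _ _).trans ?_
  rw [abs_mul, abs_of_nonneg (by linarith : 0 ≤ 1 - d1)]
  have h3 : (1 - d1) * |gsR (f0 X z) v (us z.2 s) - gsR (f0 X z') v (us z'.2 s)| ≤
      1 * (8 * π * C * N + 8 * π * D * (C * N + C * N)) :=
    mul_le_mul (by linarith) h1 (abs_nonneg _) zero_le_one
  have h4 : C * N * π ≤ C * N * π * D := le_mul_of_one_le_right (by positivity) hD1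
  calc _ ≤ 1 * (8 * π * C * N + 8 * π * D * (C * N + C * N)) + 2 * π * (N * C + D * (C * N)) :=
        add_le_add h3 h2
    _ = 10 * (C * N * π) + 18 * (C * N * π * D) := by ring
    _ ≤ 10 * (C * N * π * D) + 18 * (C * N * π * D) := by linarith
    _ ≤ 30 * (C * N * π * D) := by
        have : 0 ≤ C * N * π * D := by positivity
        linarith
    _ = _ := by ring

/-! ### the oscillating part -/

/-- `osc` without the factor `1/t` -/
def gW (X : XP) (P : Par) (d1 Zs Vs s : ℝ) (v : R3) (z : P2) : ℝ :=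
  th X Zs Vs z v * ws X d1 (P.K * ky P z.2) s z v

theorem osc_eq (X : XP) (P : Par) (d1 Zs Vs s t : ℝ) (x : P2) (v : R3) :
    osc X P d1 Zs Vs s t x v = t⁻¹ * gW X P d1 Zs Vs s v (t⁻¹ • x) := by
  unfold osc gW; ring

theorem th_eq_zero_v {Zs Vs : ℝ} (hVs : 0 < Vs) {v : R3} (hv : 2 * Vs ≤ ‖v‖) (z : P2) :
    th X Zs Vs z v = 0 := by
  unfold th
  rw [ramp_eq_zero ((le_div_iff₀ hVs).2 hv)]
  ring

theorem th_eq_zero_z {Zs Vs : ℝ} (hZs : 0 < Zs) {z : P2} (hz : 2 * Zs ≤ ‖z‖) (v : R3) :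
    th X Zs Vs z v = 0 := by
  unfold th
  rw [ramp_eq_zero ((le_div_iff₀ hZs).2 hz)]
  ring

theorem th_eq_zero_d {Zs Vs : ℝ} (hd : 0 < X.d) {v : R3} (hv : |v 0| ≤ X.d / 2) (z : P2) :
    th X Zs Vs z v = 0 := by
  unfold th
  rw [lamd_eq_zero (by positivity) hv]
  ring

theorem abs_th_le (Zs Vs : ℝ) (z : P2) (v : R3) : |th X Zs Vs z v| ≤ 1 := by
  unfold th
  rw [abs_of_nonneg (mul_nonneg (mul_nonneg (ramp_nonneg _) (ramp_nonneg _)) (lamd_nonneg _ _))]
  calc ramp (‖z‖ / Zs) * ramp (‖v‖ / Vs) * lamd (X.d / 2) (v 0) ≤ 1 * 1 * 1 := by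
        gcongr
        · exact lamd_nonneg _ _
        · exact ramp_nonneg _
        · exact ramp_le_one _
        · exact ramp_le_one _
        · exact lamd_le_one _ _
    _ = 1 := by norm_num

theorem th_lip {Zs Vs : ℝ} (hZs : 1 ≤ Zs) (z z' : P2) (v : R3) :
    |th X Zs Vs z v - th X Zs Vs z' v| ≤ 1 * ‖z - z'‖ := by
  have hZ0 : 0 < Zs := zero_lt_one.trans_le hZs
  have e : th X Zs Vs z v - th X Zs Vs z' v =
      (ramp (‖z‖ / Zs) - ramp (‖z'‖ / Zs)) * (ramp (‖v‖ / Vs) * lamd (X.d / 2) (v 0)) := by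
    unfold th; ring
  rw [e, abs_mul, one_mul]
  have h1 : |ramp (‖z‖ / Zs) - ramp (‖z'‖ / Zs)| ≤ ‖z - z'‖ := by
    refine (abs_ramp_sub _ _).trans ?_
    rw [← sub_div, abs_div, abs_of_pos hZ0]
    refine (div_le_self (abs_nonneg _) hZs).trans ?_
    exact abs_norm_sub_norm_le _ _
  have h2 : |ramp (‖v‖ / Vs) * lamd (X.d / 2) (v 0)| ≤ 1 := by
    rw [abs_of_nonneg (mul_nonneg (ramp_nonneg _) (lamd_nonneg _ _))]
    exact mul_le_one₀ (ramp_le_one _) (lamd_nonneg _ _) (lamd_le_one _ _)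
  calc _ ≤ ‖z - z'‖ * 1 := mul_le_mul h1 h2 (abs_nonneg _) (norm_nonneg _)
    _ = _ := mul_one _

/-- uniform constants -/
def CbW (P : Par) (C Zs Vs : ℝ) : ℝ := P.K * (6 * π * C * (2 * Vs + 2 * Zs + 1))
def ClW (P : Par) (C Zs Vs : ℝ) : ℝ :=
  1 * CbW P C Zs Vs + (P.K / P.ey * (6 * π * C * (2 * Vs + 2 * Zs + 1)) +
    P.K * (30 * π * C * (2 * Vs + 2 * Zs + 1)))

theorem BL_gW {P : Par} (hK : 0 ≤ P.K) (hey : 0 < P.ey) {Zs Vs : ℝ} (hZs : 1 ≤ Zs) (hVs : 1 ≤ Vs)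
    (hF : F0H X C) (hd0 : 0 < d1) (hd1 : d1 < 1) (hs : |s| = 1) (v : R3) :
    BL (gW X P d1 Zs Vs s v) (CbW P C Zs Vs) (ClW P C Zs Vs) (2 * Zs) := by
  have hC : 0 ≤ C := zero_le_one.trans hF.C1
  have hCb : 0 ≤ CbW P C Zs Vs := by unfold CbW; positivity
  have hW1 : 0 ≤ P.K / P.ey * (6 * π * C * (2 * Vs + 2 * Zs + 1)) +
    P.K * (30 * π * C * (2 * Vs + 2 * Zs + 1)) := by positivity
  rcases le_or_gt (2 * Vs) ‖v‖ with hv | hv
  · have h0 : gW X P d1 Zs Vs s v = fun _ => 0 := by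
      ext z
      unfold gW
      rw [th_eq_zero_v (by linarith) hv, zero_mul]
    rw [h0]
    refine ⟨fun z => by simpa using hCb, fun z z' => ?_, fun z _ => rfl⟩
    rw [sub_self, abs_zero]
    unfold ClW
    positivity
  · refine prod_BL (fun z => abs_th_le Zs Vs z v) (fun z z' => th_lip hZs z z' v)
      (fun z hz => th_eq_zero_z (by linarith) hz v) hCb hW1 zero_le_one ?_ ?_
    · intro z hz
      rw [ws_eq, abs_mul, abs_mul, abs_of_nonneg hK]
      unfold CbW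
      have h1 := W0_bound hF hd0 hd1 hs (D := 2 * Vs + 2 * Zs + 1) (z := z) (v := v) (by linarith)
      calc P.K * |ky P z.2| * |W0 X d1 s z v| ≤ P.K * 1 * (6 * π * C * (2 * Vs + 2 * Zs + 1)) := by
            gcongr
            exact abs_ky_le180 P _
        _ = _ := by ring
    · intro z z' hz hz'
      have e : ws X d1 (P.K * ky P z.2) s z v - ws X d1 (P.K * ky P z'.2) s z' v =
          P.K * ((ky P z.2 - ky P z'.2) * W0 X d1 s z v +
            ky P z'.2 * (W0 X d1 s z v - W0 X d1 s z' v)) := by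
        rw [ws_eq, ws_eq]; ring
      rw [e, abs_mul, abs_of_nonneg hK]
      have h1 := W0_bound hF hd0 hd1 hs (D := 2 * Vs + 2 * Zs + 1) (z := z) (v := v) (by linarith)
      have h2 := W0_lip hF hd0 hd1 hs (D := 2 * Vs + 2 * Zs + 1) (by linarith) (z := z) (z' := z')
        (v := v) (by linarith) (by linarith)
      have h3 : |ky P z.2 - ky P z'.2| ≤ ‖z - z'‖ / P.ey :=
        (abs_ky_sub180 hey _ _).trans (div_le_div_of_nonneg_right (abs_snd_sub_le z z') hey.le)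
      calc P.K * |(ky P z.2 - ky P z'.2) * W0 X d1 s z v +
            ky P z'.2 * (W0 X d1 s z v - W0 X d1 s z' v)|
          ≤ P.K * (‖z - z'‖ / P.ey * (6 * π * C * (2 * Vs + 2 * Zs + 1)) +
            1 * (30 * π * C * (2 * Vs + 2 * Zs + 1) * ‖z - z'‖)) := by
            apply mul_le_mul_of_nonneg_left _ hK
            refine (abs_add_le _ _).trans ?_
            rw [abs_mul, abs_mul]
            apply add_le_add
            · exact mul_le_mul h3 h1 (abs_nonneg _) (by positivity)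
            · exact mul_le_mul (abs_ky_le180 P _) h2 (abs_nonneg _) zero_le_one
        _ = _ := by ring

end Crest.Agent.R68.X2.Fl
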