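import Crest.Agent.R68.XDefs
import Crest.Agent.R68.X2Gs
import Crest.Agent.R68.FSum
import Crest.Agent.R68.FCell
import Crest.Agent.R68.LK

-- ▼ part R68/XFlt60
section

/-!
# Row 68, PART X2: the test function along flights (helper60)
-/

set_option autoImplicit false
open MeasureTheory Set Filter
open scoped ENNReal Real Interval
open Crest.AnalysisR.VecCalc3 Crest.AnalysisR.PDE.Boltzmann

noncomputable section

namespace Crest.Agent.R68.X2.Flt60

open Crest.Agent.R68.X2

/-! ### one-variable facts -/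




/-! ### the flight -/



theorem fr_one (y : ℝ) (v : R3) : fr y v 1 = v 1 - y := by simp [fr]









/-! ### continuity and measurability -/

theorem continuous_fr : Continuous fun p : ℝ × R3 => fr p.1 p.2 := by
  have h : Continuous fun p : ℝ × R3 => (!₂[0, p.1, 0] : R3) := by
    apply (PiLp.continuous_toLp 2 _).comp
    apply continuous_pi
    intro i
    fin_cases i <;> simp <;> fun_prop
  exact continuous_snd.sub h

theorem continuous_f0 (X : XP) : Continuous fun p : P2 × R3 => f0 X p.1 p.2 := by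
  have hq : Continuous fun p : P2 × R3 => fr p.1.2 p.2 :=
    continuous_fr.comp (by fun_prop : Continuous fun p : P2 × R3 => (p.1.2, p.2))
  unfold f0 tentp tent cutB lamd
  fun_prop

theorem continuous_tent2 (X : XP) :
    Continuous fun p : P2 × R3 => tent X.A X.Yp X.e p.1.2 (fr p.1.2 p.2) := by
  have hq : Continuous fun p : P2 × R3 => fr p.1.2 p.2 :=
    continuous_fr.comp (by fun_prop : Continuous fun p : P2 × R3 => (p.1.2, p.2))
  unfold tent
  fun_prop

theorem measurable_sgr : Measurable sg :=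
  Measurable.ite measurableSet_Ici measurable_const measurable_const

theorem abs_sgr (m : ℝ) : |sg m| = 1 := by
  unfold sg
  split_ifs <;> simp

theorem measurable_L0 (X : XP) : Measurable fun p : P2 × R3 => L0 X p.1 p.2 := by
  have hq : Continuous fun p : P2 × R3 => fr p.1.2 p.2 :=
    continuous_fr.comp (by fun_prop : Continuous fun p : P2 × R3 => (p.1.2, p.2))
  have hq1 : Measurable fun p : P2 × R3 => fr p.1.2 p.2 1 := by
    have : Continuous fun p : P2 × R3 => fr p.1.2 p.2 1 := by fun_prop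
    exact this.measurable
  have hT := (continuous_tent2 X).measurable
  have hcut : Measurable fun p : P2 × R3 => cutB X.B p.1.1 := by
    unfold cutB; fun_prop
  have hv : Measurable fun p : P2 × R3 => p.2 0 := by
    have : Continuous fun p : P2 × R3 => p.2 0 := by fun_prop
    exact this.measurable
  have hlam0 : Measurable fun a : ℝ => lamd X.d a := by
    unfold lamd; fun_prop
  have hlam : Measurable fun p : P2 × R3 => lamd X.d (p.2 0) := hlam0.comp hv
  have hsg0 : Measurable fun p : P2 × R3 => (1 + X.A) * p.1.2 + fr p.1.2 p.2 1 :=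
    ((measurable_snd.comp measurable_fst).const_mul _).add hq1
  have hsg : Measurable fun p : P2 × R3 => sg ((1 + X.A) * p.1.2 + fr p.1.2 p.2 1) :=
    measurable_sgr.comp hsg0
  have hz : Measurable fun p : P2 × R3 => p.1.1 := measurable_fst.comp measurable_fst
  have hR0 : Measurable fun q : ℝ × ℝ => 2 * max 0 (1 - q.1 ^ 2 / X.B ^ 2) *
      (-(2 * q.1 * (q.2 - q.1) / X.B ^ 2)) := by fun_prop
  have hR : Measurable fun p : P2 × R3 => 2 * max 0 (1 - p.1.1 ^ 2 / X.B ^ 2) *
      (-(2 * p.1.1 * (p.2 0 - p.1.1) / X.B ^ 2)) := hR0.comp (hz.prodMk hv)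
  have h1 : Measurable fun p : P2 × R3 => (-sg ((1 + X.A) * p.1.2 + fr p.1.2 p.2 1) * X.A *
      (fr p.1.2 p.2 1) + 2 * X.e * (fr p.1.2 p.2 1) ^ 2) * cutB X.B p.1.1 :=
    (((hsg.neg.mul_const X.A).mul hq1).add ((hq1.pow_const 2).const_mul (2 * X.e))).mul hcut
  have h2 := (h1.add (hT.mul hR)).mul hlam
  exact Measurable.ite (measurableSet_lt measurable_const hT) h2 measurable_const

theorem abs_L0_le (X : XP) (z : P2) (v : R3) : |L0 X z v| ≤
    ((|X.A| * |fr z.2 v 1| + |2 * X.e * (fr z.2 v 1) ^ 2|) * |cutB X.B z.1|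
      + |tent X.A X.Yp X.e z.2 (fr z.2 v)| *
        |2 * max 0 (1 - z.1 ^ 2 / X.B ^ 2) * (-(2 * z.1 * (v 0 - z.1) / X.B ^ 2))|)
      * |lamd X.d (v 0)| := by
  unfold L0
  split_ifs with h
  · rw [abs_mul]
    refine mul_le_mul_of_nonneg_right ?_ (abs_nonneg _)
    refine (abs_add_le _ _).trans ?_
    rw [abs_mul, abs_mul (tent X.A X.Yp X.e z.2 (fr z.2 v))]
    refine add_le_add (mul_le_mul_of_nonneg_right ?_ (abs_nonneg _)) le_rfl
    refine (abs_add_le _ _).trans (add_le_add ?_ le_rfl)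
    rw [abs_mul, abs_mul, abs_neg, abs_sgr, one_mul]
  · rw [abs_zero]; positivity


end Crest.Agent.R68.X2.Flt60
end
end

-- ▼ part R68/X2Meas

/-!
# Row 68, PART X2: measurability, periodicity, support of the test functions (helper60)
-/

set_option autoImplicit false
open MeasureTheory Set Filter
open scoped ENNReal Real
open Crest.AnalysisR.VecCalc3 Crest.AnalysisR.PDE.Boltzmann

noncomputable section

namespace Crest.Agent.R68.X2.M60

open Crest.Agent.R68.X2 Crest.Agent.R68.X2.Flt60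

open Crest.Agent.R68.L (Den phiE Gf Dam TL sol)
open Crest.Agent.R68.A (Meas3)
open Crest.Agent.R68.X (chs Cs)

/-! ### measurability -/

theorem measurable_f0 (X : XP) : Measurable fun p : P2 × R3 => f0 X p.1 p.2 :=
  (continuous_f0 X).measurable

theorem measurable_sc : Measurable fun p : ℝ × P2 × R3 => (p.1⁻¹ • p.2.1, p.2.2) := by
  fun_prop

theorem measurable_psi0 (X : XP) : Measurable fun p : ℝ × P2 × R3 => psi0 X p.1 p.2.1 p.2.2 := by
  have h := (measurable_f0 X).comp measurable_sc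
  exact h

theorem meas3_psiE (X : XP) : Meas3 (psiE X) := (measurable_psi0 X).ennreal_ofReal

theorem meas3_shift {F : Den} (hF : Meas3 F) (a : P2) : Meas3 fun t x v => F t (x + a) v :=
  hF.comp (f := fun p : ℝ × P2 × R3 => p.1) (g := fun p => p.2.1 + a) (h := fun p => p.2.2)
    (by fun_prop) (by fun_prop) (by fun_prop)

theorem meas3_psiP (X : XP) : Meas3 (psiP X) :=
  Measurable.tsum (f := fun (k : ℤ × ℤ) (p : ℝ × P2 × R3) => psiE X p.1 (p.2.1 + latt k) p.2.2)
    fun k => meas3_shift (meas3_psiE X) (latt k)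

theorem perG_tsum (F : Den) (t : ℝ) (v : R3) :
    PerG fun x => ∑' k : ℤ × ℤ, F t (x + latt k) v := by
  intro x k
  have h : ∀ l : ℤ × ℤ, F t (x + latt k + latt l) v = F t (x + latt (k + l)) v := by
    intro l; rw [latt_add, add_assoc]
  simp only [h]
  exact (Equiv.addLeft k).tsum_eq fun l => F t (x + latt l) v

theorem perG_psiP (X : XP) (t : ℝ) (v : R3) : PerG fun x => psiP X t x v :=
  perG_tsum (psiE X) t v


theorem continuous_us (s : ℝ) : Continuous fun y : ℝ => us y s := by
  unfold us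
  apply (PiLp.continuous_toLp 2 _).comp
  apply continuous_pi
  intro i
  fin_cases i <;> simp <;> fun_prop

theorem measurable_ws (X : XP) (d1 s : ℝ) :
    Measurable fun p : ℝ × P2 × R3 => ws X d1 p.1 s p.2.1 p.2.2 := by
  have hus : Measurable fun p : ℝ × P2 × R3 => us p.2.1.2 s :=
    (continuous_us s).measurable.comp (by fun_prop)
  have h1 : Measurable fun p : ℝ × P2 × R3 => gsR (f0 X p.2.1) p.2.2 (us p.2.1.2 s) := by
    refine meas_gsR (α := ℝ × P2 × R3) (g := fun p => f0 X p.2.1) ?_ (by fun_prop) hus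
    exact (measurable_f0 X).comp (f := fun q : (ℝ × P2 × R3) × R3 => (q.1.2.1, q.2))
      (by fun_prop)
  have h2 : Measurable fun p : ℝ × P2 × R3 => ‖p.2.2 - us p.2.1.2 s‖ :=
    (Measurable.sub (by fun_prop) hus).norm
  have h3 : Measurable fun p : ℝ × P2 × R3 => f0 X p.2.1 p.2.2 :=
    (measurable_f0 X).comp (by fun_prop)
  exact measurable_fst.mul ((h1.const_mul (1 - d1)).sub ((h2.const_mul (2 * π)).mul h3))

theorem measurable_ramp : Measurable ramp := by unfold ramp; fun_prop

theorem measurable_th (X : XP) (Zs Vs : ℝ) : Measurable fun p : P2 × R3 => th X Zs Vs p.1 p.2 := by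
  have h1 : Measurable fun p : P2 × R3 => ramp (‖p.1‖ / Zs) := measurable_ramp.comp (by fun_prop)
  have h2 : Measurable fun p : P2 × R3 => ramp (‖p.2‖ / Vs) := measurable_ramp.comp (by fun_prop)
  have h3 : Measurable fun p : P2 × R3 => lamd (X.d / 2) (p.2 0) := by
    have h4 : Measurable fun p : P2 × R3 => p.2 0 := by
      have : Continuous fun p : P2 × R3 => p.2 0 := by fun_prop
      exact this.measurable
    have h5 : Measurable fun a : ℝ => lamd (X.d / 2) a := by unfold lamd; fun_prop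
    exact h5.comp h4
  exact (h1.mul h2).mul h3

theorem measurable_osc (X : XP) (P : Par) (d1 Zs Vs s : ℝ) :
    Measurable fun p : ℝ × P2 × R3 => osc X P d1 Zs Vs s p.1 p.2.1 p.2.2 := by
  have h1 : Measurable fun p : ℝ × P2 × R3 => th X Zs Vs (p.1⁻¹ • p.2.1) p.2.2 := by
    have h := (measurable_th X Zs Vs).comp measurable_sc
    exact h
  have h0 : Measurable fun p : ℝ × P2 × R3 => (p.1⁻¹ • p.2.1).2 := by fun_prop
  have h2 : Measurable fun p : ℝ × P2 × R3 => P.K * ky P (p.1⁻¹ • p.2.1).2 :=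
    ((measurable_ky P).comp h0).const_mul _
  have h3 : Measurable fun p : ℝ × P2 × R3 =>
      ws X d1 (P.K * ky P (p.1⁻¹ • p.2.1).2) s (p.1⁻¹ • p.2.1) p.2.2 := by
    have h := (measurable_ws X d1 s).comp (h2.prodMk measurable_sc)
    exact h
  exact ((measurable_inv.comp measurable_fst).mul h1).mul h3

theorem measurable_lab60 (P : Par) : Measurable fun p : ℝ × P2 × R3 => lab P p.1 p.2.1 := by
  unfold lab
  fun_prop

theorem measurable_corr (X : XP) (P : Par) (d1 Zs Vs : ℝ) :
    Measurable fun p : ℝ × P2 × R3 => corr X P d1 Zs Vs p.1 p.2.1 p.2.2 := by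
  have hv : Measurable fun p : ℝ × P2 × R3 => p.2.2 0 := by
    have : Continuous fun p : ℝ × P2 × R3 => p.2.2 0 := by fun_prop
    exact this.measurable
  have h1 : Measurable fun p : ℝ × P2 × R3 => q1u P p.1 p.2.1 p.2.2 := by
    unfold q1u
    refine hv.sub ?_
    fun_prop
  have h2 : Measurable fun p : ℝ × P2 × R3 => (P.dl + P.c * p.1) / (P.dl * q1u P p.1 p.2.1 p.2.2) :=
    Measurable.div (by fun_prop) (h1.const_mul _)
  have h3 : Measurable fun p : ℝ × P2 × R3 => Cs 1 (lab P p.1 p.2.1) :=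
    (Crest.Agent.R68.X.measurable_Cs 1).comp (measurable_lab60 P)
  have h4 : Measurable fun p : ℝ × P2 × R3 => Cs (-1) (lab P p.1 p.2.1) :=
    (Crest.Agent.R68.X.measurable_Cs (-1)).comp (measurable_lab60 P)
  exact h2.mul ((h3.mul (measurable_osc X P d1 Zs Vs 1)).add
    (h4.mul (measurable_osc X P d1 Zs Vs (-1))))

theorem measurable_ramps (Zs Vs : ℝ) : Measurable fun p : ℝ × P2 × R3 =>
    ramp (‖p.1⁻¹ • p.2.1‖ / (2 * Zs)) * ramp (‖p.2.2‖ / (2 * Vs)) := by
  have h1 : Measurable fun p : ℝ × P2 × R3 => ‖p.1⁻¹ • p.2.1‖ / (2 * Zs) := by fun_prop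
  have h2 : Measurable fun p : ℝ × P2 × R3 => ‖p.2.2‖ / (2 * Vs) := by fun_prop
  exact (measurable_ramp.comp h1).mul (measurable_ramp.comp h2)

theorem measurable_gL (X : XP) (P : Par) (d1 Zs Vs Cg : ℝ) :
    Measurable fun p : ℝ × P2 × R3 => gL X P d1 Zs Vs Cg p.1 p.2.1 p.2.2 := by
  have h1 : Measurable fun p : ℝ × P2 × R3 => Cg * p.1 ^ 2 := by fun_prop
  exact ((measurable_psi0 X).add (measurable_corr X P d1 Zs Vs)).add
    (h1.mul (measurable_ramps Zs Vs))

theorem measurable_nearI (Zs Vs : ℝ) :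
    Measurable fun p : ℝ × P2 × R3 => nearI Zs Vs p.1 p.2.1 p.2.2 := by
  have h1 : Measurable fun p : ℝ × P2 × R3 => ‖p.2.1‖ := by fun_prop
  have h2 : Measurable fun p : ℝ × P2 × R3 => 4 * Zs * p.1 := by fun_prop
  have h3 : Measurable fun p : ℝ × P2 × R3 => ‖p.2.2‖ := by fun_prop
  have hs : MeasurableSet {p : ℝ × P2 × R3 | ‖p.2.1‖ ≤ 4 * Zs * p.1 ∧ ‖p.2.2‖ ≤ 4 * Vs} :=
    (measurableSet_le h1 h2).inter (measurableSet_le h3 measurable_const)
  exact Measurable.ite hs measurable_const measurable_const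

theorem measurable_Lg (X : XP) (P : Par) (d1 Zs Vs C : ℝ) :
    Measurable fun p : ℝ × P2 × R3 => Lg X P d1 Zs Vs C p.1 p.2.1 p.2.2 := by
  have h0 : Measurable fun p : ℝ × P2 × R3 => L0 X (p.1⁻¹ • p.2.1) p.2.2 := by
    have h := (measurable_L0 X).comp measurable_sc
    exact h
  have h1 : Measurable fun p : ℝ × P2 × R3 => p.1⁻¹ := measurable_inv.comp measurable_fst
  have h3 : Measurable fun p : ℝ × P2 × R3 => chs P 1 (lab P p.1 p.2.1) - 197 / 400 :=
    ((Crest.Agent.R68.X.measurable_chs P 1).comp (measurable_lab60 P)).sub_const _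
  have h4 : Measurable fun p : ℝ × P2 × R3 => chs P (-1) (lab P p.1 p.2.1) - 197 / 400 :=
    ((Crest.Agent.R68.X.measurable_chs P (-1)).comp (measurable_lab60 P)).sub_const _
  exact (((h1.mul h0).sub (h3.mul (measurable_osc X P d1 Zs Vs 1))).sub
    (h4.mul (measurable_osc X P d1 Zs Vs (-1)))).sub ((measurable_nearI Zs Vs).const_mul C)

theorem meas3_gL (X : XP) (P : Par) (d1 Zs Vs Cg : ℝ) :
    Meas3 fun t x v => ENNReal.ofReal (gL X P d1 Zs Vs Cg t x v) :=
  (measurable_gL X P d1 Zs Vs Cg).ennreal_ofReal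

theorem meas3_Lg (X : XP) (P : Par) (d1 Zs Vs C : ℝ) :
    Meas3 fun t x v => ENNReal.ofReal (Lg X P d1 Zs Vs C t x v) :=
  (measurable_Lg X P d1 Zs Vs C).ennreal_ofReal

theorem meas3_Lg_neg (X : XP) (P : Par) (d1 Zs Vs C : ℝ) :
    Meas3 fun t x v => ENNReal.ofReal (-Lg X P d1 Zs Vs C t x v) :=
  (measurable_Lg X P d1 Zs Vs C).neg.ennreal_ofReal

/-! ### the fuel as a field -/

theorem meas3_GA_phiE (P : Par) (hP : P.Ok) {g : Den} (hg : Meas3 g) : Meas3 (GA (phiE P) g) :=
  meas3_GA (L.meas3_phiE hP) hg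


/-! ### unfolding the period -/




end Crest.Agent.R68.X2.M60
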