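import Mathlib
import Crest.Agent.R68.X2Frame
import Crest.Agent.R68.XDefs2
import Crest.Agent.R68.X2Gs
import Crest.Agent.R68.X2Fuel
import Crest.Agent.R68.X2Meas
import Crest.Agent.R68.X2Fl3
import Crest.Agent.R68.X2F0f

-- ▼ part R68/X2Const
section

/-!
# Row 68, PART X2 (helper810): the choice of the constants
-/

set_option autoImplicit false
open Filter
open scoped Real Topology

noncomputable section

namespace Crest.Agent.R68.X2

/-- all the numerical conditions of X2, for `K ≥ K0` -/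
structure KOK (K Y N A Yp ey e Q1 κ : ℝ) : Prop where
  Nd : N = 197 / 100 * π * K
  N1 : 100 ≤ N
  AN : A = 98 / 100 * N
  Ypd : Yp = Y - ey
  ey0 : 0 < ey
  ey1 : ey ≤ 1 / 100
  eye : (1 + A) * ey ≤ e / 10
  e0 : 0 < e
  e1 : e ≤ 1 / 100000
  e2 : 600 / e ≤ (1 + A) * Yp
  k1 : 6000 ≤ 2 * π * K
  q1 : 9600 * (2 * π * K) ≤ Q1 ^ 11
  q4 : 4 ≤ Q1
  κ0 : 0 < κ
  κ1 : κ ≤ 1 / 6000
  κ2 : 6000 * (2 * π * K) * κ ^ 2 ≤ 1
  he : 16 * e * (Q1 + 2) ^ 2 ≤ κ
  a1 : 119 / 20 * K ≤ 193 / 200 * N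
  a2 : π * K < 193 / 200 * N
  a3 : 3 ≤ 119 / 20 * K

theorem exists_K0 {Y : ℝ} (hY : 1 ≤ Y) : ∃ K0 : ℝ, ∀ K : ℝ, K0 ≤ K →
    ∃ N A Yp ey e Q1 κ : ℝ, KOK K Y N A Yp ey e Q1 κ := by
  -- `x = K^(1/44)`; all conditions are polynomial in `x`
  have hx : Tendsto (fun K : ℝ => K ^ (1 / 44 : ℝ)) atTop atTop :=
    tendsto_rpow_atTop (by norm_num)
  have h1 : ∀ᶠ K : ℝ in atTop, (460800 : ℝ) ≤ K ^ (1 / 44 : ℝ) := hx.eventually_ge_atTop _
  obtain ⟨K0, hK0⟩ := eventually_atTop.1 (h1.and (eventually_ge_atTop (1 : ℝ)))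
  refine ⟨K0, fun K hK => ?_⟩
  obtain ⟨hx1, hK1⟩ := hK0 K hK
  set x : ℝ := K ^ (1 / 44 : ℝ) with hxd
  have hKpos : 0 < K := by linarith
  have hx0 : 0 < x := by linarith
  have hKx : K = x ^ 44 := by
    rw [hxd, ← Real.rpow_natCast, ← Real.rpow_mul hKpos.le]; norm_num
  have hxge1 : 1 ≤ x := by linarith
  have hpi3 : 3.14 < π := Real.pi_gt_d2
  have hpi4 : π < 3.15 := Real.pi_lt_d2
  -- powers
  have hx2 : (460800 : ℝ) ^ 2 ≤ x ^ 2 := pow_le_pow_left₀ (by norm_num) hx1 2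
  have hx3 : (460800 : ℝ) ^ 3 ≤ x ^ 3 := pow_le_pow_left₀ (by norm_num) hx1 3
  have hmono : ∀ m n : ℕ, m ≤ n → x ^ m ≤ x ^ n := fun m n h => pow_le_pow_right₀ hxge1 h
  set N : ℝ := 197 / 100 * π * K with hN
  set A : ℝ := 98 / 100 * N with hA
  set e : ℝ := 1 / x ^ 33 with he
  set ey : ℝ := min (1 / 100) (e / (10 * (1 + A))) with hey
  set Q1 : ℝ := 10 * x ^ 4 with hQ
  set κ : ℝ := 1 / (200 * x ^ 22) with hκ
  have hK3 : (460800 : ℝ) ^ 3 ≤ K := by
    rw [hKx]; exact hx3.trans (hmono 3 44 (by norm_num))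
  have hNpos : 0 < N := by positivity
  have hApos : 0 < A := by positivity
  have hx33 : (460800 : ℝ) ^ 3 ≤ x ^ 33 := hx3.trans (hmono 3 33 (by norm_num))
  have hepos : 0 < e := by positivity
  have hK6 : 6 * K ≤ A := by
    rw [hA, hN]; nlinarith
  have hle : e ≤ 1 / 100000 := by
    rw [he]
    apply one_div_le_one_div_of_le (by norm_num)
    refine le_trans (by norm_num) hx33
  have heyp : 0 < ey := by
    rw [hey]; exact lt_min (by norm_num) (by positivity)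
  refine ⟨N, A, Y - ey, ey, e, Q1, κ, rfl, ?_, rfl, rfl, heyp, min_le_left _ _, ?_, hepos, hle, ?_,
    ?_, ?_, ?_, by positivity, ?_, ?_, ?_, ?_, ?_, ?_⟩
  · rw [hN]; nlinarith
  · have h2 : ey ≤ e / (10 * (1 + A)) := min_le_right _ _
    calc (1 + A) * ey ≤ (1 + A) * (e / (10 * (1 + A))) := by gcongr
      _ = e / 10 := by field_simp
  · -- 600 / e ≤ (1 + A) Yp
    have h2 : 600 / e = 600 * x ^ 33 := by rw [he]; field_simp
    rw [h2]
    have h3 : ey ≤ 1 / 100 := min_le_left _ _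
    have h4 : (99 / 100 : ℝ) ≤ Y - ey := by linarith
    have h5 : 600 * x ^ 33 ≤ 5 * x ^ 44 := by
      have h6 : x ^ 44 = x ^ 33 * x ^ 11 := by ring
      have h7 : (120 : ℝ) ≤ x ^ 11 := by
        refine le_trans ?_ (hx3.trans (hmono 3 11 (by norm_num))); norm_num
      rw [h6]
      have h8 : 0 < x ^ 33 := by positivity
      nlinarith
    calc 600 * x ^ 33 ≤ 5 * K := by rw [hKx]; exact h5
      _ ≤ (1 + A) * (99 / 100) := by nlinarith
      _ ≤ (1 + A) * (Y - ey) := by gcongr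
  · nlinarith
  · -- 9600 (2πK) ≤ Q1 ^ 11
    have h2 : Q1 ^ 11 = 10 ^ 11 * K := by rw [hQ, hKx]; ring
    rw [h2]; nlinarith
  · rw [hQ]; nlinarith [one_le_pow₀ (n := 4) hxge1]
  · rw [hκ]
    apply one_div_le_one_div_of_le (by norm_num)
    have := hx2.trans (hmono 2 22 (by norm_num))
    nlinarith
  · -- 6000 (2πK) κ² ≤ 1
    have h2 : 6000 * (2 * π * K) * κ ^ 2 = 12000 / 40000 * π := by
      rw [hκ, hKx]; field_simp; ring
    rw [h2]; linarith
  · -- 16 e (Q1+2)² ≤ κ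
    have h2 : (1 : ℝ) ≤ x ^ 4 := one_le_pow₀ hxge1
    have h3 : Q1 + 2 ≤ 12 * x ^ 4 := by rw [hQ]; linarith
    have h4 : (Q1 + 2) ^ 2 ≤ (12 * x ^ 4) ^ 2 := by
      refine pow_le_pow_left₀ ?_ h3 2
      rw [hQ]; positivity
    calc 16 * e * (Q1 + 2) ^ 2 ≤ 16 * e * (12 * x ^ 4) ^ 2 := by gcongr
      _ = 2304 / x ^ 25 := by rw [he]; field_simp; ring
      _ ≤ κ := by
        rw [hκ, div_le_div_iff₀ (by positivity) (by positivity)]
        have h5 : x ^ 25 = x ^ 22 * x ^ 3 := by ring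
        have h6 : 0 < x ^ 22 := by positivity
        rw [h5]; nlinarith
  · rw [hN]; nlinarith
  · rw [hN]; nlinarith
  · nlinarith

end Crest.Agent.R68.X2
end
end

-- ▼ part R68/X2FlOm
section

/-!
# Row 68, PART X2 (helper685): the Harnack weight along flights (`flight_Om`)
-/

set_option autoImplicit false
open MeasureTheory Set Filter
open scoped ENNReal NNReal Real Topology
open Crest.AnalysisR.VecCalc3 Crest.AnalysisR.PDE.Boltzmann

noncomputable section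

namespace Crest.Agent.R68.X2.FlOm

/-! ### absolutely continuous functions -/

theorem ac_comp_lip {f g : ℝ → ℝ} {a b : ℝ} {K : ℝ≥0} {S : Set ℝ} (hg : LipschitzOnWith K g S)
    (hS : ∀ y ∈ uIcc a b, f y ∈ S) (hf : AbsolutelyContinuousOnInterval f a b) :
    AbsolutelyContinuousOnInterval (fun x => g (f x)) a b := by
  rw [absolutelyContinuousOnInterval_iff] at hf ⊢
  intro ε hε
  obtain ⟨δ, hδ, h⟩ := hf (ε / (K + 1)) (by positivity)
  refine ⟨δ, hδ, fun E hE hlt => ?_⟩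
  have h1 := h E hE hlt
  calc ∑ i ∈ Finset.range E.1, dist (g (f (E.2 i).1)) (g (f (E.2 i).2))
      ≤ ∑ i ∈ Finset.range E.1, (K : ℝ) * dist (f (E.2 i).1) (f (E.2 i).2) :=
        Finset.sum_le_sum fun i hi =>
          hg.dist_le_mul _ (hS _ (hE.1 i hi).1) _ (hS _ (hE.1 i hi).2)
    _ = K * ∑ i ∈ Finset.range E.1, dist (f (E.2 i).1) (f (E.2 i).2) := by
        rw [Finset.mul_sum]
    _ ≤ K * (ε / (K + 1)) := by gcongr
    _ < (K + 1) * (ε / (K + 1)) := by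
        have : 0 < ε / ((K : ℝ) + 1) := by positivity
        nlinarith
    _ = ε := by field_simp

theorem ac_comp_lip' {f g : ℝ → ℝ} {a b : ℝ} {K : ℝ≥0} (hg : LipschitzWith K g)
    (hf : AbsolutelyContinuousOnInterval f a b) :
    AbsolutelyContinuousOnInterval (fun x => g (f x)) a b :=
  ac_comp_lip (S := univ) hg.lipschitzOnWith (fun _ _ => mem_univ _) hf

theorem ac_comp_cd {f g : ℝ → ℝ} {a b : ℝ} (hg : ContDiff ℝ 1 g)
    (hf : AbsolutelyContinuousOnInterval f a b) :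
    AbsolutelyContinuousOnInterval (fun x => g (f x)) a b := by
  obtain ⟨M, hM⟩ := hf.exists_bound
  obtain ⟨K, hK⟩ := (hg.contDiffOn (s := Icc (-M) M)).exists_lipschitzOnWith (by decide)
    (convex_Icc _ _) isCompact_Icc
  exact ac_comp_lip hK (fun y hy => abs_le.1 (hM y hy)) hf

theorem ac_abs {f : ℝ → ℝ} {a b : ℝ} (hf : AbsolutelyContinuousOnInterval f a b) :
    AbsolutelyContinuousOnInterval (fun x => |f x|) a b := by
  have h : LipschitzWith 1 (fun x : ℝ => |x|) := by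
    refine LipschitzWith.of_dist_le_mul fun x y => ?_
    simp only [NNReal.coe_one, one_mul, Real.dist_eq]
    exact abs_abs_sub_abs_le x y
  exact ac_comp_lip' h hf

theorem ac_max {f : ℝ → ℝ} {a b : ℝ} (c : ℝ) (hf : AbsolutelyContinuousOnInterval f a b) :
    AbsolutelyContinuousOnInterval (fun x => max c (f x)) a b := by
  have h : LipschitzWith 1 (fun x : ℝ => max c x) := by
    refine LipschitzWith.of_dist_le_mul fun x y => ?_
    simp only [NNReal.coe_one, one_mul, Real.dist_eq]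
    rw [max_comm c x, max_comm c y]
    exact abs_max_sub_max_le_abs x y c
  exact ac_comp_lip' h hf

theorem ac_const (c a b : ℝ) : AbsolutelyContinuousOnInterval (fun _ => c) a b := by
  apply ContDiffOn.absolutelyContinuousOnInterval
  exact contDiffOn_const

theorem deriv_abs_of_diff {m : ℝ → ℝ} {m' ρ : ℝ} (hm : HasDerivAt m m' ρ)
    (hd : DifferentiableAt ℝ (fun x => |m x|) ρ) :
    HasDerivAt (fun x => |m x|) (sg (m ρ) * m') ρ := by
  rcases lt_trichotomy (m ρ) 0 with h | h | h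
  · have hs : sg (m ρ) = -1 := by unfold sg; rw [if_neg (not_le.2 h)]
    rw [hs, neg_one_mul]
    refine hm.neg.congr_of_eventuallyEq ?_
    filter_upwards [hm.continuousAt.eventually_lt_const h] with x hx
    rw [abs_of_neg hx]; rfl
  · have hs : sg (m ρ) = 1 := by unfold sg; rw [if_pos h.ge]
    have h1 : IsLocalMin (fun x => |m x|) ρ := by
      refine Eventually.of_forall fun x => ?_
      simp [h]
    have h2 := hd.hasDerivAt
    rw [h1.deriv_eq_zero] at h2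
    have h3 : HasDerivAt m 0 ρ := by
      rw [hasDerivAt_iff_isLittleO] at h2 ⊢
      simp only [h, abs_zero, sub_zero, smul_zero] at h2 ⊢
      exact (Asymptotics.isLittleO_abs_left).1 h2
    have h4 : m' = 0 := hm.unique h3
    rw [h4, mul_zero]
    exact h2
  · have hs : sg (m ρ) = 1 := by unfold sg; rw [if_pos h.le]
    rw [hs, one_mul]
    refine hm.congr_of_eventuallyEq ?_
    filter_upwards [hm.continuousAt.eventually_const_lt h] with x hx
    rw [abs_of_pos hx]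

theorem sg_mul_self (m : ℝ) : sg m * m = |m| := by
  unfold sg
  split_ifs with h
  · rw [one_mul, abs_of_nonneg h]
  · rw [neg_one_mul, abs_of_neg (not_le.1 h)]

theorem abs_sg (m : ℝ) : |sg m| = 1 := by
  unfold sg
  split_ifs <;> simp

/-! ### positions along a flight -/

variable {Y s r : ℝ} {x : P2} {v : R3} {k : ℤ × ℤ} {ρ ρ' : ℝ}

/-- position -/
def xF (s : ℝ) (x : P2) (v : R3) (ρ : ℝ) : P2 := x + (ρ - s) • bar v

theorem norm_bar_le (v : R3) : ‖bar v‖ ≤ ‖v‖ := by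
  rw [Prod.norm_def]
  exact max_le (PiLp.norm_apply_le v 0) (PiLp.norm_apply_le v 1)

theorem xF_sub (s : ℝ) (x : P2) (v : R3) (ρ ρ' : ℝ) :
    xF s x v ρ - xF s x v ρ' = (ρ - ρ') • bar v := by
  unfold xF
  rw [add_sub_add_left_eq_sub, ← sub_smul]
  congr 1
  ring

theorem norm_xF_sub (s : ℝ) (x : P2) (v : R3) (ρ ρ' : ℝ) :
    ‖xF s x v ρ - xF s x v ρ'‖ ≤ ‖v‖ * |ρ - ρ'| := by
  rw [xF_sub, norm_smul, Real.norm_eq_abs, mul_comm]
  exact mul_le_mul_of_nonneg_right (norm_bar_le v) (abs_nonneg _)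

theorem continuous_xF (s : ℝ) (x : P2) (v : R3) : Continuous (xF s x v) := by
  unfold xF; fun_prop

/-- self-similar height relative to the lattice point `k` -/
def pk (s : ℝ) (x : P2) (v : R3) (k : ℤ × ℤ) (ρ : ℝ) : ℝ := (xF s x v ρ + latt k).2 / ρ

theorem pk_eq (s : ℝ) (x : P2) (v : R3) (k : ℤ × ℤ) :
    pk s x v k = fun ρ => (x.2 + (latt k).2 + (ρ - s) * v 1) * ρ⁻¹ := by
  funext ρ
  rw [pk, div_eq_mul_inv]
  congr 1
  simp only [xF, bar, Prod.snd_add, Prod.smul_snd, smul_eq_mul]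
  ring

theorem hasDerivAt_pk (hρ : ρ ≠ 0) : HasDerivAt (pk s x v k) ((v 1 - pk s x v k ρ) / ρ) ρ := by
  rw [pk_eq]
  have h1 : HasDerivAt (fun ρ : ℝ => x.2 + (latt k).2 + (ρ - s) * v 1) (v 1) ρ := by
    refine ((((hasDerivAt_id ρ).sub_const s).mul_const (v 1)).const_add
      (x.2 + (latt k).2)).congr_deriv ?_
    simp
  refine (h1.fun_mul (hasDerivAt_inv hρ)).congr_deriv ?_
  field_simp
  ring

theorem cd_pk (hs : 0 < s) (hsr : s ≤ r) : ContDiffOn ℝ 1 (pk s x v k) (uIcc s r) := by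
  rw [pk_eq, uIcc_of_le hsr]
  refine ContDiffOn.mul ?_ (contDiffOn_id.inv fun y hy => (hs.trans_le hy.1).ne')
  exact ContDiff.contDiffOn (by fun_prop)

/-- the clamped height -/
def ck (Y s : ℝ) (x : P2) (v : R3) (k : ℤ × ℤ) (ρ : ℝ) : ℝ := clamp (2 * Y) (pk s x v k ρ)

/-- the cut-off -/
def chk (s : ℝ) (x : P2) (v : R3) (k : ℤ × ℤ) (ρ : ℝ) : ℝ := cut8 ‖xF s x v ρ + latt k‖

theorem clamp_lipschitz (b : ℝ) : LipschitzWith 1 (clamp b) := by
  refine LipschitzWith.of_dist_le_mul fun x y => ?_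
  simp only [NNReal.coe_one, one_mul, Real.dist_eq]
  exact clamp_lip b x y

theorem ac_ck (hs : 0 < s) (hsr : s ≤ r) :
    AbsolutelyContinuousOnInterval (ck Y s x v k) s r := by
  have h : AbsolutelyContinuousOnInterval (pk s x v k) s r :=
    (cd_pk hs hsr).absolutelyContinuousOnInterval
  exact ac_comp_lip' (f := pk s x v k) (g := clamp (2 * Y)) (clamp_lipschitz (2 * Y)) h

theorem chk_sub_le (s : ℝ) (x : P2) (v : R3) (k : ℤ × ℤ) (ρ ρ' : ℝ) :
    |chk s x v k ρ - chk s x v k ρ'| ≤ 8 * ‖v‖ * |ρ - ρ'| := by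
  unfold chk
  refine (cut8_lip _ _).trans ?_
  have h2 := abs_norm_sub_norm_le (xF s x v ρ + latt k) (xF s x v ρ' + latt k)
  rw [add_sub_add_right_eq_sub] at h2
  have h3 := norm_xF_sub s x v ρ ρ'
  linarith

theorem chk_lipschitz (s : ℝ) (x : P2) (v : R3) (k : ℤ × ℤ) :
    LipschitzWith (8 * ‖v‖₊) (chk s x v k) := by
  refine LipschitzWith.of_dist_le_mul fun ρ ρ' => ?_
  simp only [NNReal.coe_mul, NNReal.coe_ofNat, coe_nnnorm, Real.dist_eq]
  exact chk_sub_le s x v k ρ ρ'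

theorem ac_chk (s : ℝ) (x : P2) (v : R3) (k : ℤ × ℤ) (a b : ℝ) :
    AbsolutelyContinuousOnInterval (chk s x v k) a b :=
  (chk_lipschitz s x v k).lipschitzOnWith.absolutelyContinuousOnInterval

/-- the frame along the flight -/
def yF (Y s : ℝ) (x : P2) (v : R3) (ρ : ℝ) : ℝ := Yc Y ρ (xF s x v ρ)

theorem yF_eq (hk : ‖xF s x v ρ + latt k‖ < 7 / 20) :
    yF Y s x v ρ = chk s x v k ρ * ck Y s x v k ρ := by
  rw [yF, Yc_eq_Yt hk]
  rfl

theorem yF_eventually_eq (hk : ‖xF s x v ρ + latt k‖ < 7 / 20) :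
    yF Y s x v =ᶠ[𝓝 ρ] fun ρ => chk s x v k ρ * ck Y s x v k ρ := by
  have hc : ContinuousAt (fun ρ => ‖xF s x v ρ + latt k‖) ρ :=
    (((continuous_xF s x v).add continuous_const).norm).continuousAt
  filter_upwards [hc.eventually_lt_const hk] with ρ' h
  exact yF_eq h

theorem pk_sub_le (hs : 0 < s) (hρ : s ≤ ρ) (hρ' : s ≤ ρ') (hk : ‖xF s x v ρ + latt k‖ ≤ 1) :
    |pk s x v k ρ - pk s x v k ρ'| ≤ (1 / s + ‖v‖) / s * |ρ - ρ'| := by
  have h0 : 0 < ρ := hs.trans_le hρ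
  have h0' : 0 < ρ' := hs.trans_le hρ'
  set u := (xF s x v ρ + latt k).2 with hu
  have hu1 : |u| ≤ 1 := (norm_snd_le (xF s x v ρ + latt k)).trans hk
  have e2 : (xF s x v ρ' + latt k).2 = u - (ρ - ρ') * v 1 := by
    have h := congrArg Prod.snd (xF_sub s x v ρ ρ')
    simp only [Prod.snd_sub, Prod.smul_snd, smul_eq_mul, bar] at h
    rw [hu]
    simp only [Prod.snd_add]
    linarith
  have e : pk s x v k ρ - pk s x v k ρ' = (u / ρ - v 1) * (1 / ρ') * (ρ' - ρ) := by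
    rw [pk, pk, e2, ← hu]
    field_simp
    ring
  rw [e, abs_mul, abs_sub_comm ρ' ρ, abs_mul]
  refine mul_le_mul_of_nonneg_right ?_ (abs_nonneg _)
  rw [div_eq_mul_one_div (1 / s + ‖v‖) s]
  refine mul_le_mul ?_ ?_ (abs_nonneg _) (by positivity)
  · refine (abs_sub _ _).trans ?_
    refine add_le_add ?_ (PiLp.norm_apply_le v 1)
    rw [abs_div, abs_of_pos h0]
    exact div_le_div₀ zero_le_one hu1 hs hρ
  · rw [abs_of_pos (by positivity)]
    exact one_div_le_one_div_of_le hs hρ'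

theorem yF_lip (hY : 0 ≤ Y) (hs : 0 < s) (hρ : s ≤ ρ) (hρ' : s ≤ ρ') :
    |yF Y s x v ρ - yF Y s x v ρ'| ≤ (56 * Y * ‖v‖ + (1 / s + ‖v‖) / s) * |ρ - ρ'| := by
  -- near case
  have key : ∀ ρ ρ' : ℝ, s ≤ ρ → s ≤ ρ' → ‖xF s x v ρ - xF s x v ρ'‖ < 1 / 10 →
      distG (xF s x v ρ) ≤ 1 / 4 →
      |yF Y s x v ρ - yF Y s x v ρ'| ≤ (56 * Y * ‖v‖ + (1 / s + ‖v‖) / s) * |ρ - ρ'| := by
    intro ρ ρ' hρ hρ' hd h4
    obtain ⟨k, hk⟩ := exists_distG_eq (xF s x v ρ)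
    rw [hk] at h4
    have hk1 : ‖xF s x v ρ + latt k‖ < 7 / 20 := h4.trans_lt (by norm_num)
    have hk2 : ‖xF s x v ρ' + latt k‖ < 7 / 20 := by
      have : xF s x v ρ' + latt k = xF s x v ρ + latt k - (xF s x v ρ - xF s x v ρ') := by abel
      rw [this]
      refine (norm_sub_le _ _).trans_lt ?_
      linarith
    have h1 := abs_Yc_sub_le (t := ρ) (t' := ρ') hY hk1 hk2
    have h2 := norm_xF_sub s x v ρ ρ'
    have h3 := pk_sub_le (k := k) hs hρ hρ' (hk1.le.trans (by norm_num))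
    have h5 : 16 * Y * ‖xF s x v ρ - xF s x v ρ'‖ ≤ 16 * Y * (‖v‖ * |ρ - ρ'|) :=
      mul_le_mul_of_nonneg_left h2 (by positivity)
    have h6 : 0 ≤ 40 * Y * ‖v‖ * |ρ - ρ'| := by positivity
    unfold yF
    unfold pk at h3
    nlinarith
  rcases lt_or_ge ‖xF s x v ρ - xF s x v ρ'‖ (1 / 10) with hd | hd
  · rcases le_or_gt (distG (xF s x v ρ)) (1 / 4) with h4 | h4
    · exact key ρ ρ' hρ hρ' hd h4
    · rcases le_or_gt (distG (xF s x v ρ')) (1 / 4) with h5 | h5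
      · have := key ρ' ρ hρ' hρ (by rwa [norm_sub_rev]) h5
        rwa [abs_sub_comm, abs_sub_comm ρ' ρ] at this
      · rw [yF, yF, Yc_far h4.le, Yc_far h5.le, sub_zero, abs_zero]
        positivity
  · have h1 : |yF Y s x v ρ| ≤ 2 * Y := abs_Yc_le hY _ _
    have h2 : |yF Y s x v ρ'| ≤ 2 * Y := abs_Yc_le hY _ _
    have h3 := norm_xF_sub s x v ρ ρ'
    have h4 : |yF Y s x v ρ - yF Y s x v ρ'| ≤ 4 * Y := by
      refine (abs_sub _ _).trans ?_
      linarith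
    have h5 : 4 * Y ≤ 40 * Y * (‖v‖ * |ρ - ρ'|) := by nlinarith
    have h6 : 0 ≤ (16 * Y * ‖v‖ + (1 / s + ‖v‖) / s) * |ρ - ρ'| := by positivity
    nlinarith

theorem ac_yF (hY : 0 ≤ Y) (hs : 0 < s) (hsr : s ≤ r) :
    AbsolutelyContinuousOnInterval (yF Y s x v) s r := by
  have hK : 0 ≤ 56 * Y * ‖v‖ + (1 / s + ‖v‖) / s := by positivity
  refine LipschitzOnWith.absolutelyContinuousOnInterval (K := ⟨_, hK⟩) ?_
  refine LipschitzOnWith.of_dist_le_mul fun ρ hρ ρ' hρ' => ?_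
  rw [uIcc_of_le hsr] at hρ hρ'
  simp only [Real.dist_eq]
  exact yF_lip hY hs hρ.1 hρ'.1

/-! ### derivative of the frame -/

theorem hasDerivAt_ck_lt (hρ : 0 < ρ) (h : |pk s x v k ρ| < 2 * Y) :
    HasDerivAt (ck Y s x v k) ((v 1 - pk s x v k ρ) / ρ) ρ := by
  have h1 := hasDerivAt_pk (s := s) (x := x) (v := v) (k := k) hρ.ne'
  refine h1.congr_of_eventuallyEq ?_
  filter_upwards [h1.continuousAt.abs.eventually_lt_const h] with ρ' h2
  exact clamp_eq_self h2.le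

theorem hasDerivAt_ck_ge (hY : 0 ≤ Y) (h : 2 * Y ≤ |pk s x v k ρ|)
    (hd : DifferentiableAt ℝ (ck Y s x v k) ρ) : HasDerivAt (ck Y s x v k) 0 ρ := by
  have h2 := hd.hasDerivAt
  have hb : 0 ≤ 2 * Y := by positivity
  rcases le_abs.1 h with h3 | h3
  · have h1 : IsLocalMax (ck Y s x v k) ρ := by
      refine Eventually.of_forall fun ρ' => ?_
      have : ck Y s x v k ρ = 2 * Y := clamp_of_le hb h3
      rw [this]
      exact (abs_le.1 (abs_clamp_le hb _)).2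
    rwa [h1.deriv_eq_zero] at h2
  · have h1 : IsLocalMin (ck Y s x v k) ρ := by
      refine Eventually.of_forall fun ρ' => ?_
      have : ck Y s x v k ρ = -(2 * Y) := clamp_of_ge hb (by linarith)
      rw [this]
      exact (abs_le.1 (abs_clamp_le hb _)).1
    rwa [h1.deriv_eq_zero] at h2

theorem abs_ck_of_ge (hY : 0 ≤ Y) (h : 2 * Y ≤ |pk s x v k ρ|) : |ck Y s x v k ρ| = 2 * Y := by
  have hb : 0 ≤ 2 * Y := by positivity
  rcases le_abs.1 h with h3 | h3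
  · rw [ck, clamp_of_le hb h3, abs_of_nonneg hb]
  · rw [ck, clamp_of_ge hb (by linarith), abs_neg, abs_of_nonneg hb]

/-- the distance of the second velocity component to the frame -/
def aF (Y s : ℝ) (x : P2) (v : R3) (ρ : ℝ) : ℝ := |v 1 - yF Y s x v ρ|

theorem aF_deriv (hY : 0 ≤ Y) (hρ : 0 < ρ)
    (h1 : ∀ k, DifferentiableAt ℝ (ck Y s x v k) ρ)
    (h2 : ∀ k, DifferentiableAt ℝ (chk s x v k) ρ)
    (h3 : DifferentiableAt ℝ (aF Y s x v) ρ) :
    ∃ a' : ℝ, HasDerivAt (aF Y s x v) a' ρ ∧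
      (distG (xF s x v ρ) < 1 / 8 → |yF Y s x v ρ| < 2 * Y → a' = -(aF Y s x v ρ / ρ)) ∧
      (distG (xF s x v ρ) < 1 / 8 → ¬ |yF Y s x v ρ| < 2 * Y → a' = 0) ∧
      a' ≤ 16 * Y * ‖v‖ + 4 * Y / ρ := by
  have hYv : 0 ≤ 16 * Y * ‖v‖ + 4 * Y / ρ := by positivity
  rcases le_or_gt (distG (xF s x v ρ)) (1 / 4) with h4 | h4
  · obtain ⟨k, hk⟩ := exists_distG_eq (xF s x v ρ)
    rw [hk] at h4
    have hk1 : ‖xF s x v ρ + latt k‖ < 7 / 20 := h4.trans_lt (by norm_num)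
    have hy0 : yF Y s x v ρ = chk s x v k ρ * ck Y s x v k ρ := yF_eq hk1
    have hx := (h2 k).hasDerivAt
    have hx8 : |deriv (chk s x v k) ρ| ≤ 8 * ‖v‖ := by
      have := norm_deriv_le_of_lipschitz (x₀ := ρ) (chk_lipschitz s x v k)
      simpa using this
    set χ' := deriv (chk s x v k) ρ with hχ'
    have hχ1 : chk s x v k ρ ≤ 1 := cut8_le_one _
    have hχ0 : 0 ≤ chk s x v k ρ := cut8_nonneg _
    have hc : |ck Y s x v k ρ| ≤ 2 * Y := abs_clamp_le (by positivity) _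
    have hχc : |χ' * ck Y s x v k ρ| ≤ 16 * Y * ‖v‖ := by
      rw [abs_mul]
      calc |χ'| * |ck Y s x v k ρ| ≤ 8 * ‖v‖ * (2 * Y) :=
            mul_le_mul hx8 hc (abs_nonneg _) (by positivity)
        _ = _ := by ring
    -- near the lattice points the cut-off is constant
    have hnear : distG (xF s x v ρ) < 1 / 8 → χ' = 0 ∧ chk s x v k ρ = 1 := by
      intro h8
      rw [hk] at h8
      refine ⟨?_, cut8_eq_one h8.le⟩
      have hcont : ContinuousAt (fun ρ => ‖xF s x v ρ + latt k‖) ρ :=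
        (((continuous_xF s x v).add continuous_const).norm).continuousAt
      have he : chk s x v k =ᶠ[𝓝 ρ] fun _ => (1 : ℝ) := by
        filter_upwards [hcont.eventually_lt_const h8] with ρ' h
        exact cut8_eq_one h.le
      have := (hasDerivAt_const ρ (1 : ℝ)).congr_of_eventuallyEq he
      exact hx.unique this
    rcases lt_or_ge |pk s x v k ρ| (2 * Y) with h5 | h5
    · have hcd := hasDerivAt_ck_lt (s := s) (x := x) (v := v) (k := k) hρ h5
      have hce : ck Y s x v k ρ = pk s x v k ρ := clamp_eq_self h5.le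
      have hy : HasDerivAt (yF Y s x v)
          (χ' * ck Y s x v k ρ + chk s x v k ρ * ((v 1 - pk s x v k ρ) / ρ)) ρ :=
        (hx.fun_mul hcd).congr_of_eventuallyEq (yF_eventually_eq hk1)
      have hm := hy.const_sub (v 1)
      have ha := deriv_abs_of_diff hm h3
      refine ⟨_, ha, ?_, ?_, ?_⟩
      · intro h8 _
        obtain ⟨e1, e2⟩ := hnear h8
        rw [e1, e2, zero_mul, zero_add, one_mul, aF, ← sg_mul_self (v 1 - yF Y s x v ρ), hy0, e2,
          one_mul, hce]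
        ring
      · intro h8 h9
        exfalso
        apply h9
        obtain ⟨e1, e2⟩ := hnear h8
        rw [hy0, e2, one_mul, hce]
        exact h5
      · have e : sg (v 1 - yF Y s x v ρ) *
            -(χ' * ck Y s x v k ρ + chk s x v k ρ * ((v 1 - pk s x v k ρ) / ρ))
            = -(sg (v 1 - yF Y s x v ρ) * (χ' * ck Y s x v k ρ)) +
              chk s x v k ρ * (-(sg (v 1 - yF Y s x v ρ) * (v 1 - pk s x v k ρ)) / ρ) := by
          ring
        rw [e]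
        refine add_le_add ?_ ?_
        · refine (neg_le_abs _).trans ?_
          rw [abs_mul, abs_sg, one_mul]
          exact hχc
        · have hp := abs_lt.1 h5
          have hyb := abs_le.1 (abs_Yc_le hY ρ (xF s x v ρ))
          have h6 : -(sg (v 1 - yF Y s x v ρ) * (v 1 - pk s x v k ρ)) ≤ 4 * Y := by
            unfold sg
            split_ifs with h7
            · unfold yF at h7
              linarith [hyb.1, hp.2]
            · unfold yF at h7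
              push Not at h7
              linarith [hyb.2, hp.1]
          calc chk s x v k ρ * (-(sg (v 1 - yF Y s x v ρ) * (v 1 - pk s x v k ρ)) / ρ)
              ≤ chk s x v k ρ * (4 * Y / ρ) :=
                mul_le_mul_of_nonneg_left (div_le_div_of_nonneg_right h6 hρ.le) hχ0
            _ ≤ 1 * (4 * Y / ρ) := mul_le_mul_of_nonneg_right hχ1 (by positivity)
            _ = _ := one_mul _
    · have hcd := hasDerivAt_ck_ge hY h5 (h1 k)
      have hy : HasDerivAt (yF Y s x v) (χ' * ck Y s x v k ρ + chk s x v k ρ * 0) ρ :=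
        (hx.fun_mul hcd).congr_of_eventuallyEq (yF_eventually_eq hk1)
      have hm := hy.const_sub (v 1)
      have ha := deriv_abs_of_diff hm h3
      have hce := abs_ck_of_ge hY h5
      refine ⟨_, ha, ?_, ?_, ?_⟩
      · intro h8 h9
        exfalso
        obtain ⟨e1, e2⟩ := hnear h8
        rw [hy0, e2, one_mul, hce] at h9
        exact lt_irrefl _ h9
      · intro h8 h9
        obtain ⟨e1, e2⟩ := hnear h8
        rw [e1]
        ring
      · rw [mul_zero, add_zero, mul_neg]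
        refine (neg_le_abs _).trans ?_
        rw [abs_mul, abs_sg, one_mul]
        have : 0 ≤ 4 * Y / ρ := by positivity
        linarith
  · have hc : ContinuousAt (fun ρ => distG (xF s x v ρ)) ρ :=
      (continuous_distG.comp (continuous_xF s x v)).continuousAt
    have he : aF Y s x v =ᶠ[𝓝 ρ] fun _ => |v 1 - 0| := by
      filter_upwards [hc.eventually_const_lt h4] with ρ' h
      rw [aF, yF, Yc_far h.le]
    refine ⟨0, (hasDerivAt_const ρ _).congr_of_eventuallyEq he, ?_, ?_, hYv⟩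
    · intro h8 _
      linarith
    · intro _ _
      rfl

/-! ### the distance part -/

/-- `|x|_Γ / t` along the flight -/
def zF (s : ℝ) (x : P2) (v : R3) (ρ : ℝ) : ℝ := distG (xF s x v ρ) / ρ

/-- `mm` along the flight -/
def mF (s : ℝ) (x : P2) (v : R3) (ρ : ℝ) : ℝ := max ‖v‖ (zF s x v ρ)

theorem distG_lip (s : ℝ) (x : P2) (v : R3) :
    LipschitzWith ‖v‖₊ fun ρ => distG (xF s x v ρ) := by
  refine LipschitzWith.of_dist_le_mul fun ρ ρ' => ?_
  rw [Real.dist_eq, Real.dist_eq, coe_nnnorm]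
  exact (abs_distG_sub_le _ _).trans (norm_xF_sub s x v ρ ρ')

theorem ac_zF (hs : 0 < s) (hsr : s ≤ r) : AbsolutelyContinuousOnInterval (zF s x v) s r := by
  have e : zF s x v = fun ρ => distG (xF s x v ρ) * ρ⁻¹ := by
    funext ρ; rw [zF, div_eq_mul_inv]
  rw [e]
  have h1 : AbsolutelyContinuousOnInterval (fun ρ => distG (xF s x v ρ)) s r :=
    (distG_lip s x v).lipschitzOnWith.absolutelyContinuousOnInterval
  have h2 : AbsolutelyContinuousOnInterval (fun ρ : ℝ => ρ⁻¹) s r := by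
    apply ContDiffOn.absolutelyContinuousOnInterval
    rw [uIcc_of_le hsr]
    exact contDiffOn_id.inv fun y hy => (hs.trans_le hy.1).ne'
  exact h1.fun_mul h2

theorem mF_deriv (hρ : 0 < ρ) (h1 : DifferentiableAt ℝ (fun ρ => distG (xF s x v ρ)) ρ)
    (h2 : DifferentiableAt ℝ (mF s x v) ρ) :
    ∃ m' : ℝ, HasDerivAt (mF s x v) m' ρ ∧ mF s x v ρ * m' ≤ 0 ∧
      (2 * ‖v‖ ≤ zF s x v ρ → 0 < zF s x v ρ →
        mF s x v ρ * m' ≤ -(zF s x v ρ ^ 2 / (2 * ρ))) := by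
  have hD := h1.hasDerivAt
  have hD1 : |deriv (fun ρ => distG (xF s x v ρ)) ρ| ≤ ‖v‖ := by
    have := norm_deriv_le_of_lipschitz (x₀ := ρ) (distG_lip s x v)
    simpa using this
  set D' := deriv (fun ρ => distG (xF s x v ρ)) ρ
  have hz : HasDerivAt (zF s x v) ((D' - zF s x v ρ) / ρ) ρ := by
    have h3 := hD.fun_div (hasDerivAt_id ρ) hρ.ne'
    refine h3.congr_deriv ?_
    unfold zF
    simp only [id]
    field_simp
  have hzn : 0 ≤ zF s x v ρ := div_nonneg (distG_nonneg _) hρ.le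
  rcases lt_or_ge ‖v‖ (zF s x v ρ) with h | h
  · have he : mF s x v =ᶠ[𝓝 ρ] zF s x v := by
      filter_upwards [hz.continuousAt.eventually_const_lt h] with ρ' h'
      exact max_eq_right h'.le
    have hm : HasDerivAt (mF s x v) ((D' - zF s x v ρ) / ρ) ρ := hz.congr_of_eventuallyEq he
    have em : mF s x v ρ = zF s x v ρ := max_eq_right h.le
    have hDz : D' ≤ ‖v‖ := (le_abs_self _).trans hD1
    refine ⟨_, hm, ?_, ?_⟩
    · rw [em]
      refine mul_nonpos_of_nonneg_of_nonpos hzn ?_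
      exact div_nonpos_of_nonpos_of_nonneg (by linarith) hρ.le
    · intro h4 h5
      rw [em]
      have e : -(zF s x v ρ ^ 2 / (2 * ρ)) = zF s x v ρ * (-(zF s x v ρ / 2) / ρ) := by
        field_simp
      rw [e]
      refine mul_le_mul_of_nonneg_left ?_ hzn
      exact div_le_div_of_nonneg_right (by linarith) hρ.le
  · have h4 : IsLocalMin (mF s x v) ρ := by
      refine Eventually.of_forall fun ρ' => ?_
      have : mF s x v ρ = ‖v‖ := max_eq_left h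
      rw [this]
      exact le_max_left _ _
    have h5 := h2.hasDerivAt
    rw [h4.deriv_eq_zero] at h5
    refine ⟨0, h5, by rw [mul_zero], ?_⟩
    intro h6 h7
    exfalso
    have : 0 ≤ ‖v‖ := norm_nonneg v
    linarith

/-! ### the weight along the flight -/

/-- the velocity weight as a function of `a = |v₁ - y|` -/
def Hf (C2 : ℝ) (v : R3) (a : ℝ) : ℝ := 1 + C2 * a + (v 0 ^ 2 + a ^ 2 + v 2 ^ 2) ^ 6

theorem norm_fr_sq (y : ℝ) (v : R3) : ‖fr y v‖ ^ 2 = v 0 ^ 2 + (v 1 - y) ^ 2 + v 2 ^ 2 := by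
  rw [EuclideanSpace.norm_sq_eq, Fin.sum_univ_three]
  simp [fr, sq_abs]

theorem fr_one (y : ℝ) (v : R3) : fr y v 1 = v 1 - y := by simp [fr]

theorem hh_eq (C2 y : ℝ) (v : R3) : hh C2 (fr y v) = Hf C2 v |v 1 - y| := by
  unfold hh Hf
  rw [fr_one, sq_abs, ← norm_fr_sq]
  ring

theorem hasDerivAt_Hf (C2 : ℝ) (v : R3) (a : ℝ) :
    HasDerivAt (Hf C2 v) (C2 + 12 * a * (v 0 ^ 2 + a ^ 2 + v 2 ^ 2) ^ 5) a := by
  unfold Hf
  have h1 : HasDerivAt (fun a : ℝ => v 0 ^ 2 + a ^ 2 + v 2 ^ 2) (2 * a) a := by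
    refine ((((hasDerivAt_id a).fun_pow 2).const_add (v 0 ^ 2)).add_const (v 2 ^ 2)).congr_deriv ?_
    simp
  have h2 := h1.fun_pow 6
  have h3 : HasDerivAt (fun a : ℝ => 1 + C2 * a) C2 a := by
    refine (((hasDerivAt_id a).const_mul C2).const_add 1).congr_deriv ?_
    simp
  refine (h3.fun_add h2).congr_deriv ?_
  norm_num
  ring

/-- the weight along the flight -/
def WF (Y C2 gp s : ℝ) (x : P2) (v : R3) (ρ : ℝ) : ℝ := Om Y C2 gp ρ (xF s x v ρ) v

theorem WF_eq (Y C2 gp s : ℝ) (x : P2) (v : R3) :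
    WF Y C2 gp s x v = fun ρ => Hf C2 v (aF Y s x v ρ) * Real.exp (gp * mF s x v ρ ^ 2) := by
  funext ρ
  rw [WF, Om, hh_eq]
  rfl

theorem ac_WF (C2 gp : ℝ) (hY : 0 ≤ Y) (hs : 0 < s) (hsr : s ≤ r) :
    AbsolutelyContinuousOnInterval (WF Y C2 gp s x v) s r := by
  rw [WF_eq]
  have h1 : AbsolutelyContinuousOnInterval (aF Y s x v) s r :=
    ac_abs ((ac_const (v 1) s r).fun_sub (ac_yF hY hs hsr))
  have h2 : AbsolutelyContinuousOnInterval (mF s x v) s r := ac_max _ (ac_zF hs hsr)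
  have h3 : ContDiff ℝ 1 (Hf C2 v) := by unfold Hf; fun_prop
  have h4 : ContDiff ℝ 1 (fun m : ℝ => Real.exp (gp * m ^ 2)) := by fun_prop
  exact (ac_comp_cd (g := Hf C2 v) h3 h1).fun_mul
    (ac_comp_cd (g := fun m : ℝ => Real.exp (gp * m ^ 2)) h4 h2)

/-- all the functions are differentiable almost everywhere -/
theorem ae_diff (hY : 0 ≤ Y) (hs : 0 < s) (hsr : s ≤ r) : ∀ᵐ ρ : ℝ, ρ ∈ uIcc s r →
    (∀ k, DifferentiableAt ℝ (ck Y s x v k) ρ) ∧ (∀ k, DifferentiableAt ℝ (chk s x v k) ρ) ∧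
    DifferentiableAt ℝ (aF Y s x v) ρ ∧ DifferentiableAt ℝ (fun ρ => distG (xF s x v ρ)) ρ ∧
    DifferentiableAt ℝ (mF s x v) ρ := by
  have h1 : ∀ᵐ ρ : ℝ, ∀ k, ρ ∈ uIcc s r → DifferentiableAt ℝ (ck Y s x v k) ρ :=
    ae_all_iff.2 fun k => (ac_ck (k := k) hs hsr).ae_differentiableAt
  have h2 : ∀ᵐ ρ : ℝ, ∀ k, ρ ∈ uIcc s r → DifferentiableAt ℝ (chk s x v k) ρ :=
    ae_all_iff.2 fun k => (ac_chk s x v k s r).ae_differentiableAt
  have h3 : ∀ᵐ ρ : ℝ, ρ ∈ uIcc s r → DifferentiableAt ℝ (aF Y s x v) ρ :=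
    (ac_abs ((ac_const (v 1) s r).fun_sub (ac_yF hY hs hsr))).ae_differentiableAt
  have h4 : ∀ᵐ ρ : ℝ, ρ ∈ uIcc s r → DifferentiableAt ℝ (fun ρ => distG (xF s x v ρ)) ρ :=
    ((distG_lip s x v).lipschitzOnWith.absolutelyContinuousOnInterval).ae_differentiableAt
  have h5 : ∀ᵐ ρ : ℝ, ρ ∈ uIcc s r → DifferentiableAt ℝ (mF s x v) ρ :=
    (ac_max _ (ac_zF hs hsr)).ae_differentiableAt
  filter_upwards [h1, h2, h3, h4, h5] with ρ g1 g2 g3 g4 g5 hρ
  exact ⟨fun k => g1 k hρ, fun k => g2 k hρ, g3 hρ, g4 hρ, g5 hρ⟩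

/-! ### pointwise inequality -/

theorem pow_le_one_add {n : ℝ} (hn : 0 ≤ n) : n ^ 11 ≤ 1 + n ^ 12 := by
  rcases le_total n 1 with h | h
  · have h1 : n ^ 11 ≤ 1 := pow_le_one₀ hn h
    have h2 : 0 ≤ n ^ 12 := by positivity
    linarith
  · have h1 : n ^ 11 ≤ n ^ 12 := pow_le_pow_right₀ h (by norm_num)
    linarith

/-- derivative of the velocity weight -/
def Hd (C2 : ℝ) (v : R3) (a : ℝ) : ℝ := C2 + 12 * a * (v 0 ^ 2 + a ^ 2 + v 2 ^ 2) ^ 5

theorem Hd_nonneg {C2 a : ℝ} (hC2 : 0 ≤ C2) (ha : 0 ≤ a) : 0 ≤ Hd C2 v a := by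
  unfold Hd; positivity

theorem one_le_Hf {C2 a : ℝ} (hC2 : 0 ≤ C2) (ha : 0 ≤ a) : 1 ≤ Hf C2 v a := by
  unfold Hf
  have : 0 ≤ C2 * a := by positivity
  have : 0 ≤ (v 0 ^ 2 + a ^ 2 + v 2 ^ 2) ^ 6 := by positivity
  linarith

theorem aF_nonneg (Y s : ℝ) (x : P2) (v : R3) (ρ : ℝ) : 0 ≤ aF Y s x v ρ := abs_nonneg _

theorem nF_sq (Y s : ℝ) (x : P2) (v : R3) (ρ : ℝ) :
    v 0 ^ 2 + aF Y s x v ρ ^ 2 + v 2 ^ 2 = ‖fr (yF Y s x v ρ) v‖ ^ 2 := by
  rw [norm_fr_sq, aF, sq_abs]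

theorem aF_le (Y s : ℝ) (x : P2) (v : R3) (ρ : ℝ) : aF Y s x v ρ ≤ ‖fr (yF Y s x v ρ) v‖ := by
  have h := PiLp.norm_apply_le (fr (yF Y s x v ρ) v) 1
  rwa [fr_one, Real.norm_eq_abs] at h

theorem Hf_eq (C2 Y s : ℝ) (x : P2) (v : R3) (ρ : ℝ) : Hf C2 v (aF Y s x v ρ) =
    1 + C2 * aF Y s x v ρ + ‖fr (yF Y s x v ρ) v‖ ^ 12 := by
  rw [Hf, nF_sq]; ring

theorem Hd_le_pow {C2 : ℝ} :
    Hd C2 v (aF Y s x v ρ) ≤ C2 + 12 * ‖fr (yF Y s x v ρ) v‖ ^ 11 := by
  rw [Hd, nF_sq]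
  set n := ‖fr (yF Y s x v ρ) v‖ with hn
  have h0 : 0 ≤ n := norm_nonneg _
  have h1 : aF Y s x v ρ ≤ n := aF_le Y s x v ρ
  have h2 : aF Y s x v ρ * n ^ 10 ≤ n * n ^ 10 := mul_le_mul_of_nonneg_right h1 (by positivity)
  have e1 : (n ^ 2) ^ 5 = n ^ 10 := by ring
  have e2 : n * n ^ 10 = n ^ 11 := by ring
  rw [e1]
  rw [e2] at h2
  nlinarith

theorem Hd_le {C2 : ℝ} (hC2 : 0 ≤ C2) :
    Hd C2 v (aF Y s x v ρ) ≤ (C2 + 12) * Hf C2 v (aF Y s x v ρ) := by
  refine Hd_le_pow.trans ?_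
  rw [Hf_eq]
  set n := ‖fr (yF Y s x v ρ) v‖ with hn
  have h0 : 0 ≤ n := norm_nonneg _
  have h1 := pow_le_one_add h0
  have h2 : 0 ≤ C2 * aF Y s x v ρ := mul_nonneg hC2 (aF_nonneg Y s x v ρ)
  have h3 : 0 ≤ C2 * (C2 * aF Y s x v ρ) := mul_nonneg hC2 h2
  have h4 : 0 ≤ C2 * n ^ 12 := by positivity
  nlinarith

theorem Hd_mul_norm_le {C2 : ℝ} (hC2 : 0 ≤ C2) (hY : 1 ≤ Y) (hv : 4 * Y ≤ ‖v‖) :
    Hd C2 v (aF Y s x v ρ) * ‖v‖ ≤ (2 * C2 + 24) * Hf C2 v (aF Y s x v ρ) := by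
  rw [Hf_eq]
  have h5 := Hd_le_pow (Y := Y) (s := s) (x := x) (v := v) (ρ := ρ) (C2 := C2)
  set n := ‖fr (yF Y s x v ρ) v‖ with hn
  have h0 : 0 ≤ n := norm_nonneg _
  have hy : |yF Y s x v ρ| ≤ 2 * Y := abs_Yc_le (by linarith) _ _
  have h6 : ‖v‖ ≤ n + 2 * Y := by
    have e : v = fr (yF Y s x v ρ) v + !₂[0, yF Y s x v ρ, 0] := by unfold fr; abel
    have h7 : ‖(!₂[0, yF Y s x v ρ, 0] : R3)‖ = |yF Y s x v ρ| := by
      rw [EuclideanSpace.norm_eq, Fin.sum_univ_three]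
      simp [Real.sqrt_sq_eq_abs]
    calc ‖v‖ = ‖fr (yF Y s x v ρ) v + !₂[0, yF Y s x v ρ, 0]‖ := congrArg _ e
      _ ≤ n + ‖(!₂[0, yF Y s x v ρ, 0] : R3)‖ := norm_add_le _ _
      _ ≤ n + 2 * Y := by rw [h7]; linarith
  have h7 : 1 ≤ n := by linarith
  have h8 : ‖v‖ ≤ 2 * n := by linarith
  have h9 : n ≤ n ^ 12 := by
    calc n = n ^ 1 := (pow_one n).symm
      _ ≤ n ^ 12 := pow_le_pow_right₀ h7 (by norm_num)
  have h2 : 0 ≤ C2 * aF Y s x v ρ := mul_nonneg hC2 (aF_nonneg Y s x v ρ)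
  have h10 : 0 ≤ C2 + 12 * n ^ 11 := by positivity
  calc Hd C2 v (aF Y s x v ρ) * ‖v‖ ≤ (C2 + 12 * n ^ 11) * (2 * n) :=
        mul_le_mul h5 h8 (norm_nonneg v) h10
    _ = 2 * C2 * n + 24 * n ^ 12 := by ring
    _ ≤ 2 * C2 * n ^ 12 + 24 * n ^ 12 := by
        have : 2 * C2 * n ≤ 2 * C2 * n ^ 12 := mul_le_mul_of_nonneg_left h9 (by positivity)
        linarith
    _ ≤ (2 * C2 + 24) * (1 + C2 * aF Y s x v ρ + n ^ 12) := by
        have : 0 ≤ (2 * C2 + 24) * (1 + C2 * aF Y s x v ρ) := by positivity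
        linarith

/-- `kap1` along the flight -/
def k1r (Y C2 gp s : ℝ) (x : P2) (v : R3) (ρ : ℝ) : ℝ :=
  open scoped Classical in
  if distG (xF s x v ρ) < 1 / 8 ∧ |yF Y s x v ρ| < 2 * Y then
    C2 * aF Y s x v ρ / ρ * Real.exp (gp * mF s x v ρ ^ 2) else 0

/-- `kap2` along the flight -/
def k2r (Y C2 gp Z1 s : ℝ) (x : P2) (v : R3) (ρ : ℝ) : ℝ :=
  open scoped Classical in
  if 2 * ‖v‖ ≤ zF s x v ρ ∧ Z1 ≤ zF s x v ρ then
    gp / 2 * zF s x v ρ ^ 2 / ρ * (Hf C2 v (aF Y s x v ρ) * Real.exp (gp * mF s x v ρ ^ 2)) else 0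

theorem kap1_eq (Y C2 gp s : ℝ) (x : P2) (v : R3) (ρ : ℝ) :
    kap1 Y C2 gp ρ (x + (ρ - s) • bar v) v = ENNReal.ofReal (k1r Y C2 gp s x v ρ) := by
  unfold kap1 k1r
  simp only [fr_one]
  by_cases h : distG (xF s x v ρ) < 1 / 8 ∧ |yF Y s x v ρ| < 2 * Y
  · rw [if_pos h]
    have h' : distG (x + (ρ - s) • bar v) < 1 / 8 ∧ |Yc Y ρ (x + (ρ - s) • bar v)| < 2 * Y := h
    rw [if_pos h']
    rfl
  · rw [if_neg h]
    have h' : ¬ (distG (x + (ρ - s) • bar v) < 1 / 8 ∧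
      |Yc Y ρ (x + (ρ - s) • bar v)| < 2 * Y) := h
    rw [if_neg h', ENNReal.ofReal_zero]

theorem kap2_eq (Y C2 gp Z1 s : ℝ) (x : P2) (v : R3) (ρ : ℝ) :
    kap2 Y C2 gp Z1 ρ (x + (ρ - s) • bar v) v = ENNReal.ofReal (k2r Y C2 gp Z1 s x v ρ) := by
  have hW : Om Y C2 gp ρ (x + (ρ - s) • bar v) v =
      Hf C2 v (aF Y s x v ρ) * Real.exp (gp * mF s x v ρ ^ 2) := congrFun (WF_eq Y C2 gp s x v) ρ
  unfold kap2 k2r
  rw [hW]
  by_cases h : 2 * ‖v‖ ≤ zF s x v ρ ∧ Z1 ≤ zF s x v ρ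
  · rw [if_pos h]
    have h' : 2 * ‖v‖ ≤ distG (x + (ρ - s) • bar v) / ρ ∧
      Z1 ≤ distG (x + (ρ - s) • bar v) / ρ := h
    rw [if_pos h']
    rfl
  · rw [if_neg h]
    have h' : ¬ (2 * ‖v‖ ≤ distG (x + (ρ - s) • bar v) / ρ ∧
      Z1 ≤ distG (x + (ρ - s) • bar v) / ρ) := h
    rw [if_neg h', ENNReal.ofReal_zero]

theorem key_ineq {C2 gp Z1 a' m' : ℝ} (hY : 1 ≤ Y) (hC2 : 0 ≤ C2) (hgp : 0 < gp) (hZ : 1 ≤ Z1)
    (hρ : 0 < ρ) (hρ1 : ρ ≤ 1) (ht1 : ρ * (640 * Y * (C2 + 12)) ≤ gp) (ht2 : ρ * (64 * Y) ≤ 1)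
    (ha1 : distG (xF s x v ρ) < 1 / 8 → |yF Y s x v ρ| < 2 * Y → a' = -(aF Y s x v ρ / ρ))
    (ha2 : distG (xF s x v ρ) < 1 / 8 → ¬ |yF Y s x v ρ| < 2 * Y → a' = 0)
    (ha3 : a' ≤ 16 * Y * ‖v‖ + 4 * Y / ρ) (hm1 : mF s x v ρ * m' ≤ 0)
    (hm2 : 2 * ‖v‖ ≤ zF s x v ρ → 0 < zF s x v ρ →
        mF s x v ρ * m' ≤ -(zF s x v ρ ^ 2 / (2 * ρ))) :
    Hd C2 v (aF Y s x v ρ) * a' * Real.exp (gp * mF s x v ρ ^ 2)
      + Hf C2 v (aF Y s x v ρ) * (Real.exp (gp * mF s x v ρ ^ 2) * (gp * (2 * (mF s x v ρ * m'))))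
      + (k1r Y C2 gp s x v ρ + k2r Y C2 gp Z1 s x v ρ)
      ≤ 80 * Y * (2 * C2 + 24) * (Hf C2 v (aF Y s x v ρ) * Real.exp (gp * mF s x v ρ ^ 2)) := by
  have hE : 0 < Real.exp (gp * mF s x v ρ ^ 2) := Real.exp_pos _
  set E := Real.exp (gp * mF s x v ρ ^ 2) with hEdef
  have ha0 := aF_nonneg Y s x v ρ
  have hH1 : 1 ≤ Hf C2 v (aF Y s x v ρ) := one_le_Hf hC2 ha0
  have hD0 : 0 ≤ Hd C2 v (aF Y s x v ρ) := Hd_nonneg hC2 ha0
  have hDH : Hd C2 v (aF Y s x v ρ) ≤ (C2 + 12) * Hf C2 v (aF Y s x v ρ) := Hd_le hC2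
  have hzn : 0 ≤ zF s x v ρ := div_nonneg (distG_nonneg _) hρ.le
  set a := aF Y s x v ρ with ha
  set H := Hf C2 v a with hH
  set D := Hd C2 v a with hD
  set z := zF s x v ρ with hz
  set mm' := mF s x v ρ * m' with hmm
  have hHE : 0 ≤ H * E := by positivity
  -- the `G` part
  have hG : H * (E * (gp * (2 * mm'))) + k2r Y C2 gp Z1 s x v ρ ≤ 0 := by
    unfold k2r
    rw [← hEdef, ← ha, ← hH, ← hz]
    split_ifs with h
    · have h1 := hm2 h.1 (by linarith [h.2])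
      have e : H * (E * (gp * (2 * mm'))) + gp / 2 * z ^ 2 / ρ * (H * E)
          = (H * E) * (gp * (2 * mm' + z ^ 2 / (2 * ρ))) := by
        field_simp
      rw [e]
      refine mul_nonpos_of_nonneg_of_nonpos hHE (mul_nonpos_of_nonneg_of_nonpos hgp.le ?_)
      have h2 : 0 ≤ z ^ 2 / (2 * ρ) := by positivity
      linarith
    · have e : H * (E * (gp * (2 * mm'))) + 0 = (H * E) * (2 * gp) * mm' := by ring
      rw [e]
      exact mul_nonpos_of_nonneg_of_nonpos (by positivity) hm1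
  have hC : 0 ≤ 80 * Y * (2 * C2 + 24) * (H * E) := by positivity
  rcases lt_or_ge (distG (xF s x v ρ)) (1 / 8) with h8 | h8
  · -- near the lattice points
    have h1 : D * a' * E + k1r Y C2 gp s x v ρ ≤ 0 := by
      unfold k1r
      rw [← hEdef, ← ha]
      split_ifs with h
      · rw [ha1 h8 h.2]
        have e : D * -(a / ρ) * E + C2 * a / ρ * E = -((D - C2) * (a / ρ) * E) := by ring
        rw [e]
        have : 0 ≤ D - C2 := by
          rw [hD, Hd]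
          have : 0 ≤ 12 * a * (v 0 ^ 2 + a ^ 2 + v 2 ^ 2) ^ 5 := by positivity
          linarith
        have h2 : 0 ≤ (D - C2) * (a / ρ) * E := by positivity
        linarith
      · have h9 : ¬ |yF Y s x v ρ| < 2 * Y := fun h' => h ⟨h8, h'⟩
        rw [ha2 h8 h9]
        simp
    linarith
  · -- far from the lattice points
    have hk1 : k1r Y C2 gp s x v ρ = 0 := by
      unfold k1r
      rw [if_neg]
      intro h
      linarith [h.1]
    rw [hk1, zero_add]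
    have hz8 : 1 / ρ ≤ 8 * z := by
      rw [hz, zF, div_le_iff₀ hρ]
      have : 8 * (distG (xF s x v ρ) / ρ) * ρ = 8 * distG (xF s x v ρ) := by field_simp
      rw [this]
      linarith
    have hz0 : 0 < z := by
      have : 0 < 1 / ρ := by positivity
      linarith
    have hDa : D * a' ≤ D * (16 * Y * ‖v‖ + 4 * Y / ρ) := mul_le_mul_of_nonneg_left ha3 hD0
    rcases le_or_gt (2 * ‖v‖) z with hv | hv
    · -- slow
      have h1 := hm2 hv hz0
      have h2 : k2r Y C2 gp Z1 s x v ρ ≤ gp / 2 * z ^ 2 / ρ * (H * E) := by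
        unfold k2r
        rw [← hEdef, ← ha, ← hH, ← hz]
        split_ifs
        · exact le_rfl
        · positivity
      have h3 : 16 * Y * ‖v‖ + 4 * Y / ρ ≤ 40 * Y * z := by
        have h4 : 4 * Y / ρ = 4 * Y * (1 / ρ) := by ring
        rw [h4]
        have h5 : 4 * Y * (1 / ρ) ≤ 4 * Y * (8 * z) := mul_le_mul_of_nonneg_left hz8 (by positivity)
        have h6 : 16 * Y * ‖v‖ ≤ 16 * Y * (z / 2) :=
          mul_le_mul_of_nonneg_left (by linarith) (by positivity)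
        linarith
      have h4 : D * a' ≤ (C2 + 12) * H * (40 * Y * z) := by
        refine hDa.trans ?_
        refine mul_le_mul hDH h3 (by positivity) (by positivity)
      have h5 : (C2 + 12) * (40 * Y * z) ≤ gp / 2 * z ^ 2 / ρ := by
        have h6 : z / ρ * (ρ * (640 * Y * (C2 + 12))) ≤ z / ρ * gp :=
          mul_le_mul_of_nonneg_left ht1 (by positivity)
        have h7 : z / ρ * (ρ * (640 * Y * (C2 + 12))) = z * (640 * Y * (C2 + 12)) := by
          field_simp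
        rw [h7] at h6
        have h8' : 1 ≤ 8 * z := by
          refine le_trans ?_ hz8
          rw [le_div_iff₀ hρ]
          linarith
        have h9 : z / ρ * gp * 1 ≤ z / ρ * gp * (8 * z) :=
          mul_le_mul_of_nonneg_left h8' (by positivity)
        have e : gp / 2 * z ^ 2 / ρ = (z / ρ * gp * (8 * z)) / 16 := by
          field_simp
          ring
        rw [e]
        linarith
      have h6 : D * a' * E ≤ gp / 2 * z ^ 2 / ρ * (H * E) := by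
        calc D * a' * E ≤ (C2 + 12) * H * (40 * Y * z) * E :=
              mul_le_mul_of_nonneg_right h4 hE.le
          _ = ((C2 + 12) * (40 * Y * z)) * (H * E) := by ring
          _ ≤ _ := mul_le_mul_of_nonneg_right h5 hHE
      have h7 : H * (E * (gp * (2 * mm'))) ≤ -(gp * z ^ 2 / ρ * (H * E)) := by
        have e : H * (E * (gp * (2 * mm'))) = (H * E * (2 * gp)) * mm' := by ring
        rw [e]
        have h8' : (H * E * (2 * gp)) * mm' ≤ (H * E * (2 * gp)) * -(z ^ 2 / (2 * ρ)) :=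
          mul_le_mul_of_nonneg_left h1 (by positivity)
        refine h8'.trans (le_of_eq ?_)
        field_simp
      have h8' : gp * z ^ 2 / ρ * (H * E) = gp / 2 * z ^ 2 / ρ * (H * E) + gp / 2 * z ^ 2 / ρ * (H * E) := by
        ring
      linarith
    · -- fast
      have hv1 : 1 / ρ ≤ 16 * ‖v‖ := by linarith
      have hv4 : 4 * Y ≤ ‖v‖ := by
        have h5 : 64 * Y ≤ 1 / ρ := by
          rw [le_div_iff₀ hρ]; linarith
        linarith
      have h3 : 16 * Y * ‖v‖ + 4 * Y / ρ ≤ 80 * Y * ‖v‖ := by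
        have h4 : 4 * Y / ρ = 4 * Y * (1 / ρ) := by ring
        rw [h4]
        have h5 : 4 * Y * (1 / ρ) ≤ 4 * Y * (16 * ‖v‖) :=
          mul_le_mul_of_nonneg_left hv1 (by positivity)
        linarith
      have h4 : D * a' ≤ 80 * Y * ((2 * C2 + 24) * H) := by
        refine hDa.trans ((mul_le_mul_of_nonneg_left h3 hD0).trans ?_)
        have h5 : D * ‖v‖ ≤ (2 * C2 + 24) * H := Hd_mul_norm_le hC2 hY hv4
        have e : D * (80 * Y * ‖v‖) = 80 * Y * (D * ‖v‖) := by ring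
        rw [e]
        exact mul_le_mul_of_nonneg_left h5 (by positivity)
      have h5 : D * a' * E ≤ 80 * Y * (2 * C2 + 24) * (H * E) := by
        calc D * a' * E ≤ 80 * Y * ((2 * C2 + 24) * H) * E := mul_le_mul_of_nonneg_right h4 hE.le
          _ = _ := by ring
      linarith

theorem WF_deriv {C2 gp Z1 : ℝ} (hY : 1 ≤ Y) (hC2 : 0 ≤ C2) (hgp : 0 < gp) (hZ : 1 ≤ Z1)
    (hρ : 0 < ρ) (hρ1 : ρ ≤ 1) (ht1 : ρ * (640 * Y * (C2 + 12)) ≤ gp) (ht2 : ρ * (64 * Y) ≤ 1)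
    (h1 : ∀ k, DifferentiableAt ℝ (ck Y s x v k) ρ)
    (h2 : ∀ k, DifferentiableAt ℝ (chk s x v k) ρ)
    (h3 : DifferentiableAt ℝ (aF Y s x v) ρ)
    (h4 : DifferentiableAt ℝ (fun ρ => distG (xF s x v ρ)) ρ)
    (h5 : DifferentiableAt ℝ (mF s x v) ρ) :
    deriv (WF Y C2 gp s x v) ρ + (k1r Y C2 gp s x v ρ + k2r Y C2 gp Z1 s x v ρ)
      ≤ 80 * Y * (2 * C2 + 24) * WF Y C2 gp s x v ρ := by
  obtain ⟨a', ha, ha1, ha2, ha3⟩ := aF_deriv (by linarith) hρ h1 h2 h3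
  obtain ⟨m', hm, hm1, hm2⟩ := mF_deriv hρ h4 h5
  have e1 : HasDerivAt (fun ρ => Hf C2 v (aF Y s x v ρ)) (Hd C2 v (aF Y s x v ρ) * a') ρ :=
    HasDerivAt.comp (h₂ := Hf C2 v) ρ (hasDerivAt_Hf C2 v (aF Y s x v ρ)) ha
  have e2 : HasDerivAt (fun ρ => Real.exp (gp * mF s x v ρ ^ 2))
      (Real.exp (gp * mF s x v ρ ^ 2) * (gp * (2 * (mF s x v ρ * m')))) ρ := by
    have h6 := ((hm.fun_pow 2).const_mul gp).exp
    refine h6.congr_deriv ?_
    rw [show (2 : ℕ) - 1 = 1 from rfl, pow_one]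
    push_cast
    ring
  have e3 := e1.fun_mul e2
  rw [WF_eq, e3.deriv]
  exact key_ineq hY hC2 hgp hZ hρ hρ1 ht1 ht2 ha1 ha2 ha3 hm1 hm2

end Crest.Agent.R68.X2.FlOm

namespace Crest.Agent.R68.X2

open FlOm

theorem flight_Om {Y C2 gp Z1 : ℝ} (hY : 1 ≤ Y) (hC2 : 0 ≤ C2) (hgp : 0 < gp) (hZ : 1 ≤ Z1) :
    ∃ t0 C : ℝ, 0 < t0 ∧ t0 ≤ 1 ∧ 0 ≤ C ∧ ∀ s r : ℝ, 0 < s → s ≤ r → r ≤ t0 → ∀ (x : P2) (v : R3),
      OmE Y C2 gp r (x + (r - s) • bar v) v
        + ∫⁻ ρ in Ioo s r, (kap1 Y C2 gp ρ (x + (ρ - s) • bar v) v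
          + kap2 Y C2 gp Z1 ρ (x + (ρ - s) • bar v) v)
      ≤ OmE Y C2 gp s x v
        + ∫⁻ ρ in Ioo s r, ENNReal.ofReal C * OmE Y C2 gp ρ (x + (ρ - s) • bar v) v := by
  refine ⟨min 1 (min (gp / (640 * Y * (C2 + 12))) (1 / (64 * Y))), 80 * Y * (2 * C2 + 24), ?_,
    min_le_left _ _, by positivity, ?_⟩
  · have : 0 < gp / (640 * Y * (C2 + 12)) := by positivity
    have : 0 < 1 / (64 * Y) := by positivity
    positivity
  intro s r hs hsr hr x v
  set C := 80 * Y * (2 * C2 + 24) with hCdef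
  have hC0 : 0 ≤ C := by positivity
  have hY0 : 0 ≤ Y := by linarith
  have hr1 : r ≤ 1 := hr.trans (min_le_left _ _)
  have hr2 : r ≤ gp / (640 * Y * (C2 + 12)) := hr.trans ((min_le_right _ _).trans (min_le_left _ _))
  have hr3 : r ≤ 1 / (64 * Y) := hr.trans ((min_le_right _ _).trans (min_le_right _ _))
  rw [le_div_iff₀ (by positivity)] at hr2 hr3
  have hac := ac_WF (x := x) (v := v) C2 gp hY0 hs hsr
  have hcont := hac.continuousOn
  have hint := hac.intervalIntegrable_deriv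
  have hftc := hac.integral_deriv_eq_sub
  have hW0 : ∀ ρ, 0 ≤ WF Y C2 gp s x v ρ := by
    intro ρ
    rw [WF_eq]
    have := one_le_Hf (v := v) hC2 (aF_nonneg Y s x v ρ)
    have h2 : 0 < Real.exp (gp * mF s x v ρ ^ 2) := Real.exp_pos _
    positivity
  have hWint : IntervalIntegrable (fun ρ => C * WF Y C2 gp s x v ρ) volume s r :=
    (hcont.intervalIntegrable).const_mul C
  have hsub := hWint.sub hint
  rw [intervalIntegrable_iff_integrableOn_Ioo_of_le hsr] at hWint hsub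
  have hWs : WF Y C2 gp s x v s = Om Y C2 gp s x v := by
    unfold WF xF
    simp
  -- pointwise a.e.
  have hae : ∀ᵐ ρ ∂(volume.restrict (Ioo s r)),
      k1r Y C2 gp s x v ρ + k2r Y C2 gp Z1 s x v ρ
        ≤ C * WF Y C2 gp s x v ρ - deriv (WF Y C2 gp s x v) ρ := by
    rw [ae_restrict_iff' measurableSet_Ioo]
    filter_upwards [ae_diff (x := x) (v := v) hY0 hs hsr] with ρ hd hρ
    have hρI : ρ ∈ uIcc s r := by rw [uIcc_of_le hsr]; exact Ioo_subset_Icc_self hρ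
    obtain ⟨g1, g2, g3, g4, g5⟩ := hd hρI
    have hρ0 : 0 < ρ := hs.trans hρ.1
    have ht1 : ρ * (640 * Y * (C2 + 12)) ≤ gp :=
      (mul_le_mul_of_nonneg_right hρ.2.le (by positivity)).trans hr2
    have ht2 : ρ * (64 * Y) ≤ 1 :=
      (mul_le_mul_of_nonneg_right hρ.2.le (by positivity)).trans hr3
    have := WF_deriv (Z1 := Z1) hY hC2 hgp hZ hρ0 (hρ.2.le.trans hr1) ht1 ht2 g1 g2 g3 g4 g5
    linarith
  have hk0 : ∀ᵐ ρ ∂(volume.restrict (Ioo s r)),
      0 ≤ k1r Y C2 gp s x v ρ + k2r Y C2 gp Z1 s x v ρ := by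
    rw [ae_restrict_iff' measurableSet_Ioo]
    refine Eventually.of_forall fun ρ hρ => ?_
    have hρ0 : 0 < ρ := hs.trans hρ.1
    have h1 := aF_nonneg Y s x v ρ
    have h2 := one_le_Hf (v := v) hC2 h1
    have h3 : 0 < Real.exp (gp * mF s x v ρ ^ 2) := Real.exp_pos _
    have h4 : 0 ≤ k1r Y C2 gp s x v ρ := by
      unfold k1r; split_ifs <;> positivity
    have h5 : 0 ≤ k2r Y C2 gp Z1 s x v ρ := by
      unfold k2r
      split_ifs
      · have : 0 ≤ Hf C2 v (aF Y s x v ρ) := by linarith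
        positivity
      · exact le_rfl
    linarith
  have hI : ∫ ρ in Ioo s r, (C * WF Y C2 gp s x v ρ - deriv (WF Y C2 gp s x v) ρ)
      = (∫ ρ in Ioo s r, C * WF Y C2 gp s x v ρ) -
        (WF Y C2 gp s x v r - WF Y C2 gp s x v s) := by
    have hint' := hint
    rw [intervalIntegrable_iff_integrableOn_Ioo_of_le hsr] at hint'
    rw [integral_sub hWint hint', ← integral_Ioc_eq_integral_Ioo (f := deriv (WF Y C2 gp s x v)),
      ← intervalIntegral.integral_of_le hsr, hftc]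
  have hk : ∫⁻ ρ in Ioo s r, (kap1 Y C2 gp ρ (x + (ρ - s) • bar v) v
          + kap2 Y C2 gp Z1 ρ (x + (ρ - s) • bar v) v)
      ≤ ENNReal.ofReal ((∫ ρ in Ioo s r, C * WF Y C2 gp s x v ρ) -
        (WF Y C2 gp s x v r - WF Y C2 gp s x v s)) := by
    rw [← hI, ofReal_integral_eq_lintegral_ofReal hsub
      (by filter_upwards [hae, hk0] with ρ h1 h2 using h2.trans h1)]
    refine lintegral_mono_ae ?_
    filter_upwards [hae, ae_restrict_mem measurableSet_Ioo] with ρ h1 hρ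
    have hρ0 : 0 < ρ := hs.trans hρ.1
    rw [kap1_eq, kap2_eq, ← ENNReal.ofReal_add]
    · exact ENNReal.ofReal_le_ofReal h1
    · have h3 : 0 < Real.exp (gp * mF s x v ρ ^ 2) := Real.exp_pos _
      have h1 := aF_nonneg Y s x v ρ
      unfold k1r; split_ifs <;> positivity
    · have h3 : 0 < Real.exp (gp * mF s x v ρ ^ 2) := Real.exp_pos _
      have h1 := aF_nonneg Y s x v ρ
      have h2 := one_le_Hf (v := v) hC2 h1
      unfold k2r
      split_ifs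
      · have : 0 ≤ Hf C2 v (aF Y s x v ρ) := by linarith
        positivity
      · exact le_rfl
  have hIW0 : 0 ≤ ∫ ρ in Ioo s r, C * WF Y C2 gp s x v ρ :=
    integral_nonneg fun ρ => mul_nonneg hC0 (hW0 ρ)
  have hRHS : ∫⁻ ρ in Ioo s r, ENNReal.ofReal C * OmE Y C2 gp ρ (x + (ρ - s) • bar v) v
      = ENNReal.ofReal (∫ ρ in Ioo s r, C * WF Y C2 gp s x v ρ) := by
    rw [ofReal_integral_eq_lintegral_ofReal hWint
      (Eventually.of_forall fun ρ => mul_nonneg hC0 (hW0 ρ))]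
    refine lintegral_congr fun ρ => ?_
    rw [ENNReal.ofReal_mul hC0]
    rfl
  have hLr : OmE Y C2 gp r (x + (r - s) • bar v) v = ENNReal.ofReal (WF Y C2 gp s x v r) := rfl
  have hdiff : 0 ≤ (∫ ρ in Ioo s r, C * WF Y C2 gp s x v ρ) -
        (WF Y C2 gp s x v r - WF Y C2 gp s x v s) := by
    rw [← hI]
    refine integral_nonneg_of_ae ?_
    filter_upwards [hae, hk0] with ρ h1 h2 using h2.trans h1
  calc OmE Y C2 gp r (x + (r - s) • bar v) v
        + ∫⁻ ρ in Ioo s r, (kap1 Y C2 gp ρ (x + (ρ - s) • bar v) v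
          + kap2 Y C2 gp Z1 ρ (x + (ρ - s) • bar v) v)
      ≤ ENNReal.ofReal (WF Y C2 gp s x v r) +
        ENNReal.ofReal ((∫ ρ in Ioo s r, C * WF Y C2 gp s x v ρ) -
        (WF Y C2 gp s x v r - WF Y C2 gp s x v s)) := by
        rw [hLr]; exact add_le_add le_rfl hk
    _ = ENNReal.ofReal (WF Y C2 gp s x v s) +
        ENNReal.ofReal (∫ ρ in Ioo s r, C * WF Y C2 gp s x v ρ) := by
        rw [← ENNReal.ofReal_add (hW0 r) hdiff, ← ENNReal.ofReal_add (hW0 s) hIW0]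
        congr 1
        ring
    _ = _ := by rw [hRHS, hWs]; rfl

end Crest.Agent.R68.X2
end
end

-- ▼ part R68/X2PwLow
section

/-!
# Row 68, PART X2 (helper546): pointwise inequality for the corrected test function
-/

set_option autoImplicit false
open MeasureTheory Set Filter
open scoped ENNReal Real
open Crest.AnalysisR.VecCalc3 Crest.AnalysisR.PDE.Boltzmann

noncomputable section

namespace Crest.Agent.R68.X2.PL

open Crest.Agent.R68.X2

open Crest.Agent.R68.L (Den phiE Gf Dam TL sol)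
open Crest.Agent.R68.X (chs)
open Crest.Agent.R68.A (Meas3)

/-! ### velocity integrals against the fuel -/

theorem measurable_phi_slice {P : Par} (hP : P.Ok) (t : ℝ) (x : P2) :
    Measurable fun u => phi P t x u := by
  have h1 : Measurable fun u : R3 => (t, x, u) := by fun_prop
  exact (Fuel.measurable_phi hP).comp h1

theorem integrable_phi {P : Par} (hP : P.Ok) {t : ℝ} {x : P2}
    (hfin : ∫⁻ u, phiE P t x u ≠ ⊤) : Integrable fun u => phi P t x u := by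
  refine ⟨(measurable_phi_slice hP t x).aestronglyMeasurable, ?_⟩
  rw [hasFiniteIntegral_iff_ofReal (Eventually.of_forall fun u => Fuel.phi_nonneg hP t x u)]
  exact lt_of_le_of_ne le_top hfin

theorem integrable_phi_mul {P : Par} (hP : P.Ok) {t : ℝ} {x : P2} {G : R3 → ℝ}
    (hG : Measurable G) {B : ℝ} (hB : ∀ u, phi P t x u ≠ 0 → |G u| ≤ B)
    (hfin : ∫⁻ u, phiE P t x u ≠ ⊤) : Integrable fun u => phi P t x u * G u := by
  have h1 := integrable_phi hP hfin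
  refine Integrable.mono' (h1.const_mul |B|)
    ((measurable_phi_slice hP t x).mul hG).aestronglyMeasurable (Eventually.of_forall fun u => ?_)
  rw [Real.norm_eq_abs, abs_mul, abs_of_nonneg (Fuel.phi_nonneg hP t x u), mul_comm]
  by_cases h : phi P t x u = 0
  · rw [h]; simp
  · exact mul_le_mul_of_nonneg_right ((hB u h).trans (le_abs_self B)) (Fuel.phi_nonneg hP t x u)

theorem lint_phi_ofReal {P : Par} (hP : P.Ok) {t : ℝ} {x : P2} {G : R3 → ℝ}
    (hG : Measurable G) {B : ℝ} (hG0 : ∀ u, 0 ≤ G u) (hB : ∀ u, phi P t x u ≠ 0 → G u ≤ B)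
    (hfin : ∫⁻ u, phiE P t x u ≠ ⊤) :
    ∫⁻ u, phiE P t x u * ENNReal.ofReal (G u) = ENNReal.ofReal (∫ u, phi P t x u * G u) := by
  rw [ofReal_integral_eq_lintegral_ofReal]
  · refine lintegral_congr fun u => ?_
    rw [ENNReal.ofReal_mul (Fuel.phi_nonneg hP t x u)]
    rfl
  · exact integrable_phi_mul hP hG (B := B) (fun u hu => by rw [abs_of_nonneg (hG0 u)]; exact hB u hu) hfin
  · exact Eventually.of_forall fun u => mul_nonneg (Fuel.phi_nonneg hP t x u) (hG0 u)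

/-- collision frequency as a real integral -/
theorem Lc_phi {P : Par} (hP : P.Ok) {t : ℝ} {x : P2} {B : ℝ}
    (hB : ∀ u, phi P t x u ≠ 0 → ‖u‖ ≤ B) (hfin : ∫⁻ u, phiE P t x u ≠ ⊤) (v : R3) :
    Lc (phiE P t x) v = ENNReal.ofReal (∫ u, phi P t x u * (2 * π * ‖v - u‖)) := by
  rw [← lint_phi_ofReal hP (B := 2 * π * (‖v‖ + B)) (by fun_prop)
    (fun u => by positivity) (fun u hu => ?_) hfin]
  · unfold Lc
    refine lintegral_congr fun u => ?_
    rw [lintegral_abs_inner_mul, mul_comm]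
  · have := norm_sub_le v u
    have := hB u hu
    have := Real.pi_pos
    nlinarith

theorem gsR_le_const {g : R3 → ℝ} (hg : Measurable g) {C : ℝ} (h0 : ∀ w, 0 ≤ g w)
    (hC : ∀ w, g w ≤ C) (v u : R3) : gsR g v u ≤ 4 * π * ‖v - u‖ * C := by
  rw [← gsR_const C v u]
  refine gsR_mono hg measurable_const (C := C) (fun w _ => ?_) (fun w _ => ?_) (fun w _ => hC w)
  · rw [abs_of_nonneg (h0 w)]; exact hC w
  · rw [abs_of_nonneg ((h0 w).trans (hC w))]

theorem mf0 (X : XP) (z : P2) : Measurable fun v => f0 X z v :=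
  by
  have h : Measurable fun v : R3 => ((z, v) : P2 × R3) := by fun_prop
  have h2 := (M60.measurable_f0 X).comp h
  exact h2

theorem measurable_gL_slice (X : XP) (P : Par) (d1 Zs Vs Cg t : ℝ) (x : P2) :
    Measurable fun v => gL X P d1 Zs Vs Cg t x v :=
  by
  have h : Measurable fun v : R3 => ((t, x, v) : ℝ × P2 × R3) := by fun_prop
  have h2 := (M60.measurable_gL X P d1 Zs Vs Cg).comp h
  exact h2

/-- properties of `f0` used below -/
structure F0Ok (X : XP) (C : ℝ) : Prop where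
  C1 : 1 ≤ C
  nn : ∀ z v, 0 ≤ f0 X z v
  le : ∀ z v, f0 X z v ≤ C
  lip : ∀ z v z' v', |f0 X z v - f0 X z' v'| ≤ C * (‖z - z'‖ + ‖v - v'‖)
  d : ∀ z v, f0 X z v ≠ 0 → X.d ≤ |v 0|

/-- the real function `G` of the fuel velocity -/
def GG (X : XP) (d1 : ℝ) (z : P2) (v u : R3) : ℝ :=
  (1 - d1) * gsR (f0 X z) v u - 2 * π * ‖v - u‖ * f0 X z v

theorem GG_bound {X : XP} {C d1 U : ℝ} (h : F0Ok X C) (hd0 : 0 ≤ d1) (hd1 : d1 ≤ 1)
    (z : P2) (v u : R3) (hu : ‖u‖ ≤ U) :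
    |GG X d1 z v u| ≤ 6 * π * C * (‖v‖ + U) := by
  have h1 := gsR_le_const (mf0 X z) (h.nn z) (h.le z) v u
  have h2 := gsR_nonneg (h.nn z) v u
  have h3 := h.nn z v
  have h4 := h.le z v
  have h5 : ‖v - u‖ ≤ ‖v‖ + U := (norm_sub_le v u).trans (by linarith)
  have h6 := norm_nonneg (v - u)
  have hC := h.C1
  have hpi := Real.pi_pos
  have e1 : (1 - d1) * gsR (f0 X z) v u ≤ 4 * π * (‖v‖ + U) * C := by
    calc (1 - d1) * gsR (f0 X z) v u ≤ 1 * gsR (f0 X z) v u := by gcongr; linarith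
      _ ≤ 4 * π * ‖v - u‖ * C := by rw [one_mul]; exact h1
      _ ≤ _ := by gcongr
  have hVU : 0 ≤ ‖v‖ + U := h6.trans h5
  have e2 : 2 * π * ‖v - u‖ * f0 X z v ≤ 2 * π * (‖v‖ + U) * C := by gcongr
  have e3 : 0 ≤ (1 - d1) * gsR (f0 X z) v u := mul_nonneg (by linarith) h2
  have e4 : 0 ≤ 2 * π * ‖v - u‖ * f0 X z v := by positivity
  unfold GG
  rw [abs_le]
  constructor <;> nlinarith

theorem GG_lip {X : XP} {C d1 U : ℝ} (h : F0Ok X C) (hd0 : 0 ≤ d1) (hd1 : d1 ≤ 1)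
    (z : P2) (v u u' : R3) (hu' : ‖u'‖ ≤ U) :
    |GG X d1 z v u - GG X d1 z v u'| ≤ (10 * π * C + 8 * π * C * (‖v‖ + U)) * ‖u - u'‖ := by
  have hC := h.C1
  have hpi := Real.pi_pos
  have h1 := gsR_lip (mf0 X z) (mf0 X z) (C := C) (L := C) (ε := 0)
    (fun w => by rw [abs_of_nonneg (h.nn z w)]; exact h.le z w)
    (fun w => by rw [abs_of_nonneg (h.nn z w)]; exact h.le z w)
    (fun w w' => by have := h.lip z w z w'; simpa using this) (fun w => by simp) v u u'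
  have h3 := h.nn z v
  have h4 := h.le z v
  have h5 : ‖v - u'‖ ≤ ‖v‖ + U := (norm_sub_le v u').trans (by linarith)
  have h6 : |‖v - u‖ - ‖v - u'‖| ≤ ‖u - u'‖ := by
    have := abs_norm_sub_norm_le (v - u) (v - u')
    rwa [show v - u - (v - u') = u' - u by abel, norm_sub_rev u' u] at this
  have h7 := norm_nonneg (u - u')
  have e0 : GG X d1 z v u - GG X d1 z v u' = (1 - d1) * (gsR (f0 X z) v u - gsR (f0 X z) v u')
      - 2 * π * (‖v - u‖ - ‖v - u'‖) * f0 X z v := by unfold GG; ring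
  rw [e0]
  have e1 : |(1 - d1) * (gsR (f0 X z) v u - gsR (f0 X z) v u')| ≤
      8 * π * C * ‖u - u'‖ + 8 * π * (‖v‖ + U) * (C * ‖u - u'‖) := by
    rw [abs_mul, abs_of_nonneg (by linarith : 0 ≤ 1 - d1)]
    calc (1 - d1) * |gsR (f0 X z) v u - gsR (f0 X z) v u'| ≤
        1 * |gsR (f0 X z) v u - gsR (f0 X z) v u'| := by gcongr; linarith
      _ ≤ 8 * π * C * ‖u - u'‖ + 8 * π * ‖v - u'‖ * (C * ‖u - u'‖ + 0) := by rw [one_mul]; exact h1
      _ ≤ _ := by rw [add_zero]; gcongr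
  have e2 : |2 * π * (‖v - u‖ - ‖v - u'‖) * f0 X z v| ≤ 2 * π * ‖u - u'‖ * C := by
    rw [abs_mul, abs_mul, abs_of_nonneg h3, abs_of_pos (by positivity : 0 < 2 * π)]
    gcongr
  calc _ ≤ |(1 - d1) * (gsR (f0 X z) v u - gsR (f0 X z) v u')|
        + |2 * π * (‖v - u‖ - ‖v - u'‖) * f0 X z v| := abs_sub _ _
    _ ≤ _ := by linarith

/-! ### facts at a point without the true fuel -/

theorem lamd_half {d a : ℝ} (hd : 0 < d) (h : d ≤ |a|) : lamd (d / 2) a = 1 := by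
  unfold lamd
  have h1 : 1 ≤ |a| / (d / 2) - 1 := by
    rw [le_sub_iff_add_le, le_div_iff₀ (by positivity)]; linarith
  rw [min_eq_left h1, max_eq_right zero_le_one]

theorem ramp_one {r : ℝ} (h : r ≤ 1) : ramp r = 1 := by
  unfold ramp
  rw [min_eq_left (by linarith), max_eq_right zero_le_one]

theorem ramp_zero {r : ℝ} (h : 2 ≤ r) : ramp r = 0 := by
  unfold ramp
  rw [max_eq_left]
  exact (min_le_right _ _).trans (by linarith)

theorem ramp_nonneg (r : ℝ) : 0 ≤ ramp r := le_max_left _ _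
theorem ramp_le_one (r : ℝ) : ramp r ≤ 1 := max_le zero_le_one (min_le_left _ _)
theorem lamd_nonneg (d a : ℝ) : 0 ≤ lamd d a := le_max_left _ _
theorem lamd_le_one (d a : ℝ) : lamd d a ≤ 1 := max_le zero_le_one (min_le_left _ _)

theorem th_nonneg (X : XP) (Zs Vs : ℝ) (z : P2) (v : R3) : 0 ≤ th X Zs Vs z v :=
  mul_nonneg (mul_nonneg (ramp_nonneg _) (ramp_nonneg _)) (lamd_nonneg _ _)

theorem th_le_one (X : XP) (Zs Vs : ℝ) (z : P2) (v : R3) : th X Zs Vs z v ≤ 1 := by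
  unfold th
  exact mul_le_one₀ (mul_le_one₀ (ramp_le_one _) (ramp_nonneg _) (ramp_le_one _))
    (lamd_nonneg _ _) (lamd_le_one _ _)

theorem th_one {X : XP} {Zs Vs : ℝ} (hd : 0 < X.d) (hZ : 1 ≤ Zs) (hV : 1 ≤ Vs) {z : P2} {v : R3}
    (hz : ‖z‖ ≤ Zs) (hv : ‖v‖ ≤ Vs) (hv0 : X.d ≤ |v 0|) : th X Zs Vs z v = 1 := by
  unfold th
  rw [lamd_half hd hv0, ramp_one ((div_le_one (by linarith)).2 hz),
    ramp_one ((div_le_one (by linarith)).2 hv)]
  norm_num

/-- where `f0 = 0` also `L0 = 0` -/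
theorem L0_zero {X : XP} {z : P2} {v : R3} (h : f0 X z v = 0) : L0 X z v = 0 := by
  unfold L0
  split_ifs with ht
  · unfold f0 tentp at h
    rw [max_eq_right ht.le] at h
    rcases mul_eq_zero.1 h with h1 | h1
    · rcases mul_eq_zero.1 h1 with h2 | h2
      · exact absurd h2 ht.ne'
      · have h3 : max 0 (1 - z.1 ^ 2 / X.B ^ 2) = 0 := by
          unfold cutB at h2
          exact pow_eq_zero_iff (two_ne_zero) |>.1 h2
        rw [h2, h3]; ring
    · rw [h1]; ring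
  · rfl

theorem ws_eq (X : XP) (d1 ρ s : ℝ) (z : P2) (v : R3) :
    ws X d1 ρ s z v = ρ * GG X d1 z v (us z.2 s) := rfl

/-- `(K/t) ky Σ chs G(us) = t⁻¹ Σ chs ws` and the `f0`-inequality give the pointwise inequality
for the ideal fuel -/
theorem ideal_low {X : XP} {d1 Zs Vs K k t c1 c2 N : ℝ} {z : P2} {v : R3} (hd1 : d1 ≤ 1)
    (hK : 0 ≤ K) (hk : 0 ≤ k) (ht : 0 < t) (hc1 : 0 ≤ c1) (hc2 : 0 ≤ c2)
    (hnn : ∀ z v, 0 ≤ f0 X z v)
    (hth : f0 X z v ≠ 0 → th X Zs Vs z v = 1)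
    (hf : 193 / 200 * N * f0 X z v ≤ L0 X z v
        + 197 / 400 * (ws X d1 (K * k) 1 z v + ws X d1 (K * k) (-1) z v)) :
    193 / 200 * N / t * f0 X z v ≤ t⁻¹ * L0 X z v
      - (c1 - 197 / 400) * (t⁻¹ * th X Zs Vs z v * ws X d1 (K * k) 1 z v)
      - (c2 - 197 / 400) * (t⁻¹ * th X Zs Vs z v * ws X d1 (K * k) (-1) z v)
      + K / t * k * (c1 * GG X d1 z v (us z.2 1) + c2 * GG X d1 z v (us z.2 (-1))) := by
  have ht' : 0 < t⁻¹ := inv_pos.2 ht
  by_cases h0 : f0 X z v = 0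
  · have hL := L0_zero h0
    have hG : ∀ u, 0 ≤ GG X d1 z v u := by
      intro u
      unfold GG
      rw [h0, mul_zero, sub_zero]
      exact mul_nonneg (by linarith) (gsR_nonneg (hnn z) v u)
    have hw : ∀ s, 0 ≤ ws X d1 (K * k) s z v := fun s => by
      rw [ws_eq]; exact mul_nonneg (mul_nonneg hK hk) (hG _)
    have e : ∀ s, K / t * k * GG X d1 z v (us z.2 s) = t⁻¹ * ws X d1 (K * k) s z v := fun s => by
      rw [ws_eq]; field_simp
    have h1 := th_nonneg X Zs Vs z v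
    have h2 := th_le_one X Zs Vs z v
    rw [h0, hL]
    have e3 : K / t * k * (c1 * GG X d1 z v (us z.2 1) + c2 * GG X d1 z v (us z.2 (-1)))
        = c1 * (t⁻¹ * ws X d1 (K * k) 1 z v) + c2 * (t⁻¹ * ws X d1 (K * k) (-1) z v) := by
      rw [← e, ← e]; ring
    rw [e3]
    have k1 : 0 ≤ t⁻¹ * ws X d1 (K * k) 1 z v := mul_nonneg ht'.le (hw 1)
    have k2 : 0 ≤ t⁻¹ * ws X d1 (K * k) (-1) z v := mul_nonneg ht'.le (hw (-1))
    have k3 : c1 * (th X Zs Vs z v) * (t⁻¹ * ws X d1 (K * k) 1 z v) ≤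
        c1 * 1 * (t⁻¹ * ws X d1 (K * k) 1 z v) := by gcongr
    have k4 : c2 * (th X Zs Vs z v) * (t⁻¹ * ws X d1 (K * k) (-1) z v) ≤
        c2 * 1 * (t⁻¹ * ws X d1 (K * k) (-1) z v) := by gcongr
    have k5 : 0 ≤ th X Zs Vs z v * (t⁻¹ * ws X d1 (K * k) 1 z v) := mul_nonneg h1 k1
    have k6 : 0 ≤ th X Zs Vs z v * (t⁻¹ * ws X d1 (K * k) (-1) z v) := mul_nonneg h1 k2
    nlinarith
  · rw [hth h0]
    have e : ∀ s, K / t * k * GG X d1 z v (us z.2 s) = t⁻¹ * ws X d1 (K * k) s z v := fun s => by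
      rw [ws_eq]; field_simp
    have e3 : K / t * k * (c1 * GG X d1 z v (us z.2 1) + c2 * GG X d1 z v (us z.2 (-1)))
        = c1 * (t⁻¹ * ws X d1 (K * k) 1 z v) + c2 * (t⁻¹ * ws X d1 (K * k) (-1) z v) := by
      rw [← e, ← e]; ring
    rw [e3]
    have h5 := mul_le_mul_of_nonneg_left hf ht'.le
    have e4 : 193 / 200 * N / t * f0 X z v = t⁻¹ * (193 / 200 * N * f0 X z v) := by field_simp
    rw [e4]
    linarith


/-- the true fuel against `GG` -/
theorem fuel_GG {P : Par} (hP : P.Ok) {X : XP} {C0 : ℝ} (hF : F0Ok X C0) {d1 : ℝ} (hd0 : 0 ≤ d1)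
    (hd1 : d1 ≤ 1) (Z : ℝ) (hZ : 1 ≤ Z) :
    ∃ t0 C : ℝ, 0 < t0 ∧ 0 ≤ C ∧ ∀ t, 0 < t → t ≤ t0 → ∀ x : P2, ‖x‖ ≤ Z * t → ∀ v,
      P.K / t * ky P (t⁻¹ • x).2 * (chs P 1 (lab P t x) * GG X d1 (t⁻¹ • x) v (us (t⁻¹ • x).2 1)
        + chs P (-1) (lab P t x) * GG X d1 (t⁻¹ • x) v (us (t⁻¹ • x).2 (-1))) - C * (1 + ‖v‖)
      ≤ ∫ u, phi P t x u * GG X d1 (t⁻¹ • x) v u := by
  obtain ⟨t0, C, ht0, hC, h⟩ := fuel_near hP Z hZ
  have hC0 := hF.C1
  have hpi := Real.pi_pos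
  have hY := hP.Y0
  refine ⟨t0, C * (34 * π * C0 * (P.Y + 4)), ht0, by positivity, fun t ht htt x hx v => ?_⟩
  have h2 := (h t ht htt x hx).2 (fun u => GG X d1 (t⁻¹ • x) v u) (6 * π * C0 * (‖v‖ + (P.Y + 3)))
    (10 * π * C0 + 8 * π * C0 * (‖v‖ + (P.Y + 3))) ?_ ?_ ?_
  · have e1 : (t⁻¹ • x).2 = x.2 / t := by simp [div_eq_inv_mul]
    rw [e1]
    have h3 := (abs_le.1 h2).1
    have h4 : C * (6 * π * C0 * (‖v‖ + (P.Y + 3)) + (10 * π * C0 + 8 * π * C0 * (‖v‖ + (P.Y + 3)))) ≤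
        C * (34 * π * C0 * (P.Y + 4)) * (1 + ‖v‖) := by
      have hv := norm_nonneg v
      have e5 : 6 * π * C0 * (‖v‖ + (P.Y + 3)) + (10 * π * C0 + 8 * π * C0 * (‖v‖ + (P.Y + 3)))
          ≤ 34 * π * C0 * (P.Y + 4) * (1 + ‖v‖) := by
        have e6 : 0 ≤ π * C0 := by positivity
        have e7 : 6 * (‖v‖ + (P.Y + 3)) + (10 + 8 * (‖v‖ + (P.Y + 3))) ≤ 34 * (P.Y + 4) * (1 + ‖v‖) := by
          nlinarith [mul_nonneg hY.le hv]
        calc _ = π * C0 * (6 * (‖v‖ + (P.Y + 3)) + (10 + 8 * (‖v‖ + (P.Y + 3)))) := by ring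
          _ ≤ π * C0 * (34 * (P.Y + 4) * (1 + ‖v‖)) := mul_le_mul_of_nonneg_left e7 e6
          _ = _ := by ring
      calc _ ≤ C * (34 * π * C0 * (P.Y + 4) * (1 + ‖v‖)) := mul_le_mul_of_nonneg_left e5 hC
        _ = _ := by ring
    linarith
  · unfold GG
    exact ((measurable_gsR_u (mf0 X _) v).const_mul _).sub (by fun_prop)
  · intro u hu
    exact GG_bound hF hd0 hd1 _ v u hu
  · intro u u' hu hu'
    exact GG_lip hF hd0 hd1 _ v u u' hu'

set_option maxHeartbeats 1000000 in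
/-- LOWER, pointwise (`corr_small` as a hypothesis) -/
theorem _root_.Crest.Agent.R68.X2.pw_low_of {X : XP} {P : Par} {Y ey N d1 Zs Vs Cg C' C0 : ℝ} (h : LowOK X P Y ey N d1 Zs Vs)
    (hF : F0Ok X C0) (hCg : 0 ≤ Cg)
    (hcs : ∃ t0 C : ℝ, 0 < t0 ∧ 0 ≤ C ∧ ∀ t, 0 < t → t ≤ t0 → ∀ x v,
      |corr X P d1 Zs Vs t x v| ≤ C * t ^ 2 ∧
      (corr X P d1 Zs Vs t x v ≠ 0 → ‖t⁻¹ • x‖ ≤ 2 * Zs ∧ ‖v‖ ≤ 2 * Vs))
    (hf : ∀ (z : P2) (v : R3) (k : ℝ), 0 ≤ k → k ≤ 1 → (|z.2| ≤ X.Yp → k = 1) →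
      (Y ≤ |z.2| → k = 0) →
      193 / 200 * N * f0 X z v ≤ L0 X z v
        + 197 / 400 * (ws X d1 (P.K * k) 1 z v + ws X d1 (P.K * k) (-1) z v)) :
    ∃ t0 C : ℝ, 0 < t0 ∧ 0 ≤ C ∧ ∀ t, 0 < t → t ≤ t0 → ∀ (x : P2) (v : R3),
      ENNReal.ofReal (-(Lg X P d1 Zs Vs C' t x v))
        + Lc (phiE P t x) v * ENNReal.ofReal (gL X P d1 Zs Vs Cg t x v)
        + ENNReal.ofReal (193 / 200 * N / t) * psiE X t x v
        + ENNReal.ofReal d1 * GA (phiE P) (psiE X) t x v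
      ≤ ENNReal.ofReal (Lg X P d1 Zs Vs C' t x v)
        + GA (phiE P) (fun t x v => ENNReal.ofReal (gL X P d1 Zs Vs Cg t x v)) t x v
        + ENNReal.ofReal (C * (if ‖x‖ ≤ C * t then (1 + ‖v‖) else 0)) := by
  have hP := h.ok
  have hZs := h.Zs1
  have hVs := h.Vs1
  have hY := hP.Y0
  have hpi := Real.pi_pos
  have hC0 := hF.C1
  obtain ⟨t1, ht1, hall⟩ := fuel_all hP
  obtain ⟨t2, C2, ht2, hC2, hGG⟩ := fuel_GG hP hF h.d10.le h.d11.le (8 * Zs) (by linarith)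
  obtain ⟨t3, C3, ht3, hC3, hcorr⟩ := hcs
  have hK := hP.K0
  set E : ℝ := C2 + |C'| + P.K * 6 * π * (P.Y + 3) * (C3 + Cg) with hE
  have hE0 : 0 ≤ E := by positivity
  refine ⟨min (min t1 t2) (min t3 1), E + 8 * Zs, lt_min (lt_min ht1 ht2) (lt_min ht3 one_pos),
    by linarith, fun t ht htt x v => ?_⟩
  have htt1 : t ≤ t1 := htt.trans ((min_le_left _ _).trans (min_le_left _ _))
  have htt2 : t ≤ t2 := htt.trans ((min_le_left _ _).trans (min_le_right _ _))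
  have htt3 : t ≤ t3 := htt.trans ((min_le_right _ _).trans (min_le_left _ _))
  have htt4 : t ≤ 1 := htt.trans ((min_le_right _ _).trans (min_le_right _ _))
  obtain ⟨hsup, hfin⟩ := hall t ht htt1 x
  have hfin' : ∫⁻ u, phiE P t x u ≠ ⊤ := (hfin.trans_lt ENNReal.ofReal_lt_top).ne
  have ht' : 0 < t⁻¹ := inv_pos.2 ht
  have hnz : ‖t⁻¹ • x‖ = ‖x‖ / t := by
    rw [norm_smul, Real.norm_eq_abs, abs_of_pos ht', div_eq_inv_mul]
  have hthf : ∀ w, f0 X (t⁻¹ • x) w ≠ 0 → th X Zs Vs (t⁻¹ • x) w = 1 := fun w hw =>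
    th_one h.d0 hZs hVs (h.supp _ _ hw).1 (h.supp _ _ hw).2 (hF.d _ _ hw)
  by_cases hx : 8 * Zs * t < ‖x‖
  · -- far from the origin everything vanishes
    have hz : 8 * Zs < ‖t⁻¹ • x‖ := by rw [hnz, lt_div_iff₀ ht]; exact hx
    have hf0 : ∀ w, f0 X (t⁻¹ • x) w = 0 := by
      intro w
      by_contra hw
      have := (h.supp _ _ hw).1
      linarith
    have hcor : ∀ w, corr X P d1 Zs Vs t x w = 0 := by
      intro w
      by_contra hw
      have := ((hcorr t ht htt3 x w).2 hw).1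
      linarith
    have hg : ∀ w, gL X P d1 Zs Vs Cg t x w = 0 := by
      intro w
      unfold gL psi0
      rw [hf0, hcor, ramp_zero (r := ‖t⁻¹ • x‖ / (2 * Zs))]
      · ring
      · rw [le_div_iff₀ (by linarith)]; linarith
    have hth0 : th X Zs Vs (t⁻¹ • x) v = 0 := by
      unfold th
      rw [ramp_zero (r := ‖t⁻¹ • x‖ / Zs)]
      · ring
      · rw [le_div_iff₀ (by linarith)]; linarith
    have hL : Lg X P d1 Zs Vs C' t x v = 0 := by
      unfold Lg osc nearI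
      rw [hth0, L0_zero (hf0 v), if_neg]
      · ring
      · rintro ⟨h1, -⟩
        nlinarith
    have hpsi : ∀ w, psiE X t x w = 0 := fun w => by
      unfold psiE psi0; rw [hf0]; simp
    have hGA : GA (phiE P) (psiE X) t x v = 0 := by
      unfold GA gsE
      simp [hpsi]
    rw [hL, hg, hpsi, hGA]
    simp
  push Not at hx
  -- real quantities
  set z := t⁻¹ • x with hz
  have hk0 : 0 ≤ ky P z.2 := Fuel.ky_nonneg P _
  have hk1 : ky P z.2 ≤ 1 := Fuel.ky_le_one P _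
  have hky1 : |z.2| ≤ X.Yp → ky P z.2 = 1 := by
    intro hh
    have h1 := h.tent.Ypd
    unfold ky
    rw [h.YP, h.eyP]
    have h2 : 1 ≤ (Y - |z.2|) / ey := by
      rw [le_div_iff₀ h.tent.ey0]; linarith
    rw [min_eq_left h2, max_eq_right zero_le_one]
  have hky0 : Y ≤ |z.2| → ky P z.2 = 0 := by
    intro hh
    unfold ky
    rw [h.YP, h.eyP]
    have h2 : (Y - |z.2|) / ey ≤ 0 := div_nonpos_of_nonpos_of_nonneg (by linarith) h.tent.ey0.le
    rw [max_eq_left]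
    exact (min_le_right _ _).trans h2
  have hchs : ∀ s a, 0 ≤ chs P s a := fun s a => Crest.Agent.R68.X.chs_nonneg P s a
  have hid := ideal_low (Zs := Zs) (Vs := Vs) (c1 := chs P 1 (lab P t x)) (c2 := chs P (-1) (lab P t x))
    h.d11.le hK hk0 ht (hchs _ _) (hchs _ _) hF.nn (hthf v)
    (hf z v (ky P z.2) hk0 hk1 hky1 hky0)
  have hGG' := hGG t ht htt2 x hx v
  -- the real integrals
  set I1 : ℝ := ∫ u, phi P t x u * gsR (f0 X z) v u with hI1
  set I2 : ℝ := ∫ u, phi P t x u * (2 * π * ‖v - u‖) with hI2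
  have hsupB : ∀ u, phi P t x u ≠ 0 → ‖u‖ ≤ P.Y + 2 := fun u hu => (hsup u hu).1
  have hgsb : ∀ u, phi P t x u ≠ 0 → gsR (f0 X z) v u ≤ 4 * π * (‖v‖ + (P.Y + 2)) * C0 := by
    intro u hu
    refine (gsR_le_const (mf0 X z) (hF.nn z) (hF.le z) v u).trans ?_
    have := norm_sub_le v u
    have := hsupB u hu
    gcongr
    linarith
  have hint1 : Integrable fun u => phi P t x u * gsR (f0 X z) v u :=
    integrable_phi_mul hP (measurable_gsR_u (mf0 X z) v)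
      (fun u hu => by rw [abs_of_nonneg (gsR_nonneg (hF.nn z) v u)]; exact hgsb u hu) hfin'
  have hint2 : Integrable fun u => phi P t x u * (2 * π * ‖v - u‖) := by
    refine integrable_phi_mul hP (B := 2 * π * (‖v‖ + (P.Y + 2))) (by fun_prop) (fun u hu => ?_) hfin'
    rw [abs_of_nonneg (by positivity)]
    have := norm_sub_le v u
    have := hsupB u hu
    gcongr
    linarith
  have hGGint : ∫ u, phi P t x u * GG X d1 z v u = (1 - d1) * I1 - f0 X z v * I2 := by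
    rw [hI1, hI2, ← integral_const_mul, ← integral_const_mul, ← integral_sub]
    · refine integral_congr_ae (Eventually.of_forall fun u => ?_)
      simp only [GG]; ring
    · exact hint1.const_mul _
    · exact hint2.const_mul _
  have hI1n : 0 ≤ I1 := integral_nonneg fun u =>
    mul_nonneg (Fuel.phi_nonneg hP t x u) (gsR_nonneg (hF.nn z) v u)
  have hI2n : 0 ≤ I2 := integral_nonneg fun u =>
    mul_nonneg (Fuel.phi_nonneg hP t x u) (by positivity)
  have hI2le : I2 ≤ P.K / t * (2 * π * (‖v‖ + (P.Y + 2))) := by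
    have hle : ∀ u, phi P t x u * (2 * π * ‖v - u‖) ≤ phi P t x u * (2 * π * (‖v‖ + (P.Y + 2))) := by
      intro u
      by_cases hu : phi P t x u = 0
      · rw [hu]; simp
      · have h1 := norm_sub_le v u
        have h2 := hsupB u hu
        have h3 := Fuel.phi_nonneg hP t x u
        gcongr
        linarith
    have hip := integrable_phi hP hfin'
    have h1 : ∫ u, phi P t x u ≤ P.K / t := by
      have h2 := ofReal_integral_eq_lintegral_ofReal hip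
        (Eventually.of_forall fun u => Fuel.phi_nonneg hP t x u)
      have h3 : ENNReal.ofReal (∫ u, phi P t x u) ≤ ENNReal.ofReal (P.K / t) := by rw [h2]; exact hfin
      exact (ENNReal.ofReal_le_ofReal_iff (by positivity)).1 h3
    calc I2 ≤ ∫ u, phi P t x u * (2 * π * (‖v‖ + (P.Y + 2))) :=
          integral_mono hint2 (hip.mul_const _) hle
      _ = (∫ u, phi P t x u) * (2 * π * (‖v‖ + (P.Y + 2))) := integral_mul_const _ _
      _ ≤ _ := by gcongr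
  have hI2t : t ^ 2 * I2 ≤ P.K * 2 * π * (P.Y + 3) * (1 + ‖v‖) := by
    have hv := norm_nonneg v
    calc t ^ 2 * I2 ≤ t ^ 2 * (P.K / t * (2 * π * (‖v‖ + (P.Y + 2)))) := by gcongr
      _ = t * (P.K * 2 * π * (‖v‖ + (P.Y + 2))) := by field_simp
      _ ≤ 1 * (P.K * 2 * π * ((P.Y + 3) * (1 + ‖v‖))) := by
          gcongr
          nlinarith [mul_nonneg hY.le hv]
      _ = _ := by ring
  have hLc := Lc_phi hP hsupB hfin' v
  have hGAψ : GA (phiE P) (psiE X) t x v = ENNReal.ofReal I1 := by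
    unfold GA
    rw [hI1, ← lint_phi_ofReal hP (measurable_gsR_u (mf0 X z) v)
      (gsR_nonneg (hF.nn z) v) hgsb hfin']
    refine lintegral_congr fun u => ?_
    congr 1
    exact gsE_ofReal (mf0 X z) (hF.nn z) (hF.le z) v u
  -- comparison of gL and psi0
  have hcl : ∀ w, |corr X P d1 Zs Vs t x w| ≤ C3 * t ^ 2 := fun w => (hcorr t ht htt3 x w).1
  have hr0 : ∀ w : R3, 0 ≤ ramp (‖t⁻¹ • x‖ / (2 * Zs)) * ramp (‖w‖ / (2 * Vs)) := fun w =>
    mul_nonneg (ramp_nonneg _) (ramp_nonneg _)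
  have hr1 : ∀ w : R3, ramp (‖t⁻¹ • x‖ / (2 * Zs)) * ramp (‖w‖ / (2 * Vs)) ≤ 1 := fun w =>
    mul_le_one₀ (ramp_le_one _) (ramp_nonneg _) (ramp_le_one _)
  have hg1 : ∀ w, gL X P d1 Zs Vs Cg t x w ≤ f0 X z w + (C3 + Cg) * t ^ 2 := by
    intro w
    have h1 := (abs_le.1 (hcl w)).2
    have h2 : Cg * t ^ 2 * (ramp (‖t⁻¹ • x‖ / (2 * Zs)) * ramp (‖w‖ / (2 * Vs))) ≤ Cg * t ^ 2 * 1 :=
      mul_le_mul_of_nonneg_left (hr1 w) (by positivity)
    unfold gL psi0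
    linarith
  have hg2 : ∀ w, f0 X z w ≤ gL X P d1 Zs Vs Cg t x w + C3 * t ^ 2 := by
    intro w
    have h1 := (abs_le.1 (hcl w)).1
    have h2 : 0 ≤ Cg * t ^ 2 * (ramp (‖t⁻¹ • x‖ / (2 * Zs)) * ramp (‖w‖ / (2 * Vs))) :=
      mul_nonneg (by positivity) (hr0 w)
    unfold gL psi0
    linarith
  have hGAle : ENNReal.ofReal I1 ≤
      GA (phiE P) (fun t x v => ENNReal.ofReal (gL X P d1 Zs Vs Cg t x v)) t x v
        + ENNReal.ofReal (2 * C3 * (t ^ 2 * I2)) := by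
    rw [← hGAψ]
    have h1 : ∀ u, gsE (psiE X t x) v u ≤
        gsE (fun w => ENNReal.ofReal (gL X P d1 Zs Vs Cg t x w)) v u
          + ENNReal.ofReal (2 * π * ‖v - u‖) * ENNReal.ofReal (2 * C3 * t ^ 2) := by
      intro u
      have h2 : gsE (psiE X t x) v u ≤ gsE (fun w => ENNReal.ofReal (gL X P d1 Zs Vs Cg t x w)
          + ENNReal.ofReal (C3 * t ^ 2)) v u := by
        refine gsE_mono (fun w => ?_) v u
        unfold psiE psi0
        exact (ENNReal.ofReal_le_ofReal (hg2 w)).trans ENNReal.ofReal_add_le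
      refine h2.trans ?_
      rw [gsE_add (measurable_gL_slice X P d1 Zs Vs Cg t x).ennreal_ofReal measurable_const, gsE_const]
      refine add_le_add_right ?_ _
      rw [← ENNReal.ofReal_mul (by positivity), ← ENNReal.ofReal_mul (by positivity)]
      refine ENNReal.ofReal_le_ofReal (le_of_eq ?_)
      ring
    unfold GA
    calc ∫⁻ u, phiE P t x u * gsE (psiE X t x) v u
        ≤ ∫⁻ u, (phiE P t x u * gsE (fun w => ENNReal.ofReal (gL X P d1 Zs Vs Cg t x w)) v u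
          + phiE P t x u * ENNReal.ofReal (2 * π * ‖v - u‖) * ENNReal.ofReal (2 * C3 * t ^ 2)) := by
          refine lintegral_mono fun u => ?_
          rw [mul_assoc, ← mul_add]
          exact mul_le_mul_right (h1 u) _
      _ = (∫⁻ u, phiE P t x u * gsE (fun w => ENNReal.ofReal (gL X P d1 Zs Vs Cg t x w)) v u)
          + (∫⁻ u, phiE P t x u * ENNReal.ofReal (2 * π * ‖v - u‖)) *
            ENNReal.ofReal (2 * C3 * t ^ 2) := by
          have hm : Measurable fun u => phiE P t x u * ENNReal.ofReal (2 * π * ‖v - u‖) :=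
            (measurable_phi_slice hP t x).ennreal_ofReal.mul (by fun_prop)
          rw [lintegral_add_right _ (hm.mul_const _), lintegral_mul_const _ hm]
      _ = _ := by
          have h3 : ∫⁻ u, phiE P t x u * ENNReal.ofReal (2 * π * ‖v - u‖) = ENNReal.ofReal I2 := by
            rw [hI2]
            refine lint_phi_ofReal hP (B := 2 * π * (‖v‖ + (P.Y + 2))) (by fun_prop)
              (fun u => by positivity) (fun u hu => ?_) hfin'
            have := norm_sub_le v u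
            have := hsupB u hu
            gcongr
            linarith
          rw [h3, ← ENNReal.ofReal_mul hI2n]
          congr 2
          ring
  -- the real inequality
  have hv := norm_nonneg v
  have hnI : C' * nearI Zs Vs t x v ≤ |C'| := by
    unfold nearI
    split_ifs
    · rw [mul_one]; exact le_abs_self _
    · rw [mul_zero]; exact abs_nonneg _
  set Lgv := Lg X P d1 Zs Vs C' t x v with hLgv
  have hreal : 193 / 200 * N / t * f0 X z v ≤
      Lgv + |C'| + (1 - d1) * I1 - f0 X z v * I2 + C2 * (1 + ‖v‖) := by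
    have e1 : Lgv = t⁻¹ * L0 X z v
      - (chs P 1 (lab P t x) - 197 / 400) *
        (t⁻¹ * th X Zs Vs z v * ws X d1 (P.K * ky P z.2) 1 z v)
      - (chs P (-1) (lab P t x) - 197 / 400) *
        (t⁻¹ * th X Zs Vs z v * ws X d1 (P.K * ky P z.2) (-1) z v)
      - C' * nearI Zs Vs t x v := rfl
    rw [hGGint] at hGG'
    linarith
  have hN0 : 0 ≤ N := by linarith [h.tent.N1]
  have hf0v := hF.nn z v
  have hfinal : max (-Lgv) 0 + I2 * (f0 X z v + (C3 + Cg) * t ^ 2)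
      + 193 / 200 * N / t * f0 X z v + d1 * I1 + 2 * C3 * (t ^ 2 * I2)
      ≤ max Lgv 0 + I1 + (E + 8 * Zs) * (1 + ‖v‖) := by
    have e1 : max (-Lgv) 0 = max Lgv 0 - Lgv := by
      rcases le_total 0 Lgv with h1 | h1
      · rw [max_eq_right (by linarith), max_eq_left h1]; ring
      · rw [max_eq_left (by linarith), max_eq_right h1]; ring
    have e2 : I2 * ((C3 + Cg) * t ^ 2) + 2 * C3 * (t ^ 2 * I2) ≤
        3 * (C3 + Cg) * (P.K * 2 * π * (P.Y + 3) * (1 + ‖v‖)) := by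
      calc I2 * ((C3 + Cg) * t ^ 2) + 2 * C3 * (t ^ 2 * I2) = (3 * C3 + Cg) * (t ^ 2 * I2) := by ring
        _ ≤ (3 * (C3 + Cg)) * (t ^ 2 * I2) := by
            apply mul_le_mul_of_nonneg_right _ (by positivity)
            linarith
        _ ≤ _ := mul_le_mul_of_nonneg_left hI2t (by positivity)
    have e3 : |C'| ≤ |C'| * (1 + ‖v‖) := by nlinarith [abs_nonneg C']
    have e4 : 0 ≤ 8 * Zs * (1 + ‖v‖) := by positivity
    have e5 : (E + 8 * Zs) * (1 + ‖v‖) = C2 * (1 + ‖v‖) + |C'| * (1 + ‖v‖)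
        + 3 * (C3 + Cg) * (P.K * 2 * π * (P.Y + 3) * (1 + ‖v‖)) + 8 * Zs * (1 + ‖v‖) := by
      rw [hE]; ring
    rw [e1, e5]
    have e6 : I2 * (f0 X z v + (C3 + Cg) * t ^ 2) = f0 X z v * I2 + I2 * ((C3 + Cg) * t ^ 2) := by
      ring
    rw [e6]
    linarith
  -- back to ENNReal
  have hif : (if ‖x‖ ≤ (E + 8 * Zs) * t then (1 + ‖v‖) else 0) = 1 + ‖v‖ := by
    rw [if_pos]
    calc ‖x‖ ≤ 8 * Zs * t := hx
      _ ≤ (E + 8 * Zs) * t := by gcongr; linarith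
  rw [hif, hLc, hGAψ]
  have hpsi : psiE X t x v = ENNReal.ofReal (f0 X z v) := rfl
  rw [hpsi]
  have hmx : ∀ r : ℝ, ENNReal.ofReal r = ENNReal.ofReal (max r 0) := fun r => by
    rcases le_total 0 r with h1 | h1
    · rw [max_eq_left h1]
    · rw [max_eq_right h1, ENNReal.ofReal_of_nonpos h1]; simp
  have hb : ENNReal.ofReal (2 * C3 * (t ^ 2 * I2)) ≠ ⊤ := ENNReal.ofReal_ne_top
  have hmain : ENNReal.ofReal (-Lgv) + ENNReal.ofReal I2 * ENNReal.ofReal (gL X P d1 Zs Vs Cg t x v)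
      + ENNReal.ofReal (193 / 200 * N / t) * ENNReal.ofReal (f0 X z v)
      + ENNReal.ofReal d1 * ENNReal.ofReal I1 + ENNReal.ofReal (2 * C3 * (t ^ 2 * I2))
      ≤ ENNReal.ofReal Lgv + ENNReal.ofReal I1 + ENNReal.ofReal ((E + 8 * Zs) * (1 + ‖v‖)) := by
    calc _ ≤ ENNReal.ofReal (max (-Lgv) 0)
          + ENNReal.ofReal (I2 * (f0 X z v + (C3 + Cg) * t ^ 2))
          + ENNReal.ofReal (193 / 200 * N / t * f0 X z v)
          + ENNReal.ofReal (d1 * I1) + ENNReal.ofReal (2 * C3 * (t ^ 2 * I2)) := by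
          rw [ENNReal.ofReal_mul hI2n, ENNReal.ofReal_mul (by positivity : 0 ≤ 193 / 200 * N / t),
            ENNReal.ofReal_mul h.d10.le, ← hmx]
          gcongr
          exact hg1 v
      _ = ENNReal.ofReal (max (-Lgv) 0 + I2 * (f0 X z v + (C3 + Cg) * t ^ 2)
          + 193 / 200 * N / t * f0 X z v + d1 * I1 + 2 * C3 * (t ^ 2 * I2)) := by
          have a1 : 0 ≤ max (-Lgv) 0 := le_max_right _ _
          have a2 : 0 ≤ I2 * (f0 X z v + (C3 + Cg) * t ^ 2) := by positivity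
          have a3 : 0 ≤ 193 / 200 * N / t * f0 X z v := by positivity
          have a4 : 0 ≤ d1 * I1 := mul_nonneg h.d10.le hI1n
          have a5 : 0 ≤ 2 * C3 * (t ^ 2 * I2) := by positivity
          rw [ENNReal.ofReal_add (by positivity) a5, ENNReal.ofReal_add (by positivity) a4,
            ENNReal.ofReal_add (by positivity) a3, ENNReal.ofReal_add a1 a2]
      _ ≤ ENNReal.ofReal (max Lgv 0 + I1 + (E + 8 * Zs) * (1 + ‖v‖)) :=
          ENNReal.ofReal_le_ofReal hfinal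
      _ = _ := by
          have a1 : 0 ≤ max Lgv 0 := le_max_right _ _
          have a3 : 0 ≤ (E + 8 * Zs) * (1 + ‖v‖) := by positivity
          rw [ENNReal.ofReal_add (by positivity) a3, ENNReal.ofReal_add a1 hI1n, ← hmx]
  have hmain2 : ENNReal.ofReal (-Lgv) + ENNReal.ofReal I2 * ENNReal.ofReal (gL X P d1 Zs Vs Cg t x v)
      + ENNReal.ofReal (193 / 200 * N / t) * ENNReal.ofReal (f0 X z v)
      + ENNReal.ofReal d1 * ENNReal.ofReal I1 + ENNReal.ofReal (2 * C3 * (t ^ 2 * I2))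
      ≤ ENNReal.ofReal Lgv + GA (phiE P) (fun t x v => ENNReal.ofReal (gL X P d1 Zs Vs Cg t x v)) t x v
        + ENNReal.ofReal ((E + 8 * Zs) * (1 + ‖v‖)) + ENNReal.ofReal (2 * C3 * (t ^ 2 * I2)) := by
    refine hmain.trans ?_
    calc _ ≤ ENNReal.ofReal Lgv
          + (GA (phiE P) (fun t x v => ENNReal.ofReal (gL X P d1 Zs Vs Cg t x v)) t x v
            + ENNReal.ofReal (2 * C3 * (t ^ 2 * I2)))
          + ENNReal.ofReal ((E + 8 * Zs) * (1 + ‖v‖)) := by gcongr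
      _ = _ := by ring
  exact (ENNReal.add_le_add_iff_right hb).1 hmain2

end Crest.Agent.R68.X2.PL
end
end

-- ▼ part R68/X2Fl4
section

/-!
# Row 68, PART X2 (helper180): integration by parts against the lane corrector, general form (file 4)
-/

set_option autoImplicit false
open MeasureTheory Set Filter
open scoped ENNReal NNReal Real Topology
open Crest.AnalysisR.VecCalc3 Crest.AnalysisR.PDE.Boltzmann

noncomputable section

namespace Crest.Agent.R68.X2.Fl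

open Crest.Agent.R68.X

variable {P : Par} {t0 t1 t2 : ℝ} {x : P2} {v : R3}

theorem continuousOn_aF (hpos : ∀ t ∈ Icc t1 t2, 0 < P.dl + P.c * t) :
    ContinuousOn (aF P t0 x v) (Icc t1 t2) := fun t ht =>
  (hasDerivAt_aF (hpos t ht).ne').continuousAt.continuousWithinAt

theorem ii_er' (h12 : t1 ≤ t2) (hpos : ∀ t ∈ Icc t1 t2, 0 < P.dl + P.c * t) (s : ℝ) {G : ℝ → ℝ}
    (hGc : ContinuousOn G (Icc t1 t2)) :
    IntervalIntegrable (fun t => er s (aF P t0 x v t) * G t) volume t1 t2 := by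
  have hca := continuousOn_aF (P := P) (t0 := t0) (x := x) (v := v) hpos
  obtain ⟨C, hC⟩ := isCompact_Icc.exists_bound_of_continuousOn hca
  refine ii_mul180 (C := C ^ 2) h12
    ((measurable_er s).comp_aemeasurable (hca.aemeasurable measurableSet_Icc)).aestronglyMeasurable
    (fun t ht => ?_) hGc
  refine (abs_er_le s _).trans ?_
  rw [← sq_abs (aF P t0 x v t)]
  exact pow_le_pow_left₀ (abs_nonneg _) (hC t ht) 2

/-- exact form; the label has to be small only where `G ≠ 0` -/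
theorem lane_int' (hj : 1 ≤ P.j0) {s : ℝ} (hs : s = 1 ∨ s = -1) (h12 : t1 ≤ t2)
    (hpos : ∀ t ∈ Icc t1 t2, 0 < P.dl + P.c * t) {G : ℝ → ℝ}
    (ha : ∀ t ∈ Icc t1 t2, G t ≠ 0 → |aF P t0 x v t| < P.dl) (hq : qF P t0 x v t1 ≠ 0)
    (hG : AbsolutelyContinuousOnInterval G t1 t2) :
    ∫ t in t1..t2, (chs P s (aF P t0 x v t) - 197 / 400) * G t =
      -(Cs s (aF P t0 x v t2) * (mF P t0 x v t2 * G t2) -
        Cs s (aF P t0 x v t1) * (mF P t0 x v t1 * G t1)) +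
      (∫ t in t1..t2, Cs s (aF P t0 x v t) * deriv (fun τ => mF P t0 x v τ * G τ) t) +
      ∫ t in t1..t2, er s (aF P t0 x v t) * G t := by
  have h1 := (hpos t1 (left_mem_Icc.2 h12)).ne'
  have hf := ac_Cs_aF (P := P) (t0 := t0) (x := x) (v := v) s h12 hpos
  have hg : AbsolutelyContinuousOnInterval (fun τ => mF P t0 x v τ * G τ) t1 t2 :=
    (ac_mF h12 hpos).mul hG
  have hGc := hG.continuousOn
  rw [uIcc_of_le h12] at hGc
  have key := hf.integral_mul_deriv_eq_deriv_mul hg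
  have hae : ∀ᵐ t : ℝ, t ∈ uIoc t1 t2 →
      deriv (fun τ => Cs s (aF P t0 x v τ)) t * (mF P t0 x v t * G t) =
        -((chs P s (aF P t0 x v t) - 197 / 400) * G t) + er s (aF P t0 x v t) * G t := by
    filter_upwards [ae_aF_ne (P := P) (t0 := t0) (x := x) (v := v) hj h12 hpos hq] with t ht htI
    rw [uIoc_of_le h12] at htI
    have htI' : t ∈ Icc t1 t2 := ⟨htI.1.le, htI.2⟩
    have hp := (hpos t htI').ne'
    have hqt := qF_ne h1 hp hq
    by_cases hG0 : G t = 0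
    · rw [hG0]; ring
    · rw [(hasDerivAt_Cs_aF hj hs hp (ht htI') (ha t htI' hG0)).deriv]
      have := mF_mul (P := P) (t0 := t0) (x := x) (v := v) hj hp hqt
      linear_combination
        ((-(chs P s (aF P t0 x v t) - 197 / 400) + er s (aF P t0 x v t)) * G t) * this
  have hI2 := ii_er' (P := P) (t0 := t0) (x := x) (v := v) h12 hpos s hGc
  have hI1 := ii_chs (P := P) (t0 := t0) (x := x) (v := v) h12 hpos s hGc
  have h3 : ∫ t in t1..t2, deriv (fun τ => Cs s (aF P t0 x v τ)) t * (mF P t0 x v t * G t) =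
      -(∫ t in t1..t2, (chs P s (aF P t0 x v t) - 197 / 400) * G t) +
        ∫ t in t1..t2, er s (aF P t0 x v t) * G t := by
    have hI1n : IntervalIntegrable (fun t => -((chs P s (aF P t0 x v t) - 197 / 400) * G t))
        volume t1 t2 := hI1.neg
    rw [intervalIntegral.integral_congr_ae hae, ← intervalIntegral.integral_neg,
      ← intervalIntegral.integral_add hI1n hI2]
  rw [h3] at key
  linarith [key]

/-- BOUND form -/
theorem lane_le' (hj : 1 ≤ P.j0) {s : ℝ} (hs : s = 1 ∨ s = -1) (h12 : t1 ≤ t2)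
    (hpos : ∀ t ∈ Icc t1 t2, 0 < P.dl + P.c * t) {G : ℝ → ℝ}
    (ha : ∀ t ∈ Icc t1 t2, G t ≠ 0 → |aF P t0 x v t| < P.dl) (hq : qF P t0 x v t1 ≠ 0)
    (hG : AbsolutelyContinuousOnInterval G t1 t2)
    {E : ℝ → ℝ} (hE : IntervalIntegrable E volume t1 t2)
    (hEb : ∀ t : ℝ, t ∈ Ioc t1 t2 →
      |aF P t0 x v t| ^ 3 / 2 * (|2 * P.c / (P.dl * qF P t0 x v t)| * |G t| +
        |mF P t0 x v t| * |deriv G t|) + aF P t0 x v t ^ 2 * |G t| ≤ E t) :
    |(∫ t in t1..t2, (chs P s (aF P t0 x v t) - 197 / 400) * G t) +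
      (Cs s (aF P t0 x v t2) * (mF P t0 x v t2 * G t2) -
        Cs s (aF P t0 x v t1) * (mF P t0 x v t1 * G t1))| ≤ ∫ t in t1..t2, E t := by
  have h1 := (hpos t1 (left_mem_Icc.2 h12)).ne'
  rw [lane_int' hj hs h12 hpos ha hq hG]
  have e1 : ∀ a b c d : ℝ, -(a - b) + c + d + (a - b) = c + d := by intros; ring
  rw [e1]
  have hGc := hG.continuousOn
  rw [uIcc_of_le h12] at hGc
  have hg : AbsolutelyContinuousOnInterval (fun τ => mF P t0 x v τ * G τ) t1 t2 :=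
    (ac_mF h12 hpos).mul hG
  have hf := ac_Cs_aF (P := P) (t0 := t0) (x := x) (v := v) s h12 hpos
  have hI1 : IntervalIntegrable
      (fun t => Cs s (aF P t0 x v t) * deriv (fun τ => mF P t0 x v τ * G τ) t) volume t1 t2 :=
    hg.intervalIntegrable_deriv.continuousOn_mul hf.continuousOn
  have hI2 := ii_er' (P := P) (t0 := t0) (x := x) (v := v) h12 hpos s hGc
  rw [← intervalIntegral.integral_add hI1 hI2]
  rw [← Real.norm_eq_abs]
  refine (intervalIntegral.norm_integral_le_of_norm_le h12 ?_ hE)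
  filter_upwards [hG.ae_differentiableAt] with t hdG htI
  have htI' : t ∈ Icc t1 t2 := ⟨htI.1.le, htI.2⟩
  refine le_trans ?_ (hEb t htI)
  have hp := (hpos t htI').ne'
  have hd : deriv (fun τ => mF P t0 x v τ * G τ) t =
      2 * P.c / (P.dl * qF P t0 x v t) * G t + mF P t0 x v t * deriv G t :=
    ((hasDerivAt_mF hp).fun_mul
      (hdG (by rw [uIcc_of_le h12]; exact htI')).hasDerivAt).deriv
  rw [hd, Real.norm_eq_abs]
  refine (abs_add_le _ _).trans (add_le_add ?_ ?_)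
  · rw [abs_mul]
    refine mul_le_mul (abs_Cs_le s _) ?_ (abs_nonneg _) (by positivity)
    refine (abs_add_le _ _).trans ?_
    rw [abs_mul, abs_mul]
  · rw [abs_mul]
    exact mul_le_mul_of_nonneg_right (abs_er_le s _) (abs_nonneg _)

end Crest.Agent.R68.X2.Fl
end
end

-- ▼ part R68/X2LowFl
section

/-!
# Row 68, PART X2 (helper180): the corrected test function along flights
-/

set_option autoImplicit false
open MeasureTheory Set Filter
open scoped ENNReal NNReal Real Topology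
open Crest.AnalysisR.VecCalc3 Crest.AnalysisR.PDE.Boltzmann

noncomputable section

namespace Crest.Agent.R68.X2.Fl

open Crest.Agent.R68.X

variable {X : XP} {P : Par} {C d1 Zs Vs : ℝ} {s r : ℝ} {x : P2} {v : R3} {ρ : ℝ}

theorem zF_smul (hρ : ρ ≠ 0) : x + (ρ - s) • bar v = ρ • zF s x v ρ := by
  unfold zF
  rw [smul_smul, mul_inv_cancel₀ hρ, one_smul]

theorem norm_zF (hρ : 0 < ρ) : ‖x + (ρ - s) • bar v‖ = ρ * ‖zF s x v ρ‖ := by
  rw [zF_smul hρ.ne', norm_smul, Real.norm_of_nonneg hρ.le]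

/-! ### the near-zone indicator along a flight -/

/-- near-zone indicator along a flight -/
def nI (Zs Vs s : ℝ) (x : P2) (v : R3) (ρ : ℝ) : ℝ := nearI Zs Vs ρ (x + (ρ - s) • bar v) v

theorem nI_nonneg : 0 ≤ nI Zs Vs s x v ρ := by
  unfold nI nearI; split_ifs <;> norm_num

theorem nI_le_one : nI Zs Vs s x v ρ ≤ 1 := by
  unfold nI nearI; split_ifs <;> norm_num

theorem nI_eq_one (hρ : 0 < ρ) (hz : ‖zF s x v ρ‖ ≤ 4 * Zs) (hv : ‖v‖ ≤ 4 * Vs) :
    nI Zs Vs s x v ρ = 1 := by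
  unfold nI nearI
  rw [if_pos]
  refine ⟨?_, hv⟩
  rw [norm_zF hρ]
  nlinarith

theorem measurable_nI : Measurable (nI Zs Vs s x v) := by
  unfold nI nearI
  classical
  refine Measurable.ite ?_ measurable_const measurable_const
  have h1 : MeasurableSet {ρ : ℝ | ‖x + (ρ - s) • bar v‖ ≤ 4 * Zs * ρ} :=
    measurableSet_le (by fun_prop) (by fun_prop)
  exact h1.inter (MeasurableSet.const _)

theorem ii_nI : IntervalIntegrable (nI Zs Vs s x v) volume s r := by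
  rw [intervalIntegrable_iff]
  refine IntegrableOn.of_bound (by simp [uIoc]) measurable_nI.aestronglyMeasurable 1
    (Eventually.of_forall fun ρ => ?_)
  rw [Real.norm_of_nonneg nI_nonneg]
  exact nI_le_one

/-! ### the oscillating part along a flight -/

/-- oscillating part along a flight -/
def oF (X : XP) (P : Par) (d1 Zs Vs σ s : ℝ) (x : P2) (v : R3) (ρ : ℝ) : ℝ :=
  osc X P d1 Zs Vs σ ρ (x + (ρ - s) • bar v) v

theorem oF_eq (X : XP) (P : Par) (d1 Zs Vs σ s : ℝ) (x : P2) (v : R3) (ρ : ℝ) :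
    oF X P d1 Zs Vs σ s x v ρ = ρ⁻¹ * gW X P d1 Zs Vs σ v (zF s x v ρ) := by
  unfold oF zF
  rw [osc_eq]

variable {g : P2 → ℝ} {Cb CL R V : ℝ}

theorem inv_ac (h : BL g Cb CL R) (hR : 0 ≤ R) (hs : 0 < s) (hsr : s ≤ r) :
    AbsolutelyContinuousOnInterval (fun ρ => ρ⁻¹ * g (zF s x v ρ)) s r := by
  have h1 : AbsolutelyContinuousOnInterval (fun ρ : ℝ => ρ⁻¹) s r := by
    apply ContDiffOn.absolutelyContinuousOnInterval
    rw [uIcc_of_le hsr]
    exact contDiffOn_id.inv fun y hy => (hs.trans_le hy.1).ne'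
  exact h1.mul (h.ac hR hs hsr)

theorem inv_bound (h : BL g Cb CL R) (hρ : 0 < ρ) : |ρ⁻¹ * g (zF s x v ρ)| ≤ Cb / ρ := by
  rw [abs_mul, abs_of_pos (inv_pos.2 hρ), div_eq_inv_mul]
  exact mul_le_mul_of_nonneg_left (h.b _) (inv_pos.2 hρ).le

theorem inv_deriv (h : BL g Cb CL R) (hR : 0 ≤ R) (hv : ‖v‖ ≤ V) (hρ : 0 < ρ) :
    |deriv (fun ρ => ρ⁻¹ * g (zF s x v ρ)) ρ| ≤ (Cb + 2 * CL * (V + R)) / ρ ^ 2 := by
  have hV : 0 ≤ V := (norm_nonneg v).trans hv
  have hCL := h.CL0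
  have hCb := h.Cb0
  by_cases hd : DifferentiableAt ℝ (fun ρ => ρ⁻¹ * g (zF s x v ρ)) ρ
  · have h1 : deriv (fun ρ => g (zF s x v ρ)) ρ =
        ρ⁻¹ * g (zF s x v ρ) + ρ * deriv (fun ρ => ρ⁻¹ * g (zF s x v ρ)) ρ := by
      have h2 := (hasDerivAt_id ρ).fun_mul hd.hasDerivAt
      have h3 : (fun ρ => g (zF s x v ρ)) =ᶠ[𝓝 ρ] fun ρ => id ρ * (ρ⁻¹ * g (zF s x v ρ)) := by
        filter_upwards [eventually_ne_nhds hρ.ne'] with a ha
        rw [id, ← mul_assoc, mul_inv_cancel₀ ha, one_mul]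
      rw [h3.deriv_eq, h2.deriv]
      simp
    have h4 := h.deriv_le (s := s) (x := x) hR hv hρ
    have h5 := inv_bound (s := s) (x := x) (v := v) h hρ
    have h6 : ρ * |deriv (fun ρ => ρ⁻¹ * g (zF s x v ρ)) ρ| ≤ (Cb + 2 * CL * (V + R)) / ρ := by
      have h7 : ρ * deriv (fun ρ => ρ⁻¹ * g (zF s x v ρ)) ρ =
          deriv (fun ρ => g (zF s x v ρ)) ρ - ρ⁻¹ * g (zF s x v ρ) := by rw [h1]; ring
      calc ρ * |deriv (fun ρ => ρ⁻¹ * g (zF s x v ρ)) ρ|
          = |ρ * deriv (fun ρ => ρ⁻¹ * g (zF s x v ρ)) ρ| := by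
            rw [abs_mul, abs_of_pos hρ]
        _ ≤ |deriv (fun ρ => g (zF s x v ρ)) ρ| + |ρ⁻¹ * g (zF s x v ρ)| := by
            rw [h7]; exact abs_sub _ _
        _ ≤ 2 * CL * (V + R) / ρ + Cb / ρ := add_le_add h4 h5
        _ = _ := by ring
    rw [pow_two, ← div_div, le_div_iff₀ hρ, mul_comm]
    exact h6
  · rw [deriv_zero_of_not_differentiableAt hd, abs_zero]
    positivity

theorem inv_deriv_zero (h : BL g Cb CL R) (hρ : 0 < ρ) (hz : R < ‖zF s x v ρ‖) :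
    deriv (fun ρ => ρ⁻¹ * g (zF s x v ρ)) ρ = 0 := by
  have h1 : (fun ρ => ρ⁻¹ * g (zF s x v ρ)) =ᶠ[𝓝 ρ] fun _ => (0 : ℝ) := by
    have h2 : ContinuousAt (fun ρ => ‖zF s x v ρ‖) ρ := (continuousAt_zF hρ.ne').norm
    filter_upwards [h2.eventually_const_lt hz] with a ha
    rw [h.z _ ha.le, mul_zero]
  rw [h1.deriv_eq]
  simp

/-! ### label and relative velocity in the near zone -/

theorem abs_aF_le (hP : P.Ok) (hρ : 0 < ρ) {Z : ℝ} (hz : ‖zF s x v ρ‖ ≤ Z) :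
    |aF P s x v ρ| ≤ Z * ρ := by
  have hd := dl_pos (le_trans (by norm_num) hP.j0 : 1 ≤ P.j0)
  have hc := hP.c0
  have h0 : 0 < P.dl + P.c * ρ := by positivity
  unfold aF lab
  rw [zF_smul hρ.ne', Prod.smul_fst, smul_eq_mul, abs_div, abs_mul, abs_mul, abs_of_pos hd,
    abs_of_pos hρ, abs_of_pos h0, div_le_iff₀ h0]
  have h1 := (abs_fst_le (zF s x v ρ)).trans hz
  have h2 : 0 ≤ Z := (norm_nonneg _).trans hz
  have h3 : ρ * |(zF s x v ρ).1| ≤ ρ * Z := mul_le_mul_of_nonneg_left h1 hρ.le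
  have h4 : 0 ≤ Z * ρ * (P.c * ρ) := by positivity
  nlinarith

theorem qF_lower (hP : P.Ok) (hρ : 0 < ρ) {Z d : ℝ} (hz : ‖zF s x v ρ‖ ≤ Z) (hv : d / 2 ≤ |v 0|)
    (ht : 4 * P.c * (Z * ρ) ≤ d * P.dl) : d / 4 ≤ |qF P s x v ρ| := by
  have hd := dl_pos (le_trans (by norm_num) hP.j0 : 1 ≤ P.j0)
  have hc := hP.c0
  have h0 : 0 < P.dl + P.c * ρ := by positivity
  have h1 := (abs_fst_le (zF s x v ρ)).trans hz
  have h2 : 0 ≤ Z := (norm_nonneg _).trans hz
  have h3 : |P.c * (x + (ρ - s) • bar v).1 / (P.dl + P.c * ρ)| ≤ d / 4 := by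
    rw [zF_smul hρ.ne', Prod.smul_fst, smul_eq_mul, abs_div, abs_mul, abs_mul, abs_of_pos hc,
      abs_of_pos hρ, abs_of_pos h0, div_le_iff₀ h0]
    have h4 : P.c * (ρ * |(zF s x v ρ).1|) ≤ P.c * (ρ * Z) :=
      mul_le_mul_of_nonneg_left (mul_le_mul_of_nonneg_left h1 hρ.le) hc.le
    have h5 : 0 ≤ d := by
      by_contra hneg
      push Not at hneg
      have : d * P.dl < 0 := mul_neg_of_neg_of_pos hneg hd
      have : 0 ≤ 4 * P.c * (Z * ρ) := by positivity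
      linarith
    have h6 : 0 ≤ d * (P.c * ρ) := by positivity
    nlinarith
  unfold qF
  have h7 := abs_sub_abs_le_abs_sub (v 0) (P.c * (x + (ρ - s) • bar v).1 / (P.dl + P.c * ρ))
  linarith

/-- constants -/
def CE (X : XP) (P : Par) (C Zs Vs : ℝ) : ℝ :=
  4 * Zs ^ 3 * (8 * P.c / (P.dl * X.d) * CbW P C Zs Vs +
    4 * (P.dl + P.c) / (P.dl * X.d) * (CbW P C Zs Vs + 2 * ClW P C Zs Vs * (2 * Vs + 2 * Zs))) +
    4 * Zs ^ 2 * CbW P C Zs Vs

theorem CE_nonneg (hP : P.Ok) (hC : 0 ≤ C) (hd : 0 < X.d) (hZs : 1 ≤ Zs) (hVs : 1 ≤ Vs) :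
    0 ≤ CE X P C Zs Vs := by
  have hdl := dl_pos (le_trans (by norm_num) hP.j0 : 1 ≤ P.j0)
  have hc := hP.c0
  have hK := hP.K0
  have hey := hP.ey0
  have hZ : 0 < Zs := by linarith
  have hV : 0 < Vs := by linarith
  have h1 : 0 ≤ CbW P C Zs Vs := by unfold CbW; positivity
  have h2 : 0 ≤ ClW P C Zs Vs := by unfold ClW; positivity
  unfold CE
  positivity

/-- pointwise bound of the error in the integration by parts -/
theorem err_le (hP : P.Ok) (hF : F0H X C) (hd : 0 < X.d) (hd0 : 0 < d1) (hd1 : d1 < 1)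
    (hZs : 1 ≤ Zs) (hVs : 1 ≤ Vs) {σ : ℝ} (hσ : |σ| = 1) (hρ : 0 < ρ) (hρ1 : ρ ≤ 1)
    (ht : 4 * P.c * (2 * Zs * ρ) ≤ X.d * P.dl) :
    |aF P s x v ρ| ^ 3 / 2 * (|2 * P.c / (P.dl * qF P s x v ρ)| * |oF X P d1 Zs Vs σ s x v ρ| +
      |mF P s x v ρ| * |deriv (oF X P d1 Zs Vs σ s x v) ρ|) +
      aF P s x v ρ ^ 2 * |oF X P d1 Zs Vs σ s x v ρ| ≤ CE X P C Zs Vs * nI Zs Vs s x v ρ := by
  have hdl := dl_pos (le_trans (by norm_num) hP.j0 : 1 ≤ P.j0)
  have hc := hP.c0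
  have hC0 : 0 ≤ C := zero_le_one.trans hF.C1
  have hE := CE_nonneg (X := X) hP hC0 hd hZs hVs
  have hB := BL_gW hP.K0 hP.ey0 hZs hVs hF hd0 hd1 hσ v
  have hCb := hB.Cb0
  have hCL := hB.CL0
  have hfun : oF X P d1 Zs Vs σ s x v = fun ρ => ρ⁻¹ * gW X P d1 Zs Vs σ v (zF s x v ρ) := by
    ext ρ; rw [oF_eq]
  have hzero : ∀ {G0 G1 : ℝ}, G0 = 0 → G1 = 0 →
      |aF P s x v ρ| ^ 3 / 2 * (|2 * P.c / (P.dl * qF P s x v ρ)| * |G0| +
        |mF P s x v ρ| * |G1|) + aF P s x v ρ ^ 2 * |G0| ≤ CE X P C Zs Vs * nI Zs Vs s x v ρ := by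
    intro G0 G1 h0 h1
    rw [h0, h1, abs_zero, mul_zero, mul_zero, add_zero, mul_zero, mul_zero, add_zero]
    exact mul_nonneg hE nI_nonneg
  -- trivial cases
  rcases le_or_gt (2 * Vs) ‖v‖ with hv | hv
  · have h0 : oF X P d1 Zs Vs σ s x v = fun _ => 0 := by
      rw [hfun]; ext ρ
      unfold gW
      rw [th_eq_zero_v (by linarith) hv, zero_mul, mul_zero]
    refine hzero ?_ ?_
    · rw [h0]
    · rw [h0]; simp
  rcases le_or_gt |v 0| (X.d / 2) with hv0 | hv0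
  · have h0 : oF X P d1 Zs Vs σ s x v = fun _ => 0 := by
      rw [hfun]; ext ρ
      unfold gW
      rw [th_eq_zero_d hd hv0, zero_mul, mul_zero]
    refine hzero ?_ ?_
    · rw [h0]
    · rw [h0]; simp
  rcases lt_or_ge (2 * Zs) ‖zF s x v ρ‖ with hz | hz
  · refine hzero ?_ ?_
    · rw [oF_eq, hB.z _ hz.le, mul_zero]
    · rw [hfun]; exact inv_deriv_zero hB hρ hz
  -- main case
  have hnI : nI Zs Vs s x v ρ = 1 := nI_eq_one hρ (by linarith) (by linarith)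
  rw [hnI, mul_one]
  have ha := abs_aF_le (P := P) hP hρ hz
  have hq := qF_lower (d := X.d) hP hρ hz hv0.le ht
  have hq0 : 0 < |qF P s x v ρ| := lt_of_lt_of_le (by positivity) hq
  have hG : |oF X P d1 Zs Vs σ s x v ρ| ≤ CbW P C Zs Vs / ρ := by
    rw [oF_eq]; exact inv_bound hB hρ
  have hG' : |deriv (oF X P d1 Zs Vs σ s x v) ρ| ≤
      (CbW P C Zs Vs + 2 * ClW P C Zs Vs * (2 * Vs + 2 * Zs)) / ρ ^ 2 := by
    rw [hfun]; exact inv_deriv hB (by positivity) hv.le hρ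
  have h2c : |2 * P.c / (P.dl * qF P s x v ρ)| ≤ 8 * P.c / (P.dl * X.d) := by
    rw [abs_div, abs_mul, abs_mul, abs_two, abs_of_pos hc, abs_of_pos hdl,
      div_le_div_iff₀ (by positivity) (by positivity)]
    have : P.c * P.dl * X.d ≤ P.c * P.dl * (4 * |qF P s x v ρ|) :=
      mul_le_mul_of_nonneg_left (by linarith) (by positivity)
    nlinarith
  have hm : |mF P s x v ρ| ≤ 4 * (P.dl + P.c) / (P.dl * X.d) := by
    unfold mF
    have hp : 0 < P.dl + P.c * ρ := by positivity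
    rw [abs_div, abs_mul, abs_of_pos hdl, abs_of_pos hp,
      div_le_div_iff₀ (by positivity) (by positivity)]
    have h1 : P.dl + P.c * ρ ≤ P.dl + P.c := by
      have : P.c * ρ ≤ P.c * 1 := mul_le_mul_of_nonneg_left hρ1 hc.le
      linarith
    calc (P.dl + P.c * ρ) * (P.dl * X.d) ≤ (P.dl + P.c) * (P.dl * (4 * |qF P s x v ρ|)) := by
          gcongr
          linarith
      _ = _ := by ring
  have ha3 : |aF P s x v ρ| ^ 3 / 2 ≤ 4 * Zs ^ 3 * ρ ^ 3 := by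
    have : |aF P s x v ρ| ^ 3 ≤ (2 * Zs * ρ) ^ 3 := pow_le_pow_left₀ (abs_nonneg _) ha 3
    calc |aF P s x v ρ| ^ 3 / 2 ≤ (2 * Zs * ρ) ^ 3 / 2 := by linarith
      _ = _ := by ring
  have ha2 : aF P s x v ρ ^ 2 ≤ 4 * Zs ^ 2 * ρ ^ 2 := by
    rw [← sq_abs (aF P s x v ρ)]
    calc |aF P s x v ρ| ^ 2 ≤ (2 * Zs * ρ) ^ 2 := pow_le_pow_left₀ (abs_nonneg _) ha 2
      _ = _ := by ring
  have hA0 : 0 ≤ 8 * P.c / (P.dl * X.d) := by positivity
  have hB0 : 0 ≤ 4 * (P.dl + P.c) / (P.dl * X.d) := by positivity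
  set B := 4 * (P.dl + P.c) / (P.dl * X.d)
  set A := 8 * P.c / (P.dl * X.d)
  set b := CbW P C Zs Vs
  set b' := b + 2 * ClW P C Zs Vs * (2 * Vs + 2 * Zs)
  have hb' : 0 ≤ b' := by positivity
  have hZ0 : 0 < Zs := by linarith
  calc _ ≤ 4 * Zs ^ 3 * ρ ^ 3 * (A * (b / ρ) + B * (b' / ρ ^ 2)) + 4 * Zs ^ 2 * ρ ^ 2 * (b / ρ) := by
        apply add_le_add
        · apply mul_le_mul ha3 _ (by positivity) (by positivity)
          exact add_le_add (mul_le_mul h2c hG (abs_nonneg _) hA0)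
            (mul_le_mul hm hG' (abs_nonneg _) hB0)
        · exact mul_le_mul ha2 hG (abs_nonneg _) (by positivity)
    _ = 4 * Zs ^ 3 * (A * b) * ρ ^ 2 + 4 * Zs ^ 3 * (B * b') * ρ + 4 * Zs ^ 2 * b * ρ := by
        field_simp
    _ ≤ 4 * Zs ^ 3 * (A * b) * 1 + 4 * Zs ^ 3 * (B * b') * 1 + 4 * Zs ^ 2 * b * 1 := by
        have : ρ ^ 2 ≤ 1 := pow_le_one₀ hρ.le hρ1
        gcongr
    _ = CE X P C Zs Vs := by
        unfold CE
        ring

/-- increment of one corrector term -/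
theorem corr_one (hP : P.Ok) (hF : F0H X C) (hd : 0 < X.d) (hd0 : 0 < d1) (hd1 : d1 < 1)
    (hZs : 1 ≤ Zs) (hVs : 1 ≤ Vs) {σ : ℝ} (hσ : σ = 1 ∨ σ = -1) (hs : 0 < s) (hsr : s ≤ r)
    (hr1 : r ≤ 1) (ht1 : 4 * P.c * (2 * Zs * r) ≤ X.d * P.dl) (ht2 : 2 * Zs * r < P.dl) :
    -(∫ ρ in s..r, (chs P σ (aF P s x v ρ) - 197 / 400) * oF X P d1 Zs Vs σ s x v ρ) -
      (∫ ρ in s..r, CE X P C Zs Vs * nI Zs Vs s x v ρ) ≤
      Cs σ (aF P s x v r) * (mF P s x v r * oF X P d1 Zs Vs σ s x v r) -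
        Cs σ (aF P s x v s) * (mF P s x v s * oF X P d1 Zs Vs σ s x v s) := by
  have hj : 1 ≤ P.j0 := le_trans (by norm_num) hP.j0
  have hdl := dl_pos hj
  have hc := hP.c0
  have hC0 : 0 ≤ C := zero_le_one.trans hF.C1
  have hE := CE_nonneg (X := X) hP hC0 hd hZs hVs
  have hσ' : |σ| = 1 := by rcases hσ with rfl | rfl <;> norm_num
  have hB := BL_gW hP.K0 hP.ey0 hZs hVs hF hd0 hd1 hσ' v
  have hfun : oF X P d1 Zs Vs σ s x v = fun ρ => ρ⁻¹ * gW X P d1 Zs Vs σ v (zF s x v ρ) := by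
    ext ρ; rw [oF_eq]
  have hpos : ∀ t ∈ Icc s r, 0 < P.dl + P.c * t := fun t ht => by
    have : 0 < t := hs.trans_le ht.1
    positivity
  have hsmall : ∀ t ∈ Icc s r, 4 * P.c * (2 * Zs * t) ≤ X.d * P.dl := fun t ht => by
    refine le_trans ?_ ht1
    have h0 : t ≤ r := ht.2
    gcongr
  have hsupp : ∀ t ∈ Icc s r, oF X P d1 Zs Vs σ s x v t ≠ 0 →
      ‖zF s x v t‖ ≤ 2 * Zs ∧ X.d / 2 ≤ |v 0| := by
    intro t _ hne
    constructor
    · by_contra h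
      push Not at h
      exact hne (by rw [oF_eq, hB.z _ h.le, mul_zero])
    · by_contra h
      push Not at h
      apply hne
      rw [oF_eq]
      unfold gW
      rw [th_eq_zero_d hd h.le, zero_mul, mul_zero]
  by_cases hq : qF P s x v s = 0
  · -- degenerate: everything vanishes
    have hq' : ∀ t ∈ Icc s r, qF P s x v t = 0 := by
      intro t ht
      by_contra hne
      exact qF_ne (hpos t ht).ne' (hpos s (left_mem_Icc.2 hsr)).ne' hne hq
    have hG0 : ∀ t ∈ Icc s r, oF X P d1 Zs Vs σ s x v t = 0 := by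
      intro t ht
      by_contra hne
      obtain ⟨h1, h2⟩ := hsupp t ht hne
      have h3 := qF_lower (d := X.d) hP (hs.trans_le ht.1) h1 h2 (hsmall t ht)
      rw [hq' t ht, abs_zero] at h3
      linarith
    have hi : ∫ ρ in s..r, (chs P σ (aF P s x v ρ) - 197 / 400) * oF X P d1 Zs Vs σ s x v ρ = 0 := by
      rw [intervalIntegral.integral_congr (g := fun _ => (0 : ℝ))]
      · simp
      · intro t ht
        rw [uIcc_of_le hsr] at ht
        simp only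
        rw [hG0 t ht, mul_zero]
    rw [hi, hG0 r (right_mem_Icc.2 hsr), hG0 s (left_mem_Icc.2 hsr)]
    have : 0 ≤ ∫ ρ in s..r, CE X P C Zs Vs * nI Zs Vs s x v ρ :=
      intervalIntegral.integral_nonneg hsr fun t _ => mul_nonneg hE nI_nonneg
    simp only [mul_zero, sub_zero, neg_zero, zero_sub]
    linarith
  · have hac : AbsolutelyContinuousOnInterval (oF X P d1 Zs Vs σ s x v) s r := by
      rw [hfun]; exact inv_ac hB (by positivity) hs hsr
    have h := lane_le' (P := P) (t0 := s) (x := x) (v := v) hj hσ hsr hpos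
      (G := oF X P d1 Zs Vs σ s x v) (fun t ht hne => by
        obtain ⟨h1, _⟩ := hsupp t ht hne
        refine lt_of_le_of_lt (abs_aF_le hP (hs.trans_le ht.1) h1) (lt_of_le_of_lt ?_ ht2)
        exact mul_le_mul_of_nonneg_left ht.2 (by positivity)) hq hac
      (E := fun ρ => CE X P C Zs Vs * nI Zs Vs s x v ρ) (ii_nI.const_mul _)
      (fun t ht => by
        have ht' : t ∈ Icc s r := ⟨ht.1.le, ht.2⟩
        exact err_le hP hF hd hd0 hd1 hZs hVs hσ' (hs.trans ht.1) (ht.2.trans hr1) (hsmall t ht'))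
    have h2 := (abs_le.1 h).1
    linarith

/-! ### the third term -/

theorem BL_ramp (hZs : 1 ≤ Zs) : BL (fun z : P2 => ramp (‖z‖ / (2 * Zs))) 1 1 (4 * Zs) where
  b := fun z => abs_ramp_le _
  l := fun z z' => by
    have hZ0 : 0 < 2 * Zs := by linarith
    refine (abs_ramp_sub _ _).trans ?_
    rw [← sub_div, abs_div, abs_of_pos hZ0, one_mul]
    exact (div_le_self (abs_nonneg _) (by linarith)).trans (abs_norm_sub_norm_le _ _)
  z := fun z hz => by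
    apply ramp_eq_zero
    rw [le_div_iff₀ (by linarith)]
    linarith

/-- the third term along a flight -/
def hF3 (Cg Zs Vs s : ℝ) (x : P2) (v : R3) (ρ : ℝ) : ℝ :=
  Cg * ρ ^ 2 * (ramp (‖ρ⁻¹ • (x + (ρ - s) • bar v)‖ / (2 * Zs)) * ramp (‖v‖ / (2 * Vs)))

theorem third (hZs : 1 ≤ Zs) (hVs : 1 ≤ Vs) (Cg : ℝ) (hs : 0 < s) (hsr : s ≤ r) (hr1 : r ≤ 1) :
    -(∫ ρ in s..r, |Cg| * (2 + 8 * (Vs + Zs)) * nI Zs Vs s x v ρ) ≤
      hF3 Cg Zs Vs s x v r - hF3 Cg Zs Vs s x v s := by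
  have hC : 0 ≤ |Cg| * (2 + 8 * (Vs + Zs)) := by positivity
  rcases le_or_gt (4 * Vs) ‖v‖ with hv | hv
  · have h0 : ∀ ρ, hF3 Cg Zs Vs s x v ρ = 0 := fun ρ => by
      unfold hF3
      rw [ramp_eq_zero (a := ‖v‖ / (2 * Vs)) (by rw [le_div_iff₀ (by linarith)]; linarith)]
      ring
    rw [h0, h0, sub_zero]
    have : 0 ≤ ∫ ρ in s..r, |Cg| * (2 + 8 * (Vs + Zs)) * nI Zs Vs s x v ρ :=
      intervalIntegral.integral_nonneg hsr fun t _ => mul_nonneg hC nI_nonneg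
    linarith
  · have hB := BL_ramp (Zs := Zs) hZs
    have hag : AbsolutelyContinuousOnInterval
        (fun ρ => ramp (‖zF s x v ρ‖ / (2 * Zs))) s r := hB.ac (by positivity) hs hsr
    have hac2 : AbsolutelyContinuousOnInterval
        (fun ρ : ℝ => Cg * ramp (‖v‖ / (2 * Vs)) * ρ ^ 2) s r :=
      ContDiffOn.absolutelyContinuousOnInterval (ContDiff.contDiffOn (by fun_prop))
    have hac := hac2.mul hag
    have e : (fun ρ : ℝ => Cg * ramp (‖v‖ / (2 * Vs)) * ρ ^ 2) *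
        (fun ρ => ramp (‖zF s x v ρ‖ / (2 * Zs))) = hF3 Cg Zs Vs s x v := by
      ext ρ
      simp only [Pi.mul_apply, hF3, zF]
      ring
    rw [e] at hac
    have h1 := hac.integral_deriv_eq_sub
    rw [← h1, ← intervalIntegral.integral_neg]
    refine intervalIntegral.integral_mono_ae_restrict hsr (ii_nI.const_mul _).neg
      hac.intervalIntegrable_deriv ?_
    rw [EventuallyLE, ae_restrict_iff' measurableSet_Icc]
    filter_upwards [hag.ae_differentiableAt] with ρ hdg hρI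
    have hρ : 0 < ρ := hs.trans_le hρI.1
    have hρ1 : ρ ≤ 1 := hρI.2.trans hr1
    have hdg' := (hdg (by rw [uIcc_of_le hsr]; exact hρI)).hasDerivAt
    have hd2 : HasDerivAt (fun ρ : ℝ => Cg * ramp (‖v‖ / (2 * Vs)) * ρ ^ 2)
        (Cg * ramp (‖v‖ / (2 * Vs)) * (2 * ρ)) ρ := by
      refine ((hasDerivAt_pow 2 ρ).const_mul _).congr_deriv ?_
      norm_num
    have hd3 := (hd2.fun_mul hdg').deriv
    have e' : (fun ρ : ℝ => Cg * ramp (‖v‖ / (2 * Vs)) * ρ ^ 2 * ramp (‖zF s x v ρ‖ / (2 * Zs))) =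
        hF3 Cg Zs Vs s x v := by
      ext ρ
      simp only [hF3, zF]
      ring
    rw [e'] at hd3
    rw [hd3]
    rcases lt_or_ge (4 * Zs) ‖zF s x v ρ‖ with hz | hz
    · rw [hB.deriv_zero hρ hz, hB.z _ hz.le]
      have : 0 ≤ |Cg| * (2 + 8 * (Vs + Zs)) * nI Zs Vs s x v ρ := mul_nonneg hC nI_nonneg
      simp only [mul_zero, add_zero]
      linarith
    · rw [nI_eq_one hρ hz hv.le, mul_one]
      have hb1 := hB.deriv_le (s := s) (x := x) (by positivity) hv.le hρ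
      have hb2 := hB.b (zF s x v ρ)
      have hr2 := abs_ramp_le (‖v‖ / (2 * Vs))
      set D := deriv (fun ρ => ramp (‖zF s x v ρ‖ / (2 * Zs))) ρ with hD
      have h5 : |Cg * ramp (‖v‖ / (2 * Vs)) * (2 * ρ) * ramp (‖zF s x v ρ‖ / (2 * Zs)) +
          Cg * ramp (‖v‖ / (2 * Vs)) * ρ ^ 2 * D| ≤ |Cg| * (2 + 8 * (Vs + Zs)) := by
        refine (abs_add_le _ _).trans ?_
        simp only [abs_mul]
        rw [abs_of_pos (by norm_num : (0 : ℝ) < 2), abs_of_pos hρ,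
          abs_of_pos (by positivity : 0 < ρ ^ 2)]
        have h6 : |Cg| * |ramp (‖v‖ / (2 * Vs))| * (2 * ρ) * |ramp (‖zF s x v ρ‖ / (2 * Zs))| ≤
            |Cg| * 1 * (2 * 1) * 1 := by
          gcongr
        have h7 : |Cg| * |ramp (‖v‖ / (2 * Vs))| * ρ ^ 2 * |D| ≤
            |Cg| * 1 * ρ ^ 2 * (2 * 1 * (4 * Vs + 4 * Zs) / ρ) := by
          gcongr
        have h8 : |Cg| * 1 * ρ ^ 2 * (2 * 1 * (4 * Vs + 4 * Zs) / ρ) =
            |Cg| * (8 * (Vs + Zs)) * ρ := by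
          field_simp
          ring
        have h9 : |Cg| * (8 * (Vs + Zs)) * ρ ≤ |Cg| * (8 * (Vs + Zs)) * 1 := by gcongr
        rw [h8] at h7
        calc _ ≤ |Cg| * 1 * (2 * 1) * 1 + |Cg| * (8 * (Vs + Zs)) * 1 :=
              add_le_add h6 (h7.trans h9)
          _ = _ := by ring
      exact (abs_le.1 h5).1

/-! ### the corrected test function -/

theorem gL_eq (Cg : ℝ) (ρ : ℝ) : gL X P d1 Zs Vs Cg ρ (x + (ρ - s) • bar v) v =
    psi0 X ρ (x + (ρ - s) • bar v) v +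
      (Cs 1 (aF P s x v ρ) * (mF P s x v ρ * oF X P d1 Zs Vs 1 s x v ρ) +
        Cs (-1) (aF P s x v ρ) * (mF P s x v ρ * oF X P d1 Zs Vs (-1) s x v ρ)) +
      hF3 Cg Zs Vs s x v ρ := by
  have h : corr X P d1 Zs Vs ρ (x + (ρ - s) • bar v) v =
      mF P s x v ρ * (Cs 1 (aF P s x v ρ) * oF X P d1 Zs Vs 1 s x v ρ +
        Cs (-1) (aF P s x v ρ) * oF X P d1 Zs Vs (-1) s x v ρ) := rfl
  unfold gL
  rw [h]
  unfold hF3
  ring

theorem Lg_eq (C' : ℝ) : (fun ρ => Lg X P d1 Zs Vs C' ρ (x + (ρ - s) • bar v) v) = fun ρ =>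
    ρ⁻¹ * L0 X (zF s x v ρ) v
      - (chs P 1 (aF P s x v ρ) - 197 / 400) * oF X P d1 Zs Vs 1 s x v ρ
      - (chs P (-1) (aF P s x v ρ) - 197 / 400) * oF X P d1 Zs Vs (-1) s x v ρ
      - C' * nI Zs Vs s x v ρ := rfl

/-- the flight inequality -/
theorem flight_gL' (hP : P.Ok) (hF : F0H X C) (hd : 0 < X.d) (hd0 : 0 < d1) (hd1 : d1 < 1)
    (hZs : 1 ≤ Zs) (hVs : 1 ≤ Vs) (Cg : ℝ) :
    ∃ t0 C' : ℝ, 0 < t0 ∧ 0 ≤ C' ∧ ∀ s r : ℝ, 0 < s → s ≤ r → r ≤ t0 → ∀ (x : P2) (v : R3),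
      IntervalIntegrable (fun ρ => Lg X P d1 Zs Vs C' ρ (x + (ρ - s) • bar v) v) volume s r ∧
      ∫ ρ in s..r, Lg X P d1 Zs Vs C' ρ (x + (ρ - s) • bar v) v ≤
        gL X P d1 Zs Vs Cg r (x + (r - s) • bar v) v - gL X P d1 Zs Vs Cg s x v := by
  have hj : 1 ≤ P.j0 := le_trans (by norm_num) hP.j0
  have hdl := dl_pos hj
  have hc := hP.c0
  have hC0 : 0 ≤ C := zero_le_one.trans hF.C1
  have hE := CE_nonneg (X := X) hP hC0 hd hZs hVs
  have hZ0 : 0 < Zs := by linarith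
  refine ⟨min 1 (min (P.dl / (4 * Zs)) (X.d * P.dl / (8 * P.c * Zs))),
    2 * CE X P C Zs Vs + |Cg| * (2 + 8 * (Vs + Zs)), by positivity, by positivity, ?_⟩
  intro s r hs hsr hr x v
  have hr0 : 0 < r := hs.trans_le hsr
  have hr1 : r ≤ 1 := hr.trans (min_le_left _ _)
  have hr2 : r ≤ P.dl / (4 * Zs) := hr.trans ((min_le_right _ _).trans (min_le_left _ _))
  have hr3 : r ≤ X.d * P.dl / (8 * P.c * Zs) :=
    hr.trans ((min_le_right _ _).trans (min_le_right _ _))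
  rw [le_div_iff₀ (by positivity)] at hr2 hr3
  have ht1 : 4 * P.c * (2 * Zs * r) ≤ X.d * P.dl := by linarith
  have ht2 : 2 * Zs * r < P.dl := by nlinarith
  have hpos : ∀ t ∈ Icc s r, 0 < P.dl + P.c * t := fun t ht => by
    have : 0 < t := hs.trans_le ht.1
    positivity
  obtain ⟨i0, e0⟩ := psi0_flight (x := x) (v := v) X hs hsr
  have iG : ∀ σ : ℝ, |σ| = 1 → IntervalIntegrable
      (fun ρ => (chs P σ (aF P s x v ρ) - 197 / 400) * oF X P d1 Zs Vs σ s x v ρ) volume s r := by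
    intro σ hσ
    have hB := BL_gW hP.K0 hP.ey0 hZs hVs hF hd0 hd1 hσ v
    have hfun : oF X P d1 Zs Vs σ s x v = fun ρ => ρ⁻¹ * gW X P d1 Zs Vs σ v (zF s x v ρ) := by
      ext ρ; rw [oF_eq]
    have hac : AbsolutelyContinuousOnInterval (oF X P d1 Zs Vs σ s x v) s r := by
      rw [hfun]; exact inv_ac hB (by positivity) hs hsr
    have hcont := hac.continuousOn
    rw [uIcc_of_le hsr] at hcont
    exact ii_chs (P := P) (t0 := s) (x := x) (v := v) hsr hpos σ hcont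
  have i1 := iG 1 (by norm_num)
  have i2 := iG (-1) (by norm_num)
  have i3 : IntervalIntegrable (fun ρ => (2 * CE X P C Zs Vs + |Cg| * (2 + 8 * (Vs + Zs))) *
      nI Zs Vs s x v ρ) volume s r := ii_nI.const_mul _
  rw [Lg_eq]
  refine ⟨((i0.sub i1).sub i2).sub i3, ?_⟩
  rw [intervalIntegral.integral_sub ((i0.sub i1).sub i2) i3,
    intervalIntegral.integral_sub (i0.sub i1) i2, intervalIntegral.integral_sub i0 i1, e0,
    intervalIntegral.integral_const_mul]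
  have c1 := corr_one (x := x) (v := v) hP hF hd hd0 hd1 hZs hVs (σ := 1) (Or.inl rfl) hs hsr hr1
    ht1 ht2
  have c2 := corr_one (x := x) (v := v) hP hF hd hd0 hd1 hZs hVs (σ := -1) (Or.inr rfl) hs hsr hr1
    ht1 ht2
  have c3 := third (x := x) (v := v) hZs hVs Cg hs hsr hr1
  rw [intervalIntegral.integral_const_mul] at c1 c2 c3
  have g1 := gL_eq (X := X) (P := P) (d1 := d1) (Zs := Zs) (Vs := Vs) (s := s) (x := x) (v := v) Cg r
  have g2 := gL_eq (X := X) (P := P) (d1 := d1) (Zs := Zs) (Vs := Vs) (s := s) (x := x) (v := v) Cg s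
  have hxs : x + (s - s) • bar v = x := by simp
  rw [hxs] at g2
  rw [g1, g2]
  linarith

end Crest.Agent.R68.X2.Fl

namespace Crest.Agent.R68.X2

/-- from the conclusion of `f0_facts` -/
theorem F0H_of {X : XP} (h : ∃ C : ℝ, 1 ≤ C ∧ (∀ z v, 0 ≤ f0 X z v ∧ f0 X z v ≤ C) ∧
      (∀ z v, f0 X z v ≠ 0 → ‖z‖ ≤ C ∧ ‖v‖ ≤ C ∧ X.d ≤ |v 0|) ∧
      (∀ z v z' v', |f0 X z v - f0 X z' v'| ≤ C * (‖z - z'‖ + ‖v - v'‖))) :
    ∃ C, Fl.F0H X C := by
  obtain ⟨C, h1, h2, _, h4⟩ := h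
  exact ⟨C, h1, fun z v => (h2 z v).1, fun z v => (h2 z v).2, h4⟩

/-- `XIface.flight_gL`, from bounds and Lipschitz property of `f0` -/
theorem flight_gL_of {X : XP} {P : Par} {Y ey N d1 Zs Vs : ℝ} (hF : ∃ C, Fl.F0H X C)
    (h : LowOK X P Y ey N d1 Zs Vs) (Cg : ℝ) :
    ∃ t0 C : ℝ, 0 < t0 ∧ 0 ≤ C ∧ ∀ s r : ℝ, 0 < s → s ≤ r → r ≤ t0 → ∀ (x : P2) (v : R3),
      IntervalIntegrable (fun ρ => Lg X P d1 Zs Vs C ρ (x + (ρ - s) • bar v) v) volume s r ∧
      ∫ ρ in s..r, Lg X P d1 Zs Vs C ρ (x + (ρ - s) • bar v) v ≤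
        gL X P d1 Zs Vs Cg r (x + (r - s) • bar v) v - gL X P d1 Zs Vs Cg s x v := by
  obtain ⟨C, hF⟩ := hF
  exact Fl.flight_gL' h.ok hF h.d0 h.d10 h.d11 h.Zs1 h.Vs1 Cg

/-- `XIface.flight_gL` -/
theorem flight_gL {X : XP} {P : Par} {Y ey N d1 Zs Vs : ℝ} (h : LowOK X P Y ey N d1 Zs Vs) (Cg : ℝ) :
    ∃ t0 C : ℝ, 0 < t0 ∧ 0 ≤ C ∧ ∀ s r : ℝ, 0 < s → s ≤ r → r ≤ t0 → ∀ (x : P2) (v : R3),
      IntervalIntegrable (fun ρ => Lg X P d1 Zs Vs C ρ (x + (ρ - s) • bar v) v) volume s r ∧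
      ∫ ρ in s..r, Lg X P d1 Zs Vs C ρ (x + (ρ - s) • bar v) v ≤
        gL X P d1 Zs Vs Cg r (x + (r - s) • bar v) v - gL X P d1 Zs Vs Cg s x v :=
  flight_gL_of (F0H_of (X := X) (f0_facts h.tent X.B X.d h.B1 h.d0)) h Cg

end Crest.Agent.R68.X2
end
end

-- ▼ part R68/X2Corr

/-!
# Row 68, Part X2 (helper208): size and support of the lane corrector
-/

set_option autoImplicit false
open MeasureTheory Set Filter
open scoped ENNReal Real
open Crest.AnalysisR.VecCalc3 Crest.AnalysisR.PDE.Boltzmann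

noncomputable section

namespace Crest.Agent.R68.X2.Co

open Crest.Agent.R68.X (chs Cs abs_Cs_le)

/-! ### elementary facts on the cut-offs -/

theorem ramp_nonneg (r : ℝ) : 0 ≤ ramp r := le_max_left _ _
theorem ramp_le_one (r : ℝ) : ramp r ≤ 1 := max_le zero_le_one (min_le_left _ _)
theorem ramp_ne {r : ℝ} (h : ramp r ≠ 0) : r < 2 := by
  by_contra hc
  push Not at hc
  apply h
  unfold ramp
  rw [max_eq_left]
  exact (min_le_right _ _).trans (by linarith)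

theorem lamd_nonneg (d a : ℝ) : 0 ≤ lamd d a := le_max_left _ _
theorem lamd_le_one (d a : ℝ) : lamd d a ≤ 1 := max_le zero_le_one (min_le_left _ _)
theorem lamd_ne {d a : ℝ} (hd : 0 < d) (h : lamd d a ≠ 0) : d < |a| := by
  by_contra hc
  push Not at hc
  apply h
  unfold lamd
  rw [max_eq_left]
  refine (min_le_right _ _).trans ?_
  have : |a| / d ≤ 1 := (div_le_one hd).2 hc
  linarith

theorem cutB_nonneg (B w : ℝ) : 0 ≤ cutB B w := sq_nonneg _
theorem cutB_le_one (B w : ℝ) : cutB B w ≤ 1 := by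
  unfold cutB
  have h1 : max 0 (1 - w ^ 2 / B ^ 2) ≤ 1 := max_le zero_le_one (by
    have : 0 ≤ w ^ 2 / B ^ 2 := by positivity
    linarith)
  have h0 : 0 ≤ max 0 (1 - w ^ 2 / B ^ 2) := le_max_left _ _
  nlinarith

theorem tentp_nonneg (A Yp e y : ℝ) (q : R3) : 0 ≤ tentp A Yp e y q := le_max_left _ _

theorem tentp_le {A Yp e : ℝ} (he : 0 ≤ e) (hA : 0 ≤ (1 + A) * Yp) (y : ℝ) (q : R3) :
    tentp A Yp e y q ≤ (1 + A) * Yp := by
  refine max_le hA ?_
  unfold tent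
  have h1 : 0 ≤ |(1 + A) * y + q 1| := abs_nonneg _
  have h2 : 0 ≤ e * ‖q‖ ^ 2 := by positivity
  linarith

theorem f0_nonneg (X : XP) (z : P2) (v : R3) : 0 ≤ f0 X z v :=
  mul_nonneg (mul_nonneg (tentp_nonneg _ _ _ _ _) (cutB_nonneg _ _)) (lamd_nonneg _ _)

theorem f0_le {X : XP} (he : 0 ≤ X.e) (hA : 0 ≤ (1 + X.A) * X.Yp) (z : P2) (v : R3) :
    f0 X z v ≤ (1 + X.A) * X.Yp := by
  unfold f0
  have h1 := tentp_le he hA z.2 (fr z.2 v)
  have h0 := tentp_nonneg X.A X.Yp X.e z.2 (fr z.2 v)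
  have h2 := cutB_le_one X.B z.1
  have h3 := cutB_nonneg X.B z.1
  have h4 := lamd_le_one X.d (v 0)
  have h5 := lamd_nonneg X.d (v 0)
  calc tentp X.A X.Yp X.e z.2 (fr z.2 v) * cutB X.B z.1 * lamd X.d (v 0)
      ≤ (1 + X.A) * X.Yp * 1 * 1 := by gcongr
    _ = _ := by ring

theorem continuous_coord (i : Fin 3) : Continuous fun v : R3 => v i :=
  (EuclideanSpace.proj i : R3 →L[ℝ] ℝ).continuous

theorem continuous_fr : Continuous fun p : ℝ × R3 => fr p.1 p.2 := by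
  unfold fr
  have h : Continuous fun p : ℝ × R3 => (!₂[0, p.1, 0] : R3) := by
    have := Continuous.vec3 (X := ℝ × R3) (f := fun _ => 0) (g := fun p => p.1) (h := fun _ => 0)
      continuous_const continuous_fst continuous_const
    exact this
  exact continuous_snd.sub h

/-- `f0` is jointly continuous -/
theorem continuous_f0 (X : XP) : Continuous fun p : P2 × R3 => f0 X p.1 p.2 := by
  have h1 : Continuous fun p : P2 × R3 => fr p.1.2 p.2 :=
    continuous_fr.comp (by fun_prop : Continuous fun p : P2 × R3 => (p.1.2, p.2))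
  have h2 : Continuous fun p : P2 × R3 => (fr p.1.2 p.2) 1 := (continuous_coord 1).comp h1
  have h3 : Continuous fun p : P2 × R3 => p.2 0 := (continuous_coord 0).comp continuous_snd
  unfold f0 tentp tent cutB lamd
  fun_prop

theorem measurable_f0 (X : XP) (z : P2) : Measurable (f0 X z) :=
  ((continuous_f0 X).comp (by fun_prop : Continuous fun v : R3 => ((z, v) : P2 × R3))).measurable

theorem norm_us_sub_le (v : R3) (y s : ℝ) (hs : |s| ≤ 1) : ‖v - us y s‖ ≤ ‖v‖ + |y| + 1 := by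
  have h1 : ‖us y s‖ ≤ |y| + 1 := by
    unfold us
    have e := EuclideanSpace.norm_eq (!₂[0, y, s] : R3)
    rw [e, Fin.sum_univ_three]
    simp only [Matrix.cons_val_zero, Matrix.cons_val_one, Matrix.cons_val,
      norm_zero, Real.norm_eq_abs]
    refine Real.sqrt_le_iff.2 ⟨by positivity, ?_⟩
    have h2 : |s| ^ 2 ≤ 1 := by nlinarith [abs_nonneg s]
    nlinarith [abs_nonneg y]
  calc ‖v - us y s‖ ≤ ‖v‖ + ‖us y s‖ := norm_sub_le _ _
    _ ≤ _ := by linarith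

/-- bound of the ideal collision term -/
theorem abs_ws_le {X : XP} (he : 0 ≤ X.e) (hA : 0 ≤ (1 + X.A) * X.Yp) {d1 ρ s : ℝ}
    (hd0 : 0 ≤ d1) (hd1 : d1 ≤ 1) (hρ : 0 ≤ ρ) (hs : |s| ≤ 1) (z : P2) (v : R3) :
    |ws X d1 ρ s z v| ≤ ρ * (6 * π * (‖v‖ + |z.2| + 1) * ((1 + X.A) * X.Yp)) := by
  unfold ws
  rw [abs_mul, abs_of_nonneg hρ]
  refine mul_le_mul_of_nonneg_left ?_ hρ
  have h1 : |gsR (f0 X z) v (us z.2 s)| ≤ 4 * π * ‖v - us z.2 s‖ * ((1 + X.A) * X.Yp) :=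
    abs_gsR_le (measurable_f0 X z) fun w _ => by
      rw [abs_of_nonneg (f0_nonneg X z w)]
      exact f0_le he hA z w
  have h2 := norm_us_sub_le v z.2 s hs
  have h3 := f0_le he hA z v
  have h4 := f0_nonneg X z v
  have h5 : |(1 - d1) * gsR (f0 X z) v (us z.2 s)| ≤
      4 * π * ‖v - us z.2 s‖ * ((1 + X.A) * X.Yp) := by
    rw [abs_mul, abs_of_nonneg (by linarith)]
    calc (1 - d1) * |gsR (f0 X z) v (us z.2 s)| ≤ 1 * |gsR (f0 X z) v (us z.2 s)| := by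
          gcongr; linarith
      _ ≤ _ := by rw [one_mul]; exact h1
  have h6 : |2 * π * ‖v - us z.2 s‖ * f0 X z v| ≤
      2 * π * ‖v - us z.2 s‖ * ((1 + X.A) * X.Yp) := by
    rw [abs_of_nonneg (by positivity)]
    gcongr
  calc |(1 - d1) * gsR (f0 X z) v (us z.2 s) - 2 * π * ‖v - us z.2 s‖ * f0 X z v|
      ≤ 4 * π * ‖v - us z.2 s‖ * ((1 + X.A) * X.Yp) +
        2 * π * ‖v - us z.2 s‖ * ((1 + X.A) * X.Yp) := (abs_sub _ _).trans (add_le_add h5 h6)
    _ = 6 * π * ‖v - us z.2 s‖ * ((1 + X.A) * X.Yp) := by ring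
    _ ≤ _ := by gcongr

theorem ky_nonneg' (P : Par) (y : ℝ) : 0 ≤ ky P y := le_max_left _ _
theorem ky_le_one' (P : Par) (y : ℝ) : ky P y ≤ 1 := max_le zero_le_one (min_le_left _ _)

/-- bound of the oscillating term, with its support -/
theorem osc_bound {X : XP} {P : Par} (he : 0 ≤ X.e) (hA : 0 ≤ (1 + X.A) * X.Yp) (hd : 0 < X.d)
    (hK : 0 ≤ P.K) {d1 Zs Vs s : ℝ} (hd0 : 0 ≤ d1) (hd1 : d1 ≤ 1) (hZ : 0 < Zs) (hV : 0 < Vs)
    (hs : |s| ≤ 1) {t : ℝ} (ht : 0 < t) (x : P2) (v : R3) :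
    |osc X P d1 Zs Vs s t x v| ≤
      t⁻¹ * (P.K * (6 * π * (2 * Vs + 2 * Zs + 1) * ((1 + X.A) * X.Yp))) ∧
    (osc X P d1 Zs Vs s t x v ≠ 0 → ‖t⁻¹ • x‖ < 2 * Zs ∧ ‖v‖ < 2 * Vs ∧ X.d / 2 < |v 0|) := by
  set z : P2 := t⁻¹ • x with hz
  have hsupp : osc X P d1 Zs Vs s t x v ≠ 0 → ‖z‖ < 2 * Zs ∧ ‖v‖ < 2 * Vs ∧ X.d / 2 < |v 0| := by
    intro h
    have hth : th X Zs Vs z v ≠ 0 := by
      intro h0
      apply h
      unfold osc
      rw [← hz, h0]
      ring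
    unfold th at hth
    have h1 : ramp (‖z‖ / Zs) ≠ 0 := fun h0 => hth (by rw [h0]; ring)
    have h2 : ramp (‖v‖ / Vs) ≠ 0 := fun h0 => hth (by rw [h0]; ring)
    have h3 : lamd (X.d / 2) (v 0) ≠ 0 := fun h0 => hth (by rw [h0]; ring)
    refine ⟨?_, ?_, lamd_ne (by positivity) h3⟩
    · have := ramp_ne h1
      rwa [div_lt_iff₀ hZ] at this
    · have := ramp_ne h2
      rwa [div_lt_iff₀ hV] at this
  refine ⟨?_, hsupp⟩
  by_cases h0 : osc X P d1 Zs Vs s t x v = 0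
  · rw [h0, abs_zero]
    positivity
  obtain ⟨h1, h2, h3⟩ := hsupp h0
  unfold osc
  rw [← hz, abs_mul, abs_mul, abs_of_pos (inv_pos.2 ht)]
  have hth0 : 0 ≤ th X Zs Vs z v :=
    mul_nonneg (mul_nonneg (ramp_nonneg _) (ramp_nonneg _)) (lamd_nonneg _ _)
  have hth1 : th X Zs Vs z v ≤ 1 := by
    unfold th
    have a1 := ramp_le_one (‖z‖ / Zs)
    have a2 := ramp_le_one (‖v‖ / Vs)
    have a3 := lamd_le_one (X.d / 2) (v 0)
    have b1 := ramp_nonneg (‖z‖ / Zs)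
    have b2 := ramp_nonneg (‖v‖ / Vs)
    have b3 := lamd_nonneg (X.d / 2) (v 0)
    calc ramp (‖z‖ / Zs) * ramp (‖v‖ / Vs) * lamd (X.d / 2) (v 0) ≤ 1 * 1 * 1 := by gcongr
      _ = 1 := by ring
  rw [abs_of_nonneg hth0, mul_assoc]
  refine mul_le_mul_of_nonneg_left ?_ (inv_pos.2 ht).le
  have hk0 := ky_nonneg' P z.2
  have hk1 := ky_le_one' P z.2
  have hρ : 0 ≤ P.K * ky P z.2 := mul_nonneg hK hk0
  have hz2 : |z.2| ≤ 2 * Zs := by
    have : |z.2| ≤ ‖z‖ := by rw [← Real.norm_eq_abs]; exact norm_snd_le z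
    linarith
  calc th X Zs Vs z v * |ws X d1 (P.K * ky P z.2) s z v|
      ≤ 1 * (P.K * ky P z.2 * (6 * π * (‖v‖ + |z.2| + 1) * ((1 + X.A) * X.Yp))) := by
        gcongr
        exact abs_ws_le he hA hd0 hd1 hρ hs z v
    _ ≤ 1 * (P.K * 1 * (6 * π * (2 * Vs + 2 * Zs + 1) * ((1 + X.A) * X.Yp))) := by
        gcongr
    _ = _ := by ring

theorem lab_le {P : Par} (hdl : 0 < P.dl) (hc : 0 ≤ P.c) {t : ℝ} (ht : 0 ≤ t) (x : P2) :
    |lab P t x| ≤ |x.1| := by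
  unfold lab
  have h1 : 0 < P.dl + P.c * t := by positivity
  rw [abs_div, abs_mul, abs_of_pos hdl, abs_of_pos h1, div_le_iff₀ h1]
  have h2 : P.dl ≤ P.dl + P.c * t := by
    have : 0 ≤ P.c * t := mul_nonneg hc ht
    linarith
  calc P.dl * |x.1| ≤ (P.dl + P.c * t) * |x.1| := by gcongr
    _ = _ := by ring

/-- the relative velocity stays away from `0` -/
theorem q1u_lower {P : Par} (hdl : 0 < P.dl) (hc : 0 ≤ P.c) {d Zs t : ℝ} (hZ : 0 < Zs)
    (ht : 0 < t) (htd : 8 * P.c * Zs * t ≤ d * P.dl) {x : P2} {v : R3} (hx : ‖t⁻¹ • x‖ < 2 * Zs)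
    (hv : d / 2 < |v 0|) : d / 4 ≤ |q1u P t x v| := by
  unfold q1u
  have h1 : 0 < P.dl + P.c * t := by positivity
  have hx1 : |x.1| ≤ 2 * Zs * t := by
    have h2 : |x.1| ≤ ‖x‖ := by rw [← Real.norm_eq_abs]; exact norm_fst_le x
    rw [norm_smul, Real.norm_eq_abs, abs_of_pos (inv_pos.2 ht), inv_mul_lt_iff₀ ht] at hx
    linarith
  have h3 : |P.c * x.1 / (P.dl + P.c * t)| ≤ d / 4 := by
    rw [abs_div, abs_mul, abs_of_nonneg hc, abs_of_pos h1, div_le_iff₀ h1]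
    have h4 : P.c * |x.1| ≤ P.c * (2 * Zs * t) := by gcongr
    have h5 : 0 ≤ P.c * t := by positivity
    have hd : 0 ≤ d := by
      by_contra hneg
      push Not at hneg
      have : d * P.dl < 0 := mul_neg_of_neg_of_pos hneg hdl
      have : 0 ≤ 8 * P.c * Zs * t := by positivity
      linarith
    have h6 : d / 4 * P.dl ≤ d / 4 * (P.dl + P.c * t) := by gcongr; linarith
    nlinarith
  have h7 := abs_sub_abs_le_abs_sub (v 0) (P.c * x.1 / (P.dl + P.c * t))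
  linarith

/-- **size and support of the lane corrector** -/
theorem corr_bound {X : XP} {P : Par} (he : 0 ≤ X.e) (hA : 0 ≤ (1 + X.A) * X.Yp) (hd : 0 < X.d)
    (hK : 0 ≤ P.K) (hdl : 0 < P.dl) (hc : 0 ≤ P.c) {d1 Zs Vs : ℝ} (hd0 : 0 ≤ d1) (hd1 : d1 ≤ 1)
    (hZ : 0 < Zs) (hV : 0 < Vs) {t : ℝ} (ht : 0 < t) (ht1 : P.c * t ≤ P.dl)
    (htd : 8 * P.c * Zs * t ≤ X.d * P.dl) (x : P2) (v : R3) :
    |corr X P d1 Zs Vs t x v| ≤ 64 * Zs ^ 3 / X.d *
      (P.K * (6 * π * (2 * Vs + 2 * Zs + 1) * ((1 + X.A) * X.Yp))) * t ^ 2 ∧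
    (corr X P d1 Zs Vs t x v ≠ 0 → ‖t⁻¹ • x‖ < 2 * Zs ∧ ‖v‖ < 2 * Vs ∧ X.d / 2 < |v 0|) := by
  set C1 : ℝ := P.K * (6 * π * (2 * Vs + 2 * Zs + 1) * ((1 + X.A) * X.Yp)) with hC1
  have hC1n : 0 ≤ C1 := by positivity
  obtain ⟨b1, s1⟩ := osc_bound (X := X) (P := P) he hA hd hK hd0 hd1 hZ hV (s := 1) (by simp) ht x v
  obtain ⟨b2, s2⟩ := osc_bound (X := X) (P := P) he hA hd hK hd0 hd1 hZ hV (s := -1) (by simp) ht x v
  have hsupp : corr X P d1 Zs Vs t x v ≠ 0 →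
      ‖t⁻¹ • x‖ < 2 * Zs ∧ ‖v‖ < 2 * Vs ∧ X.d / 2 < |v 0| := by
    intro h
    by_cases h1 : osc X P d1 Zs Vs 1 t x v = 0
    · by_cases h2 : osc X P d1 Zs Vs (-1) t x v = 0
      · exact absurd (by unfold corr; rw [h1, h2]; ring) h
      · exact s2 h2
    · exact s1 h1
  refine ⟨?_, hsupp⟩
  by_cases h0 : corr X P d1 Zs Vs t x v = 0
  · rw [h0, abs_zero]
    positivity
  obtain ⟨hx, hv, hv0⟩ := hsupp h0
  have hq := q1u_lower hdl hc hZ ht htd hx hv0
  have hq0 : 0 < |q1u P t x v| := lt_of_lt_of_le (by positivity) hq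
  have hx1 : |x.1| ≤ 2 * Zs * t := by
    have h2 : |x.1| ≤ ‖x‖ := by rw [← Real.norm_eq_abs]; exact norm_fst_le x
    rw [norm_smul, Real.norm_eq_abs, abs_of_pos (inv_pos.2 ht), inv_mul_lt_iff₀ ht] at hx
    linarith
  have hl : |lab P t x| ≤ 2 * Zs * t := (lab_le hdl hc ht.le x).trans hx1
  have hl3 : |lab P t x| ^ 3 ≤ (2 * Zs * t) ^ 3 := by gcongr
  have hm : |(P.dl + P.c * t) / (P.dl * q1u P t x v)| ≤ 8 / X.d := by
    rw [abs_div, abs_mul, abs_of_pos hdl, abs_of_pos (by positivity : 0 < P.dl + P.c * t),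
      div_le_div_iff₀ (by positivity) hd]
    have h3 : P.dl + P.c * t ≤ 2 * P.dl := by linarith
    calc (P.dl + P.c * t) * X.d ≤ 2 * P.dl * X.d := by gcongr
      _ = 8 * (P.dl * (X.d / 4)) := by ring
      _ ≤ 8 * (P.dl * |q1u P t x v|) := by gcongr
  unfold corr
  rw [abs_mul]
  have hc1 := (abs_Cs_le 1 (lab P t x)).trans (by
    have := hl3
    linarith : |lab P t x| ^ 3 / 2 ≤ (2 * Zs * t) ^ 3 / 2)
  have hc2 := (abs_Cs_le (-1) (lab P t x)).trans (by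
    have := hl3
    linarith : |lab P t x| ^ 3 / 2 ≤ (2 * Zs * t) ^ 3 / 2)
  have h4 : |Cs 1 (lab P t x) * osc X P d1 Zs Vs 1 t x v +
      Cs (-1) (lab P t x) * osc X P d1 Zs Vs (-1) t x v| ≤
      (2 * Zs * t) ^ 3 / 2 * (t⁻¹ * C1) + (2 * Zs * t) ^ 3 / 2 * (t⁻¹ * C1) := by
    refine (abs_add_le _ _).trans (add_le_add ?_ ?_)
    · rw [abs_mul]
      exact mul_le_mul hc1 b1 (abs_nonneg _) (by positivity)
    · rw [abs_mul]
      exact mul_le_mul hc2 b2 (abs_nonneg _) (by positivity)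
  calc |(P.dl + P.c * t) / (P.dl * q1u P t x v)| *
        |Cs 1 (lab P t x) * osc X P d1 Zs Vs 1 t x v +
          Cs (-1) (lab P t x) * osc X P d1 Zs Vs (-1) t x v|
      ≤ 8 / X.d * ((2 * Zs * t) ^ 3 / 2 * (t⁻¹ * C1) + (2 * Zs * t) ^ 3 / 2 * (t⁻¹ * C1)) :=
        mul_le_mul hm h4 (abs_nonneg _) (by positivity)
    _ = 64 * Zs ^ 3 / X.d * C1 * t ^ 2 := by
        field_simp
        ring

end Crest.Agent.R68.X2.Co

namespace Crest.Agent.R68.X2

theorem corr_small {X : XP} {P : Par} {Y ey N d1 Zs Vs : ℝ} (h : LowOK X P Y ey N d1 Zs Vs) :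
    ∃ t0 C : ℝ, 0 < t0 ∧ 0 ≤ C ∧ ∀ t, 0 < t → t ≤ t0 → ∀ x v,
      |corr X P d1 Zs Vs t x v| ≤ C * t ^ 2 ∧
      (corr X P d1 Zs Vs t x v ≠ 0 → ‖t⁻¹ • x‖ ≤ 2 * Zs ∧ ‖v‖ ≤ 2 * Vs) := by
  have hdl : 0 < P.dl := Fuel.Ok.dlp h.ok
  have hc : 0 < P.c := h.ok.c0
  have hZ : 0 < Zs := lt_of_lt_of_le one_pos h.Zs1
  have hV : 0 < Vs := lt_of_lt_of_le one_pos h.Vs1
  have hd := h.d0
  have he : 0 < X.e := h.tent.e0
  have hA : 0 ≤ (1 + X.A) * X.Yp := (by positivity : 0 ≤ 600 / X.e).trans h.tent.e2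
  refine ⟨min (P.dl / P.c) (X.d * P.dl / (8 * P.c * Zs)), 64 * Zs ^ 3 / X.d *
      (P.K * (6 * π * (2 * Vs + 2 * Zs + 1) * ((1 + X.A) * X.Yp))), by positivity, ?_, ?_⟩
  · have := h.ok.K0
    positivity
  · intro t ht ht0 x v
    have h1 : P.c * t ≤ P.dl := by
      have := ht0.trans (min_le_left _ _)
      rw [le_div_iff₀ hc] at this
      linarith
    have h2 : 8 * P.c * Zs * t ≤ X.d * P.dl := by
      have := ht0.trans (min_le_right _ _)
      rw [le_div_iff₀ (by positivity)] at this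
      linarith
    obtain ⟨b, s⟩ := Co.corr_bound he.le hA hd h.ok.K0 hdl hc.le h.d10.le h.d11.le hZ hV ht h1 h2
      x v
    exact ⟨b, fun hne => ⟨(s hne).1.le, (s hne).2.1.le⟩⟩

end Crest.Agent.R68.X2
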