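import Mathlib
import Crest.Agent.R68.Carl3
import Crest.Agent.R68.SDefs

-- ▼ part R68/SPl2
section

/-!
R68 / SPl2: radial integrals over planes, sublevel sets of affine and quadratic functions on
planes (helper653).
-/

set_option autoImplicit false
open MeasureTheory Set Metric
open scoped ENNReal Real
open Crest.AnalysisR.VecCalc3 Crest.AnalysisR.PDE.Boltzmann

namespace Crest.Agent.R68.S

/-- the substitution `s = r²` -/
theorem lintegral_sq_subst (h : ℝ → ℝ≥0∞) :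
    ∫⁻ s in Ioi (0 : ℝ), h s = ∫⁻ r in Ioi (0 : ℝ), ENNReal.ofReal (2 * r) * h (r ^ 2) := by
  have himg : (fun r : ℝ => r ^ 2) '' Ioi (0 : ℝ) = Ioi (0 : ℝ) := by
    ext s
    constructor
    · rintro ⟨r, hr, rfl⟩
      exact pow_pos (show (0 : ℝ) < r from hr) 2
    · intro hs
      exact ⟨√s, Real.sqrt_pos.2 hs, Real.sq_sqrt (le_of_lt hs)⟩
  have hinj : InjOn (fun r : ℝ => r ^ 2) (Ioi (0 : ℝ)) := by
    intro a ha b hb hab
    have ha' : (0 : ℝ) < a := ha
    have hb' : (0 : ℝ) < b := hb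
    exact (pow_left_inj₀ ha'.le hb'.le (by norm_num)).1 hab
  have hder : ∀ r ∈ Ioi (0 : ℝ),
      HasDerivWithinAt (fun r : ℝ => r ^ 2) (2 * r) (Ioi (0 : ℝ)) r := by
    intro r _
    have := (hasDerivAt_pow 2 r).hasDerivWithinAt (s := Ioi (0 : ℝ))
    simpa using this
  have hmain := lintegral_image_eq_lintegral_abs_deriv_mul measurableSet_Ioi hder hinj h
  rw [himg] at hmain
  rw [hmain]
  refine setLIntegral_congr_fun measurableSet_Ioi fun r hr => ?_
  have hr' : (0 : ℝ) < r := hr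
  simp only [abs_of_pos (show (0 : ℝ) < 2 * r by positivity)]

/-- radial integration in the plane -/
theorem lintegral_radial2 {h : ℝ → ℝ≥0∞} (hh : Measurable h) :
    ∫⁻ p : ℝ × ℝ, h (p.1 ^ 2 + p.2 ^ 2) = ENNReal.ofReal π * ∫⁻ s in Ioi (0 : ℝ), h s := by
  have hm : Measurable fun p : ℝ × ℝ => h (p.1 ^ 2 + p.2 ^ 2) := hh.comp (by fun_prop)
  rw [lintegral_polar2 hm, lintegral_sq_subst h, ← lintegral_const_mul]
  · refine setLIntegral_congr_fun measurableSet_Ioi fun r hr => ?_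
    have hr' : (0 : ℝ) < r := hr
    have h1 : ∀ φ : ℝ, (r * Real.cos φ) ^ 2 + (r * Real.sin φ) ^ 2 = r ^ 2 := by
      intro φ
      have := Real.sin_sq_add_cos_sq φ
      nlinarith
    simp only [h1]
    rw [lintegral_const, Measure.restrict_apply_univ, volume_Ioo_pi, ← mul_assoc,
      mul_comm (ENNReal.ofReal r * h (r ^ 2)), ← mul_assoc,
      ← ENNReal.ofReal_mul (by positivity), ← ENNReal.ofReal_mul (by positivity)]
    congr 2
    ring
  · exact Measurable.mul (by fun_prop) (hh.comp (by fun_prop))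

/-- coordinates of a point relative to the plane through `v` orthogonal to `w` -/
theorem norm_sq_plane_sub (v w a : R3) (p : ℝ × ℝ) :
    ‖v + rot w (vec3 p.1 p.2 0) - a‖ ^ 2
      = (p.1 - rot w (a - v) 0) ^ 2 + (p.2 - rot w (a - v) 1) ^ 2 + (rot w (a - v) 2) ^ 2 := by
  have h1 : v + rot w (vec3 p.1 p.2 0) - a = rot w (vec3 p.1 p.2 0 - rot w (a - v)) := by
    rw [map_sub, rot_rot]; abel
  rw [h1, norm_rot]
  have h2 : vec3 p.1 p.2 0 - rot w (a - v)
      = vec3 (p.1 - rot w (a - v) 0) (p.2 - rot w (a - v) 1) (-(rot w (a - v) 2)) := by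
    apply vec3_ext <;> simp
  rw [h2, norm_sq_vec3]
  ring

theorem rot_two {w : R3} (hw : ‖w‖ = 1) (x : R3) : rot w x 2 = inner ℝ w x := by
  have h := inner_rot w ez (rot w x)
  rw [rot_rot, rot_ez hw, inner_ez] at h
  exact h.symm

/-- integrals over a plane of functions of the distance to a point -/
theorem planeInt_radial {h : ℝ → ℝ≥0∞} (hh : Measurable h) (v a : R3) {w : R3} (hw : ‖w‖ = 1) :
    planeInt (fun z => h (‖z - a‖ ^ 2)) v w
      = ENNReal.ofReal π * ∫⁻ s in Ioi (0 : ℝ), h (s + (inner ℝ w (a - v) : ℝ) ^ 2) := by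
  unfold planeInt
  simp_rw [norm_sq_plane_sub]
  rw [← rot_two hw]
  set b := rot w (a - v) with hb
  have hm : Measurable fun q : ℝ × ℝ => h (q.1 ^ 2 + q.2 ^ 2 + b 2 ^ 2) := hh.comp (by fun_prop)
  have hmp : MeasurePreserving (fun p : ℝ × ℝ => p - (b 0, b 1)) volume volume :=
    measurePreserving_sub_right volume _
  have h1 := hmp.lintegral_comp hm
  have h2 := lintegral_radial2 (h := fun s => h (s + b 2 ^ 2)) (hh.comp (by fun_prop))
  rw [← h2, ← h1]
  rfl

theorem planeInt_mono {f g : R3 → ℝ≥0∞} (hfg : ∀ z, f z ≤ g z) (v w : R3) :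
    planeInt f v w ≤ planeInt g v w :=
  lintegral_mono fun _ => hfg _

theorem planeInt_radial_le {h : ℝ → ℝ≥0∞} (hh : Measurable h) (v a : R3) {w : R3} (hw : ‖w‖ = 1) :
    planeInt (fun z => h (‖z - a‖ ^ 2)) v w ≤ ENNReal.ofReal π * ∫⁻ s in Ioi (0 : ℝ), h s := by
  rw [planeInt_radial hh v a hw]
  refine mul_le_mul' le_rfl ?_
  set c : ℝ := (inner ℝ w (a - v) : ℝ) ^ 2 with hc
  have hc0 : 0 ≤ c := sq_nonneg _
  have hmp : MeasurePreserving (fun s : ℝ => s + c) volume volume :=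
    measurePreserving_add_right volume c
  have h1 : ∫⁻ s in Ioi (0 : ℝ), h (s + c) = ∫⁻ s in Ioi c, h s := by
    have h3 := hmp.setLIntegral_comp_preimage (s := Ioi c) measurableSet_Ioi hh
    rw [← h3]
    congr 2
    ext s
    simp
  rw [h1]
  exact lintegral_mono_set (Ioi_subset_Ioi hc0)


/-- quadratic sublevel sets: `|⟨z-a,z-b⟩| < d` has area at most `2πd` in every plane -/
theorem planeInt_quadratic (v a b : R3) {w : R3} (hw : ‖w‖ = 1) (d : ℝ) :
    planeInt ({z | |(inner ℝ (z - a) (z - b) : ℝ)| ≤ d}.indicator 1) v w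
      ≤ ENNReal.ofReal (2 * π * d) := by
  set m : R3 := (1 / 2 : ℝ) • (a + b) with hm
  set κ : ℝ := ‖a - b‖ ^ 2 / 4 with hκ
  have hkey : ∀ z : R3, (inner ℝ (z - a) (z - b) : ℝ) = ‖z - m‖ ^ 2 - κ := by
    intro z
    have e1 : z - a = (z - m) - (1 / 2 : ℝ) • (a - b) := by
      rw [hm]; module
    have e2 : z - b = (z - m) + (1 / 2 : ℝ) • (a - b) := by
      rw [hm]; module
    rw [e1, e2, inner_sub_left, inner_add_right, inner_add_right, real_inner_self_eq_norm_sq,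
      real_inner_smul_left, real_inner_smul_right, real_inner_smul_left, real_inner_smul_right,
      real_inner_self_eq_norm_sq, real_inner_comm (z - m) (a - b), hκ]
    ring
  have h1 : planeInt ({z | |(inner ℝ (z - a) (z - b) : ℝ)| ≤ d}.indicator 1) v w
      ≤ planeInt (fun z => (Icc (κ - d) (κ + d)).indicator (fun _ => (1 : ℝ≥0∞)) (‖z - m‖ ^ 2))
        v w := by
    apply planeInt_mono
    intro z
    by_cases hz : |(inner ℝ (z - a) (z - b) : ℝ)| ≤ d
    · rw [indicator_of_mem (by exact hz), indicator_of_mem]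
      · rfl
      · rw [hkey z, abs_le] at hz
        constructor <;> linarith [hz.1, hz.2]
    · rw [indicator_of_notMem (by exact hz)]
      exact zero_le
  refine h1.trans ((planeInt_radial_le (measurable_const.indicator measurableSet_Icc) v m hw).trans ?_)
  rw [lintegral_indicator measurableSet_Icc, Measure.restrict_restrict measurableSet_Icc,
    setLIntegral_const, one_mul]
  calc ENNReal.ofReal π * volume (Icc (κ - d) (κ + d) ∩ Ioi 0)
      ≤ ENNReal.ofReal π * volume (Icc (κ - d) (κ + d)) := by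
        gcongr; exact inter_subset_left
    _ = ENNReal.ofReal (2 * π * d) := by
        rw [Real.volume_Icc, ← ENNReal.ofReal_mul Real.pi_pos.le]
        congr 1; ring

theorem ms_strip (b1 b2 c d : ℝ) : MeasurableSet {p : ℝ × ℝ | |b1 * p.1 + b2 * p.2 + c| ≤ d} := by
  have h : Measurable fun p : ℝ × ℝ => |b1 * p.1 + b2 * p.2 + c| := by fun_prop
  exact measurableSet_le h measurable_const

theorem ms_abs_fst (R : ℝ) : MeasurableSet {p : ℝ × ℝ | |p.1| ≤ R} := by
  have h : Measurable fun p : ℝ × ℝ => |p.1| := by fun_prop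
  exact measurableSet_le h measurable_const

theorem ms_abs_snd (R : ℝ) : MeasurableSet {p : ℝ × ℝ | |p.2| ≤ R} := by
  have h : Measurable fun p : ℝ × ℝ => |p.2| := by fun_prop
  exact measurableSet_le h measurable_const

/-- strips in the plane, box version -/
theorem volume_strip_aux (b1 b2 c R d : ℝ) (hb : b1 ≠ 0) (hR : 0 ≤ R) (hd : 0 ≤ d) :
    volume {p : ℝ × ℝ | |b1 * p.1 + b2 * p.2 + c| ≤ d ∧ |p.2| ≤ R}
      ≤ ENNReal.ofReal (4 * R * d / |b1|) := by
  have hms : MeasurableSet {p : ℝ × ℝ | |b1 * p.1 + b2 * p.2 + c| ≤ d ∧ |p.2| ≤ R} :=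
    (ms_strip b1 b2 c d).inter (ms_abs_snd R)
  rw [show (volume : Measure (ℝ × ℝ)) = volume.prod volume from rfl, Measure.prod_apply_symm hms]
  have hle : ∀ y : ℝ, volume ((fun x => (x, y)) ⁻¹'
      {p : ℝ × ℝ | |b1 * p.1 + b2 * p.2 + c| ≤ d ∧ |p.2| ≤ R})
      ≤ (Icc (-R) R).indicator (fun _ => ENNReal.ofReal (2 * d / |b1|)) y := by
    intro y
    by_cases hy : |y| ≤ R
    · rw [indicator_of_mem (by exact abs_le.1 hy)]
      have hsub : ((fun x => (x, y)) ⁻¹'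
          {p : ℝ × ℝ | |b1 * p.1 + b2 * p.2 + c| ≤ d ∧ |p.2| ≤ R})
          ⊆ Icc (-(b2 * y + c) / b1 - d / |b1|) (-(b2 * y + c) / b1 + d / |b1|) := by
        intro x hx
        have hx1 : |b1 * x + b2 * y + c| ≤ d := hx.1
        have hpos : 0 < |b1| := abs_pos.2 hb
        have h1 : |x - (-(b2 * y + c) / b1)| ≤ d / |b1| := by
          rw [le_div_iff₀ hpos, ← abs_mul]
          have : (x - -(b2 * y + c) / b1) * b1 = b1 * x + b2 * y + c := by
            field_simp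
            ring
          rwa [this]
        rw [abs_le] at h1
        constructor <;> linarith [h1.1, h1.2]
      refine (measure_mono hsub).trans ?_
      rw [Real.volume_Icc]
      apply le_of_eq
      congr 1
      ring
    · rw [indicator_of_notMem (by intro h; exact hy (abs_le.2 h))]
      have : ((fun x => (x, y)) ⁻¹'
          {p : ℝ × ℝ | |b1 * p.1 + b2 * p.2 + c| ≤ d ∧ |p.2| ≤ R}) = ∅ := by
        ext x
        simp only [mem_preimage, mem_ofPred_eq, mem_empty_iff_false, iff_false, not_and]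
        intro _
        exact hy
      rw [this, measure_empty]
  refine (lintegral_mono hle).trans ?_
  rw [lintegral_indicator measurableSet_Icc, setLIntegral_const, Real.volume_Icc,
    ← ENNReal.ofReal_mul (by positivity)]
  apply le_of_eq
  congr 1
  ring

/-- strips in the plane: `|b₁p₁+b₂p₂+c| ≤ d` inside the box of half side `R` -/
theorem volume_strip (b1 b2 c R d m : ℝ) (hm : 0 < m) (hb : m ≤ max |b1| |b2|) (hR : 0 ≤ R)
    (hd : 0 ≤ d) :
    volume {p : ℝ × ℝ | |b1 * p.1 + b2 * p.2 + c| ≤ d ∧ |p.1| ≤ R ∧ |p.2| ≤ R}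
      ≤ ENNReal.ofReal (4 * R * d / m) := by
  rcases le_max_iff.1 hb with h | h
  · have hb1 : b1 ≠ 0 := by
      intro h0; rw [h0, abs_zero] at h; linarith
    have hsub : {p : ℝ × ℝ | |b1 * p.1 + b2 * p.2 + c| ≤ d ∧ |p.1| ≤ R ∧ |p.2| ≤ R}
        ⊆ {p : ℝ × ℝ | |b1 * p.1 + b2 * p.2 + c| ≤ d ∧ |p.2| ≤ R} := fun p hp => ⟨hp.1, hp.2.2⟩
    refine (measure_mono hsub).trans ((volume_strip_aux b1 b2 c R d hb1 hR hd).trans ?_)
    apply ENNReal.ofReal_le_ofReal
    gcongr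
  · have hb2 : b2 ≠ 0 := by
      intro h0; rw [h0, abs_zero] at h; linarith
    have hmp : MeasurePreserving (Prod.swap : ℝ × ℝ → ℝ × ℝ) volume volume :=
      Measure.measurePreserving_swap
    have hms : MeasurableSet {p : ℝ × ℝ | |b2 * p.1 + b1 * p.2 + c| ≤ d ∧ |p.2| ≤ R} :=
      (ms_strip b2 b1 c d).inter (ms_abs_snd R)
    have hsub : {p : ℝ × ℝ | |b1 * p.1 + b2 * p.2 + c| ≤ d ∧ |p.1| ≤ R ∧ |p.2| ≤ R}
        ⊆ Prod.swap ⁻¹' {p : ℝ × ℝ | |b2 * p.1 + b1 * p.2 + c| ≤ d ∧ |p.2| ≤ R} := by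
      intro p hp
      refine ⟨?_, hp.2.1⟩
      have := hp.1
      simpa [add_comm (b1 * p.1)] using this
    refine (measure_mono hsub).trans ?_
    rw [hmp.measure_preimage hms.nullMeasurableSet]
    refine (volume_strip_aux b2 b1 c R d hb2 hR hd).trans ?_
    apply ENNReal.ofReal_le_ofReal
    gcongr

/-- strips on planes of `ℝ³`: an affine function with tangential gradient at least `k` -/
theorem planeInt_strip (v e : R3) (s : ℝ) {w : R3} (hw : ‖w‖ = 1) {R d k : ℝ} (hR : 0 ≤ R)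
    (hd : 0 ≤ d) (hk : 0 < k) (hgrad : k ^ 2 ≤ ‖e‖ ^ 2 - (inner ℝ w e : ℝ) ^ 2) :
    planeInt ({z | |(inner ℝ e z : ℝ) - s| ≤ d ∧ ‖z - v‖ ≤ R}.indicator 1) v w
      ≤ ENNReal.ofReal (6 * R * d / k) := by
  set β := rot w e with hβ
  have h2 : β 2 = inner ℝ w e := rot_two hw e
  have hnorm : ‖e‖ ^ 2 = β 0 ^ 2 + β 1 ^ 2 + β 2 ^ 2 := by
    rw [← norm_rot w e, ← hβ, ← norm_sq_vec3, vec3_eta]
  have hmax : 2 / 3 * k ≤ max |β 0| |β 1| := by
    by_contra hcon
    push Not at hcon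
    have h3 := lt_of_le_of_lt (le_max_left |β 0| |β 1|) hcon
    have h4 := lt_of_le_of_lt (le_max_right |β 0| |β 1|) hcon
    have h5 : β 0 ^ 2 < (2 / 3 * k) ^ 2 := by
      rw [← sq_abs (β 0)]; exact pow_lt_pow_left₀ h3 (abs_nonneg _) (by norm_num)
    have h6 : β 1 ^ 2 < (2 / 3 * k) ^ 2 := by
      rw [← sq_abs (β 1)]; exact pow_lt_pow_left₀ h4 (abs_nonneg _) (by norm_num)
    rw [h2] at hnorm
    nlinarith [sq_nonneg k]
  have hsub : ∀ p : ℝ × ℝ,
      ({z : R3 | |(inner ℝ e z : ℝ) - s| ≤ d ∧ ‖z - v‖ ≤ R}.indicator (1 : R3 → ℝ≥0∞))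
        (v + rot w (vec3 p.1 p.2 0))
      ≤ {p : ℝ × ℝ | |β 0 * p.1 + β 1 * p.2 + ((inner ℝ e v : ℝ) - s)| ≤ d ∧ |p.1| ≤ R ∧
          |p.2| ≤ R}.indicator 1 p := by
    intro p
    by_cases hz : v + rot w (vec3 p.1 p.2 0) ∈
        {z : R3 | |(inner ℝ e z : ℝ) - s| ≤ d ∧ ‖z - v‖ ≤ R}
    · rw [indicator_of_mem hz, indicator_of_mem]
      · rfl
      · obtain ⟨hz1, hz2⟩ := hz
        have hin : (inner ℝ e (v + rot w (vec3 p.1 p.2 0)) : ℝ)
            = β 0 * p.1 + β 1 * p.2 + inner ℝ e v := by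
          have h7 : (inner ℝ e (rot w (vec3 p.1 p.2 0)) : ℝ) = inner ℝ β (vec3 p.1 p.2 0) := by
            have := inner_rot w β (vec3 p.1 p.2 0)
            rw [hβ, rot_rot] at this
            exact this
          rw [inner_add_right, h7, ← vec3_eta β, inner_vec3]
          simp only [vec3_zero, vec3_one]
          ring
        have hnn : ‖v + rot w (vec3 p.1 p.2 0) - v‖ ^ 2 = p.1 ^ 2 + p.2 ^ 2 := by
          rw [add_sub_cancel_left, norm_rot, norm_sq_vec3]; ring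
        have hR2 : p.1 ^ 2 + p.2 ^ 2 ≤ R ^ 2 := by
          rw [← hnn]; exact pow_le_pow_left₀ (norm_nonneg _) hz2 2
        refine ⟨?_, ?_, ?_⟩
        · rw [hin] at hz1
          rwa [show β 0 * p.1 + β 1 * p.2 + ((inner ℝ e v : ℝ) - s)
            = β 0 * p.1 + β 1 * p.2 + inner ℝ e v - s by ring]
        · exact abs_le_of_sq_le_sq (by nlinarith [sq_nonneg p.2]) hR
        · exact abs_le_of_sq_le_sq (by nlinarith [sq_nonneg p.1]) hR
    · rw [indicator_of_notMem hz]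
      exact zero_le
  unfold planeInt
  refine (lintegral_mono hsub).trans ?_
  have hms : MeasurableSet {p : ℝ × ℝ |
      |β 0 * p.1 + β 1 * p.2 + ((inner ℝ e v : ℝ) - s)| ≤ d ∧ |p.1| ≤ R ∧ |p.2| ≤ R} :=
    (ms_strip (β 0) (β 1) ((inner ℝ e v : ℝ) - s) d).inter ((ms_abs_fst R).inter (ms_abs_snd R))
  rw [lintegral_indicator_one hms]
  refine (volume_strip (β 0) (β 1) ((inner ℝ e v : ℝ) - s) R d (2 / 3 * k) (by positivity) hmax
    hR hd).trans ?_
  apply ENNReal.ofReal_le_ofReal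
  apply le_of_eq
  field_simp
  ring

end Crest.Agent.R68.S
end

-- ▼ part R68/SPl3
section

/-!
R68 / SPl3: small sets in planes, weighted by poles `|z-a|^{-3/2}` and Gaussians (helper653).
-/

set_option autoImplicit false
open MeasureTheory Set Metric
open scoped ENNReal Real
open Crest.AnalysisR.VecCalc3 Crest.AnalysisR.PDE.Boltzmann

namespace Crest.Agent.R68.S





theorem planeInt_const_mul {f : R3 → ℝ≥0∞} {c : ℝ≥0∞} (hc : c ≠ ∞) (v w : R3) :
    planeInt (fun z => c * f z) v w = c * planeInt f v w := by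
  unfold planeInt
  exact lintegral_const_mul' _ _ hc

/-- `∫_{0<s≤k²} s^{-3/4} ds = 4 √k` -/
theorem lintegral_rpow_near {k : ℝ} (hk : 0 < k) :
    ∫⁻ s in Ioi (0 : ℝ), (Iic (k ^ 2)).indicator (fun s => ENNReal.ofReal s ^ (-(3 / 4) : ℝ)) s
      = ENNReal.ofReal (4 * √k) := by
  rw [lintegral_indicator measurableSet_Iic, Measure.restrict_restrict measurableSet_Iic,
    inter_comm, Ioi_inter_Iic]
  have h1 : ∀ s ∈ Ioc (0 : ℝ) (k ^ 2), ENNReal.ofReal s ^ (-(3 / 4) : ℝ)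
      = ENNReal.ofReal (s ^ (-(3 / 4) : ℝ)) := by
    intro s hs
    rw [ENNReal.ofReal_rpow_of_pos hs.1]
  rw [setLIntegral_congr_fun measurableSet_Ioc h1]
  have hk2 : 0 ≤ k ^ 2 := by positivity
  have hint : IntervalIntegrable (fun s : ℝ => s ^ (-(3 / 4) : ℝ)) volume 0 (k ^ 2) :=
    intervalIntegral.intervalIntegrable_rpow' (by norm_num)
  rw [← ofReal_integral_eq_lintegral_ofReal]
  · rw [← intervalIntegral.integral_of_le hk2, integral_rpow (Or.inl (by norm_num))]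
    congr 1
    rw [Real.zero_rpow (by norm_num), Real.sqrt_eq_rpow, ← Real.rpow_natCast, ← Real.rpow_mul hk.le]
    norm_num
    ring
  · exact (intervalIntegrable_iff_integrableOn_Ioc_of_le hk2).1 hint
  · filter_upwards [ae_restrict_mem measurableSet_Ioc] with s hs
    exact Real.rpow_nonneg hs.1.le _









/-- Gaussian weights on collision planes: `z - v ⟂ v - u` -/
theorem gauss_plane {g U : ℝ} (hg : 0 ≤ g) {v u z : R3} (hu : ‖u‖ ≤ U)
    (horth : (inner ℝ (z - v) (v - u) : ℝ) = 0) :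
    Real.exp (-g * ‖z‖ ^ 2)
      ≤ Real.exp (2 * g * U ^ 2 - g * ‖v‖ ^ 2) * Real.exp (-(g / 2) * ‖z - v‖ ^ 2) := by
  rw [← Real.exp_add]
  apply Real.exp_le_exp.2
  have h1 : ‖z‖ ^ 2 = ‖v‖ ^ 2 + 2 * inner ℝ (z - v) u + ‖z - v‖ ^ 2 := by
    have h2 : z = v + (z - v) := by abel
    conv_lhs => rw [h2]
    rw [norm_add_sq_real]
    have h3 : (inner ℝ v (z - v) : ℝ) = inner ℝ (z - v) u := by
      rw [real_inner_comm]
      rw [inner_sub_right] at horth
      linarith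
    rw [h3]
  have h4 : |(inner ℝ (z - v) u : ℝ)| ≤ ‖z - v‖ * U :=
    (abs_real_inner_le_norm _ _).trans (by gcongr)
  have h5 := (abs_le.1 h4).1
  have h6 : 0 ≤ (‖z - v‖ - 2 * U) ^ 2 := sq_nonneg _
  have h7 : ‖v‖ ^ 2 + ‖z - v‖ ^ 2 / 2 - 2 * U ^ 2 ≤ ‖z‖ ^ 2 := by
    rw [h1]; nlinarith
  nlinarith

/-- points of the plane are orthogonal to the normal -/
theorem plane_orth {w : R3} (hw : ‖w‖ = 1) (v : R3) (p : ℝ × ℝ) (c : ℝ) :
    (inner ℝ (v + rot w (vec3 p.1 p.2 0) - v) (c • w) : ℝ) = 0 := by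
  rw [add_sub_cancel_left, real_inner_smul_right]
  have h := inner_rot w (vec3 p.1 p.2 0) ez
  rw [rot_ez hw] at h
  rw [h, real_inner_comm, inner_ez, vec3_two, mul_zero]


end Crest.Agent.R68.S
end

-- ▼ part R68/SPlane

/-!
R68 / SPlane: Gaussian plane integrals with poles, smallness on small sets, generic distance
(helper653; statements F0-F3 of Part S).
-/

set_option autoImplicit false
open MeasureTheory Set Metric
open scoped ENNReal Real
open Crest.AnalysisR.VecCalc3 Crest.AnalysisR.PDE.Boltzmann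

namespace Crest.Agent.R68.S

/-- planar pole (sup norm) -/
noncomputable def po (q p : P2) : ℝ≥0∞ := (ENNReal.ofReal ‖p - q‖) ^ (-(3 / 2) : ℝ)

theorem measurable_po (q : P2) : Measurable (po q) := by
  unfold po; fun_prop

theorem Sg2_eq {M : ℕ} (q : Fin M → P2) (p : P2) : Sg2 q p = 1 + ∑ i, po (q i) p := rfl

theorem P2_norm_sq (p : P2) : p.1 ^ 2 + p.2 ^ 2 ≤ 2 * ‖p‖ ^ 2 := by
  have h1 : |p.1| ≤ ‖p‖ := by simpa using norm_fst_le p
  have h2 : |p.2| ≤ ‖p‖ := by simpa using norm_snd_le p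
  have h3 : p.1 ^ 2 ≤ ‖p‖ ^ 2 := by
    rw [← sq_abs]; exact pow_le_pow_left₀ (abs_nonneg _) h1 2
  have h4 : p.2 ^ 2 ≤ ‖p‖ ^ 2 := by
    rw [← sq_abs]; exact pow_le_pow_left₀ (abs_nonneg _) h2 2
  linarith


theorem po_le (q p : P2) :
    po q p ≤ 2 * (ENNReal.ofReal ((p.1 - q.1) ^ 2 + (p.2 - q.2) ^ 2)) ^ (-(3 / 4) : ℝ) := by
  have h1 : po q p = (ENNReal.ofReal (‖p - q‖ ^ 2)) ^ (-(3 / 4) : ℝ) := by
    unfold po
    rw [ENNReal.ofReal_pow (norm_nonneg _), ← ENNReal.rpow_natCast, ← ENNReal.rpow_mul]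
    norm_num
  set e : ℝ := (p.1 - q.1) ^ 2 + (p.2 - q.2) ^ 2 with he
  have h2 : e / 2 ≤ ‖p - q‖ ^ 2 := by
    have := P2_norm_sq (p - q)
    have h : (p - q).1 ^ 2 + (p - q).2 ^ 2 = e := rfl
    rw [h] at this
    linarith
  rw [h1]
  have h3 : (ENNReal.ofReal (‖p - q‖ ^ 2)) ^ (-(3 / 4) : ℝ)
      ≤ (ENNReal.ofReal (e / 2)) ^ (-(3 / 4) : ℝ) := by
    rw [ENNReal.rpow_neg, ENNReal.rpow_neg]
    exact ENNReal.inv_le_inv.2 (ENNReal.rpow_le_rpow (ENNReal.ofReal_le_ofReal h2) (by norm_num))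
  refine h3.trans ?_
  rw [ENNReal.ofReal_div_of_pos (by norm_num), ENNReal.rpow_neg, ENNReal.rpow_neg,
    ENNReal.div_rpow_of_nonneg _ _ (by norm_num), ENNReal.inv_div]
  · rw [div_eq_mul_inv]
    refine mul_le_mul' ?_ le_rfl
    have : (ENNReal.ofReal 2) ^ (3 / 4 : ℝ) ≤ (ENNReal.ofReal 2) ^ (1 : ℝ) :=
      ENNReal.rpow_le_rpow_of_exponent_le (by norm_num) (by norm_num)
    simpa using this
  · left
    exact ENNReal.rpow_ne_top_of_nonneg (by norm_num) ENNReal.ofReal_ne_top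
  · left
    simp

/-- near part of the planar pole -/
theorem lintegral_po_near (q : P2) {k : ℝ} (hk : 0 < k) :
    ∫⁻ p, {p | ‖p - q‖ ≤ k}.indicator (po q) p ≤ ENNReal.ofReal (8 * π * √(2 * k)) := by
  set h : ℝ → ℝ≥0∞ := fun s => 2 *
    (Iic ((2 * k) ^ 2)).indicator (fun s => ENNReal.ofReal s ^ (-(3 / 4) : ℝ)) s with hh
  have hm : Measurable h := by
    rw [hh]
    apply Measurable.const_mul
    exact Measurable.indicator (by fun_prop) measurableSet_Iic
  have h1 : ∀ p : P2, {p | ‖p - q‖ ≤ k}.indicator (po q) p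
      ≤ h ((p.1 - q.1) ^ 2 + (p.2 - q.2) ^ 2) := by
    intro p
    by_cases hp : ‖p - q‖ ≤ k
    · have h2 := P2_norm_sq (p - q)
      have h3 : (p - q).1 ^ 2 + (p - q).2 ^ 2 = (p.1 - q.1) ^ 2 + (p.2 - q.2) ^ 2 := rfl
      have h4 : (p.1 - q.1) ^ 2 + (p.2 - q.2) ^ 2 ∈ Iic ((2 * k) ^ 2) := by
        rw [← h3, mem_Iic]
        have h5 : ‖p - q‖ ^ 2 ≤ k ^ 2 := pow_le_pow_left₀ (norm_nonneg _) hp 2
        nlinarith [sq_nonneg k]
      rw [indicator_of_mem (by exact hp), hh]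
      beta_reduce
      rw [indicator_of_mem h4]
      exact po_le q p
    · rw [indicator_of_notMem (by exact hp)]
      exact zero_le
  refine (lintegral_mono h1).trans ?_
  have hmp : MeasurePreserving (fun p : P2 => p - q) volume volume :=
    measurePreserving_sub_right volume _
  have hm2 : Measurable fun p : P2 => h (p.1 ^ 2 + p.2 ^ 2) := hm.comp (by fun_prop)
  have h6 := hmp.lintegral_comp hm2
  have h7 : ∫⁻ p : P2, h ((p.1 - q.1) ^ 2 + (p.2 - q.2) ^ 2) = ∫⁻ p : P2, h (p.1 ^ 2 + p.2 ^ 2) :=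
    h6
  rw [h7, lintegral_radial2 hm, hh]
  rw [lintegral_const_mul' _ _ (by norm_num), lintegral_rpow_near (by positivity),
    show (2 : ℝ≥0∞) = ENNReal.ofReal 2 by norm_num, ← ENNReal.ofReal_mul (by norm_num),
    ← ENNReal.ofReal_mul Real.pi_pos.le]
  apply le_of_eq
  congr 1; ring

theorem po_split (q p : P2) {k : ℝ} (hk : 0 < k) :
    po q p ≤ {p | ‖p - q‖ ≤ k}.indicator (po q) p + ENNReal.ofReal (k ^ (-(3 / 2) : ℝ)) := by
  by_cases hz : ‖p - q‖ ≤ k
  · rw [indicator_of_mem (by exact hz)]; exact le_self_add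
  · rw [indicator_of_notMem (by exact hz), zero_add]
    unfold po
    rw [ENNReal.ofReal_rpow_of_pos (hk.trans (not_le.1 hz))]
    apply ENNReal.ofReal_le_ofReal
    exact Real.rpow_le_rpow_of_nonpos hk (not_le.1 hz).le (by norm_num)

theorem measurableSet_near2 (a : P2) (k : ℝ) : MeasurableSet {p : P2 | ‖p - a‖ ≤ k} := by
  have h : Measurable fun p : P2 => ‖p - a‖ := by fun_prop
  exact measurableSet_le h measurable_const

/-- the near part of all poles -/
noncomputable def Nr {M : ℕ} (q : Fin M → P2) (k : ℝ) (p : P2) : ℝ≥0∞ :=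
  ∑ i, {p | ‖p - q i‖ ≤ k}.indicator (po (q i)) p

theorem measurable_Nr {M : ℕ} (q : Fin M → P2) (k : ℝ) : Measurable (Nr q k) := by
  unfold Nr
  exact Finset.measurable_fun_sum _ fun i _ =>
    (measurable_po (q i)).indicator (measurableSet_near2 (q i) k)

theorem lintegral_Nr {M : ℕ} (q : Fin M → P2) {k : ℝ} (hk : 0 < k) :
    ∫⁻ p, Nr q k p ≤ ENNReal.ofReal (M * (8 * π * √(2 * k))) := by
  unfold Nr
  rw [lintegral_finsetSum' _ fun i _ =>
    ((measurable_po (q i)).indicator (measurableSet_near2 (q i) k)).aemeasurable]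
  refine (Finset.sum_le_sum fun i _ => lintegral_po_near (q i) hk).trans ?_
  rw [Finset.sum_const, Finset.card_univ, Fintype.card_fin, nsmul_eq_mul,
    ENNReal.ofReal_mul (p := (M : ℝ)) (by positivity), ENNReal.ofReal_natCast]

/-- the constant of the far part -/
noncomputable def farC (M : ℕ) (k : ℝ) : ℝ := 1 + M * k ^ (-(3 / 2) : ℝ)

theorem farC_pos (M : ℕ) {k : ℝ} (hk : 0 < k) : 0 < farC M k := by
  unfold farC; positivity

theorem Sg2_split {M : ℕ} (q : Fin M → P2) (p : P2) {k : ℝ} (hk : 0 < k) :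
    Sg2 q p ≤ Nr q k p + ENNReal.ofReal (farC M k) := by
  rw [Sg2_eq]
  have h1 : ∑ i, po (q i) p ≤ ∑ i, ({p | ‖p - q i‖ ≤ k}.indicator (po (q i)) p
      + ENNReal.ofReal (k ^ (-(3 / 2) : ℝ))) :=
    Finset.sum_le_sum fun i _ => po_split (q i) p hk
  rw [Finset.sum_add_distrib, Finset.sum_const, Finset.card_univ, Fintype.card_fin,
    nsmul_eq_mul] at h1
  have h2 : ENNReal.ofReal (farC M k) = 1 + M * ENNReal.ofReal (k ^ (-(3 / 2) : ℝ)) := by
    unfold farC
    rw [ENNReal.ofReal_add (by norm_num) (by positivity), ENNReal.ofReal_one,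
      ENNReal.ofReal_mul (by positivity), ENNReal.ofReal_natCast]
  rw [h2]
  calc 1 + ∑ i, po (q i) p
      ≤ 1 + (∑ i, {p | ‖p - q i‖ ≤ k}.indicator (po (q i)) p
        + M * ENNReal.ofReal (k ^ (-(3 / 2) : ℝ))) := add_le_add le_rfl h1
    _ = Nr q k p + (1 + M * ENNReal.ofReal (k ^ (-(3 / 2) : ℝ))) := by unfold Nr; ring

/-- explicit small set bound -/
theorem setLIntegral_Sg2_le {M : ℕ} (q : Fin M → P2) (S : Set P2) {k : ℝ} (hk : 0 < k) :
    ∫⁻ p in S, Sg2 q p ≤ ENNReal.ofReal (M * (8 * π * √(2 * k)))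
      + ENNReal.ofReal (farC M k) * volume S := by
  calc ∫⁻ p in S, Sg2 q p ≤ ∫⁻ p in S, (Nr q k p + ENNReal.ofReal (farC M k)) :=
        lintegral_mono fun p => Sg2_split q p hk
    _ = (∫⁻ p in S, Nr q k p) + ENNReal.ofReal (farC M k) * volume S := by
        rw [lintegral_add_left (measurable_Nr q k), lintegral_const, Measure.restrict_apply_univ]
    _ ≤ _ := by
        refine add_le_add ((setLIntegral_le_lintegral _ _).trans (lintegral_Nr q hk)) le_rfl

/-- **(F0) small sets** -/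
theorem small2 (M : ℕ) {eps : ℝ} (heps : 0 < eps) :
    ∃ δ : ℝ, 0 < δ ∧ ∀ (q : Fin M → P2) (S : Set P2), volume S ≤ ENNReal.ofReal δ →
      ∫⁻ p in S, Sg2 q p ≤ ENNReal.ofReal eps := by
  set k : ℝ := (eps / (16 * π * (M + 1))) ^ 2 / 2 with hkdef
  have hk : 0 < k := by positivity
  have hsq : √(2 * k) = eps / (16 * π * (M + 1)) := by
    rw [hkdef, mul_div_cancel₀ _ (by norm_num : (2 : ℝ) ≠ 0), Real.sqrt_sq (by positivity)]
  have hC := farC_pos M hk
  refine ⟨eps / (2 * farC M k), by positivity, fun q S hS => ?_⟩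
  refine (setLIntegral_Sg2_le q S hk).trans ?_
  have h1 : ENNReal.ofReal (farC M k) * volume S ≤ ENNReal.ofReal (eps / 2) := by
    refine (mul_le_mul' le_rfl hS).trans ?_
    rw [← ENNReal.ofReal_mul hC.le]
    apply ENNReal.ofReal_le_ofReal
    apply le_of_eq
    field_simp
  refine (add_le_add le_rfl h1).trans ?_
  rw [← ENNReal.ofReal_add (by positivity) (by positivity)]
  apply ENNReal.ofReal_le_ofReal
  rw [hsq]
  have h2 : (M : ℝ) * (8 * π * (eps / (16 * π * (M + 1)))) ≤ eps / 2 := by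
    have hpi := Real.pi_pos
    rw [show (M : ℝ) * (8 * π * (eps / (16 * π * (M + 1)))) = (M / (M + 1)) * (eps / 2) by
      field_simp; ring]
    have h3 : (M : ℝ) / (M + 1) ≤ 1 := by
      rw [div_le_one (by positivity)]; linarith
    nlinarith
  linarith

theorem ker2_le (κ : ℝ) (hκ : 0 ≤ κ) (y p : P2) :
    ker2 κ y p ≤ ENNReal.ofReal (Real.exp (-(κ / 2) * ((p.1 - y.1) ^ 2 + (p.2 - y.2) ^ 2))) := by
  unfold ker2
  apply ENNReal.ofReal_le_ofReal
  apply Real.exp_le_exp.2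
  have h := P2_norm_sq (p - y)
  have h3 : (p - y).1 ^ 2 + (p - y).2 ^ 2 = (p.1 - y.1) ^ 2 + (p.2 - y.2) ^ 2 := rfl
  rw [h3] at h
  nlinarith

theorem ker2_le_one {κ : ℝ} (hκ : 0 ≤ κ) (y p : P2) : ker2 κ y p ≤ 1 := by
  unfold ker2
  rw [← ENNReal.ofReal_one]
  apply ENNReal.ofReal_le_ofReal
  apply Real.exp_le_one_iff.2
  nlinarith [mul_nonneg hκ (sq_nonneg ‖p - y‖)]

theorem lintegral_ker2 {κ : ℝ} (hκ : 0 < κ) (y : P2) :
    ∫⁻ p, ker2 κ y p ≤ ENNReal.ofReal (2 * π / κ) := by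
  set h : ℝ → ℝ≥0∞ := fun s => ENNReal.ofReal (Real.exp (-(κ / 2) * s)) with hh
  have hm : Measurable h := by rw [hh]; fun_prop
  refine (lintegral_mono (ker2_le κ hκ.le y)).trans ?_
  have hmp : MeasurePreserving (fun p : P2 => p - y) volume volume :=
    measurePreserving_sub_right volume _
  have hm2 : Measurable fun p : P2 => h (p.1 ^ 2 + p.2 ^ 2) := hm.comp (by fun_prop)
  have h6 := hmp.lintegral_comp hm2
  have h7 : ∫⁻ p : P2, h ((p.1 - y.1) ^ 2 + (p.2 - y.2) ^ 2) = ∫⁻ p : P2, h (p.1 ^ 2 + p.2 ^ 2) :=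
    h6
  change ∫⁻ p : P2, h ((p.1 - y.1) ^ 2 + (p.2 - y.2) ^ 2) ≤ _
  rw [h7, lintegral_radial2 hm, hh, ← ofReal_integral_eq_lintegral_ofReal]
  · have h2 := integral_exp_mul_Ioi (a := -(κ / 2)) (by linarith) 0
    rw [h2, ← ENNReal.ofReal_mul Real.pi_pos.le]
    apply le_of_eq
    congr 1
    simp
    field_simp
  · exact integrableOn_exp_mul_Ioi (by linarith) _
  · exact Filter.Eventually.of_forall fun s => (Real.exp_pos _).le

/-- the constant of `gauss2` -/
noncomputable def gC (M : ℕ) (κ : ℝ) : ℝ := M * (8 * π * √(2 * 1)) + farC M 1 * (2 * π / κ)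

theorem gC_pos (M : ℕ) {κ : ℝ} (hκ : 0 < κ) : 0 < gC M κ := by
  unfold gC
  have := farC_pos M one_pos
  positivity

theorem gauss2_le (M : ℕ) {κ : ℝ} (hκ : 0 < κ) (q : Fin M → P2) (y : P2) :
    ∫⁻ p, ker2 κ y p * Sg2 q p ≤ ENNReal.ofReal (gC M κ) := by
  have h1 : ∀ p, ker2 κ y p * Sg2 q p ≤ Nr q 1 p + ENNReal.ofReal (farC M 1) * ker2 κ y p := by
    intro p
    calc ker2 κ y p * Sg2 q p ≤ ker2 κ y p * (Nr q 1 p + ENNReal.ofReal (farC M 1)) :=
          mul_le_mul' le_rfl (Sg2_split q p one_pos)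
      _ = ker2 κ y p * Nr q 1 p + ENNReal.ofReal (farC M 1) * ker2 κ y p := by ring
      _ ≤ 1 * Nr q 1 p + ENNReal.ofReal (farC M 1) * ker2 κ y p :=
          add_le_add (mul_le_mul' (ker2_le_one hκ.le y p) le_rfl) le_rfl
      _ = _ := by rw [one_mul]
  refine (lintegral_mono h1).trans ?_
  rw [lintegral_add_left (measurable_Nr q 1), lintegral_const_mul' _ _ ENNReal.ofReal_ne_top]
  refine (add_le_add (lintegral_Nr q one_pos) (mul_le_mul' le_rfl (lintegral_ker2 hκ y))).trans ?_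
  have := farC_pos M one_pos
  rw [← ENNReal.ofReal_mul this.le, ← ENNReal.ofReal_add (by positivity) (by positivity)]
  exact le_rfl


/-- **(F0) Gaussian tails** -/
theorem tail2 (M : ℕ) {κ eps : ℝ} (hκ : 0 < κ) (heps : 0 < eps) :
    ∃ R : ℝ, 0 < R ∧ ∀ (q : Fin M → P2) (y : P2),
      ∫⁻ p in {p | R ≤ ‖p - y‖}, ker2 κ y p * Sg2 q p ≤ ENNReal.ofReal eps := by
  set G := gC M (κ / 2) with hG
  have hGpos : 0 < G := gC_pos M (by positivity)
  -- choose `R` with `exp (-(κ/2) R²) ≤ eps / G`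
  obtain ⟨R, hR1, hR2⟩ : ∃ R : ℝ, 1 ≤ R ∧ Real.exp (-(κ / 2) * R ^ 2) * G ≤ eps := by
    set t := 2 / κ * (G / eps) with ht
    have htpos : 0 < t := by positivity
    refine ⟨1 + t, by linarith, ?_⟩
    have h1 : κ / 2 * (1 + t) ^ 2 ≥ G / eps := by
      have : κ / 2 * t = G / eps := by rw [ht]; field_simp
      nlinarith [sq_nonneg t]
    have h2 : Real.exp (-(κ / 2) * (1 + t) ^ 2) ≤ Real.exp (-(G / eps)) := by
      apply Real.exp_le_exp.2; linarith
    have h3 : Real.exp (-(G / eps)) ≤ eps / G := by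
      rw [Real.exp_neg, inv_le_comm₀ (Real.exp_pos _) (by positivity), inv_div]
      linarith [Real.add_one_le_exp (G / eps)]
    calc Real.exp (-(κ / 2) * (1 + t) ^ 2) * G ≤ eps / G * G := by
          apply mul_le_mul_of_nonneg_right (h2.trans h3) hGpos.le
      _ = eps := by field_simp
  refine ⟨R, by linarith, fun q y => ?_⟩
  have hms : MeasurableSet {p : P2 | R ≤ ‖p - y‖} := by
    have h : Measurable fun p : P2 => ‖p - y‖ := by fun_prop
    exact measurableSet_le measurable_const h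
  have h1 : ∀ p ∈ {p : P2 | R ≤ ‖p - y‖}, ker2 κ y p * Sg2 q p
      ≤ ENNReal.ofReal (Real.exp (-(κ / 2) * R ^ 2)) * (ker2 (κ / 2) y p * Sg2 q p) := by
    intro p hp
    rw [← mul_assoc]
    refine mul_le_mul' ?_ le_rfl
    unfold ker2
    rw [← ENNReal.ofReal_mul (Real.exp_pos _).le, ← Real.exp_add]
    apply ENNReal.ofReal_le_ofReal
    apply Real.exp_le_exp.2
    have hp' : R ≤ ‖p - y‖ := hp
    have : R ^ 2 ≤ ‖p - y‖ ^ 2 := pow_le_pow_left₀ (by linarith) hp' 2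
    nlinarith
  calc ∫⁻ p in {p | R ≤ ‖p - y‖}, ker2 κ y p * Sg2 q p
      ≤ ∫⁻ p in {p | R ≤ ‖p - y‖},
          ENNReal.ofReal (Real.exp (-(κ / 2) * R ^ 2)) * (ker2 (κ / 2) y p * Sg2 q p) :=
        setLIntegral_mono' hms h1
    _ ≤ ∫⁻ p, ENNReal.ofReal (Real.exp (-(κ / 2) * R ^ 2)) * (ker2 (κ / 2) y p * Sg2 q p) :=
        setLIntegral_le_lintegral _ _
    _ = ENNReal.ofReal (Real.exp (-(κ / 2) * R ^ 2)) * ∫⁻ p, ker2 (κ / 2) y p * Sg2 q p :=
        lintegral_const_mul' _ _ ENNReal.ofReal_ne_top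
    _ ≤ ENNReal.ofReal (Real.exp (-(κ / 2) * R ^ 2)) * ENNReal.ofReal G :=
        mul_le_mul' le_rfl (gauss2_le M (by positivity) q y)
    _ ≤ ENNReal.ofReal eps := by
        rw [← ENNReal.ofReal_mul (Real.exp_pos _).le]
        exact ENNReal.ofReal_le_ofReal hR2

/-! ### comparison with planes of `ℝ³` -/

theorem nbar_le (x : R3) : ‖bar x‖ ≤ ‖x‖ := by
  unfold bar
  rw [Prod.norm_def]
  exact max_le (PiLp.norm_apply_le x 0) (PiLp.norm_apply_le x 1)

/-- distances in the plane dominate distances of coordinates -/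
theorem frame_dist (v w a : R3) (p : P2) :
    ‖p - bar (rot w (a - v))‖ ≤ ‖v + rot w (vec3 p.1 p.2 0) - a‖ := by
  have h1 : v + rot w (vec3 p.1 p.2 0) - a = rot w (vec3 p.1 p.2 0 - rot w (a - v)) := by
    rw [map_sub, rot_rot]; abel
  rw [h1, norm_rot]
  refine le_trans (le_of_eq ?_) (nbar_le _)
  rfl

theorem frame_norm (v w : R3) (p : P2) : ‖p‖ ≤ ‖v + rot w (vec3 p.1 p.2 0) - v‖ := by
  have h := frame_dist v w v p
  rw [sub_self, map_zero] at h
  have h0 : bar (0 : R3) = 0 := rfl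
  rwa [h0, sub_zero] at h

theorem Sg_frame {M : ℕ} (q : Fin M → R3) (v w : R3) (p : P2) :
    Sg q (v + rot w (vec3 p.1 p.2 0)) ≤ Sg2 (fun i => bar (rot w (q i - v))) p := by
  unfold Sg Sg2
  refine add_le_add le_rfl (Finset.sum_le_sum fun i _ => ?_)
  rw [ENNReal.rpow_neg, ENNReal.rpow_neg]
  exact ENNReal.inv_le_inv.2 (ENNReal.rpow_le_rpow
    (ENNReal.ofReal_le_ofReal (frame_dist v w (q i) p)) (by norm_num))

theorem ker_frame {κ : ℝ} (hκ : 0 ≤ κ) (v w : R3) (p : P2) :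
    ker κ v (v + rot w (vec3 p.1 p.2 0)) ≤ ker2 κ 0 p := by
  unfold ker ker2
  apply ENNReal.ofReal_le_ofReal
  apply Real.exp_le_exp.2
  have h := pow_le_pow_left₀ (norm_nonneg p) (frame_norm v w p) 2
  rw [sub_zero]
  nlinarith

/-- **(F1) frame comparison** -/
theorem planeInt_frame_le {M : ℕ} {κ : ℝ} (hκ : 0 ≤ κ) (q : Fin M → R3) (S : Set R3) (v w : R3) :
    planeInt (fun z => ker κ v z * S.indicator (Sg q) z) v w
      ≤ ∫⁻ p in {p : P2 | v + rot w (vec3 p.1 p.2 0) ∈ S},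
          ker2 κ 0 p * Sg2 (fun i => bar (rot w (q i - v))) p := by
  unfold planeInt
  refine le_trans (lintegral_mono fun p => ?_) (lintegral_indicator_le _ _)
  beta_reduce
  by_cases hp : v + rot w (vec3 p.1 p.2 0) ∈ S
  · rw [indicator_of_mem hp, indicator_of_mem (by exact hp)]
    exact mul_le_mul' (ker_frame hκ v w p) (Sg_frame q v w p)
  · rw [indicator_of_notMem hp, mul_zero]
    exact zero_le

/-- **(F2)** whole plane -/
theorem PA_Sg_le (M : ℕ) {κ : ℝ} (hκ : 0 < κ) (q : Fin M → R3) (u v : R3) :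
    PA κ u v (Sg q) ≤ ENNReal.ofReal (gC M κ) := by
  unfold PA
  have h := planeInt_frame_le hκ.le q univ v (‖u - v‖⁻¹ • (u - v))
  simp only [indicator_univ, mem_univ] at h
  refine h.trans ((setLIntegral_le_lintegral _ _).trans ?_)
  exact gauss2_le M hκ _ 0

theorem PA_whole (M : ℕ) {κ : ℝ} (hκ : 0 < κ) :
    ∃ C : ℝ, 0 < C ∧ ∀ (q : Fin M → R3) (u v : R3), PA κ u v (Sg q) ≤ ENNReal.ofReal C :=
  ⟨gC M κ, gC_pos M hκ, fun q u v => PA_Sg_le M hκ q u v⟩

/-- planar balls -/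
theorem volume_ball2_le (y : P2) {d : ℝ} (hd : 0 ≤ d) :
    volume {p : P2 | ‖p - y‖ < d} ≤ ENNReal.ofReal (4 * d ^ 2) := by
  have h1 : {p : P2 | ‖p - y‖ < d} = ball y d := by
    ext p; simp [dist_eq_norm]
  have h2 : ball y d = ball y.1 d ×ˢ ball y.2 d := (ball_prod_same y.1 y.2 d).symm
  rw [h1, h2, show (volume : Measure P2) = volume.prod volume from rfl, Measure.prod_prod,
    Real.volume_ball, Real.volume_ball, ← ENNReal.ofReal_mul (by positivity)]
  apply le_of_eq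
  congr 1; ring

/-- **(F3)** generic distance -/
theorem PA_dist (M : ℕ) {κ R1 eps : ℝ} (hκ : 0 < κ) (heps : 0 < eps) :
    ∃ d0 R : ℝ, 0 < d0 ∧ 0 < R ∧ ∀ (q : Fin M → R3) (a b u v : R3), ‖v‖ ≤ R1 →
      PA κ u v ({z | R < ‖z‖ ∨ ‖z - a‖ < d0 ∨ ‖z - b‖ < d0}.indicator (Sg q))
        ≤ ENNReal.ofReal eps := by
  obtain ⟨R', hR', hT⟩ := tail2 M hκ (eps := eps / 3) (by positivity)
  obtain ⟨δ, hδ, hS⟩ := small2 M (eps := eps / 3) (by positivity)
  set d0 : ℝ := √δ / 2 with hd0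
  have hd0pos : 0 < d0 := by positivity
  have hd0sq : 4 * d0 ^ 2 ≤ δ := by
    rw [hd0]
    have := Real.sq_sqrt hδ.le
    nlinarith
  refine ⟨d0, |R1| + 2 * R' + 1, hd0pos, by positivity, fun q a b u v hv => ?_⟩
  unfold PA
  set w : R3 := ‖u - v‖⁻¹ • (u - v) with hw
  refine (planeInt_frame_le hκ.le q _ v w).trans ?_
  set q' : Fin M → P2 := fun i => bar (rot w (q i - v)) with hq'
  have hsub : {p : P2 | v + rot w (vec3 p.1 p.2 0) ∈
      {z | |R1| + 2 * R' + 1 < ‖z‖ ∨ ‖z - a‖ < d0 ∨ ‖z - b‖ < d0}}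
      ⊆ {p : P2 | R' ≤ ‖p - 0‖} ∪ ({p : P2 | ‖p - bar (rot w (a - v))‖ < d0} ∪
        {p : P2 | ‖p - bar (rot w (b - v))‖ < d0}) := by
    intro p hp
    rcases hp with hp | hp | hp
    · left
      have h1 : ‖v + rot w (vec3 p.1 p.2 0)‖ ≤ ‖v‖ + ‖vec3 p.1 p.2 0‖ := by
        refine (norm_add_le _ _).trans ?_
        rw [norm_rot]
      have h2 : 2 * R' ≤ ‖vec3 p.1 p.2 0‖ := by
        have := le_abs_self R1
        linarith
      have h3 : ‖vec3 p.1 p.2 0‖ ^ 2 ≤ 2 * ‖p‖ ^ 2 := by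
        rw [norm_sq_vec3]
        have := P2_norm_sq p
        nlinarith
      have h4 : (2 * R') ^ 2 ≤ ‖vec3 p.1 p.2 0‖ ^ 2 := pow_le_pow_left₀ (by positivity) h2 2
      show R' ≤ ‖p - 0‖
      rw [sub_zero]
      by_contra hcon
      push Not at hcon
      have h5 : ‖p‖ ^ 2 < R' ^ 2 := pow_lt_pow_left₀ hcon (norm_nonneg _) (by norm_num)
      nlinarith
    · right; left
      exact lt_of_le_of_lt (frame_dist v w a p) hp
    · right; right
      exact lt_of_le_of_lt (frame_dist v w b p) hp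
  refine (lintegral_mono_set hsub).trans ?_
  refine (lintegral_union_le _ _ _).trans ?_
  have hb1 : ∫⁻ p in {p : P2 | R' ≤ ‖p - 0‖}, ker2 κ 0 p * Sg2 q' p
      ≤ ENNReal.ofReal (eps / 3) := hT q' 0
  have hsm : ∀ c : P2, ∫⁻ p in {p : P2 | ‖p - c‖ < d0}, ker2 κ 0 p * Sg2 q' p
      ≤ ENNReal.ofReal (eps / 3) := by
    intro c
    refine (lintegral_mono fun p => ?_).trans (hS q' {p : P2 | ‖p - c‖ < d0}
      ((volume_ball2_le c hd0pos.le).trans (ENNReal.ofReal_le_ofReal hd0sq)))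
    calc ker2 κ 0 p * Sg2 q' p ≤ 1 * Sg2 q' p := mul_le_mul' (ker2_le_one hκ.le 0 p) le_rfl
      _ = Sg2 q' p := one_mul _
  have hb2 := (lintegral_union_le (μ := (volume : Measure P2))
    (fun p => ker2 κ 0 p * Sg2 q' p) {p : P2 | ‖p - bar (rot w (a - v))‖ < d0}
    {p : P2 | ‖p - bar (rot w (b - v))‖ < d0}).trans
    (add_le_add (hsm (bar (rot w (a - v)))) (hsm (bar (rot w (b - v)))))
  refine (add_le_add hb1 hb2).trans ?_
  rw [← ENNReal.ofReal_add (by positivity) (by positivity),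
    ← ENNReal.ofReal_add (by positivity) (by positivity)]
  apply le_of_eq
  congr 1; ring

end Crest.Agent.R68.S
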