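import Mathlib
import Crest.Agent.R68.SPlane

/-!
R68 / SGraph: graph form of the collision operator `Aop`, measurability (helper653; statements
F4, F5 of Part S).
-/

set_option autoImplicit false
open MeasureTheory Set Metric
open scoped ENNReal Real
open Crest.AnalysisR.VecCalc3 Crest.AnalysisR.PDE.Boltzmann

namespace Crest.Agent.R68.S

theorem measurable_ker2v (κ : ℝ) : Measurable fun q : R3 × R3 => ker κ q.1 q.2 := by
  unfold ker; fun_prop

theorem measurable_ker (κ : ℝ) (v : R3) : Measurable (ker κ v) := by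
  unfold ker; fun_prop


theorem measurable_ker2 (κ : ℝ) (y : P2) : Measurable (ker2 κ y) := by
  unfold ker2; fun_prop


theorem measurable_Sg {M : ℕ} (q : Fin M → R3) : Measurable (Sg q) := by
  unfold Sg
  refine Measurable.const_add ?_ 1
  exact Finset.measurable_fun_sum _ fun i _ => by fun_prop


theorem measurable_Sg2 {M : ℕ} (q : Fin M → P2) : Measurable (Sg2 q) := by
  unfold Sg2
  refine Measurable.const_add ?_ 1
  exact Finset.measurable_fun_sum _ fun i _ => by fun_prop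




@[simp] theorem bar_gpt (v u : R3) (p : P2) : bar (gpt v u p) = p := rfl

/-- distances in the graph dominate planar distances -/
theorem gpt_dist (v u a : R3) (p : P2) : ‖p - bar a‖ ≤ ‖gpt v u p - a‖ :=
  nbar_le (gpt v u p - a)

/-- **(F5)** -/
theorem Sg_gpt {M : ℕ} (q : Fin M → R3) (v u : R3) (p : P2) :
    Sg q (gpt v u p) ≤ Sg2 (fun i => bar (q i)) p := by
  unfold Sg Sg2
  refine add_le_add le_rfl (Finset.sum_le_sum fun i _ => ?_)
  rw [ENNReal.rpow_neg, ENNReal.rpow_neg]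
  exact ENNReal.inv_le_inv.2 (ENNReal.rpow_le_rpow
    (ENNReal.ofReal_le_ofReal (gpt_dist v u (q i) p)) (by norm_num))

theorem ker_gpt {κ : ℝ} (hκ : 0 ≤ κ) (v u : R3) (p : P2) :
    ker κ v (gpt v u p) ≤ ker2 κ (bar v) p := by
  unfold ker ker2
  apply ENNReal.ofReal_le_ofReal
  apply Real.exp_le_exp.2
  have h := pow_le_pow_left₀ (norm_nonneg _) (gpt_dist v u v p) 2
  nlinarith

/-- **(F4) graph form of the collision operator** -/
theorem Aop_graph {κ : ℝ} {v u : R3} (h2 : v 2 ≠ u 2) {g : R3 → ℝ≥0∞} (hg : Measurable g) :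
    Aop κ u v g = ENNReal.ofReal |v 2 - u 2|⁻¹ *
      ∫⁻ p : P2, ker κ v (gpt v u p) * g (gpt v u p) := by
  have hne : u - v ≠ 0 := by
    intro h
    apply h2
    have h3 : (u - v) 2 = 0 := by rw [h]; rfl
    have h4 : u 2 - v 2 = 0 := h3
    linarith
  have hpos : 0 < ‖u - v‖ := norm_pos_iff.2 hne
  set n : R3 := ‖u - v‖⁻¹ • (u - v) with hn
  have hn1 : ‖n‖ = 1 := by
    rw [hn, norm_smul, norm_inv, norm_norm, inv_mul_cancel₀ hpos.ne']
  have hn0 : ∀ i, n i = ‖u - v‖⁻¹ * (u i - v i) := fun i => rfl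
  have h22 : u 2 - v 2 ≠ 0 := sub_ne_zero.2 (Ne.symm h2)
  have hn2 : n 2 ≠ 0 := by
    rw [hn0]
    exact mul_ne_zero (inv_ne_zero hpos.ne') h22
  have hG : Measurable fun z => ker κ v z * g z := (measurable_ker κ v).mul hg
  unfold Aop PA
  rw [← hn, planeInt_graph hG v hn1 hn2, ← mul_assoc]
  congr 1
  · rw [← ENNReal.ofReal_mul (by positivity)]
    congr 1
    rw [hn0, abs_mul, abs_of_pos (inv_pos.2 hpos), mul_inv, inv_inv, ← mul_assoc,
      inv_mul_cancel₀ hpos.ne', one_mul, abs_sub_comm]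
  · refine lintegral_congr fun p => ?_
    have hz : graphZ v n p.1 p.2 = gz v u p := by
      unfold graphZ gz
      rw [hn0, hn0, hn0]
      have h23 : v 2 - u 2 ≠ 0 := sub_ne_zero.2 h2
      field_simp
      ring
    rw [hz]
    rfl


attribute [local irreducible] rot vec3

theorem measurable_rot_param {α : Type*} [MeasurableSpace α] {U V : α → R3}
    (hU : Measurable U) (hV : Measurable V) : Measurable fun q : α × (ℝ × ℝ) =>
      rot (‖U q.1 - V q.1‖⁻¹ • (U q.1 - V q.1)) (vec3 q.2.1 q.2.2 0) := by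
  have hw : Measurable fun a => ‖U a - V a‖⁻¹ • (U a - V a) := by fun_prop
  have h1 : Measurable fun q : α × (ℝ × ℝ) =>
        (‖U q.1 - V q.1‖⁻¹ • (U q.1 - V q.1), vec3 q.2.1 q.2.2 0) :=
      (hw.comp measurable_fst).prodMk (by fun_prop)
  exact measurable_rot.comp h1

theorem measurable_ker_param {α : Type*} [MeasurableSpace α] (κ : ℝ) {V : α → R3}
    {Z : α × (ℝ × ℝ) → R3} (hV : Measurable V) (hZ : Measurable Z) :
    Measurable fun q : α × (ℝ × ℝ) => ker κ (V q.1) (Z q) := by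
  have hV1 : Measurable fun q : α × (ℝ × ℝ) => V q.1 := hV.comp measurable_fst
  have h1 : Measurable fun q : α × (ℝ × ℝ) => (V q.1, Z q) := hV1.prodMk hZ
  have h2 := measurable_ker2v κ
  have h3 := h2.comp h1
  exact h3

theorem measurable_g_param {α : Type*} [MeasurableSpace α] {g : α → R3 → ℝ≥0∞}
    {Z : α × (ℝ × ℝ) → R3} (hg : Measurable fun q : α × R3 => g q.1 q.2) (hZ : Measurable Z) :
    Measurable fun q : α × (ℝ × ℝ) => g q.1 (Z q) := by
  have h1 : Measurable fun q : α × (ℝ × ℝ) => (q.1, Z q) := measurable_fst.prodMk hZ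
  have h3 := hg.comp h1
  exact h3

/-- joint measurability of the collision operator with a parameter -/
theorem measurable_Aop_param {α : Type*} [MeasurableSpace α] (κ : ℝ) {U V : α → R3}
    (hU : Measurable U) (hV : Measurable V) {g : α → R3 → ℝ≥0∞}
    (hg : Measurable fun q : α × R3 => g q.1 q.2) :
    Measurable fun a => Aop κ (U a) (V a) (g a) := by
  have hA : Measurable fun a => ENNReal.ofReal ‖U a - V a‖⁻¹ := by fun_prop
  have hZ : Measurable fun q : α × (ℝ × ℝ) =>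
      V q.1 + rot (‖U q.1 - V q.1‖⁻¹ • (U q.1 - V q.1)) (vec3 q.2.1 q.2.2 0) :=
    (hV.comp measurable_fst).add (measurable_rot_param hU hV)
  have hK := measurable_ker_param κ hV hZ
  have hG := measurable_g_param hg hZ
  have h3 := (hK.mul hG).lintegral_prod_right' (ν := (volume : Measure (ℝ × ℝ)))
  have h4 := hA.mul h3
  exact h4

/-- **(F5)** measurability needed for `Top` -/
theorem measurable_Aop_fields {Ω : Type} [MeasurableSpace Ω] (κ : ℝ) {u : Ω → ℝ → P2 → R3}
    (hu : Measurable fun q : Ω × ℝ × P2 => u q.1 q.2.1 q.2.2) {f : ℝ → P2 → R3 → ℝ≥0∞}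
    (hf : Measurable fun q : ℝ × P2 × R3 => f q.1 q.2.1 q.2.2) :
    Measurable fun q : Ω × ℝ × P2 × R3 =>
      Aop κ (u q.1 q.2.1 q.2.2.1) q.2.2.2 (f q.2.1 q.2.2.1) := by
  apply measurable_Aop_param κ
  · exact hu.comp (g := fun q : Ω × ℝ × P2 => u q.1 q.2.1 q.2.2)
      (f := fun q : Ω × ℝ × P2 × R3 => (q.1, q.2.1, q.2.2.1)) (by fun_prop)
  · fun_prop
  · exact hf.comp (g := fun q : ℝ × P2 × R3 => f q.1 q.2.1 q.2.2)
      (f := fun q : (Ω × ℝ × P2 × R3) × R3 => (q.1.2.1, q.1.2.2.1, q.2)) (by fun_prop)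

/-- the version along flights -/
theorem measurable_Aop_flight {Ω : Type} [MeasurableSpace Ω] (κ : ℝ) {u : Ω → ℝ → P2 → R3}
    (hu : Measurable fun q : Ω × ℝ × P2 => u q.1 q.2.1 q.2.2) {f : ℝ → P2 → R3 → ℝ≥0∞}
    (hf : Measurable fun q : ℝ × P2 × R3 => f q.1 q.2.1 q.2.2) :
    Measurable fun q : (ℝ × P2 × R3) × ℝ × Ω =>
      Aop κ (u q.2.2 q.2.1 (q.1.2.1 - (q.2.1 - q.1.1) • bar q.1.2.2)) q.1.2.2
        (f q.2.1 (q.1.2.1 - (q.2.1 - q.1.1) • bar q.1.2.2)) := by
  have hbar : Measurable bar := by unfold bar; fun_prop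
  have hx : Measurable fun q : (ℝ × P2 × R3) × ℝ × Ω =>
      q.1.2.1 - (q.2.1 - q.1.1) • bar q.1.2.2 := by fun_prop
  exact (measurable_Aop_fields κ hu hf).comp
    (f := fun q : (ℝ × P2 × R3) × ℝ × Ω =>
      (q.2.2, q.2.1, q.1.2.1 - (q.2.1 - q.1.1) • bar q.1.2.2, q.1.2.2)) (by fun_prop)

end Crest.Agent.R68.S
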