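import Crest.Agent.R68.XDefs
import Crest.Agent.R68.XSph2

/-!
# Row 68, X2Gs2 (helper616): `gsR` through sphere means; moments; `har_crude`, `har_far`
-/

set_option autoImplicit false
open MeasureTheory Set
open scoped ENNReal Real
open Crest.AnalysisR.VecCalc3 Crest.AnalysisR.PDE.Boltzmann

noncomputable section

namespace Crest.Agent.R68.X2

open Crest.Agent.R68.XSph

/-- `gsR` through the sphere mean (integrable version) -/
theorem gsR_eq_smean_i {g : R3 → ℝ} (hg : Measurable g) (v u : R3)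
    (hi : Integrable (fun s => g (pt v u s)) sphereMeasure) :
    gsR g v u = 4 * π * ‖v - u‖ * smean g v u := by
  have e : gsR g v u = XTent.gainT g v u := rfl
  rw [e, gainT_eq_smean hg v u hi]
  ring

theorem gsR_eq_smean_c {g : R3 → ℝ} (hg : Continuous g) (v u : R3) :
    gsR g v u = 4 * π * ‖v - u‖ * smean g v u :=
  gsR_eq_smean_i hg.measurable v u (integrable_pt_of_continuous hg v u)


/-! ### moments -/





/-! ### the velocity weight `hh` -/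

theorem cont_hh (C2 : ℝ) : Continuous (hh C2) := by unfold hh; fun_prop

theorem hh_ge_one {C2 : ℝ} (h : 0 ≤ C2) (q : R3) : 1 ≤ hh C2 q := by
  unfold hh
  have : 0 ≤ C2 * |q 1| := mul_nonneg h (abs_nonneg _)
  have : 0 ≤ ‖q‖ ^ 12 := by positivity
  linarith

theorem hh_ge_pow {C2 : ℝ} (h : 0 ≤ C2) (q : R3) : 1 + ‖q‖ ^ 12 ≤ hh C2 q := by
  unfold hh
  have : 0 ≤ C2 * |q 1| := mul_nonneg h (abs_nonneg _)
  linarith

theorem smean_hh (C2 : ℝ) (v u : R3) :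
    smean (hh C2) v u = 1 + C2 * smean (fun a => |a 1|) v u + smean (fun a => ‖a‖ ^ 12) v u := by
  have c1 : Continuous fun a : R3 => (1 : ℝ) + C2 * |a 1| := by fun_prop
  have c2 : Continuous fun a : R3 => ‖a‖ ^ 12 := by fun_prop
  have c3 : Continuous fun _ : R3 => (1 : ℝ) := by fun_prop
  have c4 : Continuous fun a : R3 => C2 * |a 1| := by fun_prop
  have h1 := integrable_pt_of_continuous c1 v u
  have h2 := integrable_pt_of_continuous c2 v u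
  have h3 := integrable_pt_of_continuous c3 v u
  have h4 := integrable_pt_of_continuous c4 v u
  have e : smean (hh C2) v u = smean (fun a => (1 + C2 * |a 1|) + ‖a‖ ^ 12) v u := rfl
  rw [e, smean_add v u h1 h2, smean_add v u h3 h4, smean_const, smean_const_mul]


private theorem abs_coord_le (a : R3) (i : Fin 3) : |a i| ≤ ‖a‖ := by
  have := PiLp.norm_apply_le a i
  simpa [Real.norm_eq_abs] using this

theorem smean_abs_coord_le (v u : R3) (i : Fin 3) :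
    smean (fun a => |a i|) v u ≤ ‖v‖ + ‖u‖ := by
  have hc : Continuous fun a : R3 => |a i| := by fun_prop
  exact smean_le_const v u (integrable_pt_of_continuous hc v u) fun _ hs =>
    (abs_coord_le _ i).trans (norm_pt_le hs)

theorem smean_hh_le {C2 U : ℝ} (hC2 : 0 ≤ C2) {q p : R3} (hp : ‖p‖ ≤ U) :
    smean (hh C2) q p ≤ 1 + C2 * (‖q‖ + U) + (‖q‖ ^ 2 + U ^ 2) ^ 6 / 7 := by
  rw [smean_hh]
  have h1 := smean_abs_coord_le q p 1
  have h2 := smean_norm_pow12_le q p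
  have h3 : (‖q‖ ^ 2 + ‖p‖ ^ 2) ^ 6 ≤ (‖q‖ ^ 2 + U ^ 2) ^ 6 := by gcongr
  have h4 : C2 * smean (fun a => |a 1|) q p ≤ C2 * (‖q‖ + U) :=
    mul_le_mul_of_nonneg_left (h1.trans (by linarith)) hC2
  linarith

/-- crude bound -/
theorem har_crude (C2 U : ℝ) (hC2 : 0 ≤ C2) (hU : 0 ≤ U) : ∃ C : ℝ, 0 ≤ C ∧ ∀ q p : R3, ‖p‖ ≤ U →
    gsR (hh C2) q p ≤ C * (1 + ‖q‖) * hh C2 q := by
  refine ⟨4 * π * (1 + U) * (1 + C2 * (1 + U) + 64 * (1 + U ^ 12)), by positivity,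
    fun q p hp => ?_⟩
  have hq := norm_nonneg q
  rw [gsR_eq_smean_c (cont_hh C2)]
  have h1 : ‖q - p‖ ≤ (1 + U) * (1 + ‖q‖) := by
    have := norm_sub_le q p
    nlinarith
  have hh1 := hh_ge_pow hC2 q
  have hpos : 0 < hh C2 q := lt_of_lt_of_le zero_lt_one (hh_ge_one hC2 q)
  have h2 : smean (hh C2) q p ≤ (1 + C2 * (1 + U) + 64 * (1 + U ^ 12)) * hh C2 q := by
    refine (smean_hh_le hC2 hp).trans ?_
    have hq1 : ‖q‖ ≤ 1 + ‖q‖ ^ 12 := by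
      rcases le_total ‖q‖ 1 with h | h
      · have : 0 ≤ ‖q‖ ^ 12 := by positivity
        linarith
      · have : ‖q‖ ≤ ‖q‖ ^ 12 := le_self_pow₀ h (by norm_num)
        linarith
    have h3 : (‖q‖ ^ 2 + U ^ 2) ^ 6 ≤ 64 * (‖q‖ ^ 12 + U ^ 12) := by
      have h4 : ‖q‖ ^ 2 + U ^ 2 ≤ 2 * max (‖q‖ ^ 2) (U ^ 2) := by
        have := le_max_left (‖q‖ ^ 2) (U ^ 2)
        have := le_max_right (‖q‖ ^ 2) (U ^ 2)
        linarith
      calc (‖q‖ ^ 2 + U ^ 2) ^ 6 ≤ (2 * max (‖q‖ ^ 2) (U ^ 2)) ^ 6 :=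
            pow_le_pow_left₀ (by positivity) h4 6
        _ = 64 * (max (‖q‖ ^ 2) (U ^ 2)) ^ 6 := by ring
        _ ≤ 64 * (‖q‖ ^ 12 + U ^ 12) := by
            rcases le_total (‖q‖ ^ 2) (U ^ 2) with h | h
            · rw [max_eq_right h]
              have e : (U ^ 2) ^ 6 = U ^ 12 := by ring
              have : 0 ≤ ‖q‖ ^ 12 := by positivity
              rw [e]; linarith
            · rw [max_eq_left h]
              have e : (‖q‖ ^ 2) ^ 6 = ‖q‖ ^ 12 := by ring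
              have : 0 ≤ U ^ 12 := by positivity
              rw [e]; linarith
    have hU12 : 0 ≤ U ^ 12 := by positivity
    have hq12 : 0 ≤ ‖q‖ ^ 12 := by positivity
    have h5 : 1 + C2 * (‖q‖ + U) + (‖q‖ ^ 2 + U ^ 2) ^ 6 / 7 ≤
        (1 + C2 * (1 + U) + 64 * (1 + U ^ 12)) * (1 + ‖q‖ ^ 12) := by
      have a1 : C2 * (‖q‖ + U) ≤ C2 * (1 + U) * (1 + ‖q‖ ^ 12) := by
        have : ‖q‖ + U ≤ (1 + U) * (1 + ‖q‖ ^ 12) := by nlinarith
        calc C2 * (‖q‖ + U) ≤ C2 * ((1 + U) * (1 + ‖q‖ ^ 12)) :=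
              mul_le_mul_of_nonneg_left this hC2
          _ = _ := by ring
      have a2 : (‖q‖ ^ 2 + U ^ 2) ^ 6 / 7 ≤ 64 * (1 + U ^ 12) * (1 + ‖q‖ ^ 12) := by
        have : 0 ≤ (‖q‖ ^ 2 + U ^ 2) ^ 6 := by positivity
        nlinarith [mul_nonneg hU12 hq12]
      nlinarith
    refine h5.trans ?_
    exact mul_le_mul_of_nonneg_left hh1 (by positivity)
  have hs0 : 0 ≤ smean (hh C2) q p :=
    smean_nonneg (fun a => zero_le_one.trans (hh_ge_one hC2 a)) q p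
  calc 4 * π * ‖q - p‖ * smean (hh C2) q p
      ≤ 4 * π * ((1 + U) * (1 + ‖q‖)) *
        ((1 + C2 * (1 + U) + 64 * (1 + U ^ 12)) * hh C2 q) := by gcongr
    _ = _ := by ring

/-- far inequality -/
theorem har_far (C2 U : ℝ) (hC2 : 0 ≤ C2) (hU : 0 ≤ U) : ∃ V1 ε2 : ℝ, 0 < V1 ∧ 0 < ε2 ∧
    ∀ q p : R3, V1 ≤ ‖q‖ → ‖p‖ ≤ U →
      (1 + ε2) / (2 * π) * gsR (hh C2) q p ≤ ‖q - p‖ * hh C2 q := by
  refine ⟨10 * (1 + U) * (1 + C2), 1 / 10, by positivity, by norm_num, fun q p hq hp => ?_⟩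
  rw [gsR_eq_smean_c (cont_hh C2)]
  have hq0 := norm_nonneg q
  have h1 := smean_hh_le hC2 (q := q) hp
  have hq10 : 10 * (1 + U) ≤ ‖q‖ := by nlinarith
  have hqC : 10 * (1 + C2) ≤ ‖q‖ := by nlinarith
  have hq1 : 10 ≤ ‖q‖ := by linarith
  have hUq : U ^ 2 ≤ (‖q‖ / 10) ^ 2 := pow_le_pow_left₀ hU (by linarith) 2
  have h3 : (‖q‖ ^ 2 + U ^ 2) ^ 6 ≤ (101 / 100) ^ 6 * ‖q‖ ^ 12 := by
    calc (‖q‖ ^ 2 + U ^ 2) ^ 6 ≤ (101 / 100 * ‖q‖ ^ 2) ^ 6 :=
          pow_le_pow_left₀ (by positivity) (by nlinarith) 6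
      _ = _ := by ring
  have h4 : 1 + C2 * (‖q‖ + U) ≤ ‖q‖ ^ 12 / 10 := by
    have a1 : C2 * (‖q‖ + U) ≤ ‖q‖ / 10 * (2 * ‖q‖) :=
      mul_le_mul (by linarith) (by linarith) (by linarith) (by linarith)
    have a2 : (10 : ℝ) ^ 10 * ‖q‖ ^ 2 ≤ ‖q‖ ^ 12 := by
      calc (10 : ℝ) ^ 10 * ‖q‖ ^ 2 ≤ ‖q‖ ^ 10 * ‖q‖ ^ 2 := by gcongr
        _ = _ := by ring
    nlinarith
  have h5 : smean (hh C2) q p ≤ 1 / 3 * ‖q‖ ^ 12 := by
    have : 0 ≤ ‖q‖ ^ 12 := by positivity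
    nlinarith
  have h6 : 2 * (11 / 10) * smean (hh C2) q p ≤ hh C2 q := by
    have a1 := hh_ge_pow hC2 q
    have : 0 ≤ ‖q‖ ^ 12 := by positivity
    nlinarith
  have hpi := Real.pi_pos
  calc (1 + 1 / 10) / (2 * π) * (4 * π * ‖q - p‖ * smean (hh C2) q p)
      = ‖q - p‖ * (2 * (11 / 10) * smean (hh C2) q p) := by field_simp; ring
    _ ≤ ‖q - p‖ * hh C2 q := mul_le_mul_of_nonneg_left h6 (norm_nonneg _)

end Crest.Agent.R68.X2
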