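import Crest.Agent.R68.XDefs2
import Crest.Agent.R68.X2Gs
import Crest.Agent.R68.EGeom
import Crest.Agent.R68.XSph2

-- ▼ part R68/X2PwOm
section

/-!
# Row 68, PART X2: pointwise upper inequality of the Harnack weight (helper211)
-/

set_option autoImplicit false
open MeasureTheory Set Filter
open scoped ENNReal Real
open Crest.AnalysisR.VecCalc3 Crest.AnalysisR.PDE.Boltzmann

noncomputable section

namespace Crest.Agent.R68.X2

open Crest.Agent.R68.L (Den phiE Gf Dam TL sol)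
open Crest.Agent.R68.X (chs)
open Crest.Agent.R68.A (Meas3)

namespace PwOm

theorem meas3_slice {F : Den} (hF : Meas3 F) (t : ℝ) (x : P2) : Measurable (F t x) := by
  have h : Measurable fun v : R3 => (t, x, v) := by fun_prop
  exact (show Measurable fun p : ℝ × P2 × R3 => F p.1 p.2.1 p.2.2 from hF).comp h

/-! ### tools on `gsE`, `gsR` -/

theorem gsE_mono_on {g h : R3 → ℝ≥0∞} {v u : R3}
    (hgh : ∀ w, ‖w‖ ^ 2 ≤ ‖v‖ ^ 2 + ‖u‖ ^ 2 → g w ≤ h w) : gsE g v u ≤ gsE h v u := by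
  unfold gsE
  refine lintegral_mono_ae ?_
  filter_upwards [ae_sphereMeasure] with w hw
  have e := post_norm_sq hw v u
  refine mul_le_mul_right (add_le_add (hgh _ ?_) (hgh _ ?_)) _
  · nlinarith [sq_nonneg ‖postVelStar v u w‖]
  · nlinarith [sq_nonneg ‖postVel v u w‖]

theorem gsE_smul {g : R3 → ℝ≥0∞} (hg : Measurable g) (c : ℝ≥0∞) (v u : R3) :
    gsE (fun w => c * g w) v u = c * gsE g v u := XSph.gs_const_mul hg c v u

theorem continuous_post (v u : R3) : Continuous fun w : R3 => postVel v u w := by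
  unfold postVel; fun_prop

theorem continuous_postStar (v u : R3) : Continuous fun w : R3 => postVelStar v u w := by
  unfold postVelStar; fun_prop

theorem gsE_ofReal_cont {g : R3 → ℝ} (hg : Continuous g) (h0 : ∀ w, 0 ≤ g w) (v u : R3) :
    gsE (fun w => ENNReal.ofReal (g w)) v u = ENNReal.ofReal (gsR g v u) := by
  unfold gsE gsR
  have hc : Continuous fun w : R3 => |(inner ℝ (v - u) w : ℝ)| *
      (g (postVel v u w) + g (postVelStar v u w)) := by
    have h1 := continuous_post v u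
    have h2 := continuous_postStar v u
    exact (by fun_prop : Continuous fun w : R3 => |(inner ℝ (v - u) w : ℝ)|).mul
      ((hg.comp h1).add (hg.comp h2))
  obtain ⟨C, hC⟩ := (isCompact_sphere (0 : R3) 1).exists_bound_of_continuousOn hc.continuousOn
  have hi : Integrable (fun w : R3 => |(inner ℝ (v - u) w : ℝ)| *
      (g (postVel v u w) + g (postVelStar v u w))) sphereMeasure :=
    integrable_sphere_of_bounded hc.measurable (C := C) fun w hw => by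
      have := hC w (by simpa using hw)
      simpa using this
  rw [ofReal_integral_eq_lintegral_ofReal hi (Eventually.of_forall fun w =>
    mul_nonneg (abs_nonneg _) (add_nonneg (h0 _) (h0 _)))]
  refine lintegral_congr fun w => ?_
  rw [ENNReal.ofReal_mul (abs_nonneg _), ENNReal.ofReal_add (h0 _) (h0 _)]

theorem fr_post (y : ℝ) (v u w : R3) : fr y (postVel v u w) = postVel (fr y v) (fr y u) w := by
  unfold fr postVel
  have : v - !₂[0, y, 0] - (u - !₂[0, y, 0]) = v - u := by abel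
  rw [this]; abel

theorem fr_postStar (y : ℝ) (v u w : R3) :
    fr y (postVelStar v u w) = postVelStar (fr y v) (fr y u) w := by
  unfold fr postVelStar
  have : v - !₂[0, y, 0] - (u - !₂[0, y, 0]) = v - u := by abel
  rw [this]; abel

theorem fr_sub (y : ℝ) (v u : R3) : fr y v - fr y u = v - u := by unfold fr; abel

theorem gsR_frame (g : R3 → ℝ) (y : ℝ) (v u : R3) :
    gsR (fun w => g (fr y w)) v u = gsR g (fr y v) (fr y u) := by
  unfold gsR
  rw [fr_sub]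
  simp_rw [fr_post, fr_postStar]

theorem gsR_smul (c : ℝ) (g : R3 → ℝ) (v u : R3) :
    gsR (fun w => c * g w) v u = c * gsR g v u := by
  unfold gsR
  rw [← integral_const_mul]
  refine integral_congr_ae (Eventually.of_forall fun w => ?_)
  simp only
  ring

theorem gsR_nonneg {g : R3 → ℝ} (h0 : ∀ w, 0 ≤ g w) (v u : R3) : 0 ≤ gsR g v u :=
  integral_nonneg fun _ => mul_nonneg (abs_nonneg _) (add_nonneg (h0 _) (h0 _))

/-! ### the frame -/

theorem fr_apply_zero (y : ℝ) (v : R3) : fr y v 0 = v 0 := by simp [fr]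

theorem norm_ey (y : ℝ) : ‖(!₂[0, y, 0] : R3)‖ = |y| := by
  rw [EuclideanSpace.norm_eq]
  simp [Fin.sum_univ_three, Real.sqrt_sq_eq_abs]

theorem norm_fr_le (y : ℝ) (v : R3) : ‖fr y v‖ ≤ ‖v‖ + |y| := by
  unfold fr
  refine (norm_sub_le _ _).trans ?_
  rw [norm_ey]

theorem norm_le_fr (y : ℝ) (v : R3) : ‖v‖ ≤ ‖fr y v‖ + |y| := by
  have h : v = fr y v + !₂[0, y, 0] := by unfold fr; abel
  calc ‖v‖ = ‖fr y v + !₂[0, y, 0]‖ := by rw [← h]
    _ ≤ _ := (norm_add_le _ _).trans (by rw [norm_ey])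

theorem fr_sub_us (y s : ℝ) (u : R3) : fr y u - us 0 s = u - us y s := by
  unfold fr us
  have : (!₂[0, y, s] : R3) = !₂[0, y, 0] + !₂[0, 0, s] := by
    ext i; fin_cases i <;> simp
  rw [this]; abel

theorem continuous_fr (y : ℝ) : Continuous fun v : R3 => fr y v := by unfold fr; fun_prop

theorem continuous_hh (C2 : ℝ) : Continuous (hh C2) := by unfold hh; fun_prop

theorem one_le_hh {C2 : ℝ} (h : 0 ≤ C2) (q : R3) : 1 ≤ hh C2 q := by
  unfold hh
  have h1 : 0 ≤ C2 * |q 1| := by positivity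
  have h2 : 0 ≤ ‖q‖ ^ 12 := by positivity
  linarith

/-! ### `mm` along collisions -/

theorem mm_sq_le {t : ℝ} {x : P2} {v u w : R3} (ht : 0 ≤ distG x / t)
    (hw : ‖w‖ ^ 2 ≤ ‖v‖ ^ 2 + ‖u‖ ^ 2) : mm t x w ^ 2 ≤ mm t x v ^ 2 + ‖u‖ ^ 2 := by
  unfold mm
  have hv0 := norm_nonneg v
  have h1 : ‖v‖ ^ 2 ≤ max ‖v‖ (distG x / t) ^ 2 :=
    pow_le_pow_left₀ hv0 (le_max_left _ _) 2
  have h2 : (distG x / t) ^ 2 ≤ max ‖v‖ (distG x / t) ^ 2 :=
    pow_le_pow_left₀ ht (le_max_right _ _) 2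
  rcases le_total ‖w‖ (distG x / t) with h | h
  · rw [max_eq_right h]; nlinarith [sq_nonneg ‖u‖]
  · rw [max_eq_left h]; linarith

/-! ### bounding the gain of `Om` -/

theorem gsE_Om_le {Y C2 gp ε U : ℝ} (hC2 : 0 ≤ C2) (hgp : 0 ≤ gp) (hU : Real.exp (gp * U ^ 2) ≤ 1 + ε)
    {t : ℝ} (ht : 0 < t) (x : P2) (v : R3) {u : R3} (hu : ‖u‖ ≤ U) :
    gsE (OmE Y C2 gp t x) v u ≤ ENNReal.ofReal ((1 + ε) * Real.exp (gp * mm t x v ^ 2) *
      gsR (hh C2) (fr (Yc Y t x) v) (fr (Yc Y t x) u)) := by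
  set y := Yc Y t x with hy
  have hd : 0 ≤ distG x / t := div_nonneg (distG_nonneg x) ht.le
  have hE : 0 < Real.exp (gp * mm t x v ^ 2) := Real.exp_pos _
  have hε : 0 ≤ 1 + ε := (Real.exp_pos _).le.trans hU
  have h1 : gsE (OmE Y C2 gp t x) v u ≤ gsE (fun w => ENNReal.ofReal
      ((1 + ε) * Real.exp (gp * mm t x v ^ 2)) * ENNReal.ofReal (hh C2 (fr y w))) v u := by
    refine gsE_mono_on fun w hw => ?_
    rw [← ENNReal.ofReal_mul (by positivity)]
    refine ENNReal.ofReal_le_ofReal ?_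
    unfold Om
    rw [mul_comm]
    have hh0 : 0 ≤ hh C2 (fr y w) := zero_le_one.trans (one_le_hh hC2 _)
    refine mul_le_mul_of_nonneg_right ?_ hh0
    have h2 := mm_sq_le (t := t) (x := x) (v := v) (u := u) (w := w) hd hw
    have h3 : ‖u‖ ^ 2 ≤ U ^ 2 := pow_le_pow_left₀ (norm_nonneg u) hu 2
    calc Real.exp (gp * mm t x w ^ 2)
        ≤ Real.exp (gp * U ^ 2 + gp * mm t x v ^ 2) := by
          apply Real.exp_le_exp.2
          nlinarith
      _ = Real.exp (gp * U ^ 2) * Real.exp (gp * mm t x v ^ 2) := Real.exp_add _ _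
      _ ≤ _ := mul_le_mul_of_nonneg_right hU hE.le
  refine h1.trans (le_of_eq ?_)
  have hc : Continuous fun w => hh C2 (fr y w) := (continuous_hh C2).comp (continuous_fr y)
  rw [gsE_smul hc.measurable.ennreal_ofReal, gsE_ofReal_cont hc
    (fun w => zero_le_one.trans (one_le_hh hC2 _)), gsR_frame, ← ENNReal.ofReal_mul (by positivity)]

/-! ### the test function -/

theorem continuous_lamd {d : ℝ} : Continuous (lamd d) := by unfold lamd; fun_prop

theorem lamd_nonneg (d a : ℝ) : 0 ≤ lamd d a := le_max_left _ _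

theorem continuous_tentp (A Yp e y : ℝ) : Continuous (tentp A Yp e y) := by
  unfold tentp tent; fun_prop

theorem tentp_nonneg (A Yp e y : ℝ) (q : R3) : 0 ≤ tentp A Yp e y q := le_max_left _ _

theorem cutB_ge {B w : ℝ} (hB : 0 < B) (hw : 2 * |w| ≤ B) : 9 / 16 ≤ cutB B w := by
  unfold cutB
  have h1 : w ^ 2 / B ^ 2 ≤ 1 / 4 := by
    rw [div_le_iff₀ (by positivity)]
    have := sq_abs w
    nlinarith [abs_nonneg w]
  have h2 : (3 / 4 : ℝ) ≤ max 0 (1 - w ^ 2 / B ^ 2) := le_max_of_le_right (by linarith)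
  nlinarith

theorem gsR_psi0 (X : XP) (t : ℝ) (x : P2) (v u : R3) :
    gsR (psi0 X t x) v u = cutB X.B (x.1 / t) *
      gsR (fun w => tentp X.A X.Yp X.e (x.2 / t) w * lamd X.d (w 0))
        (fr (x.2 / t) v) (fr (x.2 / t) u) := by
  have e1 : (t⁻¹ • x).1 = x.1 / t := by simp [div_eq_inv_mul]
  have e2 : (t⁻¹ • x).2 = x.2 / t := by simp [div_eq_inv_mul]
  have e : psi0 X t x = fun w => cutB X.B (x.1 / t) *
      (fun q : R3 => tentp X.A X.Yp X.e (x.2 / t) q * lamd X.d (q 0)) (fr (x.2 / t) w) := by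
    funext w
    unfold psi0 f0
    rw [e1, e2]
    simp only [fr_apply_zero]
    ring
  rw [e, gsR_smul, gsR_frame (fun q : R3 => tentp X.A X.Yp X.e (x.2 / t) q * lamd X.d (q 0))]

theorem psi0_nonneg (X : XP) (t : ℝ) (x : P2) (v : R3) : 0 ≤ psi0 X t x v := by
  unfold psi0 f0
  exact mul_nonneg (mul_nonneg (tentp_nonneg _ _ _ _ _) (sq_nonneg _)) (lamd_nonneg _ _)

theorem continuous_psi0 (X : XP) (t : ℝ) (x : P2) : Continuous (psi0 X t x) := by
  unfold psi0 f0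
  refine Continuous.mul (Continuous.mul ?_ continuous_const) ?_
  · exact (continuous_tentp _ _ _ _).comp (continuous_fr _)
  · exact continuous_lamd.comp (by fun_prop)

/-- seen particles: the gain of `psiP` -/
theorem le_gsE_psiP (X : XP) {t : ℝ} (x : P2) (v u : R3) (k : ℤ × ℤ) (hB : 0 < X.B)
    (hk : 2 * |(x + latt k).1 / t| ≤ X.B) :
    ENNReal.ofReal (9 / 16 * gsR (fun w => tentp X.A X.Yp X.e ((x + latt k).2 / t) w * lamd X.d (w 0))
        (fr ((x + latt k).2 / t) v) (fr ((x + latt k).2 / t) u)) ≤ gsE (psiP X t x) v u := by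
  set y := (x + latt k).2 / t
  have h0 : 0 ≤ gsR (fun w => tentp X.A X.Yp X.e y w * lamd X.d (w 0)) (fr y v) (fr y u) :=
    gsR_nonneg (fun w => mul_nonneg (tentp_nonneg _ _ _ _ _) (lamd_nonneg _ _)) _ _
  calc ENNReal.ofReal (9 / 16 * gsR (fun w => tentp X.A X.Yp X.e y w * lamd X.d (w 0))
        (fr y v) (fr y u))
      ≤ ENNReal.ofReal (cutB X.B ((x + latt k).1 / t) * gsR (fun w => tentp X.A X.Yp X.e y w *
        lamd X.d (w 0)) (fr y v) (fr y u)) :=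
        ENNReal.ofReal_le_ofReal (mul_le_mul_of_nonneg_right (cutB_ge hB hk) h0)
    _ = ENNReal.ofReal (gsR (psi0 X t (x + latt k)) v u) := by rw [gsR_psi0]
    _ = gsE (psiE X t (x + latt k)) v u := by
        rw [← gsE_ofReal_cont (continuous_psi0 X t _) (psi0_nonneg X t _)]
        rfl
    _ ≤ gsE (psiP X t x) v u := gsE_mono_on fun w _ =>
        ENNReal.le_tsum (f := fun k => psiE X t (x + latt k) w) k

/-! ### integration over the fuel -/

theorem integrate {P : Par} (hP : P.Ok) {K t : ℝ} (hK : 0 < K) (ht : 0 < t) {x : P2}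
    (hmass : ∫⁻ u, phiE P t x u ≤ ENNReal.ofReal (K / t)) {v : R3} {W G : R3 → ℝ≥0∞}
    {O S : ℝ≥0∞} {C : ℝ}
    (h : ∀ u, phi P t x u ≠ 0 → gsE W v u ≤ ENNReal.ofReal (2 * π * ‖v - u‖) * O
      + ENNReal.ofReal (t / K) * S + ENNReal.ofReal C * G u) :
    ∫⁻ u, phiE P t x u * gsE W v u ≤ Lc (phiE P t x) v * O + S
      + ENNReal.ofReal C * ∫⁻ u, phiE P t x u * G u := by
  have hm : Measurable (phiE P t x) :=
    meas3_slice (F := phiE P) (Fuel.measurable_ofReal_phi hP) t x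
  have h1 : ∫⁻ u, phiE P t x u * gsE W v u ≤ ∫⁻ u, ((phiE P t x u *
      (ENNReal.ofReal (2 * π * ‖v - u‖)) * O + phiE P t x u * (ENNReal.ofReal (t / K) * S))
        + ENNReal.ofReal C * (phiE P t x u * G u)) := by
    refine lintegral_mono fun u => ?_
    by_cases hu : phi P t x u = 0
    · have : phiE P t x u = 0 := by unfold phiE; rw [hu]; simp
      simp [this]
    · refine (mul_le_mul_right (h u hu) _).trans (le_of_eq ?_)
      ring
  refine h1.trans ?_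
  have m1 : Measurable fun u => phiE P t x u * (ENNReal.ofReal (2 * π * ‖v - u‖)) :=
    hm.mul (by fun_prop)
  have m2 : Measurable fun u => phiE P t x u * (ENNReal.ofReal (t / K) * S) := hm.mul_const _
  have m3 : Measurable fun u => phiE P t x u * (ENNReal.ofReal (2 * π * ‖v - u‖)) * O
      + phiE P t x u * (ENNReal.ofReal (t / K) * S) := (m1.mul_const _).add m2
  rw [lintegral_add_left m3, lintegral_add_left (m1.mul_const _), lintegral_mul_const _ m1,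
    lintegral_mul_const _ hm, lintegral_const_mul' _ _ ENNReal.ofReal_ne_top,
    ← XSph.Lc_eq' hm v]
  refine add_le_add (add_le_add le_rfl ?_) le_rfl
  calc (∫⁻ u, phiE P t x u) * (ENNReal.ofReal (t / K) * S)
      ≤ ENNReal.ofReal (K / t) * (ENNReal.ofReal (t / K) * S) := mul_le_mul_left hmass _
    _ = S := by
        rw [← mul_assoc, ← ENNReal.ofReal_mul (by positivity)]
        have : K / t * (t / K) = 1 := by field_simp
        rw [this]; simp

/-! ### the three cases -/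

theorem hh_nonneg {C2 : ℝ} (h : 0 ≤ C2) (q : R3) : 0 ≤ hh C2 q := zero_le_one.trans (one_le_hh h q)


theorem case_far {Y C2 gp ε ε2 U : ℝ} (hC2 : 0 ≤ C2) (hgp : 0 ≤ gp)
    (hU : Real.exp (gp * U ^ 2) ≤ 1 + ε) (hε : ε ≤ ε2) {t : ℝ} (ht : 0 < t) {x : P2} {v u : R3}
    (hu : ‖u‖ ≤ U)
    (H : (1 + ε2) / (2 * π) * gsR (hh C2) (fr (Yc Y t x) v) (fr (Yc Y t x) u)
      ≤ ‖fr (Yc Y t x) v - fr (Yc Y t x) u‖ * hh C2 (fr (Yc Y t x) v)) (S : ℝ≥0∞) :
    gsE (OmE Y C2 gp t x) v u ≤ ENNReal.ofReal (2 * π * ‖v - u‖) * OmE Y C2 gp t x v + S := by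
  refine (gsE_Om_le hC2 hgp hU ht x v hu).trans ?_
  refine le_trans ?_ le_self_add
  unfold OmE
  rw [← ENNReal.ofReal_mul (by positivity)]
  refine ENNReal.ofReal_le_ofReal ?_
  rw [fr_sub] at H
  unfold Om
  set G := gsR (hh C2) (fr (Yc Y t x) v) (fr (Yc Y t x) u) with hG
  have hG0 : 0 ≤ G := gsR_nonneg (hh_nonneg hC2) _ _
  set E := Real.exp (gp * mm t x v ^ 2)
  have hE : 0 < E := Real.exp_pos _
  have hpi := Real.pi_pos
  have h1 : (1 + ε2) * G ≤ 2 * π * ‖v - u‖ * hh C2 (fr (Yc Y t x) v) := by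
    have := mul_le_mul_of_nonneg_left H (by positivity : (0 : ℝ) ≤ 2 * π)
    calc (1 + ε2) * G = 2 * π * ((1 + ε2) / (2 * π) * G) := by field_simp
      _ ≤ _ := this
      _ = _ := by ring
  calc (1 + ε) * E * G ≤ (1 + ε2) * E * G := by gcongr
    _ = E * ((1 + ε2) * G) := by ring
    _ ≤ E * (2 * π * ‖v - u‖ * hh C2 (fr (Yc Y t x) v)) := by gcongr
    _ = _ := by ring

theorem case_pos {Y C2 gp ε U K Z1 V0 Cc : ℝ} (hK : 0 < K) (hC2 : 0 ≤ C2) (hgp : 0 < gp)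
    (hU : Real.exp (gp * U ^ 2) ≤ 1 + ε) {t : ℝ} (ht : 0 < t) {x : P2} {v u : R3} (hu : ‖u‖ ≤ U)
    (hv : ‖v‖ ≤ V0) (hCc : 0 ≤ Cc) (hYc : |Yc Y t x| ≤ 2 * Y)
    (H : gsR (hh C2) (fr (Yc Y t x) v) (fr (Yc Y t x) u)
      ≤ Cc * (1 + ‖fr (Yc Y t x) v‖) * hh C2 (fr (Yc Y t x) v))
    (hZ : 2 * V0 ≤ Z1) (hZ1 : 1 ≤ Z1) (hZK : 2 * K * (1 + ε) * Cc * (1 + V0 + 2 * Y) / gp ≤ Z1)
    (hx : Z1 ≤ distG x / t) (a : ℝ≥0∞) (b c d : ℝ≥0∞) :
    gsE (OmE Y C2 gp t x) v u ≤ a + ENNReal.ofReal (t / K) * (b + kap2 Y C2 gp Z1 t x v + c)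
      + d := by
  refine (gsE_Om_le hC2 hgp.le hU ht x v hu).trans ?_
  have h2 : kap2 Y C2 gp Z1 t x v = ENNReal.ofReal (gp / 2 * (distG x / t) ^ 2 / t * Om Y C2 gp t x v) := by
    unfold kap2
    rw [if_pos ⟨by linarith, hx⟩]
  have hε : 0 ≤ 1 + ε := (Real.exp_pos _).le.trans hU
  calc _ ≤ ENNReal.ofReal (t / K) * kap2 Y C2 gp Z1 t x v := by
        rw [h2, ← ENNReal.ofReal_mul (by positivity)]
        refine ENNReal.ofReal_le_ofReal ?_
        unfold Om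
        set G := gsR (hh C2) (fr (Yc Y t x) v) (fr (Yc Y t x) u) with hG
        set E := Real.exp (gp * mm t x v ^ 2)
        have hE : 0 < E := Real.exp_pos _
        set q := fr (Yc Y t x) v
        have hq : ‖q‖ ≤ V0 + 2 * Y := (norm_fr_le _ _).trans (by linarith)
        have hh0 := hh_nonneg hC2 q
        have hV0 : 0 ≤ V0 := (norm_nonneg v).trans hv
        set z := distG x / t
        have h3 : 2 * K * (1 + ε) * Cc * (1 + V0 + 2 * Y) ≤ gp * z ^ 2 := by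
          rw [div_le_iff₀ hgp] at hZK
          have : Z1 ≤ z ^ 2 := by nlinarith
          nlinarith
        have h4 : (1 + ε) * Cc * (1 + V0 + 2 * Y) ≤ gp / 2 * z ^ 2 / K := by
          rw [le_div_iff₀ hK]; linarith
        calc (1 + ε) * E * G ≤ (1 + ε) * E * (Cc * (1 + ‖q‖) * hh C2 q) := by gcongr
          _ ≤ (1 + ε) * E * (Cc * (1 + (V0 + 2 * Y)) * hh C2 q) := by gcongr
          _ = ((1 + ε) * Cc * (1 + V0 + 2 * Y)) * (hh C2 q * E) := by ring
          _ ≤ (gp / 2 * z ^ 2 / K) * (hh C2 q * E) := by gcongr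
          _ = t / K * (gp / 2 * z ^ 2 / t * (hh C2 q * E)) := by field_simp
    _ ≤ ENNReal.ofReal (t / K) * (b + kap2 Y C2 gp Z1 t x v + c) := by
        gcongr
        exact (le_add_self).trans le_self_add
    _ ≤ a + ENNReal.ofReal (t / K) * (b + kap2 Y C2 gp Z1 t x v + c) := le_add_self
    _ ≤ _ := le_self_add

theorem case_near {Y C2 gp ε ε1 U K Z1 V0 C C' k0 : ℝ} {X : XP} (hK : 0 < K) (hk0 : k0 = 2 * π * K)
    (hC2 : 0 ≤ C2) (hgp : 0 < gp)
    (hU : Real.exp (gp * U ^ 2) ≤ 1 + ε) (hε : ε ≤ ε1) {t : ℝ} (ht : 0 < t) {x : P2} {v u : R3}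
    (hu : ‖u‖ ≤ U) (hv : ‖v‖ ≤ V0) (hx8 : distG x < 1 / 8) (hx : distG x / t ≤ Z1)
    (hYc : |Yc Y t x| < 2 * Y) {k : ℤ × ℤ} (hk : (x + latt k).2 / t = Yc Y t x)
    (hB : 0 < X.B) (hkB : 2 * |(x + latt k).1 / t| ≤ X.B) (hC : 0 ≤ C)
    (hC' : 16 / 9 * C * Real.exp (gp * (max V0 Z1) ^ 2) / K ≤ C')
    (H : k0 * ((1 + ε1) / (2 * π) * gsR (hh C2) (fr (Yc Y t x) v) (fr (Yc Y t x) u)
        - ‖fr (Yc Y t x) v - fr (Yc Y t x) u‖ * hh C2 (fr (Yc Y t x) v)) ≤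
          C2 * |fr (Yc Y t x) v 1| + k0 / 2 * hh C2 (fr (Yc Y t x) v)
            + C * gsR (fun w => tentp X.A X.Yp X.e (Yc Y t x) w * lamd X.d (w 0))
              (fr (Yc Y t x) v) (fr (Yc Y t x) u)) :
    gsE (OmE Y C2 gp t x) v u ≤ ENNReal.ofReal (2 * π * ‖v - u‖) * OmE Y C2 gp t x v
      + ENNReal.ofReal (t / K) * (kap1 Y C2 gp t x v + kap2 Y C2 gp Z1 t x v
        + ENNReal.ofReal (π * K / t + C') * OmE Y C2 gp t x v)
      + ENNReal.ofReal C' * gsE (psiP X t x) v u := by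
  refine (gsE_Om_le hC2 hgp.le hU ht x v hu).trans ?_
  have hE : 0 < Real.exp (gp * mm t x v ^ 2) := Real.exp_pos _
  have hpi := Real.pi_pos
  have hT0 : 0 ≤ gsR (fun w => tentp X.A X.Yp X.e (Yc Y t x) w * lamd X.d (w 0))
      (fr (Yc Y t x) v) (fr (Yc Y t x) u) :=
    gsR_nonneg (fun w => mul_nonneg (tentp_nonneg _ _ _ _ _) (lamd_nonneg _ _)) _ _
  have hG0 : 0 ≤ gsR (hh C2) (fr (Yc Y t x) v) (fr (Yc Y t x) u) :=
    gsR_nonneg (hh_nonneg hC2) _ _
  have hh0 := hh_nonneg hC2 (fr (Yc Y t x) v)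
  have hC'0 : 0 ≤ C' := le_trans (by positivity) hC'
  have hmm : mm t x v ≤ max V0 Z1 := max_le_max hv hx
  have hmm0 : 0 ≤ mm t x v := (norm_nonneg v).trans (le_max_left _ _)
  have hEm : Real.exp (gp * mm t x v ^ 2) ≤ Real.exp (gp * (max V0 Z1) ^ 2) := by
    apply Real.exp_le_exp.2
    gcongr
  have hpsi := le_gsE_psiP X x v u k (t := t) hB hkB
  rw [hk] at hpsi
  rw [fr_sub] at H
  have hkap1 : kap1 Y C2 gp t x v = ENNReal.ofReal
      (C2 * |fr (Yc Y t x) v 1| / t * Real.exp (gp * mm t x v ^ 2)) := by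
    unfold kap1
    rw [if_pos ⟨hx8, hYc⟩]
  set G := gsR (hh C2) (fr (Yc Y t x) v) (fr (Yc Y t x) u) with hG
  set E := Real.exp (gp * mm t x v ^ 2) with hEdef
  set T := gsR (fun w => tentp X.A X.Yp X.e (Yc Y t x) w * lamd X.d (w 0))
      (fr (Yc Y t x) v) (fr (Yc Y t x) u) with hT
  set q := fr (Yc Y t x) v with hq
  have hreal : (1 + ε) * E * G ≤ 2 * π * ‖v - u‖ * (hh C2 q * E) +
      (t / K * (C2 * |q 1| / t * E) + t / K * (π * K / t * (hh C2 q * E)))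
      + C' * (9 / 16 * T) := by
    have h1 : (1 + ε1) * G ≤ 2 * π * ‖v - u‖ * hh C2 q + (C2 * |q 1| / K + π * hh C2 q)
        + C / K * T := by
      rw [hk0] at H
      have h2 : 2 * π * K * ((1 + ε1) / (2 * π) * G - ‖v - u‖ * hh C2 q)
          = K * ((1 + ε1) * G - 2 * π * ‖v - u‖ * hh C2 q) := by field_simp
      rw [h2] at H
      have h3 : (1 + ε1) * G - 2 * π * ‖v - u‖ * hh C2 q
          ≤ (C2 * |q 1| + 2 * π * K / 2 * hh C2 q + C * T) / K := by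
        rw [le_div_iff₀ hK]; linarith
      have h4 : (C2 * |q 1| + 2 * π * K / 2 * hh C2 q + C * T) / K
          = C2 * |q 1| / K + π * hh C2 q + C / K * T := by field_simp
      linarith
    have h5 : C / K * T * E ≤ C' * (9 / 16 * T) := by
      have h6 : 16 / 9 * C * E / K ≤ C' := le_trans (by gcongr) hC'
      calc C / K * T * E = 16 / 9 * C * E / K * (9 / 16 * T) := by field_simp
        _ ≤ _ := by gcongr
    calc (1 + ε) * E * G ≤ (1 + ε1) * E * G := by gcongr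
      _ = ((1 + ε1) * G) * E := by ring
      _ ≤ (2 * π * ‖v - u‖ * hh C2 q + (C2 * |q 1| / K + π * hh C2 q) + C / K * T) * E := by
          gcongr
      _ = 2 * π * ‖v - u‖ * (hh C2 q * E) +
          (t / K * (C2 * |q 1| / t * E) + t / K * (π * K / t * (hh C2 q * E))) + C / K * T * E := by
          field_simp
      _ ≤ _ := by linarith
  refine (ENNReal.ofReal_le_ofReal hreal).trans ?_
  rw [ENNReal.ofReal_add (by positivity) (by positivity),
    ENNReal.ofReal_add (by positivity) (by positivity),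
    ENNReal.ofReal_add (by positivity) (by positivity)]
  refine add_le_add (add_le_add ?_ ?_) ?_
  · rw [ENNReal.ofReal_mul (by positivity)]
    exact le_of_eq rfl
  · rw [mul_add]
    refine add_le_add ?_ ?_
    · rw [hkap1, mul_add, ← ENNReal.ofReal_mul (by positivity)]
      exact le_self_add
    · rw [ENNReal.ofReal_mul (by positivity)]
      gcongr
      rw [ENNReal.ofReal_mul (by positivity)]
      unfold OmE Om
      gcongr
      linarith
  · rw [ENNReal.ofReal_mul hC'0]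
    gcongr

end PwOm

/-- UPPER (Harnack), pointwise, from the sphere inequalities, the fuel and the frame -/
theorem pw_Om_of {P : Par} (hP : P.Ok) {A Yp e : ℝ} (hY1 : 1 ≤ P.Y)
    (hk0 : 6000 ≤ 2 * π * P.K)
    (har_near : ∃ ε1 d0 : ℝ, 0 < ε1 ∧ 0 < d0 ∧ ∀ d, 0 < d → d ≤ d0 → ∃ C : ℝ, 0 ≤ C ∧
      ∀ (q p : R3) (y s : ℝ), (s = 1 ∨ s = -1) → ‖p - us 0 s‖ ≤ ε1 → |y| ≤ P.Y + ε1 →
        2 * π * P.K * ((1 + ε1) / (2 * π) * gsR (hh (1200 * (2 * π * P.K))) q p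
          - ‖q - p‖ * hh (1200 * (2 * π * P.K)) q) ≤
          1200 * (2 * π * P.K) * |q 1| + 2 * π * P.K / 2 * hh (1200 * (2 * π * P.K)) q
            + C * gsR (fun w => tentp A Yp e y w * lamd d (w 0)) q p)
    (har_crude : ∀ C2 U : ℝ, 0 ≤ C2 → 0 ≤ U → ∃ C : ℝ, 0 ≤ C ∧ ∀ q p : R3, ‖p‖ ≤ U →
      gsR (hh C2) q p ≤ C * (1 + ‖q‖) * hh C2 q)
    (har_far : ∀ C2 U : ℝ, 0 ≤ C2 → 0 ≤ U → ∃ V1 ε2 : ℝ, 0 < V1 ∧ 0 < ε2 ∧
      ∀ q p : R3, V1 ≤ ‖q‖ → ‖p‖ ≤ U →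
        (1 + ε2) / (2 * π) * gsR (hh C2) q p ≤ ‖q - p‖ * hh C2 q)
    (fuel_all : ∃ t0 : ℝ, 0 < t0 ∧ ∀ t, 0 < t → t ≤ t0 → ∀ x : P2,
      (∀ u, phi P t x u ≠ 0 → ‖u‖ ≤ P.Y + 2 ∧ distG x ≤ 1 / 8) ∧
        ∫⁻ u, phiE P t x u ≤ ENNReal.ofReal (P.K / t))
    (fuel_near : ∀ Z : ℝ, 1 ≤ Z → ∃ t0 C : ℝ, 0 < t0 ∧ 0 ≤ C ∧
      ∀ t, 0 < t → t ≤ t0 → ∀ x : P2, ‖x‖ ≤ Z * t →
        (∀ u, phi P t x u ≠ 0 → |x.2 / t| ≤ P.Y + C * t ∧
          ∃ s : ℝ, (s = 1 ∨ s = -1) ∧ ‖u - us (x.2 / t) s‖ ≤ C * t))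
    (Yc_near : ∀ (Y t : ℝ) (x : P2) (k : ℤ × ℤ), 0 < t → ‖x + latt k‖ ≤ 1 / 8 →
      Yc Y t x = clamp (2 * Y) ((x + latt k).2 / t))
    (abs_Yc_le : ∀ (Y : ℝ), 0 ≤ Y → ∀ (t : ℝ) (x : P2), |Yc Y t x| ≤ 2 * Y) :
    ∃ gp0 d0 : ℝ, 0 < gp0 ∧ 0 < d0 ∧ ∀ gp, 0 < gp → gp ≤ gp0 → ∃ B0 Z1 : ℝ, 1 ≤ B0 ∧ 1 ≤ Z1 ∧
      ∀ B d, B0 ≤ B → 0 < d → d ≤ d0 →
      ∃ t0 C : ℝ, 0 < t0 ∧ 0 ≤ C ∧ ∀ t, 0 < t → t ≤ t0 → ∀ (x : P2) (v : R3),
      GA (phiE P) (OmE P.Y (1200 * (2 * π * P.K)) gp) t x v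
      ≤ Lc (phiE P t x) v * OmE P.Y (1200 * (2 * π * P.K)) gp t x v
        + kap1 P.Y (1200 * (2 * π * P.K)) gp t x v + kap2 P.Y (1200 * (2 * π * P.K)) gp Z1 t x v
        + ENNReal.ofReal (π * P.K / t + C) * OmE P.Y (1200 * (2 * π * P.K)) gp t x v
        + ENNReal.ofReal C * GA (phiE P) (psiP ⟨A, Yp, e, B, d⟩) t x v := by
  have hpi := Real.pi_pos
  have hK : 0 < P.K := by
    by_contra hc
    push Not at hc
    nlinarith
  set k0 := 2 * π * P.K with hk0def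
  set C2 := 1200 * k0 with hC2def
  have hC2 : 0 ≤ C2 := by positivity
  obtain ⟨ε1, d0, hε1, hd0, Hnear⟩ := har_near
  obtain ⟨V1, ε2, hV1, hε2, Hfar⟩ := har_far C2 (3 * P.Y + 2) hC2 (by positivity)
  obtain ⟨Cc, hCc, Hcr⟩ := har_crude C2 (3 * P.Y + 2) hC2 (by positivity)
  set ε := min ε1 ε2 with hεdef
  have hε : 0 < ε := lt_min hε1 hε2
  set U := P.Y + 2 with hUdef
  have hUpos : 0 < U := by positivity
  have hgp0 : 0 < Real.log (1 + ε) / U ^ 2 := div_pos (Real.log_pos (by linarith)) (by positivity)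
  refine ⟨Real.log (1 + ε) / U ^ 2, d0, hgp0, hd0, fun gp hgp hgple => ?_⟩
  have hU : Real.exp (gp * U ^ 2) ≤ 1 + ε := by
    have h1 : gp * U ^ 2 ≤ Real.log (1 + ε) := by
      rwa [le_div_iff₀ (by positivity)] at hgple
    calc Real.exp (gp * U ^ 2) ≤ Real.exp (Real.log (1 + ε)) := Real.exp_le_exp.2 h1
      _ = 1 + ε := Real.exp_log (by linarith)
  set V0 := V1 + 2 * P.Y with hV0def
  set M := 2 * P.K * (1 + ε) * Cc * (1 + V0 + 2 * P.Y) / gp with hMdef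
  set Z1 := max 1 (max (2 * V0) M) with hZ1def
  have hZ1 : 1 ≤ Z1 := le_max_left _ _
  have hZV : 2 * V0 ≤ Z1 := (le_max_left _ _).trans (le_max_right _ _)
  have hZM : M ≤ Z1 := (le_max_right _ _).trans (le_max_right _ _)
  refine ⟨2 * Z1, Z1, by linarith, hZ1, fun B d hB hd hdd => ?_⟩
  obtain ⟨C, hC, HN⟩ := Hnear d hd hdd
  obtain ⟨t1, Cf, ht1, hCf, Hf⟩ := fuel_near Z1 hZ1
  obtain ⟨t2, ht2, Hall⟩ := fuel_all
  set C' := 16 / 9 * C * Real.exp (gp * (max V0 Z1) ^ 2) / P.K with hC'def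
  have hC' : 0 ≤ C' := by positivity
  set η := min ε1 (1 / 2) with hηdef
  have hη : 0 < η := lt_min hε1 (by norm_num)
  refine ⟨min (min t1 t2) (min (η / (Cf + 1)) (1 / (16 * Z1))), C', ?_, hC', ?_⟩
  · have : 0 < Z1 := by linarith
    positivity
  intro t ht htt x v
  have htt1 : t ≤ t1 := htt.trans ((min_le_left _ _).trans (min_le_left _ _))
  have htt2 : t ≤ t2 := htt.trans ((min_le_left _ _).trans (min_le_right _ _))
  have htt3 : t ≤ η / (Cf + 1) := htt.trans ((min_le_right _ _).trans (min_le_left _ _))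
  have htt4 : t ≤ 1 / (16 * Z1) := htt.trans ((min_le_right _ _).trans (min_le_right _ _))
  have hCt : Cf * t ≤ η := by
    rw [le_div_iff₀ (by linarith)] at htt3
    nlinarith
  have hZt : Z1 * t ≤ 1 / 16 := by
    rw [le_div_iff₀ (by positivity)] at htt4
    linarith
  obtain ⟨Hsup, Hmass⟩ := Hall t ht htt2 x
  have hYc := abs_Yc_le P.Y (by linarith : (0 : ℝ) ≤ P.Y) t x
  have key : ∀ u, phi P t x u ≠ 0 → gsE (OmE P.Y C2 gp t x) v u ≤
      ENNReal.ofReal (2 * π * ‖v - u‖) * OmE P.Y C2 gp t x v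
      + ENNReal.ofReal (t / P.K) * (kap1 P.Y C2 gp t x v + kap2 P.Y C2 gp Z1 t x v
        + ENNReal.ofReal (π * P.K / t + C') * OmE P.Y C2 gp t x v)
      + ENNReal.ofReal C' * gsE (psiP ⟨A, Yp, e, B, d⟩ t x) v u := by
    intro u hu
    obtain ⟨huU, hx8⟩ := Hsup u hu
    have hp : ‖fr (Yc P.Y t x) u‖ ≤ 3 * P.Y + 2 := (PwOm.norm_fr_le _ _).trans (by linarith)
    by_cases hv : V0 ≤ ‖v‖
    · have hq : V1 ≤ ‖fr (Yc P.Y t x) v‖ := by
        have := PwOm.norm_le_fr (Yc P.Y t x) v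
        linarith
      rw [add_assoc]
      exact PwOm.case_far hC2 hgp.le hU (min_le_right _ _) ht huU (Hfar _ _ hq hp) _
    push Not at hv
    by_cases hz : Z1 ≤ distG x / t
    · exact PwOm.case_pos hK hC2 hgp hU ht huU hv.le hCc hYc
        (Hcr _ _ hp) hZV hZ1 hZM hz _ _ _ _
    push Not at hz
    obtain ⟨k, hk⟩ := exists_distG_eq x
    have hxk : ‖x + latt k‖ ≤ Z1 * t := by
      rw [← hk]
      exact ((div_lt_iff₀ ht).1 hz).le
    have Hf1 := Hf t ht htt1 (x + latt k) hxk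
    have hu' : phi P t (x + latt k) u ≠ 0 := by
      have e := Fuel.perG_phi P t u x k
      exact fun h0 => hu (e.symm.trans h0)
    obtain ⟨hy, s, hs, hus⟩ := Hf1 u hu'
    have hYk : Yc P.Y t x = clamp (2 * P.Y) ((x + latt k).2 / t) :=
      Yc_near P.Y t x k ht (hxk.trans (by linarith))
    have hη1 : η ≤ ε1 := min_le_left _ _
    have hη2 : η ≤ 1 / 2 := min_le_right _ _
    have hyY : |(x + latt k).2 / t| < 2 * P.Y := by linarith
    have hYk' : (x + latt k).2 / t = Yc P.Y t x := by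
      rw [hYk]
      unfold clamp
      have := abs_lt.1 hyY
      rw [min_eq_right this.2.le, max_eq_right (by linarith [this.1])]
    have hYcs : |Yc P.Y t x| < 2 * P.Y := by rw [← hYk']; exact hyY
    have hps : ‖fr (Yc P.Y t x) u - us 0 s‖ ≤ ε1 := by
      rw [PwOm.fr_sub_us, ← hYk']
      linarith
    have hyb : |Yc P.Y t x| ≤ P.Y + ε1 := by rw [← hYk']; linarith
    have H := HN (fr (Yc P.Y t x) v) (fr (Yc P.Y t x) u) (Yc P.Y t x) s hs hps hyb
    have hx1 : |(x + latt k).1 / t| ≤ Z1 := by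
      rw [abs_div, abs_of_pos ht, div_le_iff₀ ht]
      exact (norm_fst_le (x + latt k)).trans hxk
    exact PwOm.case_near (X := ⟨A, Yp, e, B, d⟩) hK hk0def hC2 hgp hU (min_le_left _ _) ht huU hv.le
      (lt_of_le_of_lt (hk.le.trans hxk) (by linarith)) hz.le hYcs hYk' (by
        show 0 < B
        linarith) (by
        show 2 * |(x + latt k).1 / t| ≤ B
        linarith) hC le_rfl H
  have hfin := PwOm.integrate hP hK ht Hmass key
  refine hfin.trans (le_of_eq ?_)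
  show _ + (_ + _ + _) + _ = _
  rw [← add_assoc, ← add_assoc]
  rfl

end Crest.Agent.R68.X2
end
end

-- ▼ part R68/X2Har

/-!
# Row 68, PART X2 (helper944): the near Harnack inequality `har_near`
-/

set_option autoImplicit false
open MeasureTheory Set Filter
open scoped ENNReal Real Topology
open Crest.AnalysisR.VecCalc3 Crest.AnalysisR.PDE.Boltzmann

noncomputable section

namespace Crest.Agent.R68.X2.Har

open Crest.Agent.R68.XSph

theorem gsR_eq_smean {f : R3 → ℝ} (hf : Continuous f) (v u : R3) :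
    gsR f v u = 2 * π * ‖v - u‖ * (2 * smean f v u) :=
  XSph.gainT_eq_smean hf.measurable v u (XSph.integrable_pt_of_continuous hf v u)

theorem gsR_nonneg {f : R3 → ℝ} (hf : ∀ w, 0 ≤ f w) (v u : R3) : 0 ≤ gsR f v u :=
  integral_nonneg fun _ => mul_nonneg (abs_nonneg _) (add_nonneg (hf _) (hf _))

theorem pow6 {x a : ℝ} (hx : 0 ≤ x) (ha : 0 ≤ a) (ha1 : a ≤ 10021 / 10000) :
    2 / 7 * (x + a) ^ 6 ≤ x ^ 6 + 563 := by
  have hx' : x / (78 / 100) ∈ Ici (0 : ℝ) := by simp only [mem_Ici]; positivity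
  have ha' : a / (22 / 100) ∈ Ici (0 : ℝ) := by simp only [mem_Ici]; positivity
  have h := (convexOn_pow (𝕜 := ℝ) 6).2 hx' ha' (by norm_num : (0 : ℝ) ≤ 78 / 100)
    (by norm_num : (0 : ℝ) ≤ 22 / 100) (by norm_num)
  simp only [smul_eq_mul] at h
  have e1 : 78 / 100 * (x / (78 / 100)) + 22 / 100 * (a / (22 / 100)) = x + a := by ring
  rw [e1] at h
  have h2 : a ^ 6 ≤ (10021 / 10000) ^ 6 := pow_le_pow_left₀ ha ha1 6
  have h3 : 0 ≤ x ^ 6 := by positivity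
  have e2 : 78 / 100 * (x / (78 / 100)) ^ 6 = 78 / 100 / (78 / 100) ^ 6 * x ^ 6 := by ring
  have e3 : 22 / 100 * (a / (22 / 100)) ^ 6 = 22 / 100 / (22 / 100) ^ 6 * a ^ 6 := by ring
  rw [e2, e3] at h
  have h4 : (2 : ℝ) / 7 * (78 / 100 / (78 / 100) ^ 6) ≤ 1 := by norm_num
  have h5 : (2 : ℝ) / 7 * (22 / 100 / (22 / 100) ^ 6) * (10021 / 10000) ^ 6 ≤ 563 := by norm_num
  calc 2 / 7 * (x + a) ^ 6
      ≤ 2 / 7 * (78 / 100 / (78 / 100) ^ 6 * x ^ 6 + 22 / 100 / (22 / 100) ^ 6 * a ^ 6) := by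
        gcongr
    _ = 2 / 7 * (78 / 100 / (78 / 100) ^ 6) * x ^ 6
        + 2 / 7 * (22 / 100 / (22 / 100) ^ 6) * a ^ 6 := by ring
    _ ≤ 1 * x ^ 6 + 2 / 7 * (22 / 100 / (22 / 100) ^ 6) * (10021 / 10000) ^ 6 := by
        gcongr
    _ ≤ _ := by linarith

theorem continuous_abs_coord (i : Fin 3) : Continuous fun w : R3 => |w i| := by fun_prop

theorem continuous_hh (C2 : ℝ) : Continuous (hh C2) := by unfold hh; fun_prop

theorem abs_coord_le (w : R3) (i : Fin 3) : |w i| ≤ ‖w‖ := by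
  have := PiLp.norm_apply_le w i
  simpa using this

/-- expansion of the mean of the weight -/
theorem smean_hh (C2 : ℝ) (q p : R3) :
    smean (hh C2) q p = 1 + C2 * smean (fun w => |w 1|) q p + smean (fun w => ‖w‖ ^ 12) q p := by
  have h1 : Continuous fun w : R3 => C2 * |w 1| := by fun_prop
  have h2 : Continuous fun w : R3 => 1 + C2 * |w 1| := by fun_prop
  have h3 : Continuous fun w : R3 => ‖w‖ ^ 12 := by fun_prop
  have e1 := smean_add (g := fun w : R3 => 1 + C2 * |w 1|) (h := fun w : R3 => ‖w‖ ^ 12) q p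
    (integrable_pt_of_continuous h2 q p) (integrable_pt_of_continuous h3 q p)
  have e2 := smean_add (g := fun _ => 1) (h := fun w : R3 => C2 * |w 1|) q p
    (integrable_pt_of_continuous (continuous_const (y := (1 : ℝ))) q p)
    (integrable_pt_of_continuous h1 q p)
  have e3 := smean_const_mul C2 (fun w : R3 => |w 1|) q p
  rw [smean_const] at e2
  rw [← e3, ← e2, ← e1]
  rfl

theorem smean_abs_le_norm (q p : R3) : smean (fun w => |w 1|) q p ≤ ‖q‖ + ‖p‖ :=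
  smean_le_const q p (integrable_pt_of_continuous (continuous_abs_coord 1) q p)
    fun _ hs => (abs_coord_le _ _).trans (norm_pt_le hs)

/-- the mean of `|w₁|` -/
theorem mean_abs (q p : R3) :
    ‖q - p‖ * (2 * smean (fun w => |w 1|) q p - |q 1|) ≤
      (‖q - p‖ - |q 1|) ^ 2 / 2 + |q 1| * |p 1| + |p 1| ^ 2 / 2 + ‖q - p‖ * |p 1| := by
  have hab : |q 1 + p 1| ≤ |q 1| + |p 1| := abs_add_le _ _
  rcases eq_or_ne q p with rfl | hne
  · simp only [sub_self, norm_zero, zero_mul]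
    positivity
  · have hd : 0 < ‖q - p‖ := norm_pos_iff.2 (sub_ne_zero.2 hne)
    rcases le_total |q 1 + p 1| ‖q - p‖ with h | h
    · rw [smean_abs_coord hne h]
      have e : ‖q - p‖ * (2 * ((‖q - p‖ ^ 2 + (q 1 + p 1) ^ 2) / (4 * ‖q - p‖)) - |q 1|) =
          (‖q - p‖ ^ 2 + (q 1 + p 1) ^ 2) / 2 - ‖q - p‖ * |q 1| := by
        field_simp
        ring
      rw [e, ← sq_abs (q 1 + p 1)]
      have h1 : |q 1 + p 1| ^ 2 ≤ (|q 1| + |p 1|) ^ 2 := pow_le_pow_left₀ (abs_nonneg _) hab 2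
      have h2 : 0 ≤ ‖q - p‖ * |p 1| := by positivity
      nlinarith
    · rw [smean_abs_coord_out h]
      have h1 : ‖q - p‖ * (2 * (|q 1 + p 1| / 2) - |q 1|) ≤ ‖q - p‖ * |p 1| := by
        gcongr
        linarith
      have h2 : 0 ≤ (‖q - p‖ - |q 1|) ^ 2 / 2 + |q 1| * |p 1| + |p 1| ^ 2 / 2 := by positivity
      linarith

/-! ### fractions of the sphere -/

theorem integral_ind {a b c d : ℝ} (hab : a ≤ b) (hcd : c ≤ d) :
    ∫ t in c..d, (Icc a b).indicator (fun _ => (1 : ℝ)) t ≤ b - a := by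
  rw [intervalIntegral.integral_of_le hcd, integral_indicator measurableSet_Icc,
    setIntegral_const, smul_eq_mul, mul_one]
  have h : (volume.restrict (Ioc c d)).real (Icc a b) ≤ volume.real (Icc a b) := by
    apply ENNReal.toReal_mono (by simp)
    exact Measure.restrict_apply_le _ _
  refine h.trans ?_
  rw [Real.volume_real_Icc_of_le hab]

theorem integral_ind_ge {a b c d : ℝ} (hab : a ≤ b) (hca : c < a) (hbd : b ≤ d) :
    b - a ≤ ∫ t in c..d, (Icc a b).indicator (fun _ => (1 : ℝ)) t := by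
  rw [intervalIntegral.integral_of_le (by linarith), integral_indicator measurableSet_Icc,
    setIntegral_const, smul_eq_mul, mul_one, Measure.real, Measure.restrict_apply measurableSet_Icc]
  have e : Icc a b ∩ Ioc c d = Icc a b := by
    apply inter_eq_left.2
    intro t ht
    exact ⟨lt_of_lt_of_le hca ht.1, ht.2.trans hbd⟩
  rw [e, Real.volume_Icc, ENNReal.toReal_ofReal (by linarith)]

/-- mean of the indicator of a coordinate slab -/
theorem smean_slab {q p : R3} (hd : 0 < ‖q - p‖) (i : Fin 3) (a b : ℝ) :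
    smean (fun w => (Icc a b).indicator (fun _ => (1 : ℝ)) (w i)) q p =
      (∫ t in ((q i + p i) / 2 - ‖q - p‖ / 2)..((q i + p i) / 2 + ‖q - p‖ / 2),
        (Icc a b).indicator (fun _ => (1 : ℝ)) t) / ‖q - p‖ := by
  rw [smean_coord q p i (fun t => (Icc a b).indicator (fun _ => (1 : ℝ)) t)
    (measurable_const.indicator measurableSet_Icc)]
  have h := intervalIntegral.integral_comp_add_mul (a := -1) (b := 1)
    (fun t => (Icc a b).indicator (fun _ => (1 : ℝ)) t)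
    (c := ‖q - p‖ / 2) (by positivity) ((q i + p i) / 2)
  rw [h]
  have e1 : (q i + p i) / 2 + ‖q - p‖ / 2 * -1 = (q i + p i) / 2 - ‖q - p‖ / 2 := by ring
  have e2 : (q i + p i) / 2 + ‖q - p‖ / 2 * 1 = (q i + p i) / 2 + ‖q - p‖ / 2 := by ring
  rw [e1, e2, smul_eq_mul]
  field_simp

theorem smean_slab_le {q p : R3} (hd : 0 < ‖q - p‖) (i : Fin 3) {a b : ℝ} (hab : a ≤ b) :
    smean (fun w => (Icc a b).indicator (fun _ => (1 : ℝ)) (w i)) q p ≤ (b - a) / ‖q - p‖ := by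
  rw [smean_slab hd]
  gcongr
  exact integral_ind hab (by linarith)

theorem smean_slab_ge {q p : R3} (hd : 0 < ‖q - p‖) (i : Fin 3) {a b : ℝ} (hab : a ≤ b)
    (h1 : (q i + p i) / 2 - ‖q - p‖ / 2 < a) (h2 : b ≤ (q i + p i) / 2 + ‖q - p‖ / 2) :
    (b - a) / ‖q - p‖ ≤ smean (fun w => (Icc a b).indicator (fun _ => (1 : ℝ)) (w i)) q p := by
  rw [smean_slab hd]
  gcongr
  exact integral_ind_ge hab h1 h2

theorem integrable_slab (q p : R3) (i : Fin 3) (a b : ℝ) :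
    Integrable (fun s => (Icc a b).indicator (fun _ => (1 : ℝ)) (pt q p s i)) sphereMeasure := by
  refine integrable_pt_of_bounded (g := fun w : R3 => (Icc a b).indicator (fun _ => (1 : ℝ)) (w i))
    ?_ q p (C := 1) ?_
  · exact (measurable_const.indicator measurableSet_Icc).comp (by fun_prop)
  · intro w _
    simp only [indicator]
    split_ifs <;> simp

/-- lower bound of the mean of a function which is large on a slab, away from `|w₀|` small -/
theorem mean_lower {F : R3 → ℝ} (hF : Continuous F) (hF0 : ∀ w, 0 ≤ F w) {q p : R3}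
    (hd : 0 < ‖q - p‖) {a b c δ : ℝ} (hc : 0 ≤ c) (hδ : 0 ≤ δ) (hab : a ≤ b)
    (h1 : (q 1 + p 1) / 2 - ‖q - p‖ / 2 < a) (h2 : b ≤ (q 1 + p 1) / 2 + ‖q - p‖ / 2)
    (hb : ∀ w : R3, ‖w‖ ≤ ‖q‖ + ‖p‖ → a ≤ w 1 → w 1 ≤ b → δ ≤ |w 0| → c ≤ F w) :
    4 * π * c * (b - a - 2 * δ) ≤ gsR F q p := by
  rw [gsR_eq_smean hF]
  have key : smean (fun w => c * ((Icc a b).indicator (fun _ => (1 : ℝ)) (w 1)
      - (Icc (-δ) δ).indicator (fun _ => (1 : ℝ)) (w 0))) q p ≤ smean F q p := by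
    refine smean_mono q p ?_ (integrable_pt_of_continuous hF q p) fun s hs => ?_
    · exact ((integrable_slab q p 1 a b).sub (integrable_slab q p 0 (-δ) δ)).const_mul c
    · by_cases hw : pt q p s 1 ∈ Icc a b
      · rw [indicator_of_mem hw]
        by_cases hw0 : pt q p s 0 ∈ Icc (-δ) δ
        · rw [indicator_of_mem hw0]
          have := hF0 (pt q p s)
          simpa using this
        · rw [indicator_of_notMem hw0]
          have h3 : δ ≤ |pt q p s 0| := by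
            by_contra hcon
            push Not at hcon
            exact hw0 (abs_le.1 hcon.le)
          have := hb _ (norm_pt_le hs) hw.1 hw.2 h3
          simpa using this
      · rw [indicator_of_notMem hw]
        have h3 : 0 ≤ (Icc (-δ) δ).indicator (fun _ => (1 : ℝ)) (pt q p s 0) :=
          indicator_nonneg (fun _ _ => zero_le_one) _
        have := hF0 (pt q p s)
        nlinarith [mul_nonneg hc h3]
  rw [smean_const_mul, smean_sub q p (g := fun w => (Icc a b).indicator (fun _ => (1 : ℝ)) (w 1))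
    (h := fun w => (Icc (-δ) δ).indicator (fun _ => (1 : ℝ)) (w 0)) (integrable_slab q p 1 a b)
    (integrable_slab q p 0 (-δ) δ)] at key
  have h3 := smean_slab_ge hd 1 hab h1 h2
  have h4 := smean_slab_le (q := q) (p := p) hd 0 (a := -δ) (b := δ) (by linarith)
  have h5 : c * ((b - a) / ‖q - p‖ - (δ - -δ) / ‖q - p‖) ≤ smean F q p :=
    le_trans (mul_le_mul_of_nonneg_left (by linarith) hc) key
  have h6 : 4 * π * c * (b - a - 2 * δ) =
      2 * π * ‖q - p‖ * (2 * (c * ((b - a) / ‖q - p‖ - (δ - -δ) / ‖q - p‖))) := by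
    field_simp
    ring
  rw [h6]
  gcongr

/-! ### the three cases -/

/-- large `q` -/
theorem case_a {k0 Q1 ε1 : ℝ} (hk0 : 6000 ≤ k0) (hQ : 9600 * k0 ≤ Q1 ^ 11) (hQ4 : 4 ≤ Q1)
    (h0 : 0 ≤ ε1) (hε : ε1 ≤ 1 / 1000) {q p : R3} (hq : Q1 ≤ ‖q‖) (hp : ‖p‖ ≤ 1 + ε1) :
    (1 + ε1) * (2 * smean (hh (1200 * k0)) q p) ≤ hh (1200 * k0) q := by
  rw [smean_hh]
  have hS := smean_abs_le_norm q p
  have hT := smean_norm_pow12_le q p
  set r := ‖q‖ with hr
  have hr4 : 4 ≤ r := hQ4.trans hq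
  have hp0 : 0 ≤ ‖p‖ := norm_nonneg p
  have h1 : 9600 * k0 ≤ r ^ 11 := hQ.trans (pow_le_pow_left₀ (by linarith) hq 11)
  have hS2 : smean (fun w => |w 1|) q p ≤ 5 / 4 * r + 1 / 1000 := by linarith
  have h2 : r ^ 2 + ‖p‖ ^ 2 ≤ 107 / 100 * r ^ 2 := by nlinarith
  have h3 : (r ^ 2 + ‖p‖ ^ 2) ^ 6 ≤ (107 / 100 * r ^ 2) ^ 6 :=
    pow_le_pow_left₀ (by positivity) h2 6
  have e3 : (107 / 100 * r ^ 2) ^ 6 = (107 / 100) ^ 6 * r ^ 12 := by ring
  rw [e3] at h3
  have hr12 : (4 : ℝ) ^ 12 ≤ r ^ 12 := pow_le_pow_left₀ (by norm_num) hr4 12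
  have h4 : 1200 * k0 * smean (fun w => |w 1|) q p ≤ 1200 * k0 * (126 / 100 * r) := by
    apply mul_le_mul_of_nonneg_left _ (by linarith)
    linarith
  have h5 : 9600 * k0 * r ≤ r ^ 12 := by
    have := mul_le_mul_of_nonneg_right h1 (by linarith : 0 ≤ r)
    calc 9600 * k0 * r ≤ r ^ 11 * r := this
      _ = r ^ 12 := by ring
  have h6 : 1 + 1200 * k0 * smean (fun w => |w 1|) q p + smean (fun w => ‖w‖ ^ 12) q p ≤
      1 + 40 / 100 * r ^ 12 := by
    have h7 : smean (fun w => ‖w‖ ^ 12) q p ≤ (107 / 100) ^ 6 / 7 * r ^ 12 := by linarith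
    have h8 : (107 / 100 : ℝ) ^ 6 / 7 ≤ 22 / 100 := by norm_num
    have h9 : (107 / 100 : ℝ) ^ 6 / 7 * r ^ 12 ≤ 22 / 100 * r ^ 12 := by gcongr
    linarith
  have h10 : (1 + ε1) * (2 * (1 + 1200 * k0 * smean (fun w => |w 1|) q p
      + smean (fun w => ‖w‖ ^ 12) q p)) ≤ (1 + 1 / 1000) * (2 * (1 + 40 / 100 * r ^ 12)) := by
    apply mul_le_mul (by linarith) (by linarith) _ (by norm_num)
    have : 0 ≤ smean (fun w : R3 => |w 1|) q p := smean_nonneg (fun _ => abs_nonneg _) _ _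
    have : 0 ≤ smean (fun w : R3 => ‖w‖ ^ 12) q p := smean_nonneg (fun _ => by positivity) _ _
    positivity
  refine h10.trans ?_
  have h11 : 0 ≤ 1200 * k0 * |q 1| := by positivity
  have h12 : hh (1200 * k0) q = 1 + 1200 * k0 * |q 1| + r ^ 12 := rfl
  rw [h12]
  have : (4 : ℝ) ^ 12 = 16777216 := by norm_num
  linarith

/-- `q` close to the cone `‖q - p‖ = |q₁|` -/
theorem case_c {k0 Q1 κ ε1 M : ℝ} (hk0 : 6000 ≤ k0) (hQ4 : 4 ≤ Q1) (hκ : 0 < κ)
    (hκ1 : κ ≤ 1 / 6000) (hκ2 : 6000 * k0 * κ ^ 2 ≤ 1) (h0 : 0 ≤ ε1) (hε : ε1 ≤ 1 / 1000)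
    (hεκ : ε1 ≤ κ) (hM0 : 0 ≤ M) (hεM : (Q1 + 2) * ε1 * M ≤ 1 / 20)
    (hεk : 1200 * k0 * ((2 * Q1 + 3) * ε1) ≤ 1 / 20)
    {q p : R3} (hq : ‖q‖ ≤ Q1) (hp : ‖p‖ ≤ 1 + ε1) (hp1 : |p 1| ≤ ε1)
    (hd : ‖q - p‖ ≤ |q 1| + κ) (hM : 2 * smean (hh (1200 * k0)) q p ≤ M) :
    k0 * (‖q - p‖ * ((1 + ε1) * (2 * smean (hh (1200 * k0)) q p) - hh (1200 * k0) q)) ≤
      1200 * k0 * |q 1| + k0 / 2 * hh (1200 * k0) q := by
  set d := ‖q - p‖ with hdd
  have hd0 : 0 ≤ d := norm_nonneg _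
  have hdQ : d ≤ Q1 + 2 := by
    have : d ≤ ‖q‖ + ‖p‖ := norm_sub_le _ _
    linarith
  have hq1 : |q 1| ≤ Q1 := (abs_coord_le q 1).trans hq
  have hq1d : |q 1| ≤ d + ε1 := by
    have h1 : |(q - p) 1| ≤ d := abs_coord_le _ _
    have h2 : |q 1| ≤ |(q - p) 1| + |p 1| := by
      have := abs_add_le ((q - p) 1) (p 1)
      simpa using this
    linarith
  have hA := mean_abs q p
  rw [← hdd] at hA
  have hT := smean_norm_pow12_le q p
  have hP := pow6 (x := ‖q‖ ^ 2) (a := ‖p‖ ^ 2) (by positivity) (by positivity) (by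
    have := norm_nonneg p
    nlinarith)
  have e12 : (‖q‖ ^ 2) ^ 6 = ‖q‖ ^ 12 := by ring
  rw [e12] at hP
  have hT2 : 2 * smean (fun w => ‖w‖ ^ 12) q p ≤ ‖q‖ ^ 12 + 563 := by linarith
  have h12 : hh (1200 * k0) q = 1 + 1200 * k0 * |q 1| + ‖q‖ ^ 12 := rfl
  -- the main part
  have h1 : d * (2 * smean (hh (1200 * k0)) q p - hh (1200 * k0) q) ≤
      564 * d + 1200 * k0 * ((d - |q 1|) ^ 2 / 2 + |q 1| * |p 1| + |p 1| ^ 2 / 2 + d * |p 1|) := by
    rw [smean_hh, h12]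
    have h2 : d * (2 + 2 * smean (fun w => ‖w‖ ^ 12) q p - 1 - ‖q‖ ^ 12) ≤ d * 564 := by
      apply mul_le_mul_of_nonneg_left _ hd0
      linarith
    have h3 := mul_le_mul_of_nonneg_left hA (by linarith : 0 ≤ 1200 * k0)
    calc _ = d * (2 + 2 * smean (fun w => ‖w‖ ^ 12) q p - 1 - ‖q‖ ^ 12) +
          1200 * k0 * (d * (2 * smean (fun w => |w 1|) q p - |q 1|)) := by ring
      _ ≤ _ := by linarith
  have h2 : (d - |q 1|) ^ 2 ≤ κ ^ 2 := by
    apply sq_le_sq'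
    · linarith
    · linarith
  have h3 : |q 1| * |p 1| ≤ Q1 * ε1 := mul_le_mul hq1 hp1 (abs_nonneg _) (by linarith)
  have h4 : |p 1| ^ 2 / 2 ≤ ε1 := by
    have : |p 1| ^ 2 ≤ ε1 ^ 2 := pow_le_pow_left₀ (abs_nonneg _) hp1 2
    nlinarith
  have h5 : d * |p 1| ≤ (Q1 + 2) * ε1 := mul_le_mul hdQ hp1 (abs_nonneg _) (by linarith)
  have h6 : (d - |q 1|) ^ 2 / 2 + |q 1| * |p 1| + |p 1| ^ 2 / 2 + d * |p 1| ≤
      κ ^ 2 / 2 + (2 * Q1 + 3) * ε1 := by linarith
  have h7 := mul_le_mul_of_nonneg_left h6 (by linarith : 0 ≤ 1200 * k0)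
  have h8 : d * (ε1 * (2 * smean (hh (1200 * k0)) q p)) ≤ 1 / 20 := by
    calc d * (ε1 * (2 * smean (hh (1200 * k0)) q p)) ≤ d * (ε1 * M) := by gcongr
      _ ≤ (Q1 + 2) * (ε1 * M) := by gcongr
      _ ≤ 1 / 20 := by linarith
  have h9 : d * ((1 + ε1) * (2 * smean (hh (1200 * k0)) q p) - hh (1200 * k0) q) ≤
      1200 * |q 1| + 1 / 2 := by
    have e : d * ((1 + ε1) * (2 * smean (hh (1200 * k0)) q p) - hh (1200 * k0) q) =
        d * (2 * smean (hh (1200 * k0)) q p - hh (1200 * k0) q) +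
          d * (ε1 * (2 * smean (hh (1200 * k0)) q p)) := by ring
    rw [e]
    have := abs_nonneg (q 1)
    linarith
  have h10 : 1 ≤ hh (1200 * k0) q := by
    rw [h12]
    have : 0 ≤ 1200 * k0 * |q 1| := by positivity
    have : 0 ≤ ‖q‖ ^ 12 := by positivity
    linarith
  calc _ ≤ k0 * (1200 * |q 1| + 1 / 2) := by gcongr
    _ = 1200 * k0 * |q 1| + k0 / 2 * 1 := by ring
    _ ≤ _ := by gcongr

theorem continuous_F (A Yp e y : ℝ) {dc : ℝ} :
    Continuous fun w : R3 => tentp A Yp e y w * lamd dc (w 0) := by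
  unfold tentp tent lamd
  fun_prop

theorem F_nonneg (A Yp e y dc : ℝ) (w : R3) : 0 ≤ tentp A Yp e y w * lamd dc (w 0) :=
  mul_nonneg (le_max_left _ _) (le_max_left _ _)

theorem lamd_one {dc a : ℝ} (hdc : 0 < dc) (h : 2 * dc ≤ |a|) : lamd dc a = 1 := by
  have h1 : 1 ≤ |a| / dc - 1 := by
    rw [le_sub_iff_add_le, le_div_iff₀ hdc]
    linarith
  unfold lamd
  rw [min_eq_left h1]
  norm_num

theorem tent_aux {A Yp Y ey e κ ε1 y w : ℝ} (h6 : (1 + A) * Yp = (1 + A) * Y - (1 + A) * ey)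
    (h7 : 1 ≤ (1 + A) * Yp) (hey : (1 + A) * ey ≤ e / 10) (h8 : e ≤ κ / 576)
    (hεA : (1 + A) * ε1 ≤ κ / 32) (hκ : 0 < κ) (hκ1 : κ ≤ 1 / 6000)
    (h11 : (1 + A) * y ≤ (1 + A) * (Y + ε1)) (h12 : 0 ≤ (1 + A) * y) (hw1 : -(7 * κ / 16) ≤ w)
    (hw2 : w ≤ -(κ / 4)) : |(1 + A) * y + w| ≤ (1 + A) * Yp - κ / 8 := by
  rw [mul_add (1 + A) Y ε1] at h11
  generalize (1 + A) * y = a1 at *
  generalize (1 + A) * Yp = a2 at *
  generalize (1 + A) * Y = a3 at *
  generalize (1 + A) * ey = a4 at *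
  generalize (1 + A) * ε1 = a5 at *
  rw [abs_le]
  constructor <;> linarith

/-- the tent is seen -/
theorem case_d {A Yp Y ey e : ℝ} (hA : 0 ≤ A) (hYp : Yp = Y - ey) (hey : (1 + A) * ey ≤ e / 10)
    (he0 : 0 < e) (he1 : e ≤ 1 / 100000) (he2 : 600 / e ≤ (1 + A) * Yp)
    {Q1 κ ε1 : ℝ} (hQ4 : 4 ≤ Q1) (hκ : 0 < κ) (hκ1 : κ ≤ 1 / 6000)
    (he : 16 * e * (Q1 + 2) ^ 2 ≤ κ) (hεκ : ε1 ≤ κ / 32) (hεA : (1 + A) * ε1 ≤ κ / 32)
    {dc : ℝ} (hdc : 0 < dc) (hdc1 : dc ≤ κ / 64) {q p : R3} (hq : ‖q‖ ≤ Q1) (hp : ‖p‖ ≤ 1 + ε1)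
    (hp1 : |p 1| ≤ ε1) (hd : |q 1| + κ ≤ ‖q - p‖) {y : ℝ} (hy : |y| ≤ Y + ε1) :
    π * κ ^ 2 / 32 ≤ gsR (fun w => tentp A Yp e y w * lamd dc (w 0)) q p := by
  have hd0 : 0 < ‖q - p‖ := by
    have := abs_nonneg (q 1)
    linarith
  obtain ⟨hq1, hq2⟩ := abs_le.1 (le_refl |q 1|)
  obtain ⟨hp2, hp3⟩ := abs_le.1 hp1
  obtain ⟨hy1, hy2⟩ := abs_le.1 hy
  have h6 : (1 + A) * Yp = (1 + A) * Y - (1 + A) * ey := by rw [hYp]; ring
  have h7 : 1 ≤ (1 + A) * Yp := by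
    refine le_trans ?_ he2
    rw [le_div_iff₀ he0]
    linarith
  have h8 : e ≤ κ / 576 := by
    have : (6 : ℝ) ^ 2 ≤ (Q1 + 2) ^ 2 := pow_le_pow_left₀ (by norm_num) (by linarith) 2
    have h9 : 16 * e * 6 ^ 2 ≤ 16 * e * (Q1 + 2) ^ 2 := by gcongr
    linarith
  have hw2 : ∀ w : R3, ‖w‖ ≤ ‖q‖ + ‖p‖ → e * ‖w‖ ^ 2 ≤ κ / 16 := by
    intro w hw
    have h9 : ‖w‖ ^ 2 ≤ (Q1 + 2) ^ 2 := pow_le_pow_left₀ (norm_nonneg _) (by linarith) 2
    have h10 : e * ‖w‖ ^ 2 ≤ e * (Q1 + 2) ^ 2 := by gcongr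
    linarith
  have hfin : ∀ w : R3, 2 * dc ≤ |w 0| → κ / 16 ≤ tent A Yp e y w →
      κ / 16 ≤ tentp A Yp e y w * lamd dc (w 0) := by
    intro w hw0 ht
    rw [lamd_one hdc hw0, mul_one]
    exact ht.trans (le_max_right _ _)
  have hA1 : 0 < 1 + A := by linarith
  have hbnd : 4 * π * (κ / 16) * (κ / 8) = π * κ ^ 2 / 32 := by ring
  rcases le_total 0 y with hy0 | hy0
  · have h1 := mean_lower (F := fun w => tentp A Yp e y w * lamd dc (w 0))
      (continuous_F A Yp e y) (F_nonneg A Yp e y dc) hd0 (a := -(7 * κ / 16)) (b := -(κ / 4))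
      (c := κ / 16) (δ := 2 * dc) (by positivity) (by positivity) (by linarith) (by linarith)
      (by linarith) (by
        intro w hw hw1 hw2' hw0
        apply hfin w hw0
        unfold tent
        have h9 := hw2 w hw
        have h10 : |(1 + A) * y + w 1| ≤ (1 + A) * Yp - κ / 8 := by
          have h11 : (1 + A) * y ≤ (1 + A) * (Y + ε1) := mul_le_mul_of_nonneg_left hy2 hA1.le
          have h12 : 0 ≤ (1 + A) * y := by positivity
          exact tent_aux h6 h7 hey h8 hεA hκ hκ1 h11 h12 hw1 hw2'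
        linarith)
    refine le_trans ?_ h1
    rw [← hbnd]
    gcongr
    linarith
  · have h1 := mean_lower (F := fun w => tentp A Yp e y w * lamd dc (w 0))
      (continuous_F A Yp e y) (F_nonneg A Yp e y dc) hd0 (a := κ / 4) (b := 7 * κ / 16)
      (c := κ / 16) (δ := 2 * dc) (by positivity) (by positivity) (by linarith) (by linarith)
      (by linarith) (by
        intro w hw hw1 hw2' hw0
        apply hfin w hw0
        unfold tent
        have h9 := hw2 w hw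
        have h10 : |(1 + A) * y + w 1| ≤ (1 + A) * Yp - κ / 8 := by
          have h11 : (1 + A) * (-y) ≤ (1 + A) * (Y + ε1) :=
            mul_le_mul_of_nonneg_left (by linarith) hA1.le
          have h12 : 0 ≤ (1 + A) * (-y) := by
            apply mul_nonneg hA1.le
            linarith
          have h13 := tent_aux (w := -w 1) h6 h7 hey h8 hεA hκ hκ1 h11 h12 (by linarith)
            (by linarith)
          have e : (1 + A) * -y + -w 1 = -((1 + A) * y + w 1) := by ring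
          rwa [e, abs_neg] at h13
        linarith)
    refine le_trans ?_ h1
    rw [← hbnd]
    gcongr
    linarith

theorem norm_us0 {s : ℝ} (hs : s = 1 ∨ s = -1) : ‖us 0 s‖ = 1 := by
  unfold us
  rw [EuclideanSpace.norm_eq]
  rcases hs with rfl | rfl <;> simp [Fin.sum_univ_three]

theorem near_p {p : R3} {s ε1 : ℝ} (hs : s = 1 ∨ s = -1) (h : ‖p - us 0 s‖ ≤ ε1) :
    ‖p‖ ≤ 1 + ε1 ∧ |p 1| ≤ ε1 := by
  constructor
  · have h1 : ‖p‖ ≤ ‖p - us 0 s‖ + ‖us 0 s‖ := by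
      have := norm_add_le (p - us 0 s) (us 0 s)
      simpa using this
    rw [norm_us0 hs] at h1
    linarith
  · have h1 := abs_coord_le (p - us 0 s) 1
    have h2 : (p - us 0 s) 1 = p 1 := by simp [us]
    rw [h2] at h1
    exact h1.trans h

/-- **near inequality**, explicit hypotheses -/
theorem har_near_core {A Yp Y ey e : ℝ} (hA : 0 ≤ A) (hYp : Yp = Y - ey)
    (hey : (1 + A) * ey ≤ e / 10) (he0 : 0 < e) (he1 : e ≤ 1 / 100000)
    (he2 : 600 / e ≤ (1 + A) * Yp) {k0 Q1 κ : ℝ} (hk0 : 6000 ≤ k0)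
    (hQ : 9600 * k0 ≤ Q1 ^ 11) (hQ4 : 4 ≤ Q1) (hκ : 0 < κ) (hκ1 : κ ≤ 1 / 6000)
    (hκ2 : 6000 * k0 * κ ^ 2 ≤ 1) (he : 16 * e * (Q1 + 2) ^ 2 ≤ κ) :
    ∃ ε1 d0 : ℝ, 0 < ε1 ∧ 0 < d0 ∧ ∀ d, 0 < d → d ≤ d0 → ∃ C : ℝ, 0 ≤ C ∧
      ∀ (q p : R3) (y s : ℝ), (s = 1 ∨ s = -1) → ‖p - us 0 s‖ ≤ ε1 → |y| ≤ Y + ε1 →
        k0 * ((1 + ε1) / (2 * π) * gsR (hh (1200 * k0)) q p - ‖q - p‖ * hh (1200 * k0) q) ≤
          1200 * k0 * |q 1| + k0 / 2 * hh (1200 * k0) q
            + C * gsR (fun w => tentp A Yp e y w * lamd d (w 0)) q p := by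
  set M : ℝ := 2 * (1 + 1200 * k0 * (Q1 + 2) + (Q1 ^ 2 + 4) ^ 6 / 7) with hM
  have hk : 0 < k0 := by linarith
  have hM0 : 0 < M := by positivity
  have hA1 : 0 < 1 + A := by linarith
  set ε1 : ℝ := min (min (1 / 1000) (κ / 32)) (min (κ / 32 / (1 + A))
    (min (1 / 20 / ((Q1 + 2) * M)) (1 / 20 / (1200 * k0 * (2 * Q1 + 3))))) with hε
  have hε0 : 0 < ε1 := by
    have : 0 < (Q1 + 2) * M := by positivity
    have : 0 < 1200 * k0 * (2 * Q1 + 3) := by positivity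
    rw [hε]
    refine lt_min (lt_min (by norm_num) (by positivity)) (lt_min (by positivity)
      (lt_min (by positivity) (by positivity)))
  have h1 : ε1 ≤ 1 / 1000 := (min_le_left _ _).trans (min_le_left _ _)
  have h2 : ε1 ≤ κ / 32 := (min_le_left _ _).trans (min_le_right _ _)
  have h3 : (1 + A) * ε1 ≤ κ / 32 := by
    have : ε1 ≤ κ / 32 / (1 + A) := (min_le_right _ _).trans (min_le_left _ _)
    rw [le_div_iff₀ hA1] at this
    linarith
  have h4 : (Q1 + 2) * ε1 * M ≤ 1 / 20 := by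
    have h : ε1 ≤ 1 / 20 / ((Q1 + 2) * M) :=
      (min_le_right _ _).trans ((min_le_right _ _).trans (min_le_left _ _))
    rw [le_div_iff₀ (by positivity)] at h
    linarith
  have h5 : 1200 * k0 * ((2 * Q1 + 3) * ε1) ≤ 1 / 20 := by
    have h : ε1 ≤ 1 / 20 / (1200 * k0 * (2 * Q1 + 3)) :=
      (min_le_right _ _).trans ((min_le_right _ _).trans (min_le_right _ _))
    rw [le_div_iff₀ (by positivity)] at h
    linarith
  clear_value ε1
  refine ⟨ε1, κ / 64, hε0, by positivity, fun dc hdc hdc1 => ?_⟩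
  refine ⟨k0 * ((Q1 + 2) * (2 * M)) / (π * κ ^ 2 / 32), by positivity, ?_⟩
  intro q p y s hs hps hy
  obtain ⟨hp, hp1⟩ := near_p hs hps
  have hG := gsR_nonneg (F_nonneg A Yp e y dc) q p
  have hC0 : 0 ≤ k0 * ((Q1 + 2) * (2 * M)) / (π * κ ^ 2 / 32) := by positivity
  have hq1 : 0 ≤ 1200 * k0 * |q 1| := by positivity
  have hh0 : 0 ≤ hh (1200 * k0) q := by unfold hh; positivity
  have hsm0 : 0 ≤ smean (hh (1200 * k0)) q p := by
    apply smean_nonneg
    intro w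
    unfold hh
    positivity
  have e1 : k0 * ((1 + ε1) / (2 * π) * gsR (hh (1200 * k0)) q p - ‖q - p‖ * hh (1200 * k0) q) =
      k0 * (‖q - p‖ * ((1 + ε1) * (2 * smean (hh (1200 * k0)) q p) - hh (1200 * k0) q)) := by
    rw [gsR_eq_smean (continuous_hh _)]
    field_simp
  rw [e1]
  rcases le_total Q1 ‖q‖ with hq | hq
  · -- large `q`
    have h6 := case_a hk0 hQ hQ4 hε0.le h1 hq hp
    have h7 : k0 * (‖q - p‖ * ((1 + ε1) * (2 * smean (hh (1200 * k0)) q p)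
        - hh (1200 * k0) q)) ≤ 0 := by
      apply mul_nonpos_of_nonneg_of_nonpos hk.le
      apply mul_nonpos_of_nonneg_of_nonpos (norm_nonneg _)
      linarith
    have h8 := mul_nonneg hC0 hG
    have h9 : 0 ≤ k0 / 2 * hh (1200 * k0) q := by positivity
    linarith
  · have hMle : 2 * smean (hh (1200 * k0)) q p ≤ M := by
      rw [smean_hh, hM]
      have h6 : smean (fun w => |w 1|) q p ≤ Q1 + 2 := by
        have := smean_abs_le_norm q p
        linarith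
      have h7 : smean (fun w => ‖w‖ ^ 12) q p ≤ (Q1 ^ 2 + 4) ^ 6 / 7 := by
        refine (smean_norm_pow12_le q p).trans ?_
        have h8 : ‖q‖ ^ 2 ≤ Q1 ^ 2 := pow_le_pow_left₀ (norm_nonneg _) hq 2
        have h9 : ‖p‖ ^ 2 ≤ 4 := by
          have := norm_nonneg p
          nlinarith
        gcongr
      have h8 : 1200 * k0 * smean (fun w => |w 1|) q p ≤ 1200 * k0 * (Q1 + 2) := by gcongr
      linarith
    rcases le_total ‖q - p‖ (|q 1| + κ) with hd | hd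
    · have h6 := case_c hk0 hQ4 hκ hκ1 hκ2 hε0.le h1 (by linarith) hM0.le h4 h5 hq hp hp1 hd hMle
      have h8 := mul_nonneg hC0 hG
      linarith
    · have h6 := case_d hA hYp hey he0 he1 he2 hQ4 hκ hκ1 he h2 h3 hdc hdc1 hq hp hp1 hd hy
      have h7 : k0 * ((Q1 + 2) * (2 * M)) ≤ k0 * ((Q1 + 2) * (2 * M)) / (π * κ ^ 2 / 32) *
          gsR (fun w => tentp A Yp e y w * lamd dc (w 0)) q p := by
        calc k0 * ((Q1 + 2) * (2 * M))
            = k0 * ((Q1 + 2) * (2 * M)) / (π * κ ^ 2 / 32) * (π * κ ^ 2 / 32) := by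
              field_simp
          _ ≤ _ := by gcongr
      have h8 : k0 * (‖q - p‖ * ((1 + ε1) * (2 * smean (hh (1200 * k0)) q p)
          - hh (1200 * k0) q)) ≤ k0 * ((Q1 + 2) * (2 * M)) := by
        have h9 : ‖q - p‖ ≤ Q1 + 2 := by
          have := norm_sub_le q p
          linarith
        have h10 : (1 + ε1) * (2 * smean (hh (1200 * k0)) q p) - hh (1200 * k0) q ≤ 2 * M := by
          have : (1 + ε1) * (2 * smean (hh (1200 * k0)) q p) ≤ 2 * M := by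
            apply mul_le_mul (by linarith) hMle (by positivity) (by norm_num)
          linarith
        apply mul_le_mul_of_nonneg_left _ hk.le
        calc ‖q - p‖ * ((1 + ε1) * (2 * smean (hh (1200 * k0)) q p) - hh (1200 * k0) q)
            ≤ ‖q - p‖ * (2 * M) := by gcongr
          _ ≤ (Q1 + 2) * (2 * M) := by gcongr
      have h9 : 0 ≤ k0 / 2 * hh (1200 * k0) q := by positivity
      linarith

end Crest.Agent.R68.X2.Har

namespace Crest.Agent.R68.X2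

/-- **near inequality** (XIface) -/
theorem har_near {N A Yp Y ey e : ℝ} (h : TentOK N A Yp Y ey e) {k0 Q1 κ : ℝ} (hk0 : 6000 ≤ k0)
    (hQ : 9600 * k0 ≤ Q1 ^ 11) (hQ4 : 4 ≤ Q1) (hκ : 0 < κ) (hκ1 : κ ≤ 1 / 6000)
    (hκ2 : 6000 * k0 * κ ^ 2 ≤ 1) (he : 16 * e * (Q1 + 2) ^ 2 ≤ κ) :
    ∃ ε1 d0 : ℝ, 0 < ε1 ∧ 0 < d0 ∧ ∀ d, 0 < d → d ≤ d0 → ∃ C : ℝ, 0 ≤ C ∧
      ∀ (q p : R3) (y s : ℝ), (s = 1 ∨ s = -1) → ‖p - us 0 s‖ ≤ ε1 → |y| ≤ Y + ε1 →
        k0 * ((1 + ε1) / (2 * π) * gsR (hh (1200 * k0)) q p - ‖q - p‖ * hh (1200 * k0) q) ≤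
          1200 * k0 * |q 1| + k0 / 2 * hh (1200 * k0) q
            + C * gsR (fun w => tentp A Yp e y w * lamd d (w 0)) q p := by
  have hA : 0 ≤ A := by
    have h1 := h.AN
    have h2 := h.N1
    linarith
  exact Har.har_near_core hA h.Ypd h.eye h.e0 h.e1 h.e2 hk0 hQ hQ4 hκ hκ1 hκ2 he

end Crest.Agent.R68.X2
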