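import Crest.Agent.R68.SBlock
import Crest.Agent.R68.SWin3
import Crest.Agent.R68.X2Har_Mg
import Crest.Agent.R68.X2Gs2
import Crest.Agent.R68.X2Fuel
import Crest.Agent.R68.X2Frame
import Crest.Agent.R68.XDefs2
import Crest.Agent.R68.X2F0f
import Crest.Agent.R68.XTent2
import Crest.Agent.R68.XSph2

-- ▼ part R68/SCoreProp
section

/-! Row 68, Part S: `CoreProp` (the hypothesis of the window theorems of SWin2, SWin3) holds. -/

set_option autoImplicit false

namespace Crest.Agent.R68.S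

theorem coreProp (κ L U CN CD : ℝ) (M : ℕ) (hκ : 0 < κ) (hL : 0 < L) (hU : 0 < U) (hCN : 0 < CN)
    (hCD : 0 < CD) : CoreProp κ L U CN CD M :=
  fun _ hε => smoothing κ L U CN CD M hκ hL hU hCN hCD hε

end Crest.Agent.R68.S
end

-- ▼ part R68/X2PwOm2
section

/-!
# Row 68, PART X2: pointwise upper inequality of the Harnack weight, final form (helper211)
-/

set_option autoImplicit false
open MeasureTheory Set Filter
open scoped ENNReal Real
open Crest.AnalysisR.VecCalc3 Crest.AnalysisR.PDE.Boltzmann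

noncomputable section

namespace Crest.Agent.R68.X2

open Crest.Agent.R68.L (Den phiE Gf Dam TL sol)

/-- **UPPER (Harnack), pointwise** -/
theorem pw_Om {P : Par} (hP : P.Ok) {N A Yp ey e : ℝ} (h : TentOK N A Yp P.Y ey e)
    {Q1 κ : ℝ} (hk0 : 6000 ≤ 2 * π * P.K)
    (hQ : 9600 * (2 * π * P.K) ≤ Q1 ^ 11) (hQ4 : 4 ≤ Q1) (hκ : 0 < κ) (hκ1 : κ ≤ 1 / 6000)
    (hκ2 : 6000 * (2 * π * P.K) * κ ^ 2 ≤ 1) (he : 16 * e * (Q1 + 2) ^ 2 ≤ κ) :
    ∃ gp0 d0 : ℝ, 0 < gp0 ∧ 0 < d0 ∧ ∀ gp, 0 < gp → gp ≤ gp0 → ∃ B0 Z1 : ℝ, 1 ≤ B0 ∧ 1 ≤ Z1 ∧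
      ∀ B d, B0 ≤ B → 0 < d → d ≤ d0 →
      ∃ t0 C : ℝ, 0 < t0 ∧ 0 ≤ C ∧ ∀ t, 0 < t → t ≤ t0 → ∀ (x : P2) (v : R3),
      GA (phiE P) (OmE P.Y (1200 * (2 * π * P.K)) gp) t x v
      ≤ Lc (phiE P t x) v * OmE P.Y (1200 * (2 * π * P.K)) gp t x v
        + kap1 P.Y (1200 * (2 * π * P.K)) gp t x v + kap2 P.Y (1200 * (2 * π * P.K)) gp Z1 t x v
        + ENNReal.ofReal (π * P.K / t + C) * OmE P.Y (1200 * (2 * π * P.K)) gp t x v
        + ENNReal.ofReal C * GA (phiE P) (psiP ⟨A, Yp, e, B, d⟩) t x v :=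
  pw_Om_of hP h.Y1 hk0 (har_near h hk0 hQ hQ4 hκ hκ1 hκ2 he) har_crude har_far (fuel_all hP)
    (fun Z hZ => by
      obtain ⟨t0, C, ht0, hC, H⟩ := fuel_near hP Z hZ
      exact ⟨t0, C, ht0, hC, fun t ht htt x hx => (H t ht htt x hx).1⟩)
    (fun _ _ _ _ _ hx => Yc_near hx) (fun _ hY t x => abs_Yc_le hY t x)

end Crest.Agent.R68.X2
end
end

-- ▼ part R68/X2F0

/-!
# Row 68, PART X2 (helper653): `f0_ineq` and `f0_facts`
-/

set_option autoImplicit false
open MeasureTheory Set Filter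
open scoped ENNReal Real
open Crest.AnalysisR.VecCalc3 Crest.AnalysisR.PDE.Boltzmann

noncomputable section

namespace Crest.Agent.R68.X2

/-! ### elementary facts -/

theorem lamd_nonneg_653 (d a : ℝ) : 0 ≤ lamd d a := le_max_left _ _

theorem lamd_le_one_653 (d a : ℝ) : lamd d a ≤ 1 := max_le zero_le_one (min_le_left _ _)

theorem lamd_eq_one_653 {d a : ℝ} (hd : 0 < d) (ha : 2 * d ≤ |a|) : lamd d a = 1 := by
  unfold lamd
  have h1 : 1 ≤ |a| / d - 1 := by
    rw [le_sub_iff_add_le, le_div_iff₀ hd]; linarith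
  rw [min_eq_left h1, max_eq_right zero_le_one]


theorem continuous_lamd_653 (d : ℝ) : Continuous (lamd d) := by
  unfold lamd
  exact continuous_const.max (continuous_const.min ((continuous_abs.div_const d).sub continuous_const))


theorem cutB_nonneg_653 (B w : ℝ) : 0 ≤ cutB B w := sq_nonneg _





theorem tent_eq_653 (A Yp e y : ℝ) (q : R3) : tent A Yp e y q = XTent.tent ((1 + A) * Yp) e A y q := rfl



theorem tentp_nonneg_653 (A Yp e y : ℝ) (q : R3) : 0 ≤ tentp A Yp e y q := le_max_left _ _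

theorem tentp_le_653 {A Yp e y : ℝ} (hM : 0 ≤ (1 + A) * Yp) (he : 0 ≤ e) (q : R3) :
    tentp A Yp e y q ≤ (1 + A) * Yp := by
  unfold tentp tent
  have h1 := abs_nonneg ((1 + A) * y + q 1)
  have h2 : 0 ≤ e * ‖q‖ ^ 2 := by positivity
  exact max_le hM (by linarith)

theorem fr_zero_653 (y : ℝ) (v : R3) : (fr y v) 0 = v 0 := by
  unfold fr; simp

theorem fr_us_653 (y s : ℝ) : fr y (us y s) = XTent.us s := by
  unfold fr us XTent.us vec3
  ext i
  fin_cases i <;> simp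

/-! ### gains -/

open Crest.Agent.R68.XSph (pt smean)

/-- the gain of `f0` in the fan frame -/
theorem gsR_f0_653 (X : XP) (z : P2) (v : R3) (s : ℝ) :
    gsR (f0 X z) v (us z.2 s) = cutB X.B z.1 *
      XTent.gainT (fun p => tentp X.A X.Yp X.e z.2 p * lamd X.d (p 0)) (fr z.2 v) (XTent.us s) := by
  unfold gsR XTent.gainT
  rw [← integral_const_mul]
  refine integral_congr_ae (Filter.Eventually.of_forall fun w => ?_)
  have h1 : fr z.2 v - XTent.us s = v - us z.2 s := by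
    rw [← fr_us_653 z.2 s]; unfold fr; abel
  have h2 : postVel (fr z.2 v) (XTent.us s) w = fr z.2 (postVel v (us z.2 s) w) := by
    unfold postVel; rw [h1]; unfold fr; abel
  have h3 : postVelStar (fr z.2 v) (XTent.us s) w = fr z.2 (postVelStar v (us z.2 s) w) := by
    unfold postVelStar; rw [h1, ← fr_us_653 z.2 s]; unfold fr; abel
  simp only
  rw [h1, h2, h3, fr_zero_653, fr_zero_653]
  unfold f0
  ring

theorem dist_us_653 (y s : ℝ) (v : R3) : ‖v - us y s‖ = ‖fr y v - XTent.us s‖ := by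
  congr 1
  rw [← fr_us_653 y s]; unfold fr; abel

theorem continuous_tl_653 (A Yp e y d : ℝ) :
    Continuous fun p : R3 => tentp A Yp e y p * lamd d (p 0) := by
  have h1 : Continuous (tentp A Yp e y) := XTent.continuous_tentp _ _ _ _
  have h2 : Continuous fun p : R3 => p 0 := by fun_prop
  exact h1.mul ((continuous_lamd_653 d).comp h2)

/-- Archimedes: small `v₀` has small measure on the collision sphere -/
theorem smean_lam_653 {d : ℝ} (hd : 0 < d) {v u : R3} (h0 : 0 < ‖v - u‖) :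
    smean (fun p => 1 - lamd d (p 0)) v u ≤ 4 * d / ‖v - u‖ := by
  have hm : Measurable fun x : ℝ => 1 - lamd d x := (continuous_const.sub (continuous_lamd_653 d)).measurable
  rw [XSph.smean_coord v u 0 (fun x => 1 - lamd d x) hm]
  obtain ⟨m, hmm⟩ : ∃ m, m = (v 0 + u 0) / 2 := ⟨_, rfl⟩
  obtain ⟨R, hR⟩ : ∃ R, R = ‖v - u‖ / 2 := ⟨_, rfl⟩
  have hR0 : 0 < R := by rw [hR]; positivity
  rw [← hmm, ← hR]
  have h1 : ∫ t in (-1 : ℝ)..1, (fun x => 1 - lamd d x) (m + R * t) =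
      R⁻¹ • ∫ x in (m + R * (-1))..(m + R * 1), 1 - lamd d x := by
    rw [intervalIntegral.integral_comp_add_mul (fun x => 1 - lamd d x) hR0.ne' m]
  have h1' : ∫ t in (-1 : ℝ)..1, (1 - lamd d (m + R * t)) =
      R⁻¹ • ∫ x in (m + R * (-1))..(m + R * 1), 1 - lamd d x := h1
  have h2 : ∫ x in (m + R * (-1))..(m + R * 1), (1 - lamd d x) ≤ 4 * d := by
    have hle : m + R * (-1) ≤ m + R * 1 := by linarith
    rw [intervalIntegral.integral_of_le hle]
    have h3 : ∫ x in Ioc (m + R * (-1)) (m + R * 1), (1 - lamd d x) ≤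
        ∫ x in Ioc (m + R * (-1)) (m + R * 1), (Icc (-(2 * d)) (2 * d)).indicator (fun _ => (1 : ℝ)) x := by
      refine setIntegral_mono ?_ ?_ ?_
      · exact (continuous_const.sub (continuous_lamd_653 d)).integrableOn_Ioc
      · exact (integrableOn_const (by simp)).indicator measurableSet_Icc
      · intro x
        simp only
        by_cases hx : x ∈ Icc (-(2 * d)) (2 * d)
        · rw [indicator_of_mem hx]
          linarith [lamd_nonneg_653 d x]
        · rw [indicator_of_notMem hx]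
          have hx2 : 2 * d ≤ |x| := by
            by_contra hc
            push Not at hc
            exact hx (abs_le.1 hc.le)
          rw [lamd_eq_one_653 hd hx2]; simp
    refine h3.trans ?_
    rw [setIntegral_indicator measurableSet_Icc, setIntegral_const, smul_eq_mul, mul_one]
    calc volume.real (Ioc (m + R * (-1)) (m + R * 1) ∩ Icc (-(2 * d)) (2 * d))
        ≤ volume.real (Icc (-(2 * d)) (2 * d)) := by
          apply measureReal_mono inter_subset_right (by simp)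
      _ = 4 * d := by
          rw [Measure.real, Real.volume_Icc, ENNReal.toReal_ofReal (by linarith)]; ring
  rw [h1', smul_eq_mul]
  have h4 : ‖v - u‖ = 2 * R := by rw [hR]; ring
  rw [h4]
  calc 1 / 2 * (R⁻¹ * ∫ x in (m + R * (-1))..(m + R * 1), (1 - lamd d x))
      ≤ 1 / 2 * (R⁻¹ * (4 * d)) := by
        apply mul_le_mul_of_nonneg_left _ (by norm_num)
        exact mul_le_mul_of_nonneg_left h2 (inv_nonneg.2 hR0.le)
    _ = 4 * d / (2 * R) := by field_simp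

/-- loss of gain through the cut-off of small `v₀` -/
theorem gain_loss_653 {A Yp e : ℝ} (hM : 0 ≤ (1 + A) * Yp) (he : 0 ≤ e) {d : ℝ} (hd : 0 < d) (y : ℝ)
    (q u : R3) :
    XTent.gainT (tentp A Yp e y) q u - 16 * π * d * ((1 + A) * Yp) ≤
      XTent.gainT (fun p => tentp A Yp e y p * lamd d (p 0)) q u := by
  have hc1 : Continuous (tentp A Yp e y) := XTent.continuous_tentp _ _ _ _
  have hc2 := continuous_tl_653 A Yp e y d
  have hp : Continuous fun p : R3 => p 0 := by fun_prop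
  have hc3 : Continuous fun p : R3 => 1 - lamd d (p 0) :=
    continuous_const.sub ((continuous_lamd_653 d).comp hp)
  have hi1 := XSph.integrable_pt_of_continuous hc1 q u
  have hi2 := XSph.integrable_pt_of_continuous hc2 q u
  have hi3 := XSph.integrable_pt_of_continuous hc3 q u
  rw [XSph.gainT_eq_smean hc1.measurable q u hi1, XSph.gainT_eq_smean hc2.measurable q u hi2]
  rcases (norm_nonneg (q - u)).eq_or_lt' with h0 | h0
  · rw [h0]
    have : 0 ≤ 16 * π * d * ((1 + A) * Yp) := by positivity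
    linarith
  have h1 := smean_lam_653 hd h0
  have h2 : smean (tentp A Yp e y) q u - smean (fun p => tentp A Yp e y p * lamd d (p 0)) q u ≤
      (1 + A) * Yp * (4 * d / ‖q - u‖) := by
    have e1 := XSph.smean_sub (g := tentp A Yp e y) (h := fun p => tentp A Yp e y p * lamd d (p 0))
      q u hi1 hi2
    rw [← e1]
    have hi4 : Integrable (fun s => (fun p : R3 => tentp A Yp e y p - tentp A Yp e y p * lamd d (p 0))
        (pt q u s)) sphereMeasure := hi1.sub hi2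
    have hi5 : Integrable (fun s => (fun p : R3 => (1 + A) * Yp * (1 - lamd d (p 0))) (pt q u s))
        sphereMeasure := hi3.const_mul _
    refine (XSph.smean_mono (g := fun p : R3 => tentp A Yp e y p - tentp A Yp e y p * lamd d (p 0))
      (h := fun p : R3 => (1 + A) * Yp * (1 - lamd d (p 0))) q u hi4 hi5 fun s _ => ?_).trans ?_
    · simp only
      have h3 := tentp_le_653 (y := y) hM he (pt q u s)
      have h4 := lamd_le_one_653 d (pt q u s 0)
      have : tentp A Yp e y (pt q u s) - tentp A Yp e y (pt q u s) * lamd d (pt q u s 0) =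
        tentp A Yp e y (pt q u s) * (1 - lamd d (pt q u s 0)) := by ring
      rw [this]
      exact mul_le_mul_of_nonneg_right h3 (by linarith)
    · rw [XSph.smean_const_mul]
      exact mul_le_mul_of_nonneg_left h1 hM
  have h5 : 2 * π * ‖q - u‖ * (2 * (smean (tentp A Yp e y) q u -
      smean (fun p => tentp A Yp e y p * lamd d (p 0)) q u)) ≤
      2 * π * ‖q - u‖ * (2 * ((1 + A) * Yp * (4 * d / ‖q - u‖))) := by
    apply mul_le_mul_of_nonneg_left _ (by positivity)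
    linarith
  have h6 : 2 * π * ‖q - u‖ * (2 * ((1 + A) * Yp * (4 * d / ‖q - u‖))) =
      16 * π * d * ((1 + A) * Yp) := by
    field_simp; ring
  rw [h6] at h5
  linarith

theorem gain_le_653 {A Yp e : ℝ} (hM : 0 ≤ (1 + A) * Yp) (he : 0 ≤ e) (y : ℝ) (q u : R3) :
    XTent.gainT (tentp A Yp e y) q u ≤ 4 * π * ‖q - u‖ * ((1 + A) * Yp) := by
  have hc1 : Continuous (tentp A Yp e y) := XTent.continuous_tentp _ _ _ _
  have hi1 := XSph.integrable_pt_of_continuous hc1 q u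
  rw [XSph.gainT_eq_smean hc1.measurable q u hi1]
  have h1 : smean (tentp A Yp e y) q u ≤ (1 + A) * Yp :=
    XSph.smean_le_const q u hi1 fun s _ => tentp_le_653 hM he _
  have h2 : 2 * π * ‖q - u‖ * (2 * smean (tentp A Yp e y) q u) ≤
      2 * π * ‖q - u‖ * (2 * ((1 + A) * Yp)) := by
    apply mul_le_mul_of_nonneg_left _ (by positivity)
    linarith
  linarith

/-! ### the inequality -/

/-- tent inequality in all cases -/
theorem tent_all_653 {N A Yp Y ey e y k σ : ℝ} {q : R3} (hN1 : 100 ≤ N) (hA : A = 98 / 100 * N)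
    (hYp : Yp = Y - ey) (hY1 : 1 ≤ Y) (hey : 0 < ey) (heye : (1 + A) * ey ≤ e / 10) (he : 0 < e)
    (he1 : e ≤ 1 / 100000) (he2 : 600 / e ≤ (1 + A) * Yp) (hk0 : 0 ≤ k) (hk1 : k ≤ 1)
    (hkY : |y| ≤ Yp → k = 1) (hkY2 : Y ≤ |y| → k = 0) (hσ : σ = 1 ∨ σ = -1)
    (hx : 0 ≤ σ * ((1 + A) * y + q 1)) (hF : 0 ≤ tent A Yp e y q) :
    97 / 100 * N * tent A Yp e y q + k * (e / 10 * N * (1 + ‖q‖ ^ 2)) ≤
      k * (N / (4 * π) * (XTent.gainT (tentp A Yp e y) q (XTent.us 1)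
          + XTent.gainT (tentp A Yp e y) q (XTent.us (-1))
          - 2 * π * (‖q - XTent.us 1‖ + ‖q - XTent.us (-1)‖) * tent A Yp e y q))
        - A * (σ * q 1) + 2 * e * (q 1) ^ 2 := by
  have hA0 : 0 < 1 + A := by rw [hA]; linarith
  have hπ := Real.pi_pos
  rcases le_or_gt |y| Y with hy | hy
  · have hκ : 0 < N / (2 * π) := by positivity
    have hA' : A = 98 / 100 * (2 * π * (N / (2 * π))) := by rw [hA]; field_simp
    have hy' : (1 + A) * |y| ≤ (1 + A) * Yp + e / 10 := by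
      have : (1 + A) * |y| ≤ (1 + A) * Y := mul_le_mul_of_nonneg_left hy hA0.le
      have h2 : (1 + A) * Y = (1 + A) * Yp + (1 + A) * ey := by rw [hYp]; ring
      linarith
    have hk' : (1 + A) * |y| ≤ (1 + A) * Yp → k = 1 := fun h => hkY (le_of_mul_le_mul_left h hA0)
    have h := XTent.tent_sub (B := (1 + A) * Yp) (e := e) (A := A) (ε := 0) (κ := N / (2 * π))
      (k := k) (y := y) (sg := σ) (q := q) he he1 le_rfl (by positivity) hκ hA' he2 hσ hk0 hk1 hk' hy'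
      hx hF
    rw [tent_eq_653]
    have e1 : 2 * π * (N / (2 * π)) = N := by field_simp
    rw [e1] at h
    have e2 : k * ((1 - 0) * (N / (2 * π) / 2 * (XTent.gainT (XTent.tentp ((1 + A) * Yp) e A y) q (XTent.us 1)
        + XTent.gainT (XTent.tentp ((1 + A) * Yp) e A y) q (XTent.us (-1)))) -
        N / (2 * π) / 2 * (2 * π * (‖q - XTent.us 1‖ + ‖q - XTent.us (-1)‖)) *
          XTent.tent ((1 + A) * Yp) e A y q) =
      k * (N / (4 * π) * (XTent.gainT (XTent.tentp ((1 + A) * Yp) e A y) q (XTent.us 1)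
          + XTent.gainT (XTent.tentp ((1 + A) * Yp) e A y) q (XTent.us (-1))
          - 2 * π * (‖q - XTent.us 1‖ + ‖q - XTent.us (-1)‖) *
            XTent.tent ((1 + A) * Yp) e A y q)) := by
      ring
    rw [e2] at h
    exact h
  · have hk : k = 0 := hkY2 hy.le
    rw [hk, zero_mul, zero_mul, add_zero, zero_sub]
    obtain ⟨M, hM⟩ : ∃ M, M = (1 + A) * Yp := ⟨_, rfl⟩
    rw [← hM] at he2
    have hB1 : 600 ≤ M * e := by rwa [div_le_iff₀ he] at he2
    have hM0 : 0 < M := by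
      by_contra hc
      push Not at hc
      nlinarith
    have hFe : tent A Yp e y q = M - σ * ((1 + A) * y + q 1) - e * ‖q‖ ^ 2 := by
      unfold tent
      have : |(1 + A) * y + q 1| = σ * ((1 + A) * y + q 1) := by
        rcases hσ with rfl | rfl
        · rw [abs_of_nonneg (by linarith)]; ring
        · rw [abs_of_nonpos (by linarith)]; ring
      rw [this, hM]
    have hq1 := XTent.abs_apply_le q 1
    have hQ : ‖q‖ < M := by
      by_contra hc
      push Not at hc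
      have h3 : e * ‖q‖ ^ 2 ≤ M := by rw [hFe] at hF; linarith
      have h4 : e * M * ‖q‖ ≤ e * ‖q‖ * ‖q‖ := by
        apply mul_le_mul_of_nonneg_right _ (norm_nonneg q)
        exact mul_le_mul_of_nonneg_left hc he.le
      have h5 : 600 * ‖q‖ ≤ e * M * ‖q‖ :=
        mul_le_mul_of_nonneg_right (by linarith) (norm_nonneg q)
      nlinarith
    obtain ⟨hq2, hq3⟩ := abs_le.mp hq1
    have hyM : M < (1 + A) * |y| := by
      rw [hM]
      apply mul_lt_mul_of_pos_left _ hA0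
      rw [hYp]; linarith
    have hsy : (1 + A) * |y| = σ * ((1 + A) * y) := by
      rcases hσ with rfl | rfl
      · rcases le_total 0 y with h | h
        · rw [abs_of_nonneg h]; ring
        · rw [abs_of_nonpos h] at hyM; linarith
      · rcases le_total 0 y with h | h
        · rw [abs_of_nonneg h] at hyM; linarith
        · rw [abs_of_nonpos h]; ring
    have h6 : 0 ≤ e * ‖q‖ ^ 2 := by positivity
    have h7 : tent A Yp e y q ≤ -(σ * q 1) := by rw [hFe]; linarith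
    have h8 : 0 ≤ -(σ * q 1) := hF.trans h7
    have h9 : 97 / 100 * N * tent A Yp e y q ≤ 97 / 100 * N * (-(σ * q 1)) :=
      mul_le_mul_of_nonneg_left h7 (by positivity)
    have h10 : 0 ≤ 1 / 100 * N * (-(σ * q 1)) := mul_nonneg (by positivity) h8
    have h11 : A * (σ * q 1) = 98 / 100 * N * (σ * q 1) := by rw [← hA]
    have h12 : 0 ≤ 2 * e * (q 1) ^ 2 := by positivity
    linarith

/-- the term of the cut-off in `z₁` -/
theorem cut_term_653 {N B z1 v0 m0 : ℝ} (hN1 : 100 ≤ N) (hB : 0 < B) (hv : v0 ^ 2 ≤ m0)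
    (hBm : 4 * m0 ≤ B ^ 2) :
    -(1 / 200 * N * cutB B z1) ≤
      2 * max 0 (1 - z1 ^ 2 / B ^ 2) * (-(2 * z1 * (v0 - z1) / B ^ 2)) := by
  unfold cutB
  obtain ⟨r, hr⟩ : ∃ r, r = max 0 (1 - z1 ^ 2 / B ^ 2) := ⟨_, rfl⟩
  rw [← hr]
  have hr0 : 0 ≤ r := by rw [hr]; exact le_max_left _ _
  have hB2 : 0 < B ^ 2 := by positivity
  rcases le_or_gt (z1 * (v0 - z1)) 0 with h | h
  · have h1 : 0 ≤ -(2 * z1 * (v0 - z1) / B ^ 2) := by
      rw [neg_nonneg]
      apply div_nonpos_of_nonpos_of_nonneg _ hB2.le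
      nlinarith
    have h2 : 0 ≤ 2 * r * (-(2 * z1 * (v0 - z1) / B ^ 2)) := by positivity
    have h3 : 0 ≤ 1 / 200 * N * r ^ 2 := by positivity
    linarith
  · have h1 : z1 ^ 2 ≤ v0 ^ 2 := by
      have : z1 ^ 2 < z1 * v0 := by nlinarith
      nlinarith [sq_nonneg (z1 - v0)]
    have h2 : z1 * (v0 - z1) ≤ v0 ^ 2 / 4 := by nlinarith [sq_nonneg (2 * z1 - v0)]
    have h3 : v0 ^ 2 / B ^ 2 ≤ 1 / 4 := by
      rw [div_le_iff₀ hB2]; linarith
    have h4 : z1 ^ 2 / B ^ 2 ≤ 1 / 4 := by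
      rw [div_le_iff₀ hB2]; linarith
    have h5 : 3 / 4 ≤ r := by
      rw [hr]; exact le_max_of_le_right (by linarith)
    have h6 : 2 * z1 * (v0 - z1) / B ^ 2 ≤ 1 / 8 := by
      rw [div_le_iff₀ hB2]; linarith
    have h7 : 2 * r * (1 / 8) ≤ 1 / 200 * N * r ^ 2 := by nlinarith
    have h8 : 2 * r * (2 * z1 * (v0 - z1) / B ^ 2) ≤ 2 * r * (1 / 8) :=
      mul_le_mul_of_nonneg_left h6 (by positivity)
    linarith

/-- the real inequality -/
theorem real_core_653 {N K k c lam F A σ q1 e Q G1 G2 g1 g2 D1 D2 M d d1 ct : ℝ} (hN0 : 0 < N) (hd : 0 < d)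
    (hKN : 197 / 400 * K = N / (4 * π)) (hk0 : 0 ≤ k) (hc0 : 0 ≤ c) (hl0 : 0 ≤ lam) (hl1 : lam ≤ 1)
    (hF : 0 < F) (hd1 : 0 < d1) (hd11 : d1 ≤ 1) (hQ0 : 0 ≤ Q) (hM0 : 0 < M) (he : 0 < e)
    (hg10 : 0 ≤ g1) (hg20 : 0 ≤ g2) (hG1' : G1 ≤ 4 * π * (Q + 1) * M)
    (hG2' : G2 ≤ 4 * π * (Q + 1) * M) (hL1 : G1 - 16 * π * d * M ≤ g1)
    (hL2 : G2 - 16 * π * d * M ≤ g2) (hd12 : d1 * (80 * M) ≤ e) (hd2 : d * (160 * M) ≤ e)
    (hT : 97 / 100 * N * F + k * (e / 10 * N * (1 + Q ^ 2)) ≤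
      k * (N / (4 * π) * (G1 + G2 - 2 * π * (D1 + D2) * F)) - A * (σ * q1) + 2 * e * q1 ^ 2)
    (hcut : -(1 / 200 * N * c) ≤ ct) :
    193 / 200 * N * (F * c * lam) ≤ ((-σ * A * q1 + 2 * e * q1 ^ 2) * c + F * ct) * lam
        + 197 / 400 * (K * k * ((1 - d1) * (c * g1) - 2 * π * D1 * (F * c * lam))
          + K * k * ((1 - d1) * (c * g2) - 2 * π * D2 * (F * c * lam))) := by
  have hπ := Real.pi_pos
  have hd1' : 0 ≤ 1 - d1 := by linarith
  -- `g_i ≥ lam (G_i - L)`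
  have hlg : ∀ {g G L : ℝ}, 0 ≤ g → G - L ≤ g → lam * (G - L) ≤ g := by
    intro g G L hg hh
    rcases le_total 0 (G - L) with h | h
    · calc lam * (G - L) ≤ 1 * (G - L) := mul_le_mul_of_nonneg_right hl1 h
        _ = G - L := one_mul _
        _ ≤ g := hh
    · exact (mul_nonpos_of_nonneg_of_nonpos hl0 h).trans hg
  have hk1' := hlg hg10 hL1
  have hk2' := hlg hg20 hL2
  -- `(1 - d1) g_i ≥ lam (G_i - L - d1 G_i)`
  have hs : ∀ {g G : ℝ}, G - 16 * π * d * M ≤ 4 * π * (Q + 1) * M → lam * (G - 16 * π * d * M) ≤ g →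
      lam * (G - 16 * π * d * M - d1 * (4 * π * (Q + 1) * M)) ≤ (1 - d1) * g := by
    intro g G hG hg
    have h1 := mul_le_mul_of_nonneg_left hg hd1'
    have h3 : d1 * (lam * (G - 16 * π * d * M)) ≤ d1 * (lam * (4 * π * (Q + 1) * M)) :=
      mul_le_mul_of_nonneg_left (mul_le_mul_of_nonneg_left hG hl0) hd1.le
    linarith
  have hLn : 0 ≤ 16 * π * d * M := by positivity
  have hw1 := hs (by linarith) hk1'
  have hw2 := hs (by linarith) hk2'
  -- error terms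
  have herr : N / (4 * π) * (2 * (16 * π * d * M + d1 * (4 * π * (Q + 1) * M))) ≤
      e / 10 * N * (1 + Q ^ 2) := by
    have e1 : N / (4 * π) * (2 * (16 * π * d * M + d1 * (4 * π * (Q + 1) * M))) =
        N * (8 * (d * M) + 2 * (d1 * M) * (Q + 1)) := by field_simp; ring
    have e2 : e / 10 * N * (1 + Q ^ 2) = N * (e / 10 * (1 + Q ^ 2)) := by ring
    rw [e1, e2]
    apply mul_le_mul_of_nonneg_left _ hN0.le
    have h1 : 8 * (d * M) ≤ e / 20 := by linarith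
    have h2 : 2 * (d1 * M) ≤ e / 40 := by linarith
    have h3 : 2 * (d1 * M) * (Q + 1) ≤ e / 40 * (Q + 1) :=
      mul_le_mul_of_nonneg_right h2 (by linarith)
    have h4 : e / 20 + e / 40 * (Q + 1) ≤ e / 10 * (1 + Q ^ 2) := by
      have : 0 ≤ e * (1 / 10 * (1 + Q ^ 2) - 1 / 20 - 1 / 40 * (Q + 1)) := by
        apply mul_nonneg he.le
        nlinarith [sq_nonneg (Q - 1 / 2)]
      linarith
    linarith
  -- assembly
  have hnk : 0 ≤ N / (4 * π) * k := by positivity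
  have hA1 : c * (N / (4 * π) * k) * (lam * (G1 + G2 - 2 * (16 * π * d * M + d1 * (4 * π * (Q + 1) * M)))) ≤
      c * (N / (4 * π) * k) * ((1 - d1) * g1 + (1 - d1) * g2) := by
    apply mul_le_mul_of_nonneg_left _ (mul_nonneg hc0 hnk)
    linarith
  have hA2 : c * lam * (97 / 100 * N * F) ≤ c * lam * (k * (N / (4 * π) * (G1 + G2 - 2 * π * (D1 + D2) * F))
      - A * (σ * q1) + 2 * e * q1 ^ 2
      - k * (N / (4 * π) * (2 * (16 * π * d * M + d1 * (4 * π * (Q + 1) * M))))) := by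
    apply mul_le_mul_of_nonneg_left _ (mul_nonneg hc0 hl0)
    have := mul_le_mul_of_nonneg_left herr hk0
    linarith
  have hA3 : F * lam * (-(1 / 200 * N * c)) ≤ F * lam * ct :=
    mul_le_mul_of_nonneg_left hcut (mul_nonneg hF.le hl0)
  have hfin : ((-σ * A * q1 + 2 * e * q1 ^ 2) * c + F * ct) * lam
      + 197 / 400 * (K * k * ((1 - d1) * (c * g1) - 2 * π * D1 * (F * c * lam))
        + K * k * ((1 - d1) * (c * g2) - 2 * π * D2 * (F * c * lam))) =
      c * (N / (4 * π) * k) * ((1 - d1) * g1 + (1 - d1) * g2)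
      + c * lam * (- A * (σ * q1) + 2 * e * q1 ^ 2 - k * (N / (4 * π) * (2 * π * (D1 + D2) * F)))
      + F * lam * ct := by
    rw [← hKN]; ring
  rw [hfin]
  linarith

set_option maxHeartbeats 1000000 in
/-- `f0_ineq` with explicit hypotheses -/
theorem f0_ineq_core {K N A Yp Y ey e : ℝ} (hN : N = 197 / 100 * π * K) (hN1 : 100 ≤ N)
    (hA : A = 98 / 100 * N) (hYp : Yp = Y - ey) (hY1 : 1 ≤ Y) (hey : 0 < ey)
    (heye : (1 + A) * ey ≤ e / 10) (he : 0 < e) (he1 : e ≤ 1 / 100000)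
    (he2 : 600 / e ≤ (1 + A) * Yp) :
    ∃ B0 d0 δ0 : ℝ, 1 ≤ B0 ∧ 0 < d0 ∧ 0 < δ0 ∧ ∀ B d d1 : ℝ, B0 ≤ B → 0 < d → d ≤ d0 → 0 < d1 →
      d1 ≤ δ0 → ∀ (z : P2) (v : R3) (k : ℝ), 0 ≤ k → k ≤ 1 → (|z.2| ≤ Yp → k = 1) →
        (Y ≤ |z.2| → k = 0) →
        193 / 200 * N * f0 ⟨A, Yp, e, B, d⟩ z v ≤ L0 ⟨A, Yp, e, B, d⟩ z v
          + 197 / 400 * (ws ⟨A, Yp, e, B, d⟩ d1 (K * k) 1 z v
            + ws ⟨A, Yp, e, B, d⟩ d1 (K * k) (-1) z v) := by
  have hπ := Real.pi_pos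
  obtain ⟨M, hM⟩ : ∃ M, M = (1 + A) * Yp := ⟨_, rfl⟩
  have hB1 : 600 ≤ M * e := by rwa [div_le_iff₀ he, ← hM] at he2
  have hM0 : 0 < M := by
    by_contra hc
    push Not at hc
    nlinarith
  have hM' : 0 ≤ (1 + A) * Yp := by rw [← hM]; exact hM0.le
  have hN0 : 0 < N := by linarith
  have hA0 : 0 < A := by rw [hA]; positivity
  have hK0 : 0 < K := by
    by_contra hc
    push Not at hc
    have : 197 / 100 * π * K ≤ 0 := mul_nonpos_of_nonneg_of_nonpos (by positivity) hc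
    linarith
  have hKN : 197 / 400 * K = N / (4 * π) := by rw [hN]; field_simp; ring
  refine ⟨1 + 4 * (M / e), e / (160 * M), min 1 (e / (80 * M)), by
    have : 0 ≤ 4 * (M / e) := by positivity
    linarith, by positivity, lt_min one_pos (by positivity), ?_⟩
  intro B d d1 hB hd hdd hd1 hdd1 z v k hk0 hk1 hkY hkY2
  have hB1' : 1 ≤ B := by
    have : 0 ≤ 4 * (M / e) := by positivity
    linarith
  have hB0 : 0 < B := by linarith
  have hd11 : d1 ≤ 1 := hdd1.trans (min_le_left _ _)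
  have hd12 : d1 * (80 * M) ≤ e := by
    have := hdd1.trans (min_le_right _ _)
    rwa [le_div_iff₀ (by positivity)] at this
  have hd2 : d * (160 * M) ≤ e := by rwa [le_div_iff₀ (by positivity)] at hdd
  obtain ⟨q, hq⟩ : ∃ q, q = fr z.2 v := ⟨_, rfl⟩
  -- expand
  unfold ws
  rw [gsR_f0_653, gsR_f0_653, dist_us_653, dist_us_653]
  unfold L0 f0
  simp only
  rw [← hq]
  obtain ⟨c, hc⟩ : ∃ c, c = cutB B z.1 := ⟨_, rfl⟩
  obtain ⟨lam, hlam⟩ : ∃ lam, lam = lamd d (v 0) := ⟨_, rfl⟩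
  have hc0 : 0 ≤ c := by rw [hc]; exact cutB_nonneg_653 _ _
  have hl0 : 0 ≤ lam := by rw [hlam]; exact lamd_nonneg_653 _ _
  have hl1 : lam ≤ 1 := by rw [hlam]; exact lamd_le_one_653 _ _
  rw [← hc, ← hlam]
  obtain ⟨g1, hg1⟩ : ∃ g1, g1 = XTent.gainT (fun p => tentp A Yp e z.2 p * lamd d (p 0)) q (XTent.us 1) :=
    ⟨_, rfl⟩
  obtain ⟨g2, hg2⟩ : ∃ g2, g2 = XTent.gainT (fun p => tentp A Yp e z.2 p * lamd d (p 0)) q
    (XTent.us (-1)) := ⟨_, rfl⟩
  rw [← hg1, ← hg2]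
  have hg10 : 0 ≤ g1 := by
    rw [hg1]
    exact XTent.gainT_nonneg (fun p => mul_nonneg (tentp_nonneg_653 _ _ _ _ _) (lamd_nonneg_653 _ _)) _ _
  have hg20 : 0 ≤ g2 := by
    rw [hg2]
    exact XTent.gainT_nonneg (fun p => mul_nonneg (tentp_nonneg_653 _ _ _ _ _) (lamd_nonneg_653 _ _)) _ _
  by_cases hF : 0 < tent A Yp e z.2 q
  · rw [if_pos hF]
    have htp : tentp A Yp e z.2 q = tent A Yp e z.2 q := max_eq_right hF.le
    rw [htp]
    obtain ⟨F, hFd⟩ : ∃ F, F = tent A Yp e z.2 q := ⟨_, rfl⟩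
    rw [← hFd]
    rw [← hFd] at hF
    -- sizes
    have hqe : e * ‖q‖ ^ 2 ≤ M := by
      have h1 : F = M - |(1 + A) * z.2 + q 1| - e * ‖q‖ ^ 2 := by rw [hFd, hM]; rfl
      have h2 := abs_nonneg ((1 + A) * z.2 + q 1)
      linarith
    have hv0 : (v 0) ^ 2 ≤ M / e := by
      have h1 : v 0 = q 0 := by rw [hq, fr_zero_653]
      rw [h1, le_div_iff₀ he]
      have h2 : (q 0) ^ 2 ≤ ‖q‖ ^ 2 := by
        rw [← sq_abs]
        exact pow_le_pow_left₀ (abs_nonneg _) (XTent.abs_apply_le q 0) 2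
      nlinarith
    have hBB : 4 * (M / e) ≤ B ^ 2 := by
      have h1 : 0 ≤ M / e := by positivity
      nlinarith
    have hcut := cut_term_653 (z1 := z.1) hN1 hB0 hv0 hBB
    rw [← hc] at hcut
    -- sign
    obtain ⟨σ, hσd⟩ : ∃ σ, σ = sg ((1 + A) * z.2 + q 1) := ⟨_, rfl⟩
    rw [← hσd]
    have hσ : σ = 1 ∨ σ = -1 := by
      rw [hσd]; unfold sg; split_ifs <;> simp
    have hx : 0 ≤ σ * ((1 + A) * z.2 + q 1) := by
      rw [hσd]; unfold sg
      split_ifs with h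
      · linarith
      · push Not at h; linarith
    have hT := tent_all_653 (q := q) hN1 hA hYp hY1 hey heye he he1 he2 hk0 hk1 hkY hkY2 hσ hx
      (by rw [← hFd]; exact hF.le)
    rw [← hFd] at hT
    obtain ⟨hs1, hs2, hs3, hs4, hs5⟩ := XTent.speeds q
    obtain ⟨D1, hD1⟩ : ∃ D, D = ‖q - XTent.us 1‖ := ⟨_, rfl⟩
    obtain ⟨D2, hD2⟩ : ∃ D, D = ‖q - XTent.us (-1)‖ := ⟨_, rfl⟩
    have hG1 := gain_le_653 hM' he.le z.2 q (XTent.us 1)
    have hG2 := gain_le_653 hM' he.le z.2 q (XTent.us (-1))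
    have hL1 := gain_loss_653 hM' he.le hd z.2 q (XTent.us 1)
    have hL2 := gain_loss_653 hM' he.le hd z.2 q (XTent.us (-1))
    rw [← hg1] at hL1
    rw [← hg2] at hL2
    obtain ⟨G1, hG1d⟩ : ∃ G, G = XTent.gainT (tentp A Yp e z.2) q (XTent.us 1) := ⟨_, rfl⟩
    obtain ⟨G2, hG2d⟩ : ∃ G, G = XTent.gainT (tentp A Yp e z.2) q (XTent.us (-1)) := ⟨_, rfl⟩
    rw [← hG1d, ← hM] at hL1
    rw [← hG2d, ← hM] at hL2
    rw [← hG1d, ← hM] at hG1
    rw [← hG2d, ← hM] at hG2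
    rw [← hD1] at hs4 hG1 hT ⊢
    rw [← hD2] at hs5 hG2 hT ⊢
    rw [← hG1d, ← hG2d] at hT
    obtain ⟨Q, hQ⟩ : ∃ Q, Q = ‖q‖ := ⟨_, rfl⟩
    rw [← hQ] at hs4 hs5 hT
    have hQ0 : 0 ≤ Q := by rw [hQ]; exact norm_nonneg _
    have hG1' : G1 ≤ 4 * π * (Q + 1) * M := by
      refine hG1.trans ?_
      have : 4 * π * D1 ≤ 4 * π * (Q + 1) := mul_le_mul_of_nonneg_left hs4 (by positivity)
      exact mul_le_mul_of_nonneg_right this hM0.le
    have hG2' : G2 ≤ 4 * π * (Q + 1) * M := by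
      refine hG2.trans ?_
      have : 4 * π * D2 ≤ 4 * π * (Q + 1) := mul_le_mul_of_nonneg_left hs5 (by positivity)
      exact mul_le_mul_of_nonneg_right this hM0.le
    exact real_core_653 hN0 hd hKN hk0 hc0 hl0 hl1 hF hd1 hd11 hQ0 hM0 he hg10 hg20 hG1' hG2' hL1 hL2
      hd12 hd2 hT hcut
  · rw [if_neg hF]
    have htp : tentp A Yp e z.2 q = 0 := max_eq_left (not_lt.1 hF)
    rw [htp]
    simp only [zero_mul, mul_zero, sub_zero, zero_add]
    have hd1' : 0 ≤ 1 - d1 := by linarith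
    positivity

/-! ### size, support, Lipschitz bounds -/







/-! ### final forms -/

/-- with the cut-offs (statement of XIface) -/
theorem f0_ineq {K N A Yp Y ey e : ℝ} (hN : N = 197 / 100 * π * K) (h : TentOK N A Yp Y ey e) :
    ∃ B0 d0 δ0 : ℝ, 1 ≤ B0 ∧ 0 < d0 ∧ 0 < δ0 ∧ ∀ B d d1 : ℝ, B0 ≤ B → 0 < d → d ≤ d0 → 0 < d1 →
      d1 ≤ δ0 → ∀ (z : P2) (v : R3) (k : ℝ), 0 ≤ k → k ≤ 1 → (|z.2| ≤ Yp → k = 1) →
        (Y ≤ |z.2| → k = 0) →
        193 / 200 * N * f0 ⟨A, Yp, e, B, d⟩ z v ≤ L0 ⟨A, Yp, e, B, d⟩ z v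
          + 197 / 400 * (ws ⟨A, Yp, e, B, d⟩ d1 (K * k) 1 z v
            + ws ⟨A, Yp, e, B, d⟩ d1 (K * k) (-1) z v) :=
  f0_ineq_core hN h.N1 h.AN h.Ypd h.Y1 h.ey0 h.eye h.e0 h.e1 h.e2


end Crest.Agent.R68.X2
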