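import Crest.Agent.R68.XDefs2
import Crest.Agent.R68.LNeu
import Mathlib
import Crest.Agent.R68.XDefs
import Crest.Agent.R68.LK
import Crest.Agent.R68.LAncF
import Crest.Agent.R68.LMass2
import Crest.Agent.R68.X2Gs
import Crest.Agent.R68.X2Frame
import Crest.Agent.R68.X2Fuel
import Crest.Agent.R68.X2Meas

-- ▼ part R68/X2Seed0
section

/-!
# Row 68, PART X2 (helper330): what the seeds need from the weights
-/

set_option autoImplicit false
open MeasureTheory Set Filter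
open scoped Topology ENNReal
open Crest.AnalysisR.VecCalc3 Crest.AnalysisR.PDE.Boltzmann

noncomputable section

namespace Crest.Agent.R68.X2

open Crest.Agent.R68.L (Den phiE Gf Dam TL sol)
open Crest.Agent.R68.A (Meas3)

/-- everything the seeds need from the weight `W` and the test function `g` on `(0,T]` -/
structure SeedData (P : Par) (g1 g2 T A1 A2 C d1 c1 : ℝ) (v0 : R3) (W g Ψp : Den) : Prop where
  T0 : 0 < T
  T1 : T ≤ 1
  hg1 : 0 < g1
  hg2 : 0 ≤ g2
  Tg : √T / 100 ≤ g1 / 2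
  A20 : 0 < A2
  A12 : A2 < A1
  C0 : 0 ≤ C
  d10 : 0 < d1
  c10 : 0 < c1
  mW : Meas3 W
  mg : Meas3 g
  mG : Meas3 (GA (phiE P) Ψp)
  pW : ∀ t v, PerG (fun x => W t x v)
  up : ∀ (τ : ℝ) (σ H : Den), 0 < τ → SeedH P g1 g2 τ T σ H → ∀ s t, τ ≤ s → s ≤ t → t ≤ T →
    MW W H t ≤ MW W H s + ∫⁻ r in Ioo s t, (ENNReal.ofReal (A2 / r + C) * MW W H r
      + ENNReal.ofReal C * MW (GA (phiE P) Ψp) H r + MW W σ r)
  low : ∀ (τ : ℝ) (σ H : Den), 0 < τ → SeedH P g1 g2 τ T σ H → ∀ s t, τ ≤ s → s ≤ t → t ≤ T →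
    PW g H s + ∫⁻ r in Ioo s t, (ENNReal.ofReal (A1 / r) * PW g H r
      + ENNReal.ofReal d1 * MW (GA (phiE P) Ψp) H r + PW g σ r)
      ≤ PW g H t + ∫⁻ r in Ioo s t, ENNReal.ofReal C * MW W H r
  crude : ∀ t, 0 < t → t ≤ T → ∀ x v, GA (phiE P) Ψp t x v ≤ ENNReal.ofReal (C / t) * W t x v
  fin : ∃ B : ℝ≥0∞, B ≠ ⊤ ∧ ∀ t, 0 < t → t ≤ T → MW W (B2 P g1 g2 0) t ≤ B
  gs : ∀ t, 0 < t → t ≤ T → ∀ x v, 1 / 4 < ‖x‖ → g t x v = 0
  gb : ∀ t, 0 < t → t ≤ T → ∀ x v, g t x v ≤ ENNReal.ofReal C * ENNReal.ofReal (1 + ‖v‖ ^ 4)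
  w4 : ∀ t, 0 < t → t ≤ T → ∀ x v, ENNReal.ofReal (1 + ‖v‖ ^ 4) ≤ ENNReal.ofReal C * W t x v
  sg : ∀ t, 0 < t → t ≤ T → ∀ x v, ‖x‖ ≤ t / 2 → ‖v - v0‖ ≤ 1 / 4 → ENNReal.ofReal c1 ≤ g t x v
  sW : ∀ t, 0 < t → t ≤ T → ∀ x v, distG x ≤ t / 2 → ‖v - v0‖ ≤ 1 / 4 →
    W t x v ≤ ENNReal.ofReal C

end Crest.Agent.R68.X2
end
end

-- ▼ part R68/XSeed1
section

/-!
# Row 68, PART X: real variable lemmas for the seeds (inequality form of Gronwall and of the
ratio lemma)
-/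

set_option autoImplicit false
open MeasureTheory Set Filter
open scoped Topology ENNReal

noncomputable section

namespace Crest.Agent.R68.XSeed

/-- a bounded function with `F s ≤ ∫_a^s (c/r) F` vanishes -/
theorem eq_zero_of_le {a b c : ℝ} (ha : 0 < a) (hc : 0 ≤ c) {F : ℝ → ℝ≥0∞} {B : ℝ} (hB : 0 ≤ B)
    (hFB : ∀ s ∈ Icc a b, F s ≤ ENNReal.ofReal B)
    (h : ∀ s ∈ Icc a b, F s ≤ ∫⁻ r in Ioo a s, ENNReal.ofReal (c / r) * F r) :
    ∀ s ∈ Icc a b, F s = 0 := by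
  have hind : ∀ n : ℕ, ∀ s ∈ Icc a b,
      F s ≤ ENNReal.ofReal (B * (c * Real.log (s / a)) ^ n / n.factorial) := by
    intro n
    induction n with
    | zero => intro s hs; simpa using hFB s hs
    | succ n ih =>
      intro s hs
      refine (h s hs).trans ?_
      rw [← L.lintegral_log_pow ha hs.1 hc hB n]
      refine setLIntegral_mono' measurableSet_Ioo fun r hr => ?_
      rw [mul_comm]
      exact mul_le_mul' (ih r ⟨hr.1.le, hr.2.le.trans hs.2⟩) le_rfl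
  intro s hs
  have hlim : Tendsto (fun n : ℕ => ENNReal.ofReal (B * (c * Real.log (s / a)) ^ n / n.factorial))
      atTop (𝓝 (ENNReal.ofReal 0)) := by
    refine ENNReal.tendsto_ofReal ?_
    have h1 := (FloorSemiring.tendsto_pow_div_factorial_atTop (c * Real.log (s / a))).const_mul B
    rw [mul_zero] at h1
    refine h1.congr fun n => ?_
    ring
  have h2 := ge_of_tendsto hlim (Eventually.of_forall fun n => hind n s hs)
  rw [ENNReal.ofReal_zero] at h2
  exact le_antisymm h2 zero_le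

/-- bounded measurable functions are interval integrable -/
theorem intInt {f : ℝ → ℝ} {s t : ℝ} (hf : Measurable f) (hst : s ≤ t) {B : ℝ}
    (hB : ∀ r ∈ Icc s t, |f r| ≤ B) : IntervalIntegrable f volume s t := by
  rw [intervalIntegrable_iff_integrableOn_Ioc_of_le hst]
  refine Measure.integrableOn_of_bounded (M := B) (by simp) hf.aestronglyMeasurable ?_
  rw [ae_restrict_iff' measurableSet_Ioc]
  exact Eventually.of_forall fun r hr => hB r ⟨hr.1.le, hr.2⟩

/-- **lower Gronwall, sign**: `f t ≥ ∫_a^t k f`, `0 ≤ k ≤ c/r` give `f ≥ 0` -/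
theorem nonneg_of_ge {a b c : ℝ} (ha : 0 < a) (hc : 0 ≤ c) {f k : ℝ → ℝ} (hf : Measurable f)
    (hk : Measurable k) {B : ℝ} (hB : ∀ s ∈ Icc a b, |f s| ≤ B)
    (hk0 : ∀ s ∈ Icc a b, 0 ≤ k s) (hkc : ∀ s ∈ Icc a b, k s ≤ c / s)
    (h : ∀ t ∈ Icc a b, ∫ r in a..t, k r * f r ≤ f t) :
    ∀ t ∈ Icc a b, 0 ≤ f t := by
  have hz : ∀ s ∈ Icc a b, ENNReal.ofReal (-f s) = 0 := by
    rcases lt_or_ge b a with hab | hab
    · intro s hs; exact absurd (hs.1.trans hs.2) (not_le.2 hab)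
    have hB0 : 0 ≤ B := (abs_nonneg _).trans (hB a ⟨le_rfl, hab⟩)
    refine eq_zero_of_le ha hc hB0 (fun s hs => ?_) fun t ht => ?_
    · exact ENNReal.ofReal_le_ofReal ((neg_le_abs _).trans (hB s hs))
    · have hsub : ∀ r ∈ Icc a t, r ∈ Icc a b := fun r hr => ⟨hr.1, hr.2.trans ht.2⟩
      have hca : ∀ r ∈ Icc a b, c / r ≤ c / a := fun r hr =>
        div_le_div_of_nonneg_left hc ha hr.1
      have i1 : IntervalIntegrable (fun r => k r * f r) volume a t := by
        refine intInt (B := c / a * B) (hk.mul hf) ht.1 fun r hr => ?_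
        rw [abs_mul, abs_of_nonneg (hk0 r (hsub r hr))]
        exact mul_le_mul ((hkc r (hsub r hr)).trans (hca r (hsub r hr))) (hB r (hsub r hr))
          (abs_nonneg _) (div_nonneg hc ha.le)
      have i2 : IntervalIntegrable (fun r => k r * max (-f r) 0) volume a t := by
        refine intInt (B := c / a * B) (hk.mul (hf.neg.max measurable_const)) ht.1 fun r hr => ?_
        rw [abs_mul, abs_of_nonneg (hk0 r (hsub r hr)), abs_of_nonneg (le_max_right _ _)]
        refine mul_le_mul ((hkc r (hsub r hr)).trans (hca r (hsub r hr))) ?_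
          (le_max_right _ _) (div_nonneg hc ha.le)
        exact max_le ((neg_le_abs _).trans (hB r (hsub r hr)))
          ((abs_nonneg _).trans (hB r (hsub r hr)))
      have h1 : -f t ≤ ∫ r in a..t, k r * max (-f r) 0 := by
        have h2 := h t ht
        have h3 : -(∫ r in a..t, k r * f r) ≤ ∫ r in a..t, k r * max (-f r) 0 := by
          rw [← intervalIntegral.integral_neg]
          refine intervalIntegral.integral_mono_on ht.1 i1.neg i2 fun r hr => ?_
          have h4 := hk0 r (hsub r hr)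
          have h5 : -f r ≤ max (-f r) 0 := le_max_left _ _
          calc -(k r * f r) = k r * (-f r) := by ring
            _ ≤ _ := mul_le_mul_of_nonneg_left h5 h4
        linarith
      refine (ENNReal.ofReal_le_ofReal h1).trans ?_
      rw [intervalIntegral.integral_of_le ht.1, integral_Ioc_eq_integral_Ioo,
        ofReal_integral_eq_lintegral_ofReal]
      · refine setLIntegral_mono' measurableSet_Ioo fun r hr => ?_
        have hr' := hsub r ⟨hr.1.le, hr.2.le⟩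
        rw [ENNReal.ofReal_mul (hk0 r hr')]
        refine mul_le_mul' (ENNReal.ofReal_le_ofReal (hkc r hr')) ?_
        rw [ENNReal.ofReal_max]
        simp
      · rw [intervalIntegrable_iff_integrableOn_Ioo_of_le ht.1] at i2
        exact i2
      · rw [EventuallyLE, ae_restrict_iff' measurableSet_Ioo]
        exact Eventually.of_forall fun r hr =>
          mul_nonneg (hk0 r (hsub r ⟨hr.1.le, hr.2.le⟩)) (le_max_right _ _)
  intro t ht
  have := hz t ht
  rw [ENNReal.ofReal_eq_zero] at this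
  linarith


/-- **upper Gronwall**: `M t ≤ M0 + ∫_a^t (c/r) M` gives `M t ≤ M0 (t/a)^c` -/
theorem upper {a b c : ℝ} (ha : 0 < a) (hc : 0 ≤ c) {M : ℝ → ℝ} (hM : Measurable M) {B M0 : ℝ}
    (hB : ∀ s ∈ Icc a b, |M s| ≤ B)
    (h : ∀ t ∈ Icc a b, M t ≤ M0 + ∫ r in a..t, c / r * M r) :
    ∀ t ∈ Icc a b, M t ≤ M0 * (t / a) ^ c := by
  intro t ht
  have hab : a ≤ b := ht.1.trans ht.2
  set f : ℝ → ℝ := fun r => M0 * (r / a) ^ c - M r with hf
  have hDc : ContinuousOn (fun r : ℝ => M0 * (r / a) ^ c) (Icc a b) := by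
    refine continuousOn_const.mul ?_
    exact (continuousOn_id.div_const a).rpow_const fun s hs =>
      Or.inl (div_pos (ha.trans_le hs.1) ha).ne'
  obtain ⟨BD, hBD⟩ := isCompact_Icc.exists_bound_of_continuousOn hDc
  have hDm : Measurable (fun r : ℝ => M0 * (r / a) ^ c) := by fun_prop
  have hkm : Measurable fun r : ℝ => c / r := by fun_prop
  have hkcont : ContinuousOn (fun r : ℝ => c / r) (Icc a b) :=
    continuousOn_const.div continuousOn_id fun s hs => (ha.trans_le hs.1).ne'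
  have hDeq : ∀ t ∈ Icc a b, M0 * (t / a) ^ c = M0 + ∫ r in a..t, c / r * (M0 * (r / a) ^ c) := by
    intro t ht
    have hder : ∀ s ∈ uIcc a t, HasDerivAt (fun r : ℝ => M0 * (r / a) ^ c)
        (c / s * (M0 * (s / a) ^ c)) s := by
      intro s hs
      rw [uIcc_of_le ht.1] at hs
      have hs0 : 0 < s := ha.trans_le hs.1
      have h1 : HasDerivAt (fun r : ℝ => r / a) (1 / a) s := (hasDerivAt_id s).div_const a
      have h2 := (h1.rpow_const (p := c) (Or.inl (div_pos hs0 ha).ne')).const_mul M0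
      refine h2.congr_deriv ?_
      have h3 : (s / a) ^ (c - 1) = (s / a) ^ c / (s / a) := by
        rw [Real.rpow_sub_one (div_pos hs0 ha).ne']
      rw [h3]
      field_simp
    have hcont : ContinuousOn (fun s : ℝ => c / s * (M0 * (s / a) ^ c)) (uIcc a t) := by
      rw [uIcc_of_le ht.1]
      exact (hkcont.mul hDc).mono (Icc_subset_Icc_right ht.2)
    rw [intervalIntegral.integral_eq_sub_of_hasDerivAt hder hcont.intervalIntegrable]
    rw [div_self ha.ne', Real.one_rpow]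
    ring
  have key := nonneg_of_ge (f := f) (k := fun r => c / r) ha hc (hDm.sub hM) hkm (B := BD + B)
    (fun s hs => ?_) (fun s hs => div_nonneg hc (ha.trans_le hs.1).le) (fun s _ => le_rfl)
    (fun t ht => ?_) t ht
  · have : 0 ≤ f t := key
    simp only [hf] at this
    linarith
  · have h1 := hB s hs
    have h2 := hBD s hs
    rw [Real.norm_eq_abs] at h2
    exact (abs_sub _ _).trans (add_le_add h2 h1)
  · have hsub : ∀ r ∈ Icc a t, r ∈ Icc a b := fun r hr => ⟨hr.1, hr.2.trans ht.2⟩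
    have i1 : IntervalIntegrable (fun r => c / r * M r) volume a t := by
      refine intInt (B := c / a * B) (hkm.mul hM) ht.1 fun r hr => ?_
      have hr0 : 0 < r := ha.trans_le hr.1
      rw [abs_mul, abs_of_nonneg (div_nonneg hc hr0.le)]
      exact mul_le_mul (div_le_div_of_nonneg_left hc ha hr.1) (hB r (hsub r hr))
        (abs_nonneg _) (div_nonneg hc ha.le)
    have i2 : IntervalIntegrable (fun r => c / r * (M0 * (r / a) ^ c)) volume a t := by
      have hcont : ContinuousOn (fun s : ℝ => c / s * (M0 * (s / a) ^ c)) (uIcc a t) := by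
        rw [uIcc_of_le ht.1]
        exact (hkcont.mul hDc).mono (Icc_subset_Icc_right ht.2)
      exact hcont.intervalIntegrable
    have e : ∫ r in a..t, c / r * f r = (∫ r in a..t, c / r * (M0 * (r / a) ^ c)) -
        ∫ r in a..t, c / r * M r := by
      rw [← intervalIntegral.integral_sub i2 i1]
      refine intervalIntegral.integral_congr fun r _ => ?_
      simp only [hf]; ring
    rw [e]
    have h1 := h t ht
    have h2 := hDeq t ht
    have h3 : f t = M0 * (t / a) ^ c - M t := rfl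
    rw [h3, h2]
    linarith

end Crest.Agent.R68.XSeed
end
end

-- ▼ part R68/XRatio
section

/-!
# Row 68, PART X (helper810): the ratio (Harnack) lemma for two coupled differential inequalities
-/

set_option autoImplicit false
open MeasureTheory Set Filter
open scoped Topology

noncomputable section

namespace Crest.Agent.R68.X

/-- a primitive of an integrable function times `e^{-K}` is non-decreasing if `J' ≥ k J` -/
theorem ac_gronwall {a b : ℝ} {J j K k : ℝ → ℝ}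
    (hj : IntervalIntegrable j volume a b) (hJ : ∀ t ∈ Icc a b, J t = J a + ∫ s in a..t, j s)
    (hK : ∀ s ∈ Icc a b, HasDerivAt K (k s) s) (hk : ContinuousOn k (Icc a b))
    (hge : ∀ᵐ s, s ∈ Icc a b → k s * J s ≤ j s) {s t : ℝ} (hs : a ≤ s) (hst : s ≤ t)
    (ht : t ≤ b) : J s * Real.exp (-K s) ≤ J t * Real.exp (-K t) := by
  have hab : a ≤ b := hs.trans (hst.trans ht)
  set Y : ℝ → ℝ := fun s => J a + ∫ r in a..s, j r with hY
  set g : ℝ → ℝ := fun s => Real.exp (-K s) with hg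
  have hac1 : AbsolutelyContinuousOnInterval Y a b := by
    have h1 := hj.absolutelyContinuousOnInterval_intervalIntegral (c := a) (by simp)
    have h2 : AbsolutelyContinuousOnInterval (fun _ : ℝ => J a) a b :=
      (LipschitzOnWith.absolutelyContinuousOnInterval (K := 0)
        (LipschitzWith.const (J a)).lipschitzOnWith)
    exact h2.add h1
  have hgd : ∀ s ∈ Icc a b, HasDerivAt g (g s * (-k s)) s := by
    intro s hs
    exact (hK s hs).neg.exp
  have hgc : ContinuousOn g (Icc a b) := fun s hs => (hgd s hs).continuousAt.continuousWithinAt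
  have hac2 : AbsolutelyContinuousOnInterval g a b := by
    obtain ⟨C, hC⟩ := isCompact_Icc.exists_bound_of_continuousOn (hgc.mul hk.neg)
    have h1 : LipschitzOnWith (Real.toNNReal C) g (Icc a b) := by
      refine Convex.lipschitzOnWith_of_nnnorm_hasDerivWithin_le (convex_Icc a b)
        (fun s hs => (hgd s hs).hasDerivWithinAt) (fun s hs => ?_)
      rw [← NNReal.coe_le_coe, coe_nnnorm]
      exact (hC s hs).trans (Real.le_coe_toNNReal C)
    refine LipschitzOnWith.absolutelyContinuousOnInterval (K := Real.toNNReal C) ?_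
    rwa [uIcc_of_le hab]
  have hac : AbsolutelyContinuousOnInterval (Y * g) s t :=
    (hac1.mul hac2).mono (by rw [uIcc_of_le hst, uIcc_of_le hab]; exact Icc_subset_Icc hs ht)
  have h1 := hac.integral_deriv_eq_sub
  have h2 : 0 ≤ ∫ x in s..t, deriv (Y * g) x := by
    refine intervalIntegral.integral_nonneg_of_ae_restrict hst ?_
    have h3 : ∀ᵐ x, x ∈ Icc s t → 0 ≤ deriv (Y * g) x := by
      filter_upwards [hge, hj.ae_hasDerivAt_integral] with x hx1 hx2 hx3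
      have hxI : x ∈ Icc a b := ⟨hs.trans hx3.1, hx3.2.trans ht⟩
      have h4 := hx2 (by rw [uIcc_of_le hab]; exact hxI) a (by rw [uIcc_of_le hab]; exact ⟨le_rfl, hab⟩)
      have h5 : HasDerivAt Y (j x) x := by
        have := h4.const_add (J a)
        exact this
      have h6 := (h5.mul (hgd x hxI)).deriv
      rw [h6]
      have h7 : Y x = J x := (hJ x hxI).symm
      rw [h7]
      have h8 : 0 < g x := Real.exp_pos _
      have h9 := hx1 hxI
      nlinarith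
    have h10 := ae_restrict_of_ae (s := Icc s t) h3
    filter_upwards [h10, ae_restrict_mem measurableSet_Icc] with x hx1 hx2
    exact hx1 hx2
  have h3 : Y s = J s := (hJ s ⟨hs, hst.trans ht⟩).symm
  have h4 : Y t = J t := (hJ t ⟨hs.trans hst, ht⟩).symm
  rw [h1, Pi.mul_apply, Pi.mul_apply, h3, h4] at h2
  linarith

theorem rpow_deriv_aux {A B kap : ℝ} (hkap : 0 < kap) {s : ℝ} (hs : 0 < s) :
    HasDerivAt (fun s => A * Real.log s - B * (s ^ kap / kap)) (A / s - B * s ^ (kap - 1)) s := by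
  have h1 := (Real.hasDerivAt_log hs.ne').const_mul A
  have h2 := (Real.hasDerivAt_rpow_const (p := kap) (Or.inl hs.ne')).div_const kap
  have h3 := h1.sub (h2.const_mul B)
  refine h3.congr_deriv ?_
  field_simp



/-! ### one-sided increment form -/

/-- increment form of the Gronwall inequality, `k ≥ 0` -/
theorem incr_gronwall {a b : ℝ} {J j K k : ℝ → ℝ}
    (hj : IntervalIntegrable j volume a b)
    (hJ : ∀ s t, a ≤ s → s ≤ t → t ≤ b → ∫ r in s..t, j r ≤ J t - J s)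
    (hK : ∀ s ∈ Icc a b, HasDerivAt K (k s) s) (hk : ContinuousOn k (Icc a b))
    (hk0 : ∀ s ∈ Icc a b, 0 ≤ k s)
    (hge : ∀ᵐ s, s ∈ Icc a b → k s * J s ≤ j s) {s t : ℝ} (hs : a ≤ s) (hst : s ≤ t)
    (ht : t ≤ b) : J s * Real.exp (-K s) ≤ J t * Real.exp (-K t) := by
  have hab : a ≤ b := hs.trans (hst.trans ht)
  have hsubI : Icc s t ⊆ Icc a b := Icc_subset_Icc hs ht
  set Y : ℝ → ℝ := fun r => J s + ∫ u in s..r, j u with hY
  have hYs : Y s = J s := by simp [hY]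
  have hYle : ∀ r ∈ Icc s t, Y r ≤ J r := by
    intro r hr
    have := hJ s r hs hr.1 (hr.2.trans ht)
    simp only [hY]; linarith
  have hjst : IntervalIntegrable j volume s t :=
    hj.mono_set (by rw [uIcc_of_le hst, uIcc_of_le hab]; exact hsubI)
  have h1 := ac_gronwall (J := Y) (K := K) (k := k) hjst
    (fun r _ => by rw [hYs]) (fun r hr => hK r (hsubI hr)) (hk.mono hsubI)
    (by
      filter_upwards [hge] with r hr1 hr2
      have h2 := hr1 (hsubI hr2)
      have h3 := mul_le_mul_of_nonneg_left (hYle r hr2) (hk0 r (hsubI hr2))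
      linarith) le_rfl hst le_rfl
  rw [hYs] at h1
  refine h1.trans ?_
  exact mul_le_mul_of_nonneg_right (hYle t ⟨hst, le_rfl⟩) (Real.exp_pos _).le

/-- a function with non-negative start and `increments ≥ ∫ j`, `j ≥ - k J⁻`, stays non-negative -/
theorem incr_nonneg {a b : ℝ} {J j K k : ℝ → ℝ}
    (hj : IntervalIntegrable j volume a b)
    (hJ : ∀ s t, a ≤ s → s ≤ t → t ≤ b → ∫ r in s..t, j r ≤ J t - J s)
    (hK : ∀ s ∈ Icc a b, HasDerivAt K (k s) s) (hk : ContinuousOn k (Icc a b))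
    (hk0 : ∀ s ∈ Icc a b, 0 ≤ k s)
    (hge : ∀ᵐ s, s ∈ Icc a b → -(k s * max (-J s) 0) ≤ j s) (hJa : 0 ≤ J a) :
    ∀ t ∈ Icc a b, 0 ≤ J t := by
  intro t ht
  have hab : a ≤ b := ht.1.trans ht.2
  set g : ℝ → ℝ := fun s => min (j s) 0 with hg
  have hgint : IntervalIntegrable g volume a b := by
    have h1 : IntervalIntegrable (fun _ : ℝ => (0 : ℝ)) volume a b := by simp
    rw [intervalIntegrable_iff_integrableOn_Ioc_of_le hab] at hj h1 ⊢
    exact hj.inf h1
  set U : ℝ → ℝ := fun r => ∫ u in a..r, g u with hU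
  have hUa : U a = 0 := by simp [hU]
  have hUle : ∀ r ∈ Icc a b, U r ≤ J r := by
    intro r hr
    have h1 := hJ a r le_rfl hr.1 hr.2
    have hsub : uIcc a r ⊆ uIcc a b := by
      rw [uIcc_of_le hr.1, uIcc_of_le hab]; exact Icc_subset_Icc_right hr.2
    have h2 : U r ≤ ∫ u in a..r, j u := by
      refine intervalIntegral.integral_mono_on hr.1 (hgint.mono_set hsub) (hj.mono_set hsub) ?_
      intro u _
      exact min_le_left _ _
    linarith
  have hUnp : ∀ r ∈ Icc a b, U r ≤ 0 := by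
    intro r hr
    have hsub : uIcc a r ⊆ uIcc a b := by
      rw [uIcc_of_le hr.1, uIcc_of_le hab]; exact Icc_subset_Icc_right hr.2
    have h2 : U r ≤ ∫ u in a..r, (0 : ℝ) := by
      refine intervalIntegral.integral_mono_on hr.1 (hgint.mono_set hsub) (by simp) ?_
      intro u _
      exact min_le_right _ _
    simpa using h2
  have h1 := ac_gronwall (J := U) (K := K) (k := k) hgint (fun r _ => by rw [hUa, zero_add]) hK hk
    (by
      filter_upwards [hge] with r hr1 hr2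
      have h2 := hr1 hr2
      have h3 := hUle r hr2
      have h4 := hUnp r hr2
      have h5 : U r ≤ -max (-J r) 0 := by
        have : max (-J r) 0 ≤ -U r := max_le (by linarith) (by linarith)
        linarith
      have h6 := mul_le_mul_of_nonneg_left h5 (hk0 r hr2)
      refine le_min (by linarith) ?_
      have h7 : 0 ≤ k r * max (-J r) 0 := mul_nonneg (hk0 r hr2) (le_max_right _ _)
      linarith) le_rfl ht.1 ht.2
  rw [hUa, zero_mul] at h1
  have h2 : 0 ≤ U t := nonneg_of_mul_nonneg_left h1 (Real.exp_pos _)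
  exact h2.trans (hUle t ht)

/-- **Ratio lemma, increment form.** `M` (bad), `Ph` (good) only satisfy one-sided increment
inequalities; `max (Ph s) 0` in the inequality of the bad quantity. -/
theorem ratio_incr (A1 A2 C eps kap rho0 : ℝ) (hA2 : 0 < A2) (hA : A2 < A1) (hC : 0 ≤ C)
    (heps : 0 < eps) (hkap : 0 < kap) : ∃ rho t0 : ℝ, 0 < rho ∧ rho0 ≤ rho ∧ 0 < t0 ∧ t0 ≤ 1 ∧
      ∀ tau t1 : ℝ, 0 < tau → tau < t1 → t1 ≤ t0 → ∀ M Ph G m f : ℝ → ℝ,
      (∀ s ∈ Icc tau t1, 0 ≤ M s) → (∀ s ∈ Icc tau t1, 0 ≤ G s) →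
      IntervalIntegrable m volume tau t1 → IntervalIntegrable f volume tau t1 →
      (∀ s t, tau ≤ s → s ≤ t → t ≤ t1 → M t - M s ≤ ∫ r in s..t, m r) →
      (∀ s t, tau ≤ s → s ≤ t → t ≤ t1 → ∫ r in s..t, f r ≤ Ph t - Ph s) →
      (∀ᵐ s, s ∈ Icc tau t1 → (A1 / s) * Ph s + eps * G s - C * s ^ (kap - 1) * M s ≤ f s) →
      (∀ᵐ s, s ∈ Icc tau t1 →
        m s ≤ (A2 / s + C * s ^ (kap - 1)) * M s + C * (G s + max (Ph s) 0 / s)) →
      M tau ≤ rho * Ph tau →
      (∀ t ∈ Icc tau t1, M t ≤ rho * Ph t) ∧ (∀ t ∈ Icc tau t1, 0 ≤ Ph t) ∧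
      (∀ s t, tau ≤ s → s ≤ t → t ≤ t1 → 1 / 2 * (t / s) ^ A1 * Ph s ≤ Ph t) := by
  have hd : 0 < A1 - A2 := sub_pos.2 hA
  have hA1 : 0 < A1 := hA2.trans hA
  set rho : ℝ := C / eps + 2 * C / (A1 - A2) + |rho0| + 1 with hrho
  have h1 : 0 ≤ C / eps := by positivity
  have h2 : 0 ≤ 2 * C / (A1 - A2) := by positivity
  have h3 : 0 ≤ |rho0| := abs_nonneg _
  have hrpos : 0 < rho := by rw [hrho]; positivity
  have hr1 : C ≤ rho * eps := by
    have : C / eps ≤ rho := by rw [hrho]; linarith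
    rwa [div_le_iff₀ heps] at this
  have hr2 : C / rho ≤ (A1 - A2) / 2 := by
    rw [div_le_div_iff₀ hrpos (by norm_num)]
    have : 2 * C / (A1 - A2) ≤ rho := by rw [hrho]; linarith
    rw [div_le_iff₀ hd] at this
    linarith
  set del : ℝ := min (min ((A1 - A2) / (2 * ((1 + rho) * C + 1)))
    (kap * Real.log 2 / (C * rho + 1))) (A1 / (C * rho + 1)) with hdel
  have hlog2 : 0 < Real.log 2 := Real.log_pos (by norm_num)
  have hdpos : 0 < del := by
    rw [hdel]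
    exact lt_min (lt_min (by positivity) (by positivity)) (by positivity)
  set t0 : ℝ := min 1 (del ^ (1 / kap)) with ht0
  have ht0pos : 0 < t0 := lt_min one_pos (Real.rpow_pos_of_pos hdpos _)
  have hsk : ∀ s, 0 < s → s ≤ t0 → s ^ kap ≤ del := by
    intro s hs hst
    calc s ^ kap ≤ (del ^ (1 / kap)) ^ kap :=
          Real.rpow_le_rpow hs.le (hst.trans (min_le_right _ _)) hkap.le
      _ = del := by
          rw [← Real.rpow_mul hdpos.le, one_div, inv_mul_cancel₀ hkap.ne', Real.rpow_one]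
  have hdel1 : (1 + rho) * C * del ≤ (A1 - A2) / 2 := by
    have h4 : del ≤ (A1 - A2) / (2 * ((1 + rho) * C + 1)) :=
      (min_le_left _ _).trans (min_le_left _ _)
    have h5 : 0 < (1 + rho) * C + 1 := by positivity
    calc (1 + rho) * C * del ≤ ((1 + rho) * C + 1) * del := by nlinarith
      _ ≤ ((1 + rho) * C + 1) * ((A1 - A2) / (2 * ((1 + rho) * C + 1))) := by gcongr
      _ = (A1 - A2) / 2 := by field_simp
  have hdel2 : C * rho * (del / kap) ≤ Real.log 2 := by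
    have h4 : del ≤ kap * Real.log 2 / (C * rho + 1) :=
      (min_le_left _ _).trans (min_le_right _ _)
    have h5 : 0 < C * rho + 1 := by positivity
    calc C * rho * (del / kap) ≤ (C * rho + 1) * (del / kap) := by
          have : 0 ≤ del / kap := by positivity
          nlinarith
      _ ≤ (C * rho + 1) * ((kap * Real.log 2 / (C * rho + 1)) / kap) := by gcongr
      _ = Real.log 2 := by field_simp
  have hdel3 : C * rho * del ≤ A1 := by
    have h4 : del ≤ A1 / (C * rho + 1) := min_le_right _ _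
    have h5 : 0 < C * rho + 1 := by positivity
    calc C * rho * del ≤ (C * rho + 1) * del := by nlinarith
      _ ≤ (C * rho + 1) * (A1 / (C * rho + 1)) := by gcongr
      _ = A1 := by field_simp
  refine ⟨rho, t0, hrpos, ?_, ht0pos, min_le_left _ _, ?_⟩
  · have := le_abs_self rho0
    rw [hrho]; linarith
  intro tau t1 htau htt ht1 M Ph G m f hM hG hm hf hMi hPi hfe hme hini
  have hpow : ∀ s ∈ Icc tau t1, s * s ^ (kap - 1) = s ^ kap := by
    intro s hs
    have hs0 : 0 < s := htau.trans_le hs.1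
    rw [mul_comm, ← Real.rpow_add_one hs0.ne', sub_add_cancel]
  -- the difference `J = rho Ph - M`
  set J : ℝ → ℝ := fun s => rho * Ph s - M s with hJdef
  set jj : ℝ → ℝ := fun s => rho * f s - m s with hjdef
  have hjint : IntervalIntegrable jj volume tau t1 := (hf.const_mul rho).sub hm
  have hJe : ∀ s t, tau ≤ s → s ≤ t → t ≤ t1 → ∫ r in s..t, jj r ≤ J t - J s := by
    intro s t hs hst ht
    have hsub : uIcc s t ⊆ uIcc tau t1 := by
      rw [uIcc_of_le hst, uIcc_of_le htt.le]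
      exact Icc_subset_Icc hs ht
    have e1 : IntervalIntegrable (fun s => rho * f s) volume s t :=
      (hf.mono_set hsub).const_mul rho
    have e2 : IntervalIntegrable m volume s t := hm.mono_set hsub
    simp only [hJdef, hjdef]
    rw [intervalIntegral.integral_sub e1 e2, intervalIntegral.integral_const_mul]
    have e3 := hMi s t hs hst ht
    have e4 := mul_le_mul_of_nonneg_left (hPi s t hs hst ht) hrpos.le
    linarith
  have hJge : ∀ᵐ s, s ∈ Icc tau t1 → -((A1 / s) * max (-J s) 0) ≤ jj s := by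
    filter_upwards [hfe, hme] with s hs1 hs2 hs
    have hs0 : 0 < s := htau.trans_le hs.1
    have e1 := hs1 hs
    have e2 := hs2 hs
    have e3 := hM s hs
    have e4 := hG s hs
    have e5 : s ^ kap ≤ del := hsk s hs0 (hs.2.trans ht1)
    have e6 := hpow s hs
    have e7 : s ^ (kap - 1) = s ^ kap / s := by rw [← e6]; field_simp
    rw [e7] at e1 e2
    set w : ℝ := s ^ kap with hw
    have hw0 : 0 ≤ w := Real.rpow_nonneg hs0.le _
    have e8 : Ph s = (J s + M s) / rho := by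
      simp only [hJdef]; field_simp; ring
    have e12 : (1 + rho) * C * w ≤ (A1 - A2) / 2 := by
      refine le_trans ?_ hdel1
      gcongr
    have e11 : 0 ≤ (rho * eps - C) * G s := mul_nonneg (by linarith) e4
    -- lower bound of `jj`
    have e9 : rho * ((A1 / s) * Ph s + eps * G s - C * (w / s) * M s) -
        ((A2 / s + C * (w / s)) * M s + C * (G s + max (Ph s) 0 / s)) ≤ jj s := by
      simp only [hjdef]
      have := mul_le_mul_of_nonneg_left e1 hrpos.le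
      linarith
    refine le_trans ?_ e9
    rcases le_or_gt 0 (Ph s) with hp | hp
    · rw [max_eq_left hp]
      have e10 : rho * ((A1 / s) * Ph s + eps * G s - C * (w / s) * M s) -
          ((A2 / s + C * (w / s)) * M s + C * (G s + Ph s / s)) =
          (rho * eps - C) * G s + ((A1 - C / rho - A2 - (1 + rho) * C * w) / s) * M s +
          ((A1 - C / rho) / s) * J s := by
        rw [e8]
        field_simp
        ring
      have e13 : 0 ≤ ((A1 - C / rho - A2 - (1 + rho) * C * w) / s) * M s := by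
        refine mul_nonneg (div_nonneg ?_ hs0.le) e3
        linarith
      have e14 : -((A1 / s) * max (-J s) 0) ≤ ((A1 - C / rho) / s) * J s := by
        have hq0 : 0 ≤ C / rho := by positivity
        have hq1 : 0 ≤ (A1 - C / rho) / s := div_nonneg (by linarith) hs0.le
        have hq2 : (A1 - C / rho) / s ≤ A1 / s := by gcongr; linarith
        rcases le_or_gt 0 (J s) with hj | hj
        · rw [max_eq_right (by linarith), mul_zero, neg_zero]
          exact mul_nonneg hq1 hj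
        · rw [max_eq_left (by linarith)]
          have := mul_le_mul_of_nonneg_right hq2 (by linarith : 0 ≤ -J s)
          linarith
      linarith
    · rw [max_eq_right hp.le, zero_div, add_zero]
      have hJneg : J s ≤ 0 := by
        simp only [hJdef]
        have := mul_neg_of_pos_of_neg hrpos hp
        linarith
      rw [max_eq_left (by linarith : (0 : ℝ) ≤ -J s)]
      have e10 : rho * ((A1 / s) * Ph s + eps * G s - C * (w / s) * M s) -
          ((A2 / s + C * (w / s)) * M s + C * G s) =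
          (rho * eps - C) * G s + ((A1 - A2 - (1 + rho) * C * w) / s) * M s +
          (A1 / s) * J s := by
        rw [e8]
        field_simp
        ring
      have e13 : 0 ≤ ((A1 - A2 - (1 + rho) * C * w) / s) * M s := by
        refine mul_nonneg (div_nonneg ?_ hs0.le) e3
        linarith
      linarith
  have hne : ∀ s ∈ Icc tau t1, s ≠ 0 := fun s hs => (htau.trans_le hs.1).ne'
  have hJpos : ∀ t ∈ Icc tau t1, 0 ≤ J t := by
    refine incr_nonneg (K := fun s => A1 * Real.log s) hjint hJe (fun s hs => ?_)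
      (continuousOn_const.div continuousOn_id hne)
      (fun s hs => div_nonneg hA1.le (htau.trans_le hs.1).le) hJge ?_
    · have := (Real.hasDerivAt_log (htau.trans_le hs.1).ne').const_mul A1
      rwa [← div_eq_mul_inv] at this
    · simp only [hJdef]; linarith
  have hMle : ∀ t ∈ Icc tau t1, M t ≤ rho * Ph t := by
    intro t ht
    have := hJpos t ht
    simp only [hJdef] at this
    linarith
  have hPpos : ∀ t ∈ Icc tau t1, 0 ≤ Ph t := by
    intro t ht
    have e1 := (hM t ht).trans (hMle t ht)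
    exact nonneg_of_mul_nonneg_right e1 hrpos
  refine ⟨hMle, hPpos, fun s t hs hst ht => ?_⟩
  have hfge : ∀ᵐ s, s ∈ Icc tau t1 → (A1 / s - C * rho * s ^ (kap - 1)) * Ph s ≤ f s := by
    filter_upwards [hfe] with r hr1 hr
    have hr0 : 0 < r := htau.trans_le hr.1
    have e1 := hr1 hr
    have e2 := hMle r hr
    have e3 : 0 ≤ eps * G r := mul_nonneg heps.le (hG r hr)
    have e4 : 0 ≤ C * r ^ (kap - 1) := mul_nonneg hC (Real.rpow_nonneg hr0.le _)
    have e5 := mul_le_mul_of_nonneg_left e2 e4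
    have e6 : (A1 / r - C * rho * r ^ (kap - 1)) * Ph r =
        (A1 / r) * Ph r - C * r ^ (kap - 1) * (rho * Ph r) := by ring
    rw [e6]
    linarith
  have hk : ContinuousOn (fun s => A1 / s - C * rho * s ^ (kap - 1)) (Icc tau t1) := by
    refine (continuousOn_const.div continuousOn_id hne).sub (continuousOn_const.mul ?_)
    exact continuousOn_id.rpow_const fun s hs => Or.inl (hne s hs)
  have hk0 : ∀ s ∈ Icc tau t1, 0 ≤ A1 / s - C * rho * s ^ (kap - 1) := by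
    intro s hs
    have hs0 : 0 < s := htau.trans_le hs.1
    have e6 := hpow s hs
    have e7 : s ^ (kap - 1) = s ^ kap / s := by rw [← e6]; field_simp
    have e8 : A1 / s - C * rho * s ^ (kap - 1) = (A1 - C * rho * s ^ kap) / s := by
      rw [e7]; ring
    rw [e8]
    refine div_nonneg ?_ hs0.le
    have e9 : C * rho * s ^ kap ≤ C * rho * del :=
      mul_le_mul_of_nonneg_left (hsk s hs0 (hs.2.trans ht1)) (mul_nonneg hC hrpos.le)
    linarith
  have e1 := incr_gronwall (K := fun s => A1 * Real.log s - C * rho * (s ^ kap / kap)) hf hPi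
    (fun s hs => rpow_deriv_aux hkap (htau.trans_le hs.1)) hk hk0 hfge hs hst ht
  have hs0 : 0 < s := htau.trans_le hs
  have ht0' : 0 < t := hs0.trans_le hst
  have e2 : Ph s * Real.exp (-(A1 * Real.log s - C * rho * (s ^ kap / kap)) +
      (A1 * Real.log t - C * rho * (t ^ kap / kap))) ≤ Ph t := by
    rw [Real.exp_add, ← mul_assoc]
    have := mul_le_mul_of_nonneg_right e1
      (Real.exp_pos (A1 * Real.log t - C * rho * (t ^ kap / kap))).le
    refine this.trans (le_of_eq ?_)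
    rw [mul_assoc, ← Real.exp_add]
    simp
  refine le_trans ?_ e2
  have hPs : 0 ≤ Ph s := hPpos s ⟨hs, hst.trans ht⟩
  rw [mul_comm (Ph s)]
  refine mul_le_mul_of_nonneg_right ?_ hPs
  have e3 : (t / s) ^ A1 = Real.exp (A1 * Real.log t - A1 * Real.log s) := by
    rw [Real.rpow_def_of_pos (div_pos ht0' hs0), Real.log_div ht0'.ne' hs0.ne']
    congr 1; ring
  have e4 : (1 : ℝ) / 2 = Real.exp (-Real.log 2) := by
    rw [Real.exp_neg, Real.exp_log (by norm_num)]; norm_num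
  rw [e3, e4, ← Real.exp_add]
  refine Real.exp_le_exp.2 ?_
  have e5 : t ^ kap ≤ del := hsk t ht0' (ht.trans ht1)
  have e6 : C * rho * (t ^ kap / kap) ≤ Real.log 2 := by
    refine le_trans ?_ hdel2
    gcongr
  have e7 : 0 ≤ C * rho * (s ^ kap / kap) := by
    have := Real.rpow_nonneg hs0.le kap
    positivity
  linarith

end Crest.Agent.R68.X
end
end

-- ▼ part R68/X2Seed1
section

/-!
# Row 68, PART X2 (helper330): the ratio lemma in `ENNReal` form, growth of the seeds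
-/

set_option autoImplicit false
open MeasureTheory Set Filter
open scoped Topology ENNReal

noncomputable section

namespace Crest.Agent.R68.X2

/-- passage from `ENNReal` time integrals to real ones -/
theorem toReal_lint {u : ℝ → ℝ≥0∞} (hu : Measurable u) {s t B : ℝ} (hst : s ≤ t)
    (hB : ∀ r ∈ Icc s t, u r ≤ ENNReal.ofReal B) :
    (∫⁻ r in Ioo s t, u r) ≠ ⊤ ∧ ∫ r in s..t, (u r).toReal = (∫⁻ r in Ioo s t, u r).toReal := by
  have h1 : (∫⁻ r in Ioo s t, u r) ≠ ⊤ := by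
    refine ne_top_of_le_ne_top ?_ (setLIntegral_mono' measurableSet_Ioo
      (g := fun _ => ENNReal.ofReal B) fun r hr => hB r ⟨hr.1.le, hr.2.le⟩)
    rw [lintegral_const, Measure.restrict_apply MeasurableSet.univ, univ_inter, Real.volume_Ioo]
    exact ENNReal.mul_ne_top ENNReal.ofReal_ne_top ENNReal.ofReal_ne_top
  refine ⟨h1, ?_⟩
  rw [intervalIntegral.integral_of_le hst, integral_Ioc_eq_integral_Ioo, integral_toReal]
  · exact hu.aemeasurable
  · rw [ae_restrict_iff' measurableSet_Ioo]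
    exact Eventually.of_forall fun r hr =>
      (hB r ⟨hr.1.le, hr.2.le⟩).trans_lt ENNReal.ofReal_lt_top

theorem intInt_toReal {u : ℝ → ℝ≥0∞} (hu : Measurable u) {s t B : ℝ} (hst : s ≤ t) (hB0 : 0 ≤ B)
    (hB : ∀ r ∈ Icc s t, u r ≤ ENNReal.ofReal B) :
    IntervalIntegrable (fun r => (u r).toReal) volume s t := by
  refine XSeed.intInt (B := B) hu.ennreal_toReal hst fun r hr => ?_
  rw [abs_of_nonneg ENNReal.toReal_nonneg]
  exact ENNReal.toReal_le_of_le_ofReal hB0 (hB r hr)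

/-- **Ratio lemma for extended nonnegative functionals**: `m` (bad), `p` (good), `g` (gain term),
`sm`, `sp` (sources). -/
theorem ratio_enn (A1 A2 C d1 Cs : ℝ) (hA2 : 0 < A2) (hA : A2 < A1) (hC : 0 ≤ C) (hd1 : 0 < d1)
    (hCs : 0 ≤ Cs) : ∃ rho t0 : ℝ, 0 < rho ∧ 0 < t0 ∧ t0 ≤ 1 ∧
      ∀ tau t1 : ℝ, 0 < tau → tau < t1 → t1 ≤ t0 → ∀ m p g sm sp : ℝ → ℝ≥0∞,
      Measurable m → Measurable p → Measurable g → Measurable sm → Measurable sp →
      (∃ B : ℝ, 0 ≤ B ∧ ∀ r ∈ Icc tau t1, m r ≤ ENNReal.ofReal B ∧ p r ≤ ENNReal.ofReal B ∧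
        g r ≤ ENNReal.ofReal B ∧ sp r ≤ ENNReal.ofReal B) →
      (∀ r ∈ Icc tau t1, sm r ≤ ENNReal.ofReal Cs * sp r) →
      (∀ s t, tau ≤ s → s ≤ t → t ≤ t1 → m t ≤ m s + ∫⁻ r in Ioo s t,
        (ENNReal.ofReal (A2 / r + C) * m r + ENNReal.ofReal C * g r + sm r)) →
      (∀ s t, tau ≤ s → s ≤ t → t ≤ t1 → p s + ∫⁻ r in Ioo s t,
        (ENNReal.ofReal (A1 / r) * p r + ENNReal.ofReal d1 * g r + sp r) ≤
          p t + ∫⁻ r in Ioo s t, ENNReal.ofReal C * m r) →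
      m tau = 0 →
      (∀ t ∈ Icc tau t1, m t ≤ ENNReal.ofReal rho * p t) ∧
      (∀ s t, tau ≤ s → s ≤ t → t ≤ t1 → ENNReal.ofReal (1 / 2 * (t / s) ^ A1) * p s ≤ p t) := by
  set C' : ℝ := C + Cs + 1 with hC'
  obtain ⟨rho, t0, h1, -, h2, h3, h4⟩ := Crest.Agent.R68.X.ratio_incr A1 A2 C' (min d1 1) 1 0 hA2 hA
    (by positivity) (lt_min hd1 one_pos) one_pos
  refine ⟨rho, t0, h1, h2, h3, ?_⟩
  intro tau t1 htau htt ht1 m p g sm sp hm hp hg hsm hsp hbd hs hup hlow hm0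
  obtain ⟨B, hB0, hB⟩ := hbd
  have hBm : ∀ r ∈ Icc tau t1, m r ≤ ENNReal.ofReal B := fun r hr => (hB r hr).1
  have hBp : ∀ r ∈ Icc tau t1, p r ≤ ENNReal.ofReal B := fun r hr => (hB r hr).2.1
  have hBg : ∀ r ∈ Icc tau t1, g r ≤ ENNReal.ofReal B := fun r hr => (hB r hr).2.2.1
  have hBs : ∀ r ∈ Icc tau t1, sp r ≤ ENNReal.ofReal B := fun r hr => (hB r hr).2.2.2
  have hBsm : ∀ r ∈ Icc tau t1, sm r ≤ ENNReal.ofReal (Cs * B) := fun r hr => by
    rw [ENNReal.ofReal_mul hCs]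
    exact (hs r hr).trans (mul_le_mul' le_rfl (hBs r hr))
  have hA1 : 0 < A1 := hA2.trans hA
  have fin : ∀ {u : ℝ → ℝ≥0∞} {b : ℝ}, (∀ r ∈ Icc tau t1, u r ≤ ENNReal.ofReal b) →
      ∀ r ∈ Icc tau t1, u r ≠ ⊤ := fun h r hr => ne_top_of_le_ne_top ENNReal.ofReal_ne_top (h r hr)
  -- the integrands
  set um : ℝ → ℝ≥0∞ := fun r => ENNReal.ofReal (A2 / r + C) * m r + ENNReal.ofReal C * g r + sm r
    with hum
  set ul : ℝ → ℝ≥0∞ := fun r => ENNReal.ofReal (A1 / r) * p r + ENNReal.ofReal d1 * g r + sp r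
    with hul
  set ur : ℝ → ℝ≥0∞ := fun r => ENNReal.ofReal C * m r with hur
  have mum : Measurable um := by
    refine ((Measurable.mul ?_ hm).add (hg.const_mul _)).add hsm
    exact Measurable.ennreal_ofReal (by fun_prop)
  have mul' : Measurable ul := by
    refine ((Measurable.mul ?_ hp).add (hg.const_mul _)).add hsp
    exact Measurable.ennreal_ofReal (by fun_prop)
  have mur : Measurable ur := hm.const_mul _
  have hinv : ∀ {c r : ℝ}, 0 ≤ c → r ∈ Icc tau t1 → c / r ≤ c / tau := fun hc hr =>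
    div_le_div_of_nonneg_left hc htau hr.1
  set Bm : ℝ := (A2 / tau + C) * B + C * B + Cs * B with hBmdef
  set Bl : ℝ := (A1 / tau) * B + d1 * B + B with hBldef
  have bum : ∀ r ∈ Icc tau t1, um r ≤ ENNReal.ofReal Bm := by
    intro r hr
    rw [hBmdef, ENNReal.ofReal_add (by positivity) (by positivity),
      ENNReal.ofReal_add (by positivity) (by positivity), ENNReal.ofReal_mul (by positivity),
      ENNReal.ofReal_mul hC]
    refine add_le_add (add_le_add (mul_le_mul' ?_ (hBm r hr)) (mul_le_mul' le_rfl (hBg r hr)))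
      (hBsm r hr)
    exact ENNReal.ofReal_le_ofReal (add_le_add (hinv hA2.le hr) le_rfl)
  have bul : ∀ r ∈ Icc tau t1, ul r ≤ ENNReal.ofReal Bl := by
    intro r hr
    rw [hBldef, ENNReal.ofReal_add (by positivity) (by positivity),
      ENNReal.ofReal_add (by positivity) (by positivity), ENNReal.ofReal_mul (by positivity),
      ENNReal.ofReal_mul hd1.le]
    refine add_le_add (add_le_add (mul_le_mul' ?_ (hBp r hr)) (mul_le_mul' le_rfl (hBg r hr)))
      (hBs r hr)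
    exact ENNReal.ofReal_le_ofReal (hinv hA1.le hr)
  have bur : ∀ r ∈ Icc tau t1, ur r ≤ ENNReal.ofReal (C * B) := by
    intro r hr
    rw [ENNReal.ofReal_mul hC]
    exact mul_le_mul' le_rfl (hBm r hr)
  -- real versions
  have hres := h4 tau t1 htau htt ht1 (fun r => (m r).toReal) (fun r => (p r).toReal)
    (fun r => (g r).toReal + (sp r).toReal) (fun r => (um r).toReal)
    (fun r => (ul r).toReal - (ur r).toReal)
    (fun _ _ => ENNReal.toReal_nonneg)
    (fun _ _ => add_nonneg ENNReal.toReal_nonneg ENNReal.toReal_nonneg)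
    (intInt_toReal mum htt.le (by positivity) bum)
    ((intInt_toReal mul' htt.le (by positivity) bul).sub
      (intInt_toReal mur htt.le (by positivity) bur)) ?_ ?_ ?_ ?_ ?_
  · obtain ⟨r1, -, r3⟩ := hres
    refine ⟨fun t ht => ?_, fun s t hs1 hst ht => ?_⟩
    · have h5 := r1 t ht
      have h6 : m t = ENNReal.ofReal (m t).toReal := (ENNReal.ofReal_toReal (fin hBm t ht)).symm
      have h7 : p t = ENNReal.ofReal (p t).toReal := (ENNReal.ofReal_toReal (fin hBp t ht)).symm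
      rw [h6, h7, ← ENNReal.ofReal_mul h1.le]
      exact ENNReal.ofReal_le_ofReal h5
    · have h5 := r3 s t hs1 hst ht
      have hs' : s ∈ Icc tau t1 := ⟨hs1, hst.trans ht⟩
      have ht' : t ∈ Icc tau t1 := ⟨hs1.trans hst, ht⟩
      have h6 : p s = ENNReal.ofReal (p s).toReal := (ENNReal.ofReal_toReal (fin hBp s hs')).symm
      have h7 : p t = ENNReal.ofReal (p t).toReal := (ENNReal.ofReal_toReal (fin hBp t ht')).symm
      have hs0 : 0 < s := htau.trans_le hs1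
      have ht0' : 0 < t := hs0.trans_le hst
      rw [h6, h7, ← ENNReal.ofReal_mul (by positivity)]
      exact ENNReal.ofReal_le_ofReal h5
  · -- upper increments
    intro s t hs1 hst ht
    have hsub : ∀ r ∈ Icc s t, r ∈ Icc tau t1 := fun r hr => ⟨hs1.trans hr.1, hr.2.trans ht⟩
    obtain ⟨f1, f2⟩ := toReal_lint mum hst (fun r hr => bum r (hsub r hr))
    have h5 := hup s t hs1 hst ht
    have hms : m s ≠ ⊤ := fin hBm s (hsub s ⟨le_rfl, hst⟩)
    have h6 := ENNReal.toReal_mono (ENNReal.add_ne_top.2 ⟨hms, f1⟩) h5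
    rw [ENNReal.toReal_add hms f1] at h6
    rw [f2]
    linarith
  · intro s t hs1 hst ht
    have hsub : ∀ r ∈ Icc s t, r ∈ Icc tau t1 := fun r hr => ⟨hs1.trans hr.1, hr.2.trans ht⟩
    obtain ⟨f1, f2⟩ := toReal_lint mul' hst (fun r hr => bul r (hsub r hr))
    obtain ⟨f3, f4⟩ := toReal_lint mur hst (fun r hr => bur r (hsub r hr))
    have h5 := hlow s t hs1 hst ht
    have hps : p s ≠ ⊤ := fin hBp s (hsub s ⟨le_rfl, hst⟩)
    have hpt : p t ≠ ⊤ := fin hBp t (hsub t ⟨hst, le_rfl⟩)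
    have h6 := ENNReal.toReal_mono (ENNReal.add_ne_top.2 ⟨hpt, f3⟩) h5
    rw [ENNReal.toReal_add hpt f3, ENNReal.toReal_add hps f1] at h6
    have e : ∫ r in s..t, ((ul r).toReal - (ur r).toReal) =
        (∫ r in s..t, (ul r).toReal) - ∫ r in s..t, (ur r).toReal :=
      intervalIntegral.integral_sub
        (intInt_toReal mul' hst (by positivity) (fun r hr => bul r (hsub r hr)))
        (intInt_toReal mur hst (by positivity) (fun r hr => bur r (hsub r hr)))
    rw [e, f2, f4]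
    linarith
  · refine Eventually.of_forall fun r hr => ?_
    have hr0 : 0 < r := htau.trans_le hr.1
    have e1 : (ul r).toReal = A1 / r * (p r).toReal + d1 * (g r).toReal + (sp r).toReal := by
      simp only [hul]
      rw [ENNReal.toReal_add, ENNReal.toReal_add, ENNReal.toReal_mul, ENNReal.toReal_mul,
        ENNReal.toReal_ofReal (by positivity), ENNReal.toReal_ofReal hd1.le]
      · exact ENNReal.mul_ne_top ENNReal.ofReal_ne_top (fin hBp r hr)
      · exact ENNReal.mul_ne_top ENNReal.ofReal_ne_top (fin hBg r hr)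
      · exact ENNReal.add_ne_top.2 ⟨ENNReal.mul_ne_top ENNReal.ofReal_ne_top (fin hBp r hr),
          ENNReal.mul_ne_top ENNReal.ofReal_ne_top (fin hBg r hr)⟩
      · exact fin hBs r hr
    have e2 : (ur r).toReal = C * (m r).toReal := by
      simp only [hur]
      rw [ENNReal.toReal_mul, ENNReal.toReal_ofReal hC]
    rw [e1, e2]
    have g1 : 0 ≤ (g r).toReal := ENNReal.toReal_nonneg
    have g2 : 0 ≤ (sp r).toReal := ENNReal.toReal_nonneg
    have g3 : 0 ≤ (m r).toReal := ENNReal.toReal_nonneg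
    have g4 : r ^ ((1 : ℝ) - 1) = 1 := by norm_num
    rw [g4]
    have g5 : min d1 1 * (g r).toReal ≤ d1 * (g r).toReal :=
      mul_le_mul_of_nonneg_right (min_le_left _ _) g1
    have g6 : min d1 1 * (sp r).toReal ≤ 1 * (sp r).toReal :=
      mul_le_mul_of_nonneg_right (min_le_right _ _) g2
    have g7 : C * (m r).toReal ≤ C' * (m r).toReal :=
      mul_le_mul_of_nonneg_right (by rw [hC']; linarith) g3
    linarith
  · refine Eventually.of_forall fun r hr => ?_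
    have hr0 : 0 < r := htau.trans_le hr.1
    have fsm : sm r ≠ ⊤ := fin hBsm r hr
    have e1 : (um r).toReal = (A2 / r + C) * (m r).toReal + C * (g r).toReal + (sm r).toReal := by
      simp only [hum]
      rw [ENNReal.toReal_add, ENNReal.toReal_add, ENNReal.toReal_mul, ENNReal.toReal_mul,
        ENNReal.toReal_ofReal (by positivity), ENNReal.toReal_ofReal hC]
      · exact ENNReal.mul_ne_top ENNReal.ofReal_ne_top (fin hBm r hr)
      · exact ENNReal.mul_ne_top ENNReal.ofReal_ne_top (fin hBg r hr)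
      · exact ENNReal.add_ne_top.2 ⟨ENNReal.mul_ne_top ENNReal.ofReal_ne_top (fin hBm r hr),
          ENNReal.mul_ne_top ENNReal.ofReal_ne_top (fin hBg r hr)⟩
      · exact fsm
    have e2 : (sm r).toReal ≤ Cs * (sp r).toReal := by
      have h5 := ENNReal.toReal_mono (ENNReal.mul_ne_top ENNReal.ofReal_ne_top (fin hBs r hr))
        (hs r hr)
      rwa [ENNReal.toReal_mul, ENNReal.toReal_ofReal hCs] at h5
    rw [e1]
    have g1 : 0 ≤ (g r).toReal := ENNReal.toReal_nonneg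
    have g2 : 0 ≤ (sp r).toReal := ENNReal.toReal_nonneg
    have g3 : 0 ≤ (m r).toReal := ENNReal.toReal_nonneg
    have g4 : r ^ ((1 : ℝ) - 1) = 1 := by norm_num
    rw [g4]
    have g5 : 0 ≤ max (p r).toReal 0 / r := div_nonneg (le_max_right _ _) hr0.le
    have g6 : C * (g r).toReal ≤ C' * (g r).toReal :=
      mul_le_mul_of_nonneg_right (by rw [hC']; linarith) g1
    have g7 : C * (m r).toReal ≤ C' * (m r).toReal :=
      mul_le_mul_of_nonneg_right (by rw [hC']; linarith) g3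
    have g8 : Cs * (sp r).toReal ≤ C' * (sp r).toReal :=
      mul_le_mul_of_nonneg_right (by rw [hC']; linarith) g2
    have g9 : 0 ≤ C' * (max (p r).toReal 0 / r) := mul_nonneg (by positivity) g5
    linarith
  · rw [hm0]
    simp only [ENNReal.toReal_zero]
    exact mul_nonneg h1.le ENNReal.toReal_nonneg

/-- crude upper growth -/
theorem upper_enn {a b c : ℝ} (ha : 0 < a) (hab : a ≤ b) (hc : 0 ≤ c) {m : ℝ → ℝ≥0∞}
    (hm : Measurable m) {B : ℝ} (hB0 : 0 ≤ B) (hB : ∀ r ∈ Icc a b, m r ≤ ENNReal.ofReal B)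
    (h : ∀ t ∈ Icc a b, m t ≤ m a + ∫⁻ r in Ioo a t, ENNReal.ofReal (c / r) * m r) :
    ∀ t ∈ Icc a b, m t ≤ ENNReal.ofReal ((t / a) ^ c) * m a := by
  intro t ht
  have fin : ∀ r ∈ Icc a b, m r ≠ ⊤ := fun r hr => ne_top_of_le_ne_top ENNReal.ofReal_ne_top (hB r hr)
  have mu : Measurable fun r => ENNReal.ofReal (c / r) * m r :=
    Measurable.mul (Measurable.ennreal_ofReal (by fun_prop)) hm
  have bu : ∀ r ∈ Icc a b, ENNReal.ofReal (c / r) * m r ≤ ENNReal.ofReal (c / a * B) := by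
    intro r hr
    rw [ENNReal.ofReal_mul (div_nonneg hc ha.le)]
    exact mul_le_mul' (ENNReal.ofReal_le_ofReal (div_le_div_of_nonneg_left hc ha hr.1)) (hB r hr)
  have key := XSeed.upper (a := a) (b := b) (c := c) ha hc (M := fun r => (m r).toReal)
    hm.ennreal_toReal (B := B) (M0 := (m a).toReal) (fun s hs => ?_) (fun t ht => ?_) t ht
  · have e1 : m t = ENNReal.ofReal (m t).toReal := (ENNReal.ofReal_toReal (fin t ht)).symm
    have e2 : m a = ENNReal.ofReal (m a).toReal :=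
      (ENNReal.ofReal_toReal (fin a ⟨le_rfl, hab⟩)).symm
    have h0 : 0 ≤ (t / a) ^ c := Real.rpow_nonneg (div_nonneg (ha.le.trans ht.1) ha.le) _
    rw [e1, e2, ← ENNReal.ofReal_mul h0, mul_comm]
    exact ENNReal.ofReal_le_ofReal key
  · rw [abs_of_nonneg ENNReal.toReal_nonneg]
    exact ENNReal.toReal_le_of_le_ofReal hB0 (hB s hs)
  · have hsub : ∀ r ∈ Icc a t, r ∈ Icc a b := fun r hr => ⟨hr.1, hr.2.trans ht.2⟩
    obtain ⟨f1, f2⟩ := toReal_lint mu ht.1 (fun r hr => bu r (hsub r hr))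
    have h1 := h t ht
    have hma : m a ≠ ⊤ := fin a ⟨le_rfl, hab⟩
    have h2 := ENNReal.toReal_mono (ENNReal.add_ne_top.2 ⟨hma, f1⟩) h1
    rw [ENNReal.toReal_add hma f1, ← f2] at h2
    refine h2.trans (le_of_eq ?_)
    congr 1
    refine intervalIntegral.integral_congr fun r hr => ?_
    rw [uIcc_of_le ht.1] at hr
    rw [ENNReal.toReal_mul, ENNReal.toReal_ofReal (div_nonneg hc (ha.le.trans hr.1))]

/-- amount created by the seed on `(τ, 2τ)` -/
theorem seed_amount {A1 C d1 rho tau t1 : ℝ} (hA1 : 0 ≤ A1) (hC : 0 ≤ C) (hrho : 0 ≤ rho)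
    (htau : 0 < tau) (ht1 : 2 * tau ≤ t1) (hsm : 2 * C * rho * tau ≤ 1)
    {m p g sp : ℝ → ℝ≥0∞} {L : ℝ≥0∞}
    (hlow : ∀ s t, tau ≤ s → s ≤ t → t ≤ t1 → p s + ∫⁻ r in Ioo s t,
        (ENNReal.ofReal (A1 / r) * p r + ENNReal.ofReal d1 * g r + sp r) ≤
          p t + ∫⁻ r in Ioo s t, ENNReal.ofReal C * m r)
    (hr1 : ∀ t ∈ Icc tau t1, m t ≤ ENNReal.ofReal rho * p t)
    (hr2 : ∀ s t, tau ≤ s → s ≤ t → t ≤ t1 → ENNReal.ofReal (1 / 2 * (t / s) ^ A1) * p s ≤ p t)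
    (hL : ∀ r ∈ Ioo tau (2 * tau), L ≤ sp r) :
    ENNReal.ofReal tau * L ≤ 2 * p (2 * tau) := by
  have h1 : ∀ r ∈ Ioo tau (2 * tau), p r ≤ 2 * p (2 * tau) := by
    intro r hr
    have hr0 : 0 < r := htau.trans hr.1
    have h2 := hr2 r (2 * tau) hr.1.le hr.2.le ht1
    have h3 : (1 : ℝ) ≤ (2 * tau / r) ^ A1 :=
      Real.one_le_rpow ((one_le_div hr0).2 hr.2.le) hA1
    calc p r = 2 * (ENNReal.ofReal (1 / 2) * p r) := by
          rw [← mul_assoc, ← ENNReal.ofReal_ofNat, ← ENNReal.ofReal_mul (by norm_num)]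
          norm_num
      _ ≤ 2 * (ENNReal.ofReal (1 / 2 * (2 * tau / r) ^ A1) * p r) := by
          gcongr
          linarith
      _ ≤ 2 * p (2 * tau) := by gcongr
  have h2 := hlow tau (2 * tau) le_rfl (by linarith) ht1
  have h3 : ENNReal.ofReal tau * L ≤ ∫⁻ r in Ioo tau (2 * tau),
      (ENNReal.ofReal (A1 / r) * p r + ENNReal.ofReal d1 * g r + sp r) := by
    have e : ∫⁻ _ in Ioo tau (2 * tau), L = ENNReal.ofReal tau * L := by
      rw [lintegral_const, Measure.restrict_apply MeasurableSet.univ, univ_inter, Real.volume_Ioo]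
      rw [show 2 * tau - tau = tau by ring, mul_comm]
    rw [← e]
    exact setLIntegral_mono' measurableSet_Ioo fun r hr => (hL r hr).trans le_add_self
  have h4 : ∫⁻ r in Ioo tau (2 * tau), ENNReal.ofReal C * m r ≤ p (2 * tau) := by
    calc ∫⁻ r in Ioo tau (2 * tau), ENNReal.ofReal C * m r
        ≤ ∫⁻ _ in Ioo tau (2 * tau), ENNReal.ofReal (C * rho * 2) * p (2 * tau) := by
          refine setLIntegral_mono' measurableSet_Ioo fun r hr => ?_
          calc ENNReal.ofReal C * m r ≤ ENNReal.ofReal C * (ENNReal.ofReal rho * (2 * p (2 * tau))) := by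
                gcongr
                exact (hr1 r ⟨hr.1.le, hr.2.le.trans ht1⟩).trans (mul_le_mul' le_rfl (h1 r hr))
            _ = _ := by
                rw [ENNReal.ofReal_mul (by positivity), ENNReal.ofReal_mul hC, ENNReal.ofReal_ofNat]
                ring
      _ = ENNReal.ofReal (C * rho * 2) * p (2 * tau) * ENNReal.ofReal tau := by
          rw [lintegral_const, Measure.restrict_apply MeasurableSet.univ, univ_inter,
            Real.volume_Ioo]
          rw [show 2 * tau - tau = tau by ring]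
      _ = ENNReal.ofReal (C * rho * 2 * tau) * p (2 * tau) := by
          rw [ENNReal.ofReal_mul (p := C * rho * 2) (by positivity)]
          ring
      _ ≤ 1 * p (2 * tau) := by
          gcongr
          rw [ENNReal.ofReal_le_one]
          linarith
      _ = p (2 * tau) := one_mul _
  calc ENNReal.ofReal tau * L ≤ p tau + ∫⁻ r in Ioo tau (2 * tau),
      (ENNReal.ofReal (A1 / r) * p r + ENNReal.ofReal d1 * g r + sp r) := h3.trans le_add_self
    _ ≤ p (2 * tau) + ∫⁻ r in Ioo tau (2 * tau), ENNReal.ofReal C * m r := h2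
    _ ≤ p (2 * tau) + p (2 * tau) := by gcongr
    _ = 2 * p (2 * tau) := by ring

end Crest.Agent.R68.X2
end
end

-- ▼ part R68/X2Seed2
section

/-!
# Row 68, PART X2 (helper330): seeds

From the integrated inequalities for the weight `W` and the test function `g` to the statement
(X2) in the form consumed by Part L (`L.X2Out`).
-/

set_option autoImplicit false
open MeasureTheory Set Filter
open scoped Topology ENNReal
open Crest.AnalysisR.VecCalc3 Crest.AnalysisR.PDE.Boltzmann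

noncomputable section

namespace Crest.Agent.R68.X2

open Crest.Agent.R68.L (Den phiE Gf Dam TL sol PerF WW WW_pos meas3_WW PerF_WW)
open Crest.Agent.R68.A (Meas3)

/-! ### functionals -/

theorem measurable_MW {W h : Den} (hW : Meas3 W) (hh : Meas3 h) : Measurable (MW W h) := by
  have h1 : Measurable fun p : (ℝ × P2) × R3 => W p.1.1 p.1.2 p.2 * h p.1.1 p.1.2 p.2 :=
    (Meas3.comp hW (by fun_prop) (by fun_prop) (by fun_prop)).mul
      (Meas3.comp hh (by fun_prop) (by fun_prop) (by fun_prop))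
  have h2 : Measurable fun p : ℝ × P2 => ∫⁻ v, W p.1 p.2 v * h p.1 p.2 v :=
    Measurable.lintegral_prod_right' h1
  exact Measurable.lintegral_prod_right' (ν := (volume : Measure P2).restrict cellG) h2

theorem measurable_PW {W h : Den} (hW : Meas3 W) (hh : Meas3 h) : Measurable (PW W h) := by
  have h1 : Measurable fun p : (ℝ × P2) × R3 => W p.1.1 p.1.2 p.2 * h p.1.1 p.1.2 p.2 :=
    (Meas3.comp hW (by fun_prop) (by fun_prop) (by fun_prop)).mul
      (Meas3.comp hh (by fun_prop) (by fun_prop) (by fun_prop))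
  have h2 : Measurable fun p : ℝ × P2 => ∫⁻ v, W p.1 p.2 v * h p.1 p.2 v :=
    Measurable.lintegral_prod_right' h1
  exact Measurable.lintegral_prod_right' h2

theorem MW_mono_left {W W' h : Den} {t : ℝ} {c : ℝ≥0∞} (hc : c ≠ ⊤)
    (hle : ∀ x v, W t x v ≤ c * W' t x v) : MW W h t ≤ c * MW W' h t := by
  unfold MW
  rw [← lintegral_const_mul' _ _ hc]
  refine lintegral_mono fun x => ?_
  rw [← lintegral_const_mul' _ _ hc]
  refine lintegral_mono fun v => ?_
  dsimp only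
  rw [← mul_assoc]
  exact mul_le_mul' (hle x v) le_rfl

theorem MW_mono_right {W h h' : Den} {t : ℝ} {c : ℝ≥0∞} (hc : c ≠ ⊤)
    (hle : ∀ x v, h t x v ≤ c * h' t x v) : MW W h t ≤ c * MW W h' t := by
  unfold MW
  rw [← lintegral_const_mul' _ _ hc]
  refine lintegral_mono fun x => ?_
  rw [← lintegral_const_mul' _ _ hc]
  refine lintegral_mono fun v => ?_
  dsimp only
  calc W t x v * h t x v ≤ W t x v * (c * h' t x v) := mul_le_mul' le_rfl (hle x v)
    _ = _ := by ring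

theorem MW_smul_right {W h : Den} {c : ℝ≥0∞} (hc : c ≠ ⊤) (t : ℝ) :
    MW W (fun t x v => c * h t x v) t = c * MW W h t := by
  unfold MW
  rw [← lintegral_const_mul' _ _ hc]
  refine lintegral_congr fun x => ?_
  rw [← lintegral_const_mul' _ _ hc]
  refine lintegral_congr fun v => ?_
  ring

/-- a function supported near the origin is controlled by the periodic functional -/
theorem PW_le_MW {F W h : Den} (hW : Meas3 W) (hh : Meas3 h) (pW : ∀ t v, PerG fun x => W t x v)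
    (ph : ∀ t v, PerG fun x => h t x v) {t : ℝ} {c : ℝ≥0∞} (hc : c ≠ ⊤)
    (hz : ∀ x v, 1 / 4 < ‖x‖ → F t x v = 0) (hle : ∀ x v, F t x v ≤ c * W t x v) :
    PW F h t ≤ c * MW W h t := by
  unfold PW MW
  set f : P2 → ℝ≥0∞ := fun x => ∫⁻ v, W t x v * h t x v with hf
  have hfm : Measurable f := by
    have h1 : Measurable fun p : P2 × R3 => W t p.1 p.2 * h t p.1 p.2 :=
      (Meas3.comp hW (by fun_prop) (by fun_prop) (by fun_prop)).mul
        (Meas3.comp hh (by fun_prop) (by fun_prop) (by fun_prop))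
    exact Measurable.lintegral_prod_right' h1
  have hfp : PerG f := by
    intro x k
    simp only [hf]
    refine lintegral_congr fun v => ?_
    have h1 := pW t v x k
    have h2 := ph t v x k
    simp only at h1 h2
    rw [h1, h2]
  have hb := LMass.lintegral_ball_le hfm hfp 0 (ρ := 1 / 4) (by norm_num)
  have hS : MeasurableSet {y : P2 | ‖y - 0‖ ≤ 1 / 4} :=
    measurableSet_le (by fun_prop) measurable_const
  calc ∫⁻ x, ∫⁻ v, F t x v * h t x v
      ≤ ∫⁻ x, {y : P2 | ‖y - 0‖ ≤ 1 / 4}.indicator (fun x => c * f x) x := by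
        refine lintegral_mono fun x => ?_
        by_cases hx : x ∈ {y : P2 | ‖y - 0‖ ≤ 1 / 4}
        · rw [indicator_of_mem hx]
          simp only [hf]
          rw [← lintegral_const_mul' _ _ hc]
          refine lintegral_mono fun v => ?_
          dsimp only
          rw [← mul_assoc]
          exact mul_le_mul' (hle x v) le_rfl
        · rw [indicator_of_notMem hx]
          have hx' : 1 / 4 < ‖x‖ := by
            simp only [sub_zero, mem_ofPred_eq, not_le] at hx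
            exact hx
          simp [hz x _ hx']
    _ = c * ∫⁻ x in {y : P2 | ‖y - 0‖ ≤ 1 / 4}, f x := by
        rw [lintegral_indicator hS, lintegral_const_mul' _ _ hc]
    _ ≤ c * ∫⁻ x in cellG, f x := mul_le_mul' le_rfl hb

/-! ### the unit seed -/

/-- unit seed at the scale `τ` -/
def seed1 (v0 : R3) (τ : ℝ) : Den := fun t x v =>
  open scoped Classical in
    if τ < t ∧ t < 2 * τ ∧ distG x ≤ τ / 2 ∧ ‖v - v0‖ ≤ 1 / 4 then 1 else 0

theorem meas3_seed1 (v0 : R3) (τ : ℝ) : Meas3 (seed1 v0 τ) := by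
  classical
  unfold Meas3 seed1
  refine Measurable.ite ?_ measurable_const measurable_const
  have h2 : Measurable fun p : ℝ × P2 × R3 => distG p.2.1 :=
    measurable_distG.comp (measurable_fst.comp measurable_snd)
  have h3 : Measurable fun p : ℝ × P2 × R3 => ‖p.2.2 - v0‖ := by fun_prop
  exact (measurableSet_lt measurable_const measurable_fst).inter
    ((measurableSet_lt measurable_fst measurable_const).inter
      ((measurableSet_le h2 measurable_const).inter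
        (measurableSet_le h3 measurable_const)))

theorem perF_seed1 (v0 : R3) (τ : ℝ) : PerF (seed1 v0 τ) := by
  intro t v x k
  show seed1 v0 τ t (x + latt k) v = seed1 v0 τ t x v
  unfold seed1
  rw [distG_add_latt]

theorem seed1_zero {v0 : R3} {τ t : ℝ} (h : t ≤ τ ∨ 2 * τ ≤ t) (x : P2) (v : R3) :
    seed1 v0 τ t x v = 0 := by
  unfold seed1
  rw [if_neg]
  rintro ⟨h1, h2, -, -⟩
  rcases h with h | h <;> linarith

theorem seed1_le_one (v0 : R3) (τ t : ℝ) (x : P2) (v : R3) : seed1 v0 τ t x v ≤ 1 := by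
  unfold seed1
  split_ifs <;> simp

/-- lower bound of `B2` on the seed set -/
theorem B2_ge {P : Par} {g1 g2 b t V : ℝ} (hg1 : 0 ≤ g1) (hg2 : 0 ≤ g2) (ht : 0 < t)
    {x : P2} {v : R3} (hv : ‖v‖ ≤ V) (hx : distG x ≤ V * t) :
    ENNReal.ofReal (t ^ b * Real.exp (-(g1 + g2) * V ^ 2)) ≤ B2 P g1 g2 b t x v := by
  unfold B2
  refine le_trans ?_ (le_mul_of_one_le_right zero_le (K.one_le_Dm P t x v))
  refine ENNReal.ofReal_le_ofReal ?_
  rw [mul_assoc]
  refine mul_le_mul_of_nonneg_left ?_ (Real.rpow_nonneg ht.le _)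
  unfold gau
  rw [← Real.exp_add]
  refine Real.exp_le_exp.2 ?_
  have h1 : max ‖v‖ (distG x / t) ≤ V := max_le hv ((div_le_iff₀ ht).2 hx)
  have h2 : 0 ≤ max ‖v‖ (distG x / t) := (norm_nonneg v).trans (le_max_left _ _)
  have h3 : (max ‖v‖ (distG x / t)) ^ 2 ≤ V ^ 2 := pow_le_pow_left₀ h2 h1 2
  have h4 : ‖v‖ ^ 2 ≤ V ^ 2 := pow_le_pow_left₀ (norm_nonneg _) hv 2
  have h5 : 0 ≤ √t / 100 * ‖v‖ ^ 2 := by positivity
  nlinarith [mul_le_mul_of_nonneg_left h3 hg2, mul_le_mul_of_nonneg_left h4 hg1]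

/-- the seed is bounded by the envelope -/
theorem seed1_le_B2 {P : Par} {g1 g2 : ℝ} (hg1 : 0 ≤ g1) (hg2 : 0 ≤ g2) (b : ℝ) (v0 : R3) (τ : ℝ)
    {t : ℝ} (ht : 0 < t) (x : P2) (v : R3) :
    seed1 v0 τ t x v ≤ ENNReal.ofReal (t ^ (-b) * Real.exp ((g1 + g2) * (‖v0‖ + 1) ^ 2)) *
      B2 P g1 g2 b t x v := by
  unfold seed1
  split_ifs with h
  · obtain ⟨h1, h2, h3, h4⟩ := h
    have hv : ‖v‖ ≤ ‖v0‖ + 1 := by
      have := norm_add_le (v - v0) v0
      rw [sub_add_cancel] at this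
      linarith
    have hx : distG x ≤ (‖v0‖ + 1) * t := by
      have := norm_nonneg v0
      nlinarith
    have h5 := B2_ge (P := P) (b := b) hg1 hg2 ht hv hx
    refine le_trans (le_of_eq ?_) (mul_le_mul' le_rfl h5)
    rw [← ENNReal.ofReal_mul (by positivity), ← ENNReal.ofReal_one]
    congr 1
    have e1 : t ^ (-b) * t ^ b = 1 := by
      rw [← Real.rpow_add ht]; simp
    have e2 : Real.exp ((g1 + g2) * (‖v0‖ + 1) ^ 2) * Real.exp (-(g1 + g2) * (‖v0‖ + 1) ^ 2) = 1 := by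
      rw [← Real.exp_add]; ring_nf; exact Real.exp_zero
    calc (1 : ℝ) = (t ^ (-b) * t ^ b) * (Real.exp ((g1 + g2) * (‖v0‖ + 1) ^ 2) *
          Real.exp (-(g1 + g2) * (‖v0‖ + 1) ^ 2)) := by rw [e1, e2]; ring
      _ = _ := by ring
  · exact zero_le

/-! ### the size of the seed set -/

/-- volume of the velocity ball -/
def V3 (v0 : R3) : ℝ≥0∞ := volume {v : R3 | ‖v - v0‖ ≤ 1 / 4}

theorem setOf_ball (v0 : R3) : {v : R3 | ‖v - v0‖ ≤ 1 / 4} = Metric.closedBall v0 (1 / 4) := by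
  ext v
  simp [dist_eq_norm]

theorem V3_pos (v0 : R3) : V3 v0 ≠ 0 := by
  unfold V3
  rw [setOf_ball]
  exact (Metric.measure_closedBall_pos volume v0 (by norm_num)).ne'

theorem V3_ne_top (v0 : R3) : V3 v0 ≠ ⊤ := by
  unfold V3
  rw [setOf_ball]
  exact measure_closedBall_lt_top.ne

theorem measurableSet_ball (v0 : R3) : MeasurableSet {v : R3 | ‖v - v0‖ ≤ 1 / 4} :=
  measurableSet_le (by fun_prop) measurable_const

theorem vol_square {ρ : ℝ} (hρ : 0 ≤ ρ) :
    volume {x : P2 | ‖x‖ ≤ ρ} = ENNReal.ofReal (4 * ρ ^ 2) := by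
  have e : {x : P2 | ‖x‖ ≤ ρ} = Metric.closedBall 0 ρ := by
    ext x; simp
  rw [e]
  have e2 : (Metric.closedBall (0 : P2) ρ) = Metric.closedBall (0 : ℝ) ρ ×ˢ
      Metric.closedBall (0 : ℝ) ρ := (closedBall_prod_same 0 0 ρ).symm
  rw [e2]
  have e3 : (volume : Measure P2) = (volume : Measure ℝ).prod volume := rfl
  rw [e3, Measure.prod_prod, Real.volume_closedBall, ← ENNReal.ofReal_mul (by positivity)]
  congr 1; ring

/-- lower bound of the seed functional -/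
theorem PW_seed_ge {g : Den} {v0 : R3} {τ t c1 : ℝ} (hτ : 0 < τ) (ht : t ∈ Ioo τ (2 * τ))
    (hsg : ∀ x v, ‖x‖ ≤ t / 2 → ‖v - v0‖ ≤ 1 / 4 → ENNReal.ofReal c1 ≤ g t x v) :
    ENNReal.ofReal c1 * ENNReal.ofReal (τ ^ 2) * V3 v0 ≤ PW g (seed1 v0 τ) t := by
  have h1 : ∀ x ∈ {x : P2 | ‖x‖ ≤ τ / 2}, ENNReal.ofReal c1 * V3 v0 ≤
      ∫⁻ v, g t x v * seed1 v0 τ t x v := by
    intro x hx
    have hx' : ‖x‖ ≤ τ / 2 := hx
    calc ENNReal.ofReal c1 * V3 v0
        = ∫⁻ _ in {v : R3 | ‖v - v0‖ ≤ 1 / 4}, ENNReal.ofReal c1 := by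
          rw [setLIntegral_const]; rfl
      _ ≤ ∫⁻ v in {v : R3 | ‖v - v0‖ ≤ 1 / 4}, g t x v * seed1 v0 τ t x v := by
          refine setLIntegral_mono' (measurableSet_ball v0) fun v hv => ?_
          have hv' : ‖v - v0‖ ≤ 1 / 4 := hv
          have e : seed1 v0 τ t x v = 1 := by
            unfold seed1
            rw [if_pos ⟨ht.1, ht.2, (distG_le_norm x).trans hx', hv'⟩]
          rw [e, mul_one]
          exact hsg x v (by linarith [ht.1]) hv'
      _ ≤ ∫⁻ v, g t x v * seed1 v0 τ t x v := setLIntegral_le_lintegral _ _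
  have hS : MeasurableSet {x : P2 | ‖x‖ ≤ τ / 2} := measurableSet_le (by fun_prop) measurable_const
  calc ENNReal.ofReal c1 * ENNReal.ofReal (τ ^ 2) * V3 v0
      = ∫⁻ _ in {x : P2 | ‖x‖ ≤ τ / 2}, ENNReal.ofReal c1 * V3 v0 := by
        rw [setLIntegral_const, vol_square (by linarith)]
        have : 4 * (τ / 2) ^ 2 = τ ^ 2 := by ring
        rw [this]; ring
    _ ≤ ∫⁻ x in {x : P2 | ‖x‖ ≤ τ / 2}, ∫⁻ v, g t x v * seed1 v0 τ t x v :=
        setLIntegral_mono' hS h1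
    _ ≤ PW g (seed1 v0 τ) t := setLIntegral_le_lintegral _ _

/-- area of the periodic seed set -/
theorem area_seed {ρ : ℝ} (hρ : 0 ≤ ρ) :
    ∫⁻ x in cellG, {x : P2 | distG x ≤ ρ}.indicator 1 x ≤ ENNReal.ofReal (4 * ρ ^ 2) := by
  have hS : MeasurableSet {x : P2 | ‖x‖ ≤ ρ} := measurableSet_le (by fun_prop) measurable_const
  have hG : Measurable ({x : P2 | ‖x‖ ≤ ρ}.indicator (1 : P2 → ℝ≥0∞)) := measurable_one.indicator hS
  calc ∫⁻ x in cellG, {x : P2 | distG x ≤ ρ}.indicator 1 x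
      ≤ ∫⁻ x in cellG, ∑' k : ℤ × ℤ, {x : P2 | ‖x‖ ≤ ρ}.indicator 1 (x + latt k) := by
        refine lintegral_mono fun x => ?_
        by_cases hx : x ∈ {x : P2 | distG x ≤ ρ}
        · obtain ⟨k, hk⟩ := exists_distG_eq x
          rw [indicator_of_mem hx]
          refine le_trans ?_ (ENNReal.le_tsum k)
          rw [indicator_of_mem (show x + latt k ∈ {x : P2 | ‖x‖ ≤ ρ} by
            show ‖x + latt k‖ ≤ ρ
            rw [← hk]; exact hx)]
          simp
        · rw [indicator_of_notMem hx]; exact zero_le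
    _ = ∫⁻ x, {x : P2 | ‖x‖ ≤ ρ}.indicator 1 x := lintegral_cellG_tsum hG
    _ = ENNReal.ofReal (4 * ρ ^ 2) := by
        rw [lintegral_indicator_one hS, vol_square hρ]

/-- upper bound of the mass of the seed -/
theorem MW_seed_le {W : Den} {v0 : R3} {τ t C : ℝ} (hτ : 0 < τ) (ht : t ∈ Ioo τ (2 * τ))
    (hsW : ∀ x v, distG x ≤ t / 2 → ‖v - v0‖ ≤ 1 / 4 → W t x v ≤ ENNReal.ofReal C) :
    MW W (seed1 v0 τ) t ≤ ENNReal.ofReal C * ENNReal.ofReal (τ ^ 2) * V3 v0 := by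
  have h1 : ∀ x, ∫⁻ v, W t x v * seed1 v0 τ t x v ≤
      ENNReal.ofReal C * V3 v0 * {x : P2 | distG x ≤ τ / 2}.indicator 1 x := by
    intro x
    by_cases hx : x ∈ {x : P2 | distG x ≤ τ / 2}
    · rw [indicator_of_mem hx]
      have hx' : distG x ≤ τ / 2 := hx
      calc ∫⁻ v, W t x v * seed1 v0 τ t x v
          ≤ ∫⁻ v, {v : R3 | ‖v - v0‖ ≤ 1 / 4}.indicator (fun _ => ENNReal.ofReal C) v := by
            refine lintegral_mono fun v => ?_
            by_cases hv : v ∈ {v : R3 | ‖v - v0‖ ≤ 1 / 4}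
            · rw [indicator_of_mem hv]
              exact (mul_le_of_le_one_right' (seed1_le_one _ _ _ _ _)).trans
                (hsW x v (by linarith [ht.1]) hv)
            · rw [indicator_of_notMem hv]
              have : seed1 v0 τ t x v = 0 := by
                unfold seed1
                rw [if_neg]
                rintro ⟨-, -, -, h⟩
                exact hv h
              rw [this, mul_zero]
        _ = ENNReal.ofReal C * V3 v0 := by
            rw [lintegral_indicator (measurableSet_ball v0), setLIntegral_const]; rfl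
        _ = _ := by simp
    · rw [indicator_of_notMem hx]
      have : ∀ v, seed1 v0 τ t x v = 0 := by
        intro v
        unfold seed1
        rw [if_neg]
        rintro ⟨-, -, h, -⟩
        exact hx h
      simp [this]
  unfold MW
  calc ∫⁻ x in cellG, ∫⁻ v, W t x v * seed1 v0 τ t x v
      ≤ ∫⁻ x in cellG, ENNReal.ofReal C * V3 v0 * {x : P2 | distG x ≤ τ / 2}.indicator 1 x :=
        lintegral_mono h1
    _ = ENNReal.ofReal C * V3 v0 * ∫⁻ x in cellG, {x : P2 | distG x ≤ τ / 2}.indicator 1 x :=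
        lintegral_const_mul' _ _ (ENNReal.mul_ne_top ENNReal.ofReal_ne_top (V3_ne_top v0))
    _ ≤ ENNReal.ofReal C * V3 v0 * ENNReal.ofReal (4 * (τ / 2) ^ 2) :=
        mul_le_mul' le_rfl (area_seed (by linarith))
    _ = _ := by
        have : 4 * (τ / 2) ^ 2 = τ ^ 2 := by ring
        rw [this]; ring

theorem MW_seed_zero {W : Den} {v0 : R3} {τ t : ℝ} (h : t ≤ τ ∨ 2 * τ ≤ t) :
    MW W (seed1 v0 τ) t = 0 := by
  unfold MW
  simp [seed1_zero h]

/-! ### the solution of the unit seed -/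

theorem Dam_zero_of {φ q : Den} {τ : ℝ} (hq : ∀ s x v, s ≤ τ → q s x v = 0) {t : ℝ} (ht : t ≤ τ)
    (x : P2) (v : R3) : Dam φ q t x v = 0 := by
  unfold L.Dam
  rw [setLIntegral_congr_fun (g := fun _ => 0) measurableSet_Ioo]
  · simp
  · intro s hs
    simp only
    rw [hq _ _ _ (hs.2.le.trans ht), mul_zero]

theorem seedH_unit {P : Par} (hP : P.Ok) {g1 g2 T : ℝ} (hg1 : 0 < g1) (hg2 : 0 ≤ g2)
    (hT1 : T ≤ 1) (hTg : √T / 100 ≤ g1 / 2) (v0 : R3) {τ : ℝ} (hτ : 0 < τ) :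
    SeedH P g1 g2 τ T (seed1 v0 τ) (sol (phiE P) (seed1 v0 τ)) := by
  have hφ := L.meas3_phiE hP
  have pφ : PerF (phiE P) := fun t v => L.perG_phiE P t v
  have hms := meas3_seed1 v0 τ
  have hsB : ∀ t, 0 < t → t ≤ T → ∀ x v, seed1 v0 τ t x v ≤
      ENNReal.ofReal (Real.exp ((g1 + g2) * (‖v0‖ + 1) ^ 2)) * B2 P g1 g2 0 t x v := by
    intro t ht _ x v
    have := seed1_le_B2 (P := P) hg1.le hg2 0 v0 τ ht x v
    rwa [neg_zero, Real.rpow_zero, one_mul] at this
  have hYK : 0 ≤ L.CT P.Y g1 g2 * P.K := mul_nonneg (L.CT_nonneg _ _ _) hP.K0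
  have hzero : ∀ t, t ≤ τ → ∀ x v, sol (phiE P) (seed1 v0 τ) t x v = 0 := by
    intro t ht x v
    have hD0 : ∀ t x v, t ≤ τ → Dam (phiE P) (seed1 v0 τ) t x v = 0 := fun t x v ht =>
      Dam_zero_of (fun s x v hs => seed1_zero (Or.inl hs) x v) ht x v
    have hit : ∀ n : ℕ, ∀ t x v, t ≤ τ → (TL (phiE P))^[n] (Dam (phiE P) (seed1 v0 τ)) t x v = 0 := by
      intro n
      induction n with
      | zero => exact hD0
      | succ n ih =>
        intro t x v ht
        rw [Function.iterate_succ_apply']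
        exact Dam_zero_of (fun s x v hs => L.Gf_eq_zero (fun v => ih s x v hs) v) ht x v
    unfold L.sol
    simp [hit _ t x v ht]
  refine ⟨hms, L.meas3_sol hφ hms, fun t v => perF_seed1 v0 τ t v,
    fun t v => L.PerF_sol pφ (perF_seed1 v0 τ) t v, ?_, hzero, ?_, ⟨_, ENNReal.ofReal_ne_top, hsB⟩⟩
  · intro t _ _ x v
    rw [L.sol_eq hφ hms]
    rw [L.Dam_add hφ (L.meas3_Gf hφ (L.meas3_sol hφ hms))]
    rfl
  · refine ⟨ENNReal.ofReal (Real.exp ((g1 + g2) * (‖v0‖ + 1) ^ 2) * T *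
      (T / τ) ^ (L.CT P.Y g1 g2 * P.K)), ENNReal.ofReal_ne_top, fun t ht htT x v => ?_⟩
    rcases le_or_gt t τ with h | h
    · rw [hzero t h]; exact zero_le
    have hT0 : 0 < T := ht.trans_le htT
    have hcr := L.sol_crude (φ := phiE P) (E := WW P g1 g2 0) (T := T) (τ0 := τ)
      (C := L.CT P.Y g1 g2 * P.K) (A := Real.exp ((g1 + g2) * (‖v0‖ + 1) ^ 2))
      hφ (meas3_WW hP.Y0 g1 g2 0) ?_ hYK (Real.exp_pos _).le ?_ hτ
      (σ := seed1 v0 τ) (fun t x v ht => seed1_zero (Or.inl ht) x v) ?_ h.le htT x v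
    · rw [WW_pos ht] at hcr
      refine hcr.trans (mul_le_mul' (ENNReal.ofReal_le_ofReal ?_) le_rfl)
      refine mul_le_mul_of_nonneg_left ?_ (by positivity)
      exact Real.rpow_le_rpow (by positivity) (by gcongr) hYK
    · intro s t x v hs hst htT
      rw [WW_pos hs, WW_pos (hs.trans_le hst)]
      refine (K.B2_flight P hg2 hs hst x v).trans ?_
      rw [Real.rpow_zero, ENNReal.ofReal_one, one_mul]
    · intro s x v hs hsT
      have e : Gf (phiE P) (WW P g1 g2 0) s x v = Gf (phiE P) (B2 P g1 g2 0) s x v := by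
        refine le_antisymm (L.Gf_mono_at (fun z => ?_) v) (L.Gf_mono_at (fun z => ?_) v)
        · rw [WW_pos hs]
        · rw [WW_pos hs]
      rw [e, WW_pos hs]
      have hsg : √s / 100 ≤ g1 / 2 := by
        have := Real.sqrt_le_sqrt hsT
        linarith
      refine (L.K2_Gf hP hg1 hg2 hs (hsT.trans hT1) hsg x v).trans ?_
      refine mul_le_mul' (ENNReal.ofReal_le_ofReal ?_) le_rfl
      have hV : 0 < L.VV P.Y := by
        unfold L.VV
        have := hP.Y0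
        positivity
      have h1 : L.VV P.Y / max (L.VV P.Y) ‖v‖ ≤ 1 := by
        rw [div_le_one (lt_max_of_lt_left hV)]
        exact le_max_left _ _
      refine mul_le_of_le_one_right ?_ h1
      positivity
    · intro t x v ht htT
      rw [WW_pos ht]
      exact hsB t ht htT x v

end Crest.Agent.R68.X2
end
end

-- ▼ part R68/X2Seed3
section

/-!
# Row 68, PART X2 (helper330): the core theorem: `SeedData` gives (X2)
-/

set_option autoImplicit false
open MeasureTheory Set Filter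
open scoped Topology ENNReal
open Crest.AnalysisR.VecCalc3 Crest.AnalysisR.PDE.Boltzmann

noncomputable section

namespace Crest.Agent.R68.X2

open Crest.Agent.R68.L (Den phiE Gf Dam TL sol PerF WW WW_pos meas3_WW PerF_WW Mom X2Out)
open Crest.Agent.R68.A (Meas3)

/-- the weight `1 + |v|⁴` -/
def w4D : Den := fun _ _ v => ENNReal.ofReal (1 + ‖v‖ ^ 4)

theorem meas3_w4D : Meas3 w4D := by unfold Meas3 w4D; fun_prop

theorem Mom_eq (h : Den) (t : ℝ) : Mom h t = MW w4D h t := rfl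

section core

variable {P : Par} {g1 g2 T A1 A2 C d1 c1 : ℝ} {v0 : R3} {W g Ψp : Den}

/-- bounds of the functionals of a seed solution -/
theorem seed_bounds (S : SeedData P g1 g2 T A1 A2 C d1 c1 v0 W g Ψp) {τ : ℝ} (hτ : 0 < τ)
    {σ H : Den} (hH : SeedH P g1 g2 τ T σ H) (hσ1 : ∃ B : ℝ≥0∞, B ≠ ⊤ ∧ ∀ t ∈ Icc τ T, MW W σ t ≤ B) :
    ∃ B : ℝ, 0 ≤ B ∧ ∀ r ∈ Icc τ T, MW W H r ≤ ENNReal.ofReal B ∧ PW g H r ≤ ENNReal.ofReal B ∧
      MW (GA (phiE P) Ψp) H r ≤ ENNReal.ofReal B ∧ PW g σ r ≤ ENNReal.ofReal B := by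
  obtain ⟨A, hA, hHA⟩ := hH.bdd
  obtain ⟨B1, hB1, hfin⟩ := S.fin
  obtain ⟨B2', hB2, hσ⟩ := hσ1
  have hC := S.C0
  have hgW : ∀ t, 0 < t → t ≤ T → ∀ x v, g t x v ≤ ENNReal.ofReal (C * C) * W t x v := by
    intro t ht htT x v
    rw [ENNReal.ofReal_mul hC, mul_assoc]
    exact (S.gb t ht htT x v).trans (mul_le_mul' le_rfl (S.w4 t ht htT x v))
  have hm : ∀ r ∈ Icc τ T, MW W H r ≤ A * B1 := by
    intro r hr
    have hr0 := hτ.trans_le hr.1
    refine (MW_mono_right hA (fun x v => hHA r hr0 hr.2 x v)).trans ?_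
    exact mul_le_mul' le_rfl (hfin r hr0 hr.2)
  set Bt : ℝ≥0∞ := A * B1 + ENNReal.ofReal (C * C) * (A * B1) + ENNReal.ofReal (C / τ) * (A * B1)
    + ENNReal.ofReal (C * C) * B2' with hBt
  have hBt1 : Bt ≠ ⊤ := by
    have h1 : A * B1 ≠ ⊤ := ENNReal.mul_ne_top hA hB1
    refine ENNReal.add_ne_top.2 ⟨ENNReal.add_ne_top.2 ⟨ENNReal.add_ne_top.2 ⟨h1, ?_⟩, ?_⟩, ?_⟩
    · exact ENNReal.mul_ne_top ENNReal.ofReal_ne_top h1
    · exact ENNReal.mul_ne_top ENNReal.ofReal_ne_top h1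
    · exact ENNReal.mul_ne_top ENNReal.ofReal_ne_top hB2
  refine ⟨Bt.toReal, ENNReal.toReal_nonneg, fun r hr => ?_⟩
  have hr0 := hτ.trans_le hr.1
  rw [ENNReal.ofReal_toReal hBt1]
  refine ⟨?_, ?_, ?_, ?_⟩
  · refine (hm r hr).trans ?_
    rw [hBt, add_assoc, add_assoc]
    exact le_self_add
  · refine (PW_le_MW S.mW hH.mH S.pW hH.pH ENNReal.ofReal_ne_top (S.gs r hr0 hr.2)
      (hgW r hr0 hr.2)).trans ?_
    refine (mul_le_mul' le_rfl (hm r hr)).trans ?_
    rw [hBt, add_assoc, add_comm (A * B1), add_assoc]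
    exact le_self_add
  · have h1 : MW (GA (phiE P) Ψp) H r ≤ ENNReal.ofReal (C / r) * MW W H r :=
      MW_mono_left ENNReal.ofReal_ne_top (S.crude r hr0 hr.2)
    refine h1.trans ?_
    refine (mul_le_mul' (ENNReal.ofReal_le_ofReal
      (div_le_div_of_nonneg_left hC hτ hr.1)) (hm r hr)).trans ?_
    rw [hBt]
    exact le_add_right (le_add_self)
  · refine (PW_le_MW S.mW hH.ms S.pW hH.ps ENNReal.ofReal_ne_top (S.gs r hr0 hr.2)
      (hgW r hr0 hr.2)).trans ?_
    refine (mul_le_mul' le_rfl (hσ r hr)).trans ?_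
    rw [hBt]
    exact le_add_self

/-- **growth of the unit seed**, all constants independent of `τ` -/
theorem unit_growth (hP : P.Ok) (S : SeedData P g1 g2 T A1 A2 C d1 c1 v0 W g Ψp) :
    ∃ rho t0 : ℝ, 0 < rho ∧ 0 < t0 ∧ t0 ≤ T ∧ ∀ τ t1 : ℝ, 0 < τ → 4 * τ ≤ t1 → t1 ≤ t0 →
      (∀ t ∈ Icc τ t1, MW W (sol (phiE P) (seed1 v0 τ)) t ≤
        ENNReal.ofReal rho * PW g (sol (phiE P) (seed1 v0 τ)) t) ∧
      (∀ s t, τ ≤ s → s ≤ t → t ≤ t1 → ENNReal.ofReal (1 / 2 * (t / s) ^ A1) *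
        PW g (sol (phiE P) (seed1 v0 τ)) s ≤ PW g (sol (phiE P) (seed1 v0 τ)) t) ∧
      (ENNReal.ofReal τ * (ENNReal.ofReal c1 * ENNReal.ofReal (τ ^ 2) * V3 v0) ≤
        2 * PW g (sol (phiE P) (seed1 v0 τ)) (2 * τ)) ∧
      (∀ t ∈ Icc τ t1, PW g (sol (phiE P) (seed1 v0 τ)) t ≠ ⊤) ∧
      (∀ t ∈ Icc (t1 / 2) t1, MW W (sol (phiE P) (seed1 v0 τ)) t1 ≤
        ENNReal.ofReal (2 ^ (A2 + C + C ^ 2)) * MW W (sol (phiE P) (seed1 v0 τ)) t) := by
  have hC := S.C0
  have hA2 := S.A20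
  have hA12 := S.A12
  have hc1 := S.c10
  have hT0 := S.T0
  obtain ⟨rho, t0, h1, h2, h3, h4⟩ := ratio_enn A1 A2 C d1 (C / c1) hA2 hA12 hC S.d10
    (div_nonneg hC hc1.le)
  refine ⟨rho, min (min t0 T) (1 / (2 * C * rho + 1)), h1, lt_min (lt_min h2 hT0) (by positivity),
    (min_le_left _ _).trans (min_le_right _ _), ?_⟩
  intro τ t1 hτ hτt ht1
  have ht1a : t1 ≤ t0 := ht1.trans ((min_le_left _ _).trans (min_le_left _ _))
  have ht1b : t1 ≤ T := ht1.trans ((min_le_left _ _).trans (min_le_right _ _))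
  have ht1c : t1 ≤ 1 / (2 * C * rho + 1) := ht1.trans (min_le_right _ _)
  have hH := seedH_unit hP S.hg1 S.hg2 S.T1 S.Tg v0 hτ
  set σ : Den := seed1 v0 τ with hσdef
  set H : Den := sol (phiE P) σ with hHdef
  have hms := meas3_seed1 v0 τ
  -- the source
  have hs0 : ∀ (F : Den) (t : ℝ), (t ≤ τ ∨ 2 * τ ≤ t) → MW F σ t = 0 := fun F t h =>
    MW_seed_zero h
  have hsW : ∀ t ∈ Icc τ T, MW W σ t ≤ ENNReal.ofReal C * ENNReal.ofReal (τ ^ 2) * V3 v0 := by
    intro t ht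
    by_cases h : t ∈ Ioo τ (2 * τ)
    · exact MW_seed_le hτ h fun x v => S.sW t (hτ.trans_le ht.1) ht.2 x v
    · have h' : t ≤ τ ∨ 2 * τ ≤ t := by
        by_contra hc
        push Not at hc
        exact h hc
      rw [hs0 W t h']; exact zero_le
  have hsg : ∀ t ∈ Ioo τ (2 * τ), ENNReal.ofReal c1 * ENNReal.ofReal (τ ^ 2) * V3 v0 ≤ PW g σ t := by
    intro t ht
    exact PW_seed_ge hτ ht fun x v => S.sg t (hτ.trans ht.1) (by linarith [ht.2]) x v
  have hrel : ∀ r ∈ Icc τ t1, MW W σ r ≤ ENNReal.ofReal (C / c1) * PW g σ r := by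
    intro r hr
    by_cases h : r ∈ Ioo τ (2 * τ)
    · refine (hsW r ⟨hr.1, hr.2.trans ht1b⟩).trans ?_
      refine le_trans (le_of_eq ?_) (mul_le_mul' le_rfl (hsg r h))
      rw [← mul_assoc, ← mul_assoc, ← ENNReal.ofReal_mul (div_nonneg hC hc1.le),
        div_mul_cancel₀ _ hc1.ne']
    · have h' : r ≤ τ ∨ 2 * τ ≤ r := by
        by_contra hc
        push Not at hc
        exact h hc
      rw [hs0 W r h']; exact zero_le
  have hVt : ENNReal.ofReal C * ENNReal.ofReal (τ ^ 2) * V3 v0 ≠ ⊤ :=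
    ENNReal.mul_ne_top (ENNReal.mul_ne_top ENNReal.ofReal_ne_top ENNReal.ofReal_ne_top)
      (V3_ne_top v0)
  obtain ⟨B, hB0, hB⟩ := seed_bounds S hτ hH ⟨_, hVt, hsW⟩
  have hBt1 : ∀ r ∈ Icc τ t1, MW W H r ≤ ENNReal.ofReal B ∧ PW g H r ≤ ENNReal.ofReal B ∧
      MW (GA (phiE P) Ψp) H r ≤ ENNReal.ofReal B ∧ PW g σ r ≤ ENNReal.ofReal B :=
    fun r hr => hB r ⟨hr.1, hr.2.trans ht1b⟩
  have hup : ∀ s t, τ ≤ s → s ≤ t → t ≤ t1 → MW W H t ≤ MW W H s + ∫⁻ r in Ioo s t,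
      (ENNReal.ofReal (A2 / r + C) * MW W H r + ENNReal.ofReal C * MW (GA (phiE P) Ψp) H r
        + MW W σ r) := fun s t hs hst ht => S.up τ σ H hτ hH s t hs hst (ht.trans ht1b)
  have hlow : ∀ s t, τ ≤ s → s ≤ t → t ≤ t1 → PW g H s + ∫⁻ r in Ioo s t,
      (ENNReal.ofReal (A1 / r) * PW g H r + ENNReal.ofReal d1 * MW (GA (phiE P) Ψp) H r
        + PW g σ r) ≤ PW g H t + ∫⁻ r in Ioo s t, ENNReal.ofReal C * MW W H r :=
    fun s t hs hst ht => S.low τ σ H hτ hH s t hs hst (ht.trans ht1b)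
  have hm0 : MW W H τ = 0 := by
    unfold MW
    simp [hH.zero τ le_rfl]
  have hmm := measurable_MW S.mW hH.mH
  have hmp := measurable_PW S.mg hH.mH
  have hmg := measurable_MW S.mG hH.mH
  obtain ⟨r1, r2⟩ := h4 τ t1 hτ (by linarith) ht1a (MW W H) (PW g H) (MW (GA (phiE P) Ψp) H)
    (MW W σ) (PW g σ) hmm hmp hmg (measurable_MW S.mW hms) (measurable_PW S.mg hms)
    ⟨B, hB0, hBt1⟩ hrel hup hlow hm0
  refine ⟨r1, r2, ?_, fun t ht => ne_top_of_le_ne_top ENNReal.ofReal_ne_top (hBt1 t ht).2.1, ?_⟩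
  · refine seed_amount (A1 := A1) (C := C) (d1 := d1) (rho := rho) (t1 := t1) (m := MW W H)
      (g := MW (GA (phiE P) Ψp) H) (sp := PW g σ) (hA2.trans hA12).le hC h1.le hτ
      (by linarith) ?_ hlow r1 r2 hsg
    have h5 : τ ≤ 1 / (2 * C * rho + 1) := by linarith
    have h6 : 0 < 2 * C * rho + 1 := by positivity
    rw [le_div_iff₀ h6] at h5
    linarith
  · intro t ht
    have ht0 : 0 < t := by linarith [ht.1]
    have htτ : 2 * τ ≤ t := by linarith [ht.1]
    have hgro := upper_enn (a := t) (b := t1) (c := A2 + C + C ^ 2) ht0 ht.2 (by positivity)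
      (m := MW W H) hmm hB0 (fun r hr => (hBt1 r ⟨by linarith [hr.1], hr.2⟩).1) ?_ t1 ⟨ht.2, le_rfl⟩
    · refine hgro.trans (mul_le_mul' (ENNReal.ofReal_le_ofReal ?_) le_rfl)
      refine Real.rpow_le_rpow (div_nonneg (ht0.le.trans ht.2) ht0.le) ?_ (by positivity)
      rw [div_le_iff₀ ht0]
      linarith [ht.1]
    · intro t' ht'
      refine (hup t t' (by linarith) ht'.1 ht'.2).trans ?_
      refine add_le_add le_rfl (setLIntegral_mono' measurableSet_Ioo fun r hr => ?_)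
      have hr0 : 0 < r := ht0.trans hr.1
      have hrT : r ≤ T := hr.2.le.trans (ht'.2.trans ht1b)
      have hr1 : r ≤ 1 := hrT.trans S.T1
      have e1 : MW W σ r = 0 := hs0 W r (Or.inr (by linarith [hr.1]))
      have e2 : MW (GA (phiE P) Ψp) H r ≤ ENNReal.ofReal (C / r) * MW W H r :=
        MW_mono_left ENNReal.ofReal_ne_top (S.crude r hr0 hrT)
      calc ENNReal.ofReal (A2 / r + C) * MW W H r + ENNReal.ofReal C * MW (GA (phiE P) Ψp) H r
          + MW W σ r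
          ≤ ENNReal.ofReal (A2 / r + C) * MW W H r +
            ENNReal.ofReal C * (ENNReal.ofReal (C / r) * MW W H r) + 0 := by
            rw [e1]
            exact add_le_add (add_le_add le_rfl (mul_le_mul' le_rfl e2)) le_rfl
        _ = ENNReal.ofReal (A2 / r + C + C * (C / r)) * MW W H r := by
            rw [add_zero, ← mul_assoc, ← ENNReal.ofReal_mul hC, ← add_mul,
              ← ENNReal.ofReal_add (by positivity) (by positivity)]
        _ ≤ ENNReal.ofReal ((A2 + C + C ^ 2) / r) * MW W H r := by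
            refine mul_le_mul' (ENNReal.ofReal_le_ofReal ?_) le_rfl
            have h5 : C ≤ C / r := by
              rw [le_div_iff₀ hr0]
              nlinarith
            have h6 : (A2 + C + C ^ 2) / r = A2 / r + C / r + C * (C / r) := by
              field_simp
            rw [h6]
            linarith

/-- **(X2) from `SeedData`** -/
theorem X2_core (hP : P.Ok) (S : SeedData P g1 g2 T A1 A2 C d1 c1 v0 W g Ψp) {a : ℝ}
    (ha3 : 3 ≤ a) (haA : a ≤ A1) :
    ∃ t0 : ℝ, 0 < t0 ∧ ∀ t1, 0 < t1 → t1 ≤ t0 →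
      ∃ (CH c0 : ℝ≥0∞) (tau : ℕ → ℝ) (sg : ℕ → Den), X2Out P g1 g2 t1 a CH c0 tau sg := by
  obtain ⟨rho, t0, hrho, ht0, ht0T, key⟩ := unit_growth hP S
  refine ⟨t0, ht0, fun t1 ht1 ht10 => ?_⟩
  have hC := S.C0
  have hc1 := S.c10
  have ht1T : t1 ≤ T := ht10.trans ht0T
  have ht11 : t1 ≤ 1 := ht1T.trans S.T1
  have hφ := L.meas3_phiE hP
  have pφ : PerF (phiE P) := fun t v => L.perG_phiE P t v
  have hA1 : 0 < A1 := S.A20.trans S.A12
  -- the normalisation
  set pn : ℝ → ℝ≥0∞ := fun τ => PW g (sol (phiE P) (seed1 v0 τ)) t1 with hpn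
  -- lower bound of `pn`
  set Kn : ℝ := (2 / t1) ^ A1 * (4 / c1) with hKn
  have hKn0 : 0 < Kn := by positivity
  have hV := V3_pos v0
  have hVt := V3_ne_top v0
  have hpn_ge : ∀ τ, 0 < τ → 4 * τ ≤ t1 →
      V3 v0 ≤ ENNReal.ofReal (Kn * τ ^ (A1 - 3)) * pn τ := by
    intro τ hτ hτt
    obtain ⟨k1, k2, k3, k4, k5⟩ := key τ t1 hτ hτt ht10
    have h1 := k2 (2 * τ) t1 (by linarith) (by linarith) le_rfl
    have h2 : V3 v0 = ENNReal.ofReal (1 / (c1 * τ ^ 3)) *
        (ENNReal.ofReal τ * (ENNReal.ofReal c1 * ENNReal.ofReal (τ ^ 2) * V3 v0)) := by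
      rw [← mul_assoc, ← mul_assoc, ← ENNReal.ofReal_mul hc1.le, ← ENNReal.ofReal_mul (by positivity),
        ← ENNReal.ofReal_mul (by positivity)]
      have : 1 / (c1 * τ ^ 3) * τ * (c1 * τ ^ 2) = 1 := by field_simp
      rw [this, ENNReal.ofReal_one, one_mul]
    have h3 : PW g (sol (phiE P) (seed1 v0 τ)) (2 * τ) ≤
        ENNReal.ofReal (2 * (2 * τ / t1) ^ A1) * pn τ := by
      have e : (1 : ℝ) = (2 * (2 * τ / t1) ^ A1) * (1 / 2 * (t1 / (2 * τ)) ^ A1) := by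
        have : (2 * τ / t1) ^ A1 * (t1 / (2 * τ)) ^ A1 = 1 := by
          rw [← Real.mul_rpow (by positivity) (by positivity)]
          have : 2 * τ / t1 * (t1 / (2 * τ)) = 1 := by field_simp
          rw [this, Real.one_rpow]
        linarith
      calc PW g (sol (phiE P) (seed1 v0 τ)) (2 * τ)
          = ENNReal.ofReal ((2 * (2 * τ / t1) ^ A1) * (1 / 2 * (t1 / (2 * τ)) ^ A1)) *
            PW g (sol (phiE P) (seed1 v0 τ)) (2 * τ) := by
            rw [← e, ENNReal.ofReal_one, one_mul]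
        _ = ENNReal.ofReal (2 * (2 * τ / t1) ^ A1) * (ENNReal.ofReal (1 / 2 * (t1 / (2 * τ)) ^ A1) *
            PW g (sol (phiE P) (seed1 v0 τ)) (2 * τ)) := by
            rw [ENNReal.ofReal_mul (by positivity), mul_assoc]
        _ ≤ _ := mul_le_mul' le_rfl h1
    calc V3 v0 ≤ ENNReal.ofReal (1 / (c1 * τ ^ 3)) *
          (2 * (ENNReal.ofReal (2 * (2 * τ / t1) ^ A1) * pn τ)) := by
          rw [h2]
          exact mul_le_mul' le_rfl (k3.trans (mul_le_mul' le_rfl h3))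
      _ = ENNReal.ofReal (Kn * τ ^ (A1 - 3)) * pn τ := by
          rw [← ENNReal.ofReal_ofNat, ← mul_assoc, ← mul_assoc, ← ENNReal.ofReal_mul (by positivity),
            ← ENNReal.ofReal_mul (by positivity)]
          congr 2
          rw [hKn, Real.rpow_sub hτ, show 2 * τ / t1 = (2 / t1) * τ by ring,
            Real.mul_rpow (by positivity) hτ.le]
          have : τ ^ (3 : ℝ) = τ ^ 3 := by norm_cast
          rw [this]
          field_simp
          norm_num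
  have hpn_ne : ∀ τ, 0 < τ → 4 * τ ≤ t1 → pn τ ≠ 0 ∧ pn τ ≠ ⊤ := by
    intro τ hτ hτt
    refine ⟨fun h => ?_, ?_⟩
    · have := hpn_ge τ hτ hτt
      rw [h, mul_zero] at this
      exact hV (le_antisymm this zero_le)
    · obtain ⟨k1, k2, k3, k4, k5⟩ := key τ t1 hτ hτt ht10
      exact k4 t1 ⟨by linarith, le_rfl⟩
  -- seeds
  set tau : ℕ → ℝ := fun n => t1 / 4 / (n + 1) with htau
  have htau0 : ∀ n, 0 < tau n := fun n => by simp only [htau]; positivity
  have htau4 : ∀ n, 4 * tau n ≤ t1 := by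
    intro n
    simp only [htau]
    have : t1 / 4 / ((n : ℝ) + 1) ≤ t1 / 4 := div_le_self (by positivity) (by
      have : (0 : ℝ) ≤ n := Nat.cast_nonneg n
      linarith)
    linarith
  set lam : ℕ → ℝ≥0∞ := fun n => (pn (tau n))⁻¹ with hlam
  have hlamt : ∀ n, lam n ≠ ⊤ := fun n => ENNReal.inv_ne_top.2 (hpn_ne _ (htau0 n) (htau4 n)).1
  have hlam1 : ∀ n, lam n * pn (tau n) = 1 := fun n =>
    ENNReal.inv_mul_cancel (hpn_ne _ (htau0 n) (htau4 n)).1 (hpn_ne _ (htau0 n) (htau4 n)).2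
  set CL : ℝ≥0∞ := ENNReal.ofReal Kn * (V3 v0)⁻¹ with hCL
  have hCLt : CL ≠ ⊤ := ENNReal.mul_ne_top ENNReal.ofReal_ne_top (ENNReal.inv_ne_top.2 hV)
  have hlam_le : ∀ n, lam n ≤ CL * ENNReal.ofReal (tau n ^ (A1 - 3)) := by
    intro n
    have h1 := hpn_ge _ (htau0 n) (htau4 n)
    obtain ⟨h2, h3⟩ := hpn_ne _ (htau0 n) (htau4 n)
    calc lam n = lam n * (V3 v0 * (V3 v0)⁻¹) := by rw [ENNReal.mul_inv_cancel hV hVt, mul_one]
      _ ≤ lam n * ((ENNReal.ofReal (Kn * tau n ^ (A1 - 3)) * pn (tau n)) * (V3 v0)⁻¹) := by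
          gcongr
      _ = (lam n * pn (tau n)) * (ENNReal.ofReal (Kn * tau n ^ (A1 - 3)) * (V3 v0)⁻¹) := by ring
      _ = CL * ENNReal.ofReal (tau n ^ (A1 - 3)) := by
          rw [hlam1, one_mul, hCL, ENNReal.ofReal_mul hKn0.le]; ring
  set sgm : ℕ → Den := fun n t x v => lam n * seed1 v0 (tau n) t x v with hsgm
  have hsol : ∀ n t x v, sol (phiE P) (sgm n) t x v =
      lam n * sol (phiE P) (seed1 v0 (tau n)) t x v := fun n t x v =>
    L.sol_smul hφ (meas3_seed1 v0 (tau n)) (lam n) t x v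
  have hMom : ∀ n t, Mom (sol (phiE P) (sgm n)) t =
      lam n * MW w4D (sol (phiE P) (seed1 v0 (tau n))) t := by
    intro n t
    rw [Mom_eq, ← MW_smul_right (hlamt n)]
    unfold MW
    simp only [hsol]
  -- constants
  set Cs : ℝ := Real.exp ((g1 + g2) * (‖v0‖ + 1) ^ 2) with hCs
  set CH1 : ℝ≥0∞ := CL * ENNReal.ofReal Cs with hCH1
  set CH2 : ℝ≥0∞ := ENNReal.ofReal (C * (rho * (2 * (1 / t1) ^ A1))) with hCH2
  set D : ℝ := (C * C) * (2 ^ (A2 + C + C ^ 2) * (rho * C)) with hD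
  have hD0 : 0 ≤ D := by positivity
  -- lower bound of the mass
  have hlow : ∀ n, ∀ t ∈ Ioo (t1 / 2) t1, 1 ≤ ENNReal.ofReal D * Mom (sol (phiE P) (sgm n)) t := by
    intro n t ht
    obtain ⟨k1, k2, k3, k4, k5⟩ := key (tau n) t1 (htau0 n) (htau4 n) ht10
    have hH := seedH_unit hP S.hg1 S.hg2 S.T1 S.Tg v0 (htau0 n)
    have ht0' : 0 < t := by linarith [ht.1]
    have htT : t ≤ T := ht.2.le.trans ht1T
    have hτt : tau n ≤ t := by linarith [ht.1, htau4 n, htau0 n]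
    have e1 : pn (tau n) ≤ ENNReal.ofReal (C * C) *
        MW W (sol (phiE P) (seed1 v0 (tau n))) t1 := by
      refine PW_le_MW S.mW hH.mH S.pW hH.pH ENNReal.ofReal_ne_top (S.gs t1 ht1 ht1T) fun x v => ?_
      rw [ENNReal.ofReal_mul hC, mul_assoc]
      exact (S.gb t1 ht1 ht1T x v).trans (mul_le_mul' le_rfl (S.w4 t1 ht1 ht1T x v))
    have e2 := k5 t ⟨ht.1.le, ht.2.le⟩
    have e3 := k1 t ⟨hτt, ht.2.le⟩
    have e4 : PW g (sol (phiE P) (seed1 v0 (tau n))) t ≤ ENNReal.ofReal C *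
        MW w4D (sol (phiE P) (seed1 v0 (tau n))) t := by
      refine PW_le_MW meas3_w4D hH.mH (fun _ _ _ _ => rfl) hH.pH ENNReal.ofReal_ne_top
        (S.gs t ht0' htT) fun x v => ?_
      exact S.gb t ht0' htT x v
    have e5 : pn (tau n) ≤ ENNReal.ofReal D * MW w4D (sol (phiE P) (seed1 v0 (tau n))) t := by
      calc pn (tau n) ≤ ENNReal.ofReal (C * C) * MW W (sol (phiE P) (seed1 v0 (tau n))) t1 := e1
        _ ≤ ENNReal.ofReal (C * C) * (ENNReal.ofReal (2 ^ (A2 + C + C ^ 2)) *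
            (ENNReal.ofReal rho * (ENNReal.ofReal C *
              MW w4D (sol (phiE P) (seed1 v0 (tau n))) t))) :=
            mul_le_mul' le_rfl (e2.trans (mul_le_mul' le_rfl (e3.trans (mul_le_mul' le_rfl e4))))
        _ = _ := by
            rw [hD, ENNReal.ofReal_mul (p := C * C) (by positivity),
              ENNReal.ofReal_mul (p := 2 ^ (A2 + C + C ^ 2)) (by positivity),
              ENNReal.ofReal_mul (p := rho) hrho.le]
            ring
    rw [hMom]
    calc (1 : ℝ≥0∞) = lam n * pn (tau n) := (hlam1 n).symm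
      _ ≤ lam n * (ENNReal.ofReal D * MW w4D (sol (phiE P) (seed1 v0 (tau n))) t) :=
          mul_le_mul' le_rfl e5
      _ = _ := by ring
  refine ⟨max CH1 CH2, ENNReal.ofReal (t1 / 2) * (ENNReal.ofReal D)⁻¹, tau, sgm, ?_⟩
  refine ⟨?_, ?_, htau0, ?_, ?_, ?_, ?_, ?_, ?_, ?_⟩
  · exact (max_lt (ENNReal.mul_lt_top hCLt.lt_top ENNReal.ofReal_lt_top)
      ENNReal.ofReal_lt_top).ne
  · refine ENNReal.mul_pos ?_ (ENNReal.inv_ne_zero.2 ENNReal.ofReal_ne_top)
    exact (ENNReal.ofReal_pos.2 (by positivity)).ne'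
  · have h1 : Tendsto (fun n : ℕ => t1 / 4 / ((n : ℝ) + 1)) atTop (𝓝 0) :=
      tendsto_const_nhds.div_atTop (tendsto_atTop_add_const_right _ _ tendsto_natCast_atTop_atTop)
    exact h1
  · intro n
    exact Meas3.const_mul (meas3_seed1 v0 (tau n)) (lam n)
  · intro n t v x k
    have := perF_seed1 v0 (tau n) t v x k
    simp only at this
    show lam n * seed1 v0 (tau n) t (x + latt k) v = lam n * seed1 v0 (tau n) t x v
    rw [this]
  · intro n t x v h
    simp only [hsgm]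
    rw [seed1_zero h, mul_zero]
  · -- pointwise bound of the seeds
    intro n t ht x v
    simp only [hsgm]
    by_cases h : tau n < t
    · have h1 := seed1_le_B2 (P := P) S.hg1.le S.hg2 (a - 3) v0 (tau n) ht.1 x v
      have h2 := hlam_le n
      have h3 : tau n ^ (A1 - 3) * t ^ (-(a - 3)) ≤ 1 := by
        have e1 : tau n ^ (A1 - 3) ≤ t ^ (A1 - 3) :=
          Real.rpow_le_rpow (htau0 n).le h.le (by linarith)
        have e2 : 0 ≤ t ^ (-(a - 3)) := Real.rpow_nonneg ht.1.le _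
        calc tau n ^ (A1 - 3) * t ^ (-(a - 3)) ≤ t ^ (A1 - 3) * t ^ (-(a - 3)) := by gcongr
          _ = t ^ (A1 - a) := by rw [← Real.rpow_add ht.1]; congr 1; ring
          _ ≤ 1 := Real.rpow_le_one ht.1.le (ht.2.trans ht11) (by linarith)
      calc lam n * seed1 v0 (tau n) t x v
          ≤ (CL * ENNReal.ofReal (tau n ^ (A1 - 3))) * (ENNReal.ofReal (t ^ (-(a - 3)) * Cs) *
            B2 P g1 g2 (a - 3) t x v) := mul_le_mul' h2 h1
        _ = CL * ENNReal.ofReal ((tau n ^ (A1 - 3) * t ^ (-(a - 3))) * Cs) *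
            B2 P g1 g2 (a - 3) t x v := by
            have e2 : 0 ≤ t ^ (-(a - 3)) := Real.rpow_nonneg ht.1.le _
            have e3 : 0 ≤ tau n ^ (A1 - 3) := Real.rpow_nonneg (htau0 n).le _
            rw [mul_assoc (tau n ^ (A1 - 3)), ENNReal.ofReal_mul e3]
            ring
        _ ≤ CL * ENNReal.ofReal (1 * Cs) * B2 P g1 g2 (a - 3) t x v := by
            gcongr
        _ = CH1 * B2 P g1 g2 (a - 3) t x v := by rw [one_mul, hCH1]
        _ ≤ max CH1 CH2 * B2 P g1 g2 (a - 3) t x v := by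
            gcongr
            exact le_max_left _ _
    · rw [seed1_zero (Or.inl (not_lt.1 h)), mul_zero]
      exact zero_le
  · -- upper bound of the mass
    intro n t ht
    rw [hMom]
    obtain ⟨k1, k2, k3, k4, k5⟩ := key (tau n) t1 (htau0 n) (htau4 n) ht10
    have hH := seedH_unit hP S.hg1 S.hg2 S.T1 S.Tg v0 (htau0 n)
    by_cases h : tau n ≤ t
    · have htT : t ≤ T := ht.2.trans ht1T
      have e1 : MW w4D (sol (phiE P) (seed1 v0 (tau n))) t ≤ ENNReal.ofReal C *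
          MW W (sol (phiE P) (seed1 v0 (tau n))) t :=
        MW_mono_left ENNReal.ofReal_ne_top (S.w4 t ht.1 htT)
      have e2 := k1 t ⟨h, ht.2⟩
      have e3 := k2 t t1 h ht.2 le_rfl
      have e4 : PW g (sol (phiE P) (seed1 v0 (tau n))) t ≤
          ENNReal.ofReal (2 * (t / t1) ^ A1) * pn (tau n) := by
        have e : (1 : ℝ) = (2 * (t / t1) ^ A1) * (1 / 2 * (t1 / t) ^ A1) := by
          have : (t / t1) ^ A1 * (t1 / t) ^ A1 = 1 := by
            have ht0 := ht.1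
            rw [← Real.mul_rpow (by positivity) (by positivity)]
            have : t / t1 * (t1 / t) = 1 := by field_simp
            rw [this, Real.one_rpow]
          linarith
        have ht0 := ht.1
        calc PW g (sol (phiE P) (seed1 v0 (tau n))) t
            = ENNReal.ofReal ((2 * (t / t1) ^ A1) * (1 / 2 * (t1 / t) ^ A1)) *
              PW g (sol (phiE P) (seed1 v0 (tau n))) t := by
              rw [← e, ENNReal.ofReal_one, one_mul]
          _ = ENNReal.ofReal (2 * (t / t1) ^ A1) * (ENNReal.ofReal (1 / 2 * (t1 / t) ^ A1) *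
              PW g (sol (phiE P) (seed1 v0 (tau n))) t) := by
              rw [ENNReal.ofReal_mul (by positivity), mul_assoc]
          _ ≤ _ := mul_le_mul' le_rfl e3
      have ht0 := ht.1
      calc lam n * MW w4D (sol (phiE P) (seed1 v0 (tau n))) t
          ≤ lam n * (ENNReal.ofReal C * (ENNReal.ofReal rho *
            (ENNReal.ofReal (2 * (t / t1) ^ A1) * pn (tau n)))) :=
            mul_le_mul' le_rfl (e1.trans (mul_le_mul' le_rfl (e2.trans (mul_le_mul' le_rfl e4))))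
        _ = (lam n * pn (tau n)) * ENNReal.ofReal (C * (rho * (2 * (t / t1) ^ A1))) := by
            rw [ENNReal.ofReal_mul hC, ENNReal.ofReal_mul hrho.le]
            ring
        _ = ENNReal.ofReal (C * (rho * (2 * (1 / t1) ^ A1))) * ENNReal.ofReal (t ^ A1) := by
            rw [hlam1, one_mul, ← ENNReal.ofReal_mul (by positivity)]
            congr 1
            rw [show t / t1 = (1 / t1) * t by ring, Real.mul_rpow (by positivity) ht0.le]
            ring
        _ ≤ CH2 * ENNReal.ofReal (t ^ a) := by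
            refine mul_le_mul' le_rfl (ENNReal.ofReal_le_ofReal ?_)
            exact Real.rpow_le_rpow_of_exponent_ge ht0 (ht.2.trans ht11) haA
        _ ≤ max CH1 CH2 * ENNReal.ofReal (t ^ a) := by
            gcongr
            exact le_max_right _ _
    · have : MW w4D (sol (phiE P) (seed1 v0 (tau n))) t = 0 := by
        unfold MW
        simp [hH.zero t (not_le.1 h).le]
      rw [this, mul_zero]
      exact zero_le
  · -- lower bound
    intro n
    have e1 : (ENNReal.ofReal D)⁻¹ * ENNReal.ofReal (t1 / 2) =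
        ∫⁻ _ in Ioo (t1 / 2) t1, (ENNReal.ofReal D)⁻¹ := by
      rw [setLIntegral_const, Real.volume_Ioo]
      congr 2; ring
    rw [mul_comm, e1]
    refine le_trans (setLIntegral_mono' measurableSet_Ioo fun t ht => ?_)
      (lintegral_mono_set (Ioo_subset_Ioo_left (by linarith)))
    have h1 := hlow n t ht
    rcases eq_or_ne (ENNReal.ofReal D) 0 with h0 | h0
    · rw [h0, zero_mul] at h1
      exact absurd h1 (by simp)
    · rw [ENNReal.inv_le_iff_le_mul]
      · exact h1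
      · intro _; exact h0
      · intro h; exact absurd h ENNReal.ofReal_ne_top

end core

end Crest.Agent.R68.X2
end
end

-- ▼ part R68/X2Pt
section

/-!
# Row 68, X2Pt (helper616): pointwise facts on `OmE`, `psi0`, `psiP`, `gL` for the seeds
-/

set_option autoImplicit false
open MeasureTheory Set Filter
open scoped ENNReal Real
open Crest.AnalysisR.VecCalc3 Crest.AnalysisR.PDE.Boltzmann

noncomputable section

namespace Crest.Agent.R68.X2

/-! ### bounds of the cut-offs and of `f0` -/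

theorem pt_cutB_nonneg (B w : ℝ) : 0 ≤ cutB B w := sq_nonneg _

theorem pt_cutB_le_one (B w : ℝ) : cutB B w ≤ 1 := by
  unfold cutB
  have h0 : 0 ≤ max 0 (1 - w ^ 2 / B ^ 2) := le_max_left _ _
  have h1 : max 0 (1 - w ^ 2 / B ^ 2) ≤ 1 := by
    apply max_le zero_le_one
    have : 0 ≤ w ^ 2 / B ^ 2 := by positivity
    linarith
  nlinarith

theorem pt_lamd_nonneg (d a : ℝ) : 0 ≤ lamd d a := le_max_left _ _

theorem pt_lamd_le_one (d a : ℝ) : lamd d a ≤ 1 := max_le zero_le_one (min_le_left _ _)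

theorem pt_ramp_nonneg (r : ℝ) : 0 ≤ ramp r := le_max_left _ _

theorem pt_ramp_le_one (r : ℝ) : ramp r ≤ 1 := max_le zero_le_one (min_le_left _ _)

theorem pt_ramp_zero {r : ℝ} (h : 2 ≤ r) : ramp r = 0 := by
  unfold ramp
  rw [max_eq_left]
  exact (min_le_right _ _).trans (by linarith)

section
variable {N A Yp Y ey e : ℝ}

theorem TentOK.pt_A (h : TentOK N A Yp Y ey e) : 98 ≤ A := by
  rw [h.AN]; linarith [h.N1]

theorem TentOK.pt_AYp (h : TentOK N A Yp Y ey e) : 1 + A - e / 10 ≤ (1 + A) * Yp := by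
  have h1 := h.eye
  have h2 := h.Y1
  have h3 := h.pt_A
  rw [h.Ypd]
  nlinarith

theorem TentOK.pt_AYp0 (h : TentOK N A Yp Y ey e) : 0 ≤ (1 + A) * Yp := by
  have := h.pt_AYp
  have := h.e1
  have := h.pt_A
  linarith

theorem pt_tentp_le (h : TentOK N A Yp Y ey e) (y : ℝ) (q : R3) :
    tentp A Yp e y q ≤ (1 + A) * Yp := by
  unfold tentp tent
  apply max_le h.pt_AYp0
  have h1 : 0 ≤ |(1 + A) * y + q 1| := abs_nonneg _
  have h2 : 0 ≤ e * ‖q‖ ^ 2 := mul_nonneg h.e0.le (by positivity)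
  linarith

end

theorem pt_tentp_nonneg (A Yp e y : ℝ) (q : R3) : 0 ≤ tentp A Yp e y q := le_max_left _ _

theorem pt_f0_nonneg (X : XP) (z : P2) (v : R3) : 0 ≤ f0 X z v :=
  mul_nonneg (mul_nonneg (pt_tentp_nonneg _ _ _ _ _) (pt_cutB_nonneg _ _)) (pt_lamd_nonneg _ _)

section
variable {X : XP} {N Y ey : ℝ}

theorem pt_f0_le (h : TentOK N X.A X.Yp Y ey X.e) (z : P2) (v : R3) :
    f0 X z v ≤ (1 + X.A) * X.Yp := by
  unfold f0
  have h1 := pt_tentp_le h z.2 (fr z.2 v)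
  have h2 := pt_tentp_nonneg X.A X.Yp X.e z.2 (fr z.2 v)
  have h3 := pt_cutB_le_one X.B z.1
  have h4 := pt_cutB_nonneg X.B z.1
  have h5 := pt_lamd_le_one X.d (v 0)
  have h6 := pt_lamd_nonneg X.d (v 0)
  calc tentp X.A X.Yp X.e z.2 (fr z.2 v) * cutB X.B z.1 * lamd X.d (v 0)
      ≤ tentp X.A X.Yp X.e z.2 (fr z.2 v) * 1 * 1 := by gcongr
    _ ≤ _ := by linarith

theorem pt_psi0_nonneg (X : XP) (t : ℝ) (x : P2) (v : R3) : 0 ≤ psi0 X t x v := pt_f0_nonneg _ _ _

theorem pt_psi0_le (h : TentOK N X.A X.Yp Y ey X.e) (t : ℝ) (x : P2) (v : R3) :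
    psi0 X t x v ≤ (1 + X.A) * X.Yp := pt_f0_le h _ _

end

/-- norm in self-similar variables -/
theorem pt_norm_z {t : ℝ} (ht : 0 < t) (x : P2) : ‖t⁻¹ • x‖ = ‖x‖ / t := by
  rw [norm_smul, norm_inv, Real.norm_of_nonneg ht.le, inv_mul_eq_div]

/-- support of `psi0` -/
theorem pt_psi0_supp {X : XP} {Zs Vs : ℝ} (hs : ∀ z v, f0 X z v ≠ 0 → ‖z‖ ≤ Zs ∧ ‖v‖ ≤ Vs) {t : ℝ}
    (ht : 0 < t) {x : P2} {v : R3} (h : psi0 X t x v ≠ 0) : ‖x‖ ≤ Zs * t ∧ ‖v‖ ≤ Vs := by
  obtain ⟨h1, h2⟩ := hs _ _ h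
  rw [pt_norm_z ht, div_le_iff₀ ht] at h1
  exact ⟨h1, h2⟩

/-- `psiP` is bounded: at most one lattice point contributes -/
theorem pt_psiP_le {X : XP} {N Y ey Zs Vs : ℝ} (h : TentOK N X.A X.Yp Y ey X.e)
    (hs : ∀ z v, f0 X z v ≠ 0 → ‖z‖ ≤ Zs ∧ ‖v‖ ≤ Vs) {t : ℝ} (ht : 0 < t)
    (hZ : Zs * t < 7 / 20) (x : P2) (v : R3) :
    psiP X t x v ≤ ENNReal.ofReal ((1 + X.A) * X.Yp) := by
  unfold psiP
  by_cases hex : ∃ k, psiE X t (x + latt k) v ≠ 0
  · obtain ⟨k, hk⟩ := hex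
    rw [tsum_eq_single k]
    · exact ENNReal.ofReal_le_ofReal (pt_psi0_le h _ _ _)
    · intro l hl
      by_contra h0
      apply hl
      have a1 : psi0 X t (x + latt k) v ≠ 0 := by
        intro h3; apply hk; unfold psiE; rw [h3, ENNReal.ofReal_zero]
      have a2 : psi0 X t (x + latt l) v ≠ 0 := by
        intro h3; apply h0; unfold psiE; rw [h3, ENNReal.ofReal_zero]
      exact latt_unique ((pt_psi0_supp hs ht a2).1.trans_lt hZ) ((pt_psi0_supp hs ht a1).1.trans_lt hZ)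
  · push Not at hex
    rw [ENNReal.tsum_eq_zero.2 hex]
    exact zero_le

/-! ### the weight `Om` dominates polynomials -/

theorem pt_norm_fr (y : ℝ) (v : R3) : ‖v‖ ≤ ‖fr y v‖ + |y| := by
  have h1 : v = fr y v + !₂[0, y, 0] := by unfold fr; abel
  have h2 : ‖(!₂[0, y, 0] : R3)‖ = |y| := by
    rw [EuclideanSpace.norm_eq, Fin.sum_univ_three]
    simp [Real.sqrt_sq_eq_abs]
  calc ‖v‖ = ‖fr y v + !₂[0, y, 0]‖ := by rw [← h1]
    _ ≤ ‖fr y v‖ + ‖(!₂[0, y, 0] : R3)‖ := norm_add_le _ _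
    _ = _ := by rw [h2]

theorem pt_norm_fr' (y : ℝ) (v : R3) : ‖fr y v‖ ≤ ‖v‖ + |y| := by
  have h2 : ‖(!₂[0, y, 0] : R3)‖ = |y| := by
    rw [EuclideanSpace.norm_eq, Fin.sum_univ_three]
    simp [Real.sqrt_sq_eq_abs]
  calc ‖fr y v‖ = ‖v - !₂[0, y, 0]‖ := rfl
    _ ≤ ‖v‖ + ‖(!₂[0, y, 0] : R3)‖ := norm_sub_le _ _
    _ = _ := by rw [h2]

theorem pt_hh_ge {C2 : ℝ} (h : 0 ≤ C2) (q : R3) : 1 + ‖q‖ ^ 12 ≤ hh C2 q := by
  unfold hh
  have : 0 ≤ C2 * |q 1| := mul_nonneg h (abs_nonneg _)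
  linarith

theorem pt_Om_ge {Y C2 gp : ℝ} (hC2 : 0 ≤ C2) (hgp : 0 ≤ gp) (t : ℝ) (x : P2) (v : R3) :
    1 + ‖fr (Yc Y t x) v‖ ^ 12 ≤ Om Y C2 gp t x v := by
  unfold Om
  have h1 := pt_hh_ge hC2 (fr (Yc Y t x) v)
  have h2 : 1 ≤ Real.exp (gp * mm t x v ^ 2) := Real.one_le_exp (by positivity)
  have h3 : 0 ≤ hh C2 (fr (Yc Y t x) v) := by
    have : 0 ≤ ‖fr (Yc Y t x) v‖ ^ 12 := by positivity
    linarith
  nlinarith

theorem pt_Om_nonneg {Y C2 gp : ℝ} (hC2 : 0 ≤ C2) (hgp : 0 ≤ gp) (t : ℝ) (x : P2) (v : R3) :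
    0 ≤ Om Y C2 gp t x v := by
  have := pt_Om_ge (Y := Y) hC2 hgp t x v
  have : 0 ≤ ‖fr (Yc Y t x) v‖ ^ 12 := by positivity
  linarith

theorem pt_one_add_pow4 {Y a b : ℝ} (_hY : 0 ≤ Y) (ha : 0 ≤ a) (hb : 0 ≤ b) (h : a ≤ b + 2 * Y) :
    1 + a ^ 4 ≤ (1 + 8 * (1 + 16 * Y ^ 4)) * (1 + b ^ 12) := by
  have h1 : a ^ 4 ≤ (b + 2 * Y) ^ 4 := pow_le_pow_left₀ ha h 4
  have h2 : (b + 2 * Y) ^ 4 ≤ 8 * (b ^ 4 + (2 * Y) ^ 4) := by
    have e1 : (b + 2 * Y) ^ 2 ≤ 2 * (b ^ 2 + (2 * Y) ^ 2) := by nlinarith [sq_nonneg (b - 2 * Y)]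
    have e2 : ((b + 2 * Y) ^ 2) ^ 2 ≤ (2 * (b ^ 2 + (2 * Y) ^ 2)) ^ 2 :=
      pow_le_pow_left₀ (by positivity) e1 2
    nlinarith [sq_nonneg (b ^ 2 - (2 * Y) ^ 2)]
  have h3 : b ^ 4 ≤ 1 + b ^ 12 := by
    rcases le_total b 1 with h | h
    · have : b ^ 4 ≤ 1 := pow_le_one₀ hb h
      have : 0 ≤ b ^ 12 := by positivity
      linarith
    · have : b ^ 4 ≤ b ^ 12 := pow_le_pow_right₀ h (by norm_num)
      linarith
  have h4 : 0 ≤ b ^ 12 := by positivity
  have h5 : 0 ≤ Y ^ 4 := by positivity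
  nlinarith [mul_nonneg h5 h4]

/-- **(w4)** -/
theorem pt_w4 {Y C2 gp : ℝ} (hY : 0 ≤ Y) (hC2 : 0 ≤ C2) (hgp : 0 ≤ gp) (t : ℝ) (x : P2) (v : R3) :
    ENNReal.ofReal (1 + ‖v‖ ^ 4) ≤
      ENNReal.ofReal (1 + 8 * (1 + 16 * Y ^ 4)) * OmE Y C2 gp t x v := by
  unfold OmE
  rw [← ENNReal.ofReal_mul (by positivity)]
  apply ENNReal.ofReal_le_ofReal
  have h1 := pt_norm_fr (Yc Y t x) v
  have h2 := abs_Yc_le hY t x
  have h3 := pt_one_add_pow4 hY (norm_nonneg v) (norm_nonneg (fr (Yc Y t x) v)) (by linarith)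
  refine h3.trans ?_
  exact mul_le_mul_of_nonneg_left (pt_Om_ge hC2 hgp t x v) (by positivity)

theorem pt_w1 {Y C2 gp : ℝ} (hY : 0 ≤ Y) (hC2 : 0 ≤ C2) (hgp : 0 ≤ gp) (t : ℝ) (x : P2) (v : R3) :
    ENNReal.ofReal (1 + ‖v‖) ≤
      ENNReal.ofReal (2 * (1 + 8 * (1 + 16 * Y ^ 4))) * OmE Y C2 gp t x v := by
  have h := pt_w4 hY hC2 hgp t x v
  have h1 : 1 + ‖v‖ ≤ 2 * (1 + ‖v‖ ^ 4) := by
    have h0 := norm_nonneg v
    rcases le_total ‖v‖ 1 with h | h
    · have : 0 ≤ ‖v‖ ^ 4 := by positivity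
      linarith
    · have : ‖v‖ ≤ ‖v‖ ^ 4 := le_self_pow₀ h (by norm_num)
      linarith
  calc ENNReal.ofReal (1 + ‖v‖) ≤ ENNReal.ofReal (2 * (1 + ‖v‖ ^ 4)) :=
        ENNReal.ofReal_le_ofReal h1
    _ = ENNReal.ofReal 2 * ENNReal.ofReal (1 + ‖v‖ ^ 4) := ENNReal.ofReal_mul (by norm_num)
    _ ≤ ENNReal.ofReal 2 * (ENNReal.ofReal (1 + 8 * (1 + 16 * Y ^ 4)) * OmE Y C2 gp t x v) :=
        mul_le_mul_right h _
    _ = _ := by rw [← mul_assoc, ← ENNReal.ofReal_mul (by norm_num)]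

/-- **(crude)** -/
theorem pt_crude {X : XP} {P : Par} {N Y ey d1 Zs Vs : ℝ} (h : LowOK X P Y ey N d1 Zs Vs)
    {C2 gp : ℝ} (hC2 : 0 ≤ C2) (hgp : 0 ≤ gp) :
    ∃ t0 C : ℝ, 0 < t0 ∧ 0 ≤ C ∧ ∀ t, 0 < t → t ≤ t0 → ∀ x v,
      GA (L.phiE P) (psiP X) t x v ≤ ENNReal.ofReal (C / t) * OmE P.Y C2 gp t x v := by
  obtain ⟨t1, ht1, hf⟩ := fuel_all h.ok
  have hZ : 0 < Zs := lt_of_lt_of_le one_pos h.Zs1
  have hK := h.ok.K0
  have hY := h.ok.Y0
  set M : ℝ := (1 + X.A) * X.Yp with hM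
  have hM0 : 0 ≤ M := h.tent.pt_AYp0
  set W : ℝ := 2 * (1 + 8 * (1 + 16 * P.Y ^ 4)) with hW
  have hW0 : 0 ≤ W := by positivity
  refine ⟨min t1 (1 / (3 * Zs)), 4 * π * (P.Y + 2) * M * P.K * W, lt_min ht1 (by positivity),
    by positivity, fun t ht htt x v => ?_⟩
  have hZt : Zs * t < 7 / 20 := by
    have h1 : t ≤ 1 / (3 * Zs) := htt.trans (min_le_right _ _)
    rw [le_div_iff₀ (by positivity)] at h1
    nlinarith
  obtain ⟨hf1, hf2⟩ := hf t ht (htt.trans (min_le_left _ _)) x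
  have hb : ∀ u, L.phiE P t x u * gsE (psiP X t x) v u ≤
      ENNReal.ofReal (4 * π * (P.Y + 2) * M) * ENNReal.ofReal (1 + ‖v‖) * L.phiE P t x u := by
    intro u
    by_cases hu : phi P t x u = 0
    · have : L.phiE P t x u = 0 := by unfold L.phiE; rw [hu, ENNReal.ofReal_zero]
      rw [this, zero_mul]; exact zero_le
    · have hun := (hf1 u hu).1
      have h1 : gsE (psiP X t x) v u ≤ gsE (fun _ => ENNReal.ofReal M) v u :=
        gsE_mono (fun w => pt_psiP_le h.tent h.supp ht hZt x w) v u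
      rw [gsE_const] at h1
      calc L.phiE P t x u * gsE (psiP X t x) v u
          ≤ L.phiE P t x u * (ENNReal.ofReal (4 * π * ‖v - u‖) * ENNReal.ofReal M) :=
            mul_le_mul_right h1 _
        _ ≤ L.phiE P t x u * (ENNReal.ofReal (4 * π * ((P.Y + 2) * (1 + ‖v‖))) *
            ENNReal.ofReal M) := by
            gcongr
            have h2 := norm_sub_le v u
            have h3 := norm_nonneg v
            nlinarith
        _ = _ := by
            rw [← ENNReal.ofReal_mul (by positivity), ← ENNReal.ofReal_mul (by positivity),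
              mul_comm]
            congr 2
            ring
  unfold GA
  calc ∫⁻ u, L.phiE P t x u * gsE (psiP X t x) v u
      ≤ ∫⁻ u, ENNReal.ofReal (4 * π * (P.Y + 2) * M) * ENNReal.ofReal (1 + ‖v‖) * L.phiE P t x u :=
        lintegral_mono hb
    _ = ENNReal.ofReal (4 * π * (P.Y + 2) * M) * ENNReal.ofReal (1 + ‖v‖) * ∫⁻ u, L.phiE P t x u :=
        lintegral_const_mul' _ _ (ENNReal.mul_ne_top ENNReal.ofReal_ne_top ENNReal.ofReal_ne_top)
    _ ≤ ENNReal.ofReal (4 * π * (P.Y + 2) * M) * (ENNReal.ofReal W * OmE P.Y C2 gp t x v) *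
        ENNReal.ofReal (P.K / t) := by
        gcongr
        exact pt_w1 hY.le hC2 hgp t x v
    _ = _ := by
        have e : 4 * π * (P.Y + 2) * M * P.K * W / t = 4 * π * (P.Y + 2) * M * (P.K / t) * W := by
          ring
        rw [e, ENNReal.ofReal_mul (p := 4 * π * (P.Y + 2) * M * (P.K / t)) (by positivity),
          ENNReal.ofReal_mul (p := 4 * π * (P.Y + 2) * M) (by positivity)]
        ring

/-! ### the seed set -/

/-- centre of the seed set in velocity -/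
def v00 : R3 := !₂[1, 0, 0]

theorem pt_norm_v00 : ‖v00‖ = 1 := by
  unfold v00
  rw [EuclideanSpace.norm_eq, Fin.sum_univ_three]
  simp

theorem pt_abs_coord (a : R3) (i : Fin 3) : |a i| ≤ ‖a‖ := by
  have := PiLp.norm_apply_le a i
  simpa [Real.norm_eq_abs] using this

/-- **(sg)** -/
theorem pt_sg {X : XP} {N Y ey : ℝ} (h : TentOK N X.A X.Yp Y ey X.e) (hB : 1 ≤ X.B) (hd : 0 < X.d)
    (hd8 : X.d ≤ 1 / 8) {t : ℝ} (ht : 0 < t) {x : P2} {v : R3} (hx : ‖x‖ ≤ t / 2)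
    (hv : ‖v - v00‖ ≤ 1 / 4) : 1 / 8 ≤ psi0 X t x v := by
  set z : P2 := t⁻¹ • x with hz
  have hzn : ‖z‖ ≤ 1 / 2 := by
    rw [hz, pt_norm_z ht, div_le_iff₀ ht]; linarith
  have hz1 : |z.1| ≤ 1 / 2 := (norm_fst_le z).trans hzn
  have hz2 : |z.2| ≤ 1 / 2 := (norm_snd_le z).trans hzn
  have c0 : |v 0 - 1| ≤ 1 / 4 := by
    have := (pt_abs_coord (v - v00) 0).trans hv
    simpa [v00] using this
  have c1 : |v 1| ≤ 1 / 4 := by
    have := (pt_abs_coord (v - v00) 1).trans hv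
    simpa [v00] using this
  have hvn : ‖v‖ ≤ 5 / 4 := by
    have := norm_sub_norm_le v v00
    rw [pt_norm_v00] at this
    linarith
  have hA := h.pt_A
  have hq : ‖fr z.2 v‖ ≤ 2 := by
    have := pt_norm_fr' z.2 v
    linarith
  have hq1 : (fr z.2 v) 1 = v 1 - z.2 := by simp [fr]
  have ht1 : 1 / 4 ≤ tent X.A X.Yp X.e z.2 (fr z.2 v) := by
    unfold tent
    have a1 := h.pt_AYp
    have a2 := h.e1
    have a3 := h.e0
    have a4 : ‖fr z.2 v‖ ^ 2 ≤ 4 := by
      have := norm_nonneg (fr z.2 v)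
      nlinarith
    have a5 : X.e * ‖fr z.2 v‖ ^ 2 ≤ X.e * 4 := mul_le_mul_of_nonneg_left a4 a3.le
    have a6 : |(1 + X.A) * z.2 + (fr z.2 v) 1| ≤ X.A / 2 + 1 / 4 := by
      rw [hq1]
      have e : (1 + X.A) * z.2 + (v 1 - z.2) = X.A * z.2 + v 1 := by ring
      rw [e]
      refine (abs_add_le _ _).trans ?_
      rw [abs_mul, abs_of_nonneg (by linarith : 0 ≤ X.A)]
      nlinarith
    nlinarith
  have ht2 : 1 / 4 ≤ tentp X.A X.Yp X.e z.2 (fr z.2 v) := ht1.trans (le_max_right _ _)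
  have hc : 9 / 16 ≤ cutB X.B z.1 := by
    unfold cutB
    have b1 : z.1 ^ 2 / X.B ^ 2 ≤ 1 / 4 := by
      rw [div_le_iff₀ (by positivity)]
      have : z.1 ^ 2 ≤ 1 / 4 := by
        rw [← sq_abs]
        have := abs_nonneg z.1
        nlinarith
      nlinarith
    have b2 : 3 / 4 ≤ max 0 (1 - z.1 ^ 2 / X.B ^ 2) := le_max_of_le_right (by linarith)
    nlinarith
  have hl : lamd X.d (v 0) = 1 := by
    unfold lamd
    obtain ⟨b1, b2⟩ := abs_le.1 c0
    have b3 : |v 0| = v 0 := abs_of_nonneg (by linarith)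
    have b4 : 1 ≤ |v 0| / X.d - 1 := by
      rw [b3, le_sub_iff_add_le, le_div_iff₀ hd]
      linarith
    rw [min_eq_left b4, max_eq_right zero_le_one]
  change 1 / 8 ≤ f0 X z v
  unfold f0
  rw [hl, mul_one]
  nlinarith


/-- **(sW)** -/
theorem pt_sW {Y C2 gp : ℝ} (hY : 0 ≤ Y) (hC2 : 0 ≤ C2) (hgp : 0 ≤ gp) : ∃ C : ℝ, 0 ≤ C ∧
    ∀ t : ℝ, 0 < t → ∀ (x : P2) (v : R3), distG x ≤ t / 2 → ‖v - v00‖ ≤ 1 / 4 →
      OmE Y C2 gp t x v ≤ ENNReal.ofReal C := by
  refine ⟨(1 + C2 * (2 + 2 * Y) + (2 + 2 * Y) ^ 12) * Real.exp (gp * 4), by positivity,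
    fun t ht x v hx hv => ?_⟩
  unfold OmE
  apply ENNReal.ofReal_le_ofReal
  have hvn : ‖v‖ ≤ 5 / 4 := by
    have := norm_sub_norm_le v v00
    rw [pt_norm_v00] at this
    linarith
  have hq : ‖fr (Yc Y t x) v‖ ≤ 2 + 2 * Y := by
    have h1 := pt_norm_fr' (Yc Y t x) v
    have h2 := abs_Yc_le hY t x
    linarith
  have hm : mm t x v ≤ 2 := by
    unfold mm
    apply max_le (by linarith)
    rw [div_le_iff₀ ht]; linarith
  have hm0 : 0 ≤ mm t x v := le_max_of_le_left (norm_nonneg _)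
  unfold Om hh
  have h1 := pt_abs_coord (fr (Yc Y t x) v) 1
  have h3 : mm t x v ^ 2 ≤ 4 := by nlinarith
  have h4 : C2 * |fr (Yc Y t x) v 1| ≤ C2 * (2 + 2 * Y) :=
    mul_le_mul_of_nonneg_left (h1.trans hq) hC2
  have h5 : ‖fr (Yc Y t x) v‖ ^ 12 ≤ (2 + 2 * Y) ^ 12 := pow_le_pow_left₀ (norm_nonneg _) hq 12
  have h6 : Real.exp (gp * mm t x v ^ 2) ≤ Real.exp (gp * 4) :=
    Real.exp_le_exp.2 (mul_le_mul_of_nonneg_left h3 hgp)
  have h7 : 0 ≤ C2 * |fr (Yc Y t x) v 1| := by positivity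
  exact mul_le_mul (by linarith) h6 (Real.exp_pos _).le (by positivity)

/-! ### the corrected test function -/

/-- `|gL - psi0| ≤ C t²`, support and bound of `gL`, from `corr_small` -/
theorem pt_gL {X : XP} {P : Par} {N Y ey d1 Zs Vs : ℝ} (h : LowOK X P Y ey N d1 Zs Vs) (Cg : ℝ)
    (hcs : ∃ t0 C : ℝ, 0 < t0 ∧ 0 ≤ C ∧ ∀ t, 0 < t → t ≤ t0 → ∀ x v,
      |corr X P d1 Zs Vs t x v| ≤ C * t ^ 2 ∧
      (corr X P d1 Zs Vs t x v ≠ 0 → ‖t⁻¹ • x‖ ≤ 2 * Zs ∧ ‖v‖ ≤ 2 * Vs)) :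
    ∃ t0 C : ℝ, 0 < t0 ∧ t0 ≤ 1 ∧ 0 ≤ C ∧ ∀ t, 0 < t → t ≤ t0 → ∀ x v,
      |gL X P d1 Zs Vs Cg t x v - psi0 X t x v| ≤ C * t ^ 2 ∧
      |gL X P d1 Zs Vs Cg t x v| ≤ C ∧
      (gL X P d1 Zs Vs Cg t x v ≠ 0 → ‖x‖ ≤ 4 * Zs * t ∧ ‖v‖ ≤ 4 * Vs ∧ ‖x‖ < 1 / 4) := by
  obtain ⟨t1, C1, ht1, hC1, hc⟩ := hcs
  have hZ : 0 < Zs := lt_of_lt_of_le one_pos h.Zs1
  have hV : 0 < Vs := lt_of_lt_of_le one_pos h.Vs1
  set M : ℝ := (1 + X.A) * X.Yp with hM
  have hM0 : 0 ≤ M := h.tent.pt_AYp0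
  refine ⟨min 1 (min t1 (1 / (17 * Zs))), C1 + |Cg| + M, lt_min one_pos (lt_min ht1 (by positivity)),
    min_le_left _ _, by positivity, fun t ht htt x v => ?_⟩
  have htle1 : t ≤ 1 := htt.trans (min_le_left _ _)
  obtain ⟨h1, h2⟩ := hc t ht (htt.trans ((min_le_right _ _).trans (min_le_left _ _))) x v
  have hZt : 4 * Zs * t < 1 / 4 := by
    have h3 : t ≤ 1 / (17 * Zs) := htt.trans ((min_le_right _ _).trans (min_le_right _ _))
    rw [le_div_iff₀ (by positivity)] at h3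
    nlinarith
  have hr0 := pt_ramp_nonneg (‖t⁻¹ • x‖ / (2 * Zs))
  have hr1 := pt_ramp_le_one (‖t⁻¹ • x‖ / (2 * Zs))
  have hs0 := pt_ramp_nonneg (‖v‖ / (2 * Vs))
  have hs1 := pt_ramp_le_one (‖v‖ / (2 * Vs))
  have hrs0 : 0 ≤ ramp (‖t⁻¹ • x‖ / (2 * Zs)) * ramp (‖v‖ / (2 * Vs)) := mul_nonneg hr0 hs0
  have hrs1 : ramp (‖t⁻¹ • x‖ / (2 * Zs)) * ramp (‖v‖ / (2 * Vs)) ≤ 1 := by nlinarith
  have hdiff : |gL X P d1 Zs Vs Cg t x v - psi0 X t x v| ≤ (C1 + |Cg|) * t ^ 2 := by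
    have e : gL X P d1 Zs Vs Cg t x v - psi0 X t x v = corr X P d1 Zs Vs t x v +
        Cg * t ^ 2 * (ramp (‖t⁻¹ • x‖ / (2 * Zs)) * ramp (‖v‖ / (2 * Vs))) := by
      unfold gL; ring
    rw [e]
    refine (abs_add_le _ _).trans ?_
    have h3 : |Cg * t ^ 2 * (ramp (‖t⁻¹ • x‖ / (2 * Zs)) * ramp (‖v‖ / (2 * Vs)))| ≤
        |Cg| * t ^ 2 := by
      rw [abs_mul, abs_mul, abs_of_nonneg hrs0, abs_of_nonneg (sq_nonneg t)]
      have : 0 ≤ |Cg| * t ^ 2 := by positivity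
      nlinarith
    linarith
  have hpsi0 := pt_psi0_nonneg X t x v
  have hpsi1 : psi0 X t x v ≤ M := pt_psi0_le h.tent t x v
  have ht2 : t ^ 2 ≤ 1 := by nlinarith
  have hCC : 0 ≤ C1 + |Cg| := by positivity
  refine ⟨?_, ?_, ?_⟩
  · refine hdiff.trans ?_
    nlinarith [sq_nonneg t]
  · have h3 : |gL X P d1 Zs Vs Cg t x v| ≤
        |gL X P d1 Zs Vs Cg t x v - psi0 X t x v| + |psi0 X t x v| := by
      have := abs_add_le (gL X P d1 Zs Vs Cg t x v - psi0 X t x v) (psi0 X t x v)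
      rwa [sub_add_cancel] at this
    rw [abs_of_nonneg hpsi0] at h3
    nlinarith
  · intro hne
    have key : ‖x‖ ≤ 4 * Zs * t ∧ ‖v‖ ≤ 4 * Vs := by
      by_contra hcon
      apply hne
      have hcor : corr X P d1 Zs Vs t x v = 0 := by
        by_contra h0
        obtain ⟨a1, a2⟩ := h2 h0
        rw [pt_norm_z ht, div_le_iff₀ ht] at a1
        exact hcon ⟨by nlinarith, by linarith⟩
      have hps : psi0 X t x v = 0 := by
        by_contra h0
        obtain ⟨a1, a2⟩ := pt_psi0_supp h.supp ht h0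
        exact hcon ⟨by nlinarith, by linarith⟩
      have hrr : ramp (‖t⁻¹ • x‖ / (2 * Zs)) * ramp (‖v‖ / (2 * Vs)) = 0 := by
        by_contra h0
        have a1 : ¬ 2 ≤ ‖t⁻¹ • x‖ / (2 * Zs) := fun hh => h0 (by rw [pt_ramp_zero hh, zero_mul])
        have a2 : ¬ 2 ≤ ‖v‖ / (2 * Vs) := fun hh => h0 (by rw [pt_ramp_zero hh, mul_zero])
        rw [not_le, div_lt_iff₀ (by positivity)] at a1 a2
        rw [pt_norm_z ht, div_lt_iff₀ ht] at a1
        exact hcon ⟨by nlinarith, by linarith⟩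
      unfold gL
      rw [hcor, hps, hrr]
      ring
    exact ⟨key.1, key.2, lt_of_le_of_lt key.1 hZt⟩

/-- **(gs, gb)** in `ℝ≥0∞` form, `g = ofReal gL` -/
theorem pt_gE {X : XP} {P : Par} {N Y ey d1 Zs Vs : ℝ} (h : LowOK X P Y ey N d1 Zs Vs) (Cg : ℝ)
    (hcs : ∃ t0 C : ℝ, 0 < t0 ∧ 0 ≤ C ∧ ∀ t, 0 < t → t ≤ t0 → ∀ x v,
      |corr X P d1 Zs Vs t x v| ≤ C * t ^ 2 ∧
      (corr X P d1 Zs Vs t x v ≠ 0 → ‖t⁻¹ • x‖ ≤ 2 * Zs ∧ ‖v‖ ≤ 2 * Vs)) :
    ∃ t0 C : ℝ, 0 < t0 ∧ t0 ≤ 1 ∧ 0 ≤ C ∧ ∀ t, 0 < t → t ≤ t0 → ∀ x v,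
      ENNReal.ofReal (gL X P d1 Zs Vs Cg t x v) ≤ ENNReal.ofReal C ∧
      (1 / 4 ≤ ‖x‖ → ENNReal.ofReal (gL X P d1 Zs Vs Cg t x v) = 0) ∧
      (4 * Zs * t < ‖x‖ → ENNReal.ofReal (gL X P d1 Zs Vs Cg t x v) = 0) ∧
      psiE X t x v ≤ ENNReal.ofReal (gL X P d1 Zs Vs Cg t x v) + ENNReal.ofReal (C * t ^ 2) *
        (if ‖x‖ < 1 / 4 then 1 else 0) ∧
      ENNReal.ofReal (gL X P d1 Zs Vs Cg t x v) ≤ psiE X t x v + ENNReal.ofReal (C * t ^ 2) *
        (if ‖x‖ < 1 / 4 then 1 else 0) := by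
  obtain ⟨t0, C, ht0, ht01, hC, hg⟩ := pt_gL h Cg hcs
  have hZ : 0 < Zs := lt_of_lt_of_le one_pos h.Zs1
  refine ⟨min t0 (1 / (17 * Zs)), C, lt_min ht0 (by positivity), (min_le_left _ _).trans ht01, hC,
    fun t ht htt x v => ?_⟩
  obtain ⟨a1, a2, a3⟩ := hg t ht (htt.trans (min_le_left _ _)) x v
  have hZt : 4 * Zs * t < 1 / 4 := by
    have h3 : t ≤ 1 / (17 * Zs) := htt.trans (min_le_right _ _)
    rw [le_div_iff₀ (by positivity)] at h3
    nlinarith
  obtain ⟨b1, b2⟩ := abs_le.1 a1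
  have hCt : 0 ≤ C * t ^ 2 := by positivity
  refine ⟨ENNReal.ofReal_le_ofReal ((le_abs_self _).trans a2), ?_, ?_, ?_, ?_⟩
  · intro hx
    have : gL X P d1 Zs Vs Cg t x v = 0 := by
      by_contra h0
      exact absurd (a3 h0).2.2 (not_lt.2 hx)
    rw [this, ENNReal.ofReal_zero]
  · intro hx
    have : gL X P d1 Zs Vs Cg t x v = 0 := by
      by_contra h0
      exact absurd (a3 h0).1 (not_le.2 hx)
    rw [this, ENNReal.ofReal_zero]
  · by_cases hx : ‖x‖ < 1 / 4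
    · rw [if_pos hx, mul_one]
      unfold psiE
      refine le_trans (ENNReal.ofReal_le_ofReal (show psi0 X t x v ≤
        gL X P d1 Zs Vs Cg t x v + C * t ^ 2 by linarith)) ENNReal.ofReal_add_le
    · have : psi0 X t x v = 0 := by
        by_contra h0
        have := (pt_psi0_supp h.supp ht h0).1
        apply hx
        nlinarith
      unfold psiE
      rw [this, ENNReal.ofReal_zero]
      exact zero_le
  · by_cases hx : ‖x‖ < 1 / 4
    · rw [if_pos hx, mul_one]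
      unfold psiE
      refine le_trans (ENNReal.ofReal_le_ofReal (show gL X P d1 Zs Vs Cg t x v ≤
        psi0 X t x v + C * t ^ 2 by linarith)) ENNReal.ofReal_add_le
    · have : gL X P d1 Zs Vs Cg t x v = 0 := by
        by_contra h0
        exact hx (a3 h0).2.2
      rw [this, ENNReal.ofReal_zero]
      exact zero_le

/-- `gL` on the seed set -/
theorem pt_sg_gL {X : XP} {P : Par} {N Y ey d1 Zs Vs : ℝ} (h : LowOK X P Y ey N d1 Zs Vs)
    (hd8 : X.d ≤ 1 / 8) (Cg : ℝ)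
    (hcs : ∃ t0 C : ℝ, 0 < t0 ∧ 0 ≤ C ∧ ∀ t, 0 < t → t ≤ t0 → ∀ x v,
      |corr X P d1 Zs Vs t x v| ≤ C * t ^ 2 ∧
      (corr X P d1 Zs Vs t x v ≠ 0 → ‖t⁻¹ • x‖ ≤ 2 * Zs ∧ ‖v‖ ≤ 2 * Vs)) :
    ∃ t0 : ℝ, 0 < t0 ∧ ∀ t, 0 < t → t ≤ t0 → ∀ (x : P2) (v : R3), ‖x‖ ≤ t / 2 →
      ‖v - v00‖ ≤ 1 / 4 → 1 / 16 ≤ gL X P d1 Zs Vs Cg t x v := by
  obtain ⟨t0, C, ht0, ht01, hC, hg⟩ := pt_gL h Cg hcs
  refine ⟨min t0 (1 / (16 * (C + 1))), lt_min ht0 (by positivity), fun t ht htt x v hx hv => ?_⟩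
  obtain ⟨a1, -, -⟩ := hg t ht (htt.trans (min_le_left _ _)) x v
  have h1 := pt_sg h.tent h.B1 h.d0 hd8 ht hx hv
  obtain ⟨b1, b2⟩ := abs_le.1 a1
  have h2 : t ≤ 1 / (16 * (C + 1)) := htt.trans (min_le_right _ _)
  rw [le_div_iff₀ (by positivity)] at h2
  have h3 : t ≤ 1 := (htt.trans (min_le_left _ _)).trans ht01
  have h4 : C * t ^ 2 ≤ 1 / 16 := by nlinarith
  linarith

/-- the pointwise fields of `SeedData` with one constant -/
theorem pt_fields {X : XP} {P : Par} {N Y ey d1 Zs Vs : ℝ} (h : LowOK X P Y ey N d1 Zs Vs)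
    (hd8 : X.d ≤ 1 / 8) {C2 gp : ℝ} (hC2 : 0 ≤ C2) (hgp : 0 ≤ gp) (Cg : ℝ)
    (hcs : ∃ t0 C : ℝ, 0 < t0 ∧ 0 ≤ C ∧ ∀ t, 0 < t → t ≤ t0 → ∀ x v,
      |corr X P d1 Zs Vs t x v| ≤ C * t ^ 2 ∧
      (corr X P d1 Zs Vs t x v ≠ 0 → ‖t⁻¹ • x‖ ≤ 2 * Zs ∧ ‖v‖ ≤ 2 * Vs)) :
    ∃ t0 C : ℝ, 0 < t0 ∧ t0 ≤ 1 ∧ 0 ≤ C ∧ ∀ t, 0 < t → t ≤ t0 → ∀ (x : P2) (v : R3),
      (GA (L.phiE P) (psiP X) t x v ≤ ENNReal.ofReal (C / t) * OmE P.Y C2 gp t x v) ∧
      (1 / 4 < ‖x‖ → ENNReal.ofReal (gL X P d1 Zs Vs Cg t x v) = 0) ∧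
      (ENNReal.ofReal (gL X P d1 Zs Vs Cg t x v) ≤
        ENNReal.ofReal C * ENNReal.ofReal (1 + ‖v‖ ^ 4)) ∧
      (ENNReal.ofReal (1 + ‖v‖ ^ 4) ≤ ENNReal.ofReal C * OmE P.Y C2 gp t x v) ∧
      (‖x‖ ≤ t / 2 → ‖v - v00‖ ≤ 1 / 4 →
        ENNReal.ofReal (1 / 16) ≤ ENNReal.ofReal (gL X P d1 Zs Vs Cg t x v)) ∧
      (distG x ≤ t / 2 → ‖v - v00‖ ≤ 1 / 4 → OmE P.Y C2 gp t x v ≤ ENNReal.ofReal C) := by
  have hY := h.ok.Y0
  obtain ⟨ta, Ca, hta, hCa, ha⟩ := pt_crude h hC2 hgp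
  obtain ⟨tb, Cb, htb, htb1, hCb, hb⟩ := pt_gE h Cg hcs
  obtain ⟨tc, htc, hc⟩ := pt_sg_gL h hd8 Cg hcs
  obtain ⟨Cd, hCd, hd⟩ := pt_sW (Y := P.Y) hY.le hC2 hgp
  set Ce : ℝ := 1 + 8 * (1 + 16 * P.Y ^ 4) with hCe
  have hCe0 : 0 ≤ Ce := by positivity
  refine ⟨min ta (min tb tc), Ca + Cb + Cd + Ce, lt_min hta (lt_min htb htc),
    (min_le_right _ _).trans ((min_le_left _ _).trans htb1), by positivity,
    fun t ht htt x v => ⟨?_, ?_, ?_, ?_, ?_, ?_⟩⟩
  · refine (ha t ht (htt.trans (min_le_left _ _)) x v).trans (mul_le_mul_left ?_ _)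
    apply ENNReal.ofReal_le_ofReal
    gcongr
    linarith
  · intro hx
    exact (hb t ht (htt.trans ((min_le_right _ _).trans (min_le_left _ _))) x v).2.1 hx.le
  · refine (hb t ht (htt.trans ((min_le_right _ _).trans (min_le_left _ _))) x v).1.trans ?_
    rw [← ENNReal.ofReal_mul (by positivity)]
    apply ENNReal.ofReal_le_ofReal
    have : 0 ≤ ‖v‖ ^ 4 := by positivity
    nlinarith
  · refine (pt_w4 hY.le hC2 hgp t x v).trans (mul_le_mul_left ?_ _)
    apply ENNReal.ofReal_le_ofReal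
    linarith
  · intro hx hv
    exact ENNReal.ofReal_le_ofReal
      (hc t ht (htt.trans ((min_le_right _ _).trans (min_le_right _ _))) x v hx hv)
  · intro hx hv
    refine (hd t ht x v hx hv).trans (ENNReal.ofReal_le_ofReal ?_)
    linarith

end Crest.Agent.R68.X2
end
end

-- ▼ part R68/X2Meas2

/-!
# Row 68, PART X2: measurability, periodicity, support, bounds, second part (helper60)
-/

set_option autoImplicit false
open MeasureTheory Set Filter
open scoped ENNReal Real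
open Crest.AnalysisR.VecCalc3 Crest.AnalysisR.PDE.Boltzmann

noncomputable section

namespace Crest.Agent.R68.X2.M60

open Crest.Agent.R68.X2 Crest.Agent.R68.X2.Flt60

open Crest.Agent.R68.L (Den phiE Gf Dam TL sol)
open Crest.Agent.R68.A (Meas3)
open Crest.Agent.R68.X (chs Cs)

/-! ### the transport gains -/

theorem measurable_Yc3 (Y : ℝ) : Measurable fun p : ℝ × P2 × R3 => Yc Y p.1 p.2.1 := by
  have h := (measurable_Yc Y).comp
    (measurable_fst.prodMk (measurable_fst.comp measurable_snd) :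
      Measurable fun p : ℝ × P2 × R3 => ((p.1, p.2.1) : ℝ × P2))
  exact h

theorem measurable_fr3 (Y : ℝ) : Measurable fun p : ℝ × P2 × R3 => fr (Yc Y p.1 p.2.1) p.2.2 :=
  measurable_fr (measurable_Yc3 Y) (measurable_snd.comp measurable_snd)

theorem measurable_distG3 : Measurable fun p : ℝ × P2 × R3 => distG p.2.1 :=
  measurable_distG.comp (measurable_fst.comp measurable_snd)

theorem meas3_kap1 (Y C2 gp : ℝ) : Meas3 (kap1 Y C2 gp) := by
  have h1 := measurable_Yc3 Y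
  have h2 : Measurable fun p : ℝ × P2 × R3 => fr (Yc Y p.1 p.2.1) p.2.2 1 := by
    have h3 : Continuous fun q : R3 => q 1 := by fun_prop
    exact h3.measurable.comp (measurable_fr3 Y)
  have h4 : Measurable fun p : ℝ × P2 × R3 => C2 * |fr (Yc Y p.1 p.2.1) p.2.2 1| / p.1 *
      Real.exp (gp * mm p.1 p.2.1 p.2.2 ^ 2) :=
    (((continuous_abs.measurable.comp h2).const_mul C2).div measurable_fst).mul
      (Real.measurable_exp.comp ((measurable_mm.pow_const 2).const_mul gp))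
  have hs : MeasurableSet {p : ℝ × P2 × R3 | distG p.2.1 < 1 / 8 ∧ |Yc Y p.1 p.2.1| < 2 * Y} :=
    (measurableSet_lt measurable_distG3 measurable_const).inter
      (measurableSet_lt (continuous_abs.measurable.comp h1) measurable_const)
  exact Measurable.ite hs h4.ennreal_ofReal measurable_const

theorem meas3_kap2 (Y C2 gp Z1 : ℝ) : Meas3 (kap2 Y C2 gp Z1) := by
  have h1 : Measurable fun p : ℝ × P2 × R3 => distG p.2.1 / p.1 :=
    measurable_distG3.div measurable_fst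
  have h4 : Measurable fun p : ℝ × P2 × R3 => gp / 2 * (distG p.2.1 / p.1) ^ 2 / p.1 *
      Om Y C2 gp p.1 p.2.1 p.2.2 :=
    ((((h1.pow_const 2).const_mul (gp / 2)).div measurable_fst)).mul (measurable_Om Y C2 gp)
  have h5 : Measurable fun p : ℝ × P2 × R3 => 2 * ‖p.2.2‖ :=
    ((measurable_snd.comp measurable_snd).norm).const_mul 2
  have hs : MeasurableSet {p : ℝ × P2 × R3 | 2 * ‖p.2.2‖ ≤ distG p.2.1 / p.1 ∧
      Z1 ≤ distG p.2.1 / p.1} :=
    (measurableSet_le h5 h1).inter (measurableSet_le measurable_const h1)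
  exact Measurable.ite hs h4.ennreal_ofReal measurable_const

theorem perG_kap1 (Y C2 gp t : ℝ) (v : R3) : PerG fun x => kap1 Y C2 gp t x v := by
  intro x k
  show kap1 Y C2 gp t (x + latt k) v = kap1 Y C2 gp t x v
  unfold kap1
  rw [Yc_add_latt, mm_add_latt, distG_add_latt]

theorem perG_kap2 (Y C2 gp Z1 t : ℝ) (v : R3) : PerG fun x => kap2 Y C2 gp Z1 t x v := by
  intro x k
  show kap2 Y C2 gp Z1 t (x + latt k) v = kap2 Y C2 gp Z1 t x v
  unfold kap2 Om
  rw [Yc_add_latt, mm_add_latt, distG_add_latt]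



/-! ### size and support of `f0`, `L0` -/

theorem cutB_nonneg (B w : ℝ) : 0 ≤ cutB B w := by unfold cutB; positivity

theorem cutB_le_one (B w : ℝ) : cutB B w ≤ 1 := by
  unfold cutB
  have h1 : max 0 (1 - w ^ 2 / B ^ 2) ≤ 1 := max_le zero_le_one (by
    have : 0 ≤ w ^ 2 / B ^ 2 := by positivity
    linarith)
  have h2 : 0 ≤ max 0 (1 - w ^ 2 / B ^ 2) := le_max_left _ _
  nlinarith

theorem lamd_nonneg (d a : ℝ) : 0 ≤ lamd d a := le_max_left _ _

theorem lamd_le_one (d a : ℝ) : lamd d a ≤ 1 := max_le zero_le_one (min_le_left _ _)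

theorem ramp_nonneg (r : ℝ) : 0 ≤ ramp r := le_max_left _ _

theorem ramp_le_one (r : ℝ) : ramp r ≤ 1 := max_le zero_le_one (min_le_left _ _)

theorem ramp_zero {r : ℝ} (h : 2 ≤ r) : ramp r = 0 := by
  unfold ramp
  rw [max_eq_left]
  exact (min_le_right _ _).trans (by linarith)

theorem ramp_one {r : ℝ} (h : r ≤ 1) : ramp r = 1 := by
  unfold ramp
  rw [min_eq_left (by linarith), max_eq_right zero_le_one]

theorem tent_le (A Yp e y : ℝ) (he : 0 ≤ e) (q : R3) : tent A Yp e y q ≤ (1 + A) * Yp := by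
  unfold tent
  have h1 := abs_nonneg ((1 + A) * y + q 1)
  have h2 : 0 ≤ e * ‖q‖ ^ 2 := by positivity
  linarith

theorem f0_nonneg (X : XP) (z : P2) (v : R3) : 0 ≤ f0 X z v :=
  mul_nonneg (mul_nonneg (le_max_left _ _) (cutB_nonneg _ _)) (lamd_nonneg _ _)

theorem f0_le (X : XP) (he : 0 ≤ X.e) (z : P2) (v : R3) :
    f0 X z v ≤ max 0 ((1 + X.A) * X.Yp) := by
  unfold f0 tentp
  have h1 : max 0 (tent X.A X.Yp X.e z.2 (fr z.2 v)) ≤ max 0 ((1 + X.A) * X.Yp) :=
    max_le_max le_rfl (tent_le _ _ _ _ he _)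
  have h0 : 0 ≤ max 0 (tent X.A X.Yp X.e z.2 (fr z.2 v)) := le_max_left _ _
  calc max 0 (tent X.A X.Yp X.e z.2 (fr z.2 v)) * cutB X.B z.1 * lamd X.d (v 0)
      ≤ max 0 (tent X.A X.Yp X.e z.2 (fr z.2 v)) * 1 * 1 := by
        refine mul_le_mul (mul_le_mul_of_nonneg_left (cutB_le_one _ _) h0) (lamd_le_one _ _)
          (lamd_nonneg _ _) (by rw [mul_one]; exact h0)
    _ ≤ _ := by rw [mul_one, mul_one]; exact h1

/-- `L0` vanishes where `f0` does -/
theorem f0_ne_of_L0 {X : XP} {z : P2} {v : R3} (h : L0 X z v ≠ 0) : f0 X z v ≠ 0 := by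
  unfold L0 at h
  split_ifs at h with h0
  · intro h1
    unfold f0 tentp at h1
    rw [max_eq_right h0.le, mul_eq_zero, mul_eq_zero] at h1
    rcases h1 with (h1 | h1) | h1
    · exact h0.ne' h1
    · apply h
      have h2 : max 0 (1 - z.1 ^ 2 / X.B ^ 2) = 0 := by
        unfold cutB at h1
        exact pow_eq_zero_iff (two_ne_zero) |>.1 h1
      rw [h1, h2]; ring
    · apply h
      rw [h1]; ring
  · exact absurd rfl h

/-- pointwise bound of `L0` in terms of `‖z‖`, `‖v‖` -/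
theorem abs_L0_le' (X : XP) (hA : 0 ≤ X.A) (he : 0 ≤ X.e) (hB : 1 ≤ X.B) (z : P2) (v : R3) {R : ℝ}
    (hz : ‖z‖ ≤ R) (hv : ‖v‖ ≤ R) :
    |L0 X z v| ≤ X.A * (2 * R) + 2 * X.e * (2 * R) ^ 2 + max 0 ((1 + X.A) * X.Yp) * (8 * R ^ 2) := by
  have hR : 0 ≤ R := (norm_nonneg _).trans hz
  have hz2 : |z.2| ≤ R := (norm_snd_le z).trans hz
  have hz1 : |z.1| ≤ R := (norm_fst_le z).trans hz
  have hv1 : |v 1| ≤ R := (PiLp.norm_apply_le v 1).trans hv
  have hv0 : |v 0| ≤ R := (PiLp.norm_apply_le v 0).trans hv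
  have hq : |fr z.2 v 1| ≤ 2 * R := by
    rw [fr_one]
    exact (abs_sub _ _).trans (by linarith)
  by_cases hT : 0 < tent X.A X.Yp X.e z.2 (fr z.2 v)
  · refine (abs_L0_le X z v).trans ?_
    have e1 : |2 * X.e * (fr z.2 v 1) ^ 2| ≤ 2 * X.e * (2 * R) ^ 2 := by
      rw [abs_of_nonneg (by positivity), ← sq_abs (fr z.2 v 1)]
      gcongr
    have e2 : |cutB X.B z.1| ≤ 1 := by
      rw [abs_of_nonneg (cutB_nonneg _ _)]; exact cutB_le_one _ _
    have e3 : |tent X.A X.Yp X.e z.2 (fr z.2 v)| ≤ max 0 ((1 + X.A) * X.Yp) := by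
      rw [abs_of_pos hT]
      exact (tent_le _ _ _ _ he _).trans (le_max_right _ _)
    have e4 : |2 * max 0 (1 - z.1 ^ 2 / X.B ^ 2) * (-(2 * z.1 * (v 0 - z.1) / X.B ^ 2))| ≤
        8 * R ^ 2 := by
      rw [abs_mul, abs_neg, abs_div]
      have f1 : |2 * max 0 (1 - z.1 ^ 2 / X.B ^ 2)| ≤ 2 := by
        rw [abs_of_nonneg (by positivity)]
        have : max 0 (1 - z.1 ^ 2 / X.B ^ 2) ≤ 1 := max_le zero_le_one (by
          have : 0 ≤ z.1 ^ 2 / X.B ^ 2 := by positivity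
          linarith)
        linarith
      have f2 : |v 0 - z.1| ≤ 2 * R := (abs_sub _ _).trans (by linarith)
      have f5 : |2 * z.1 * (v 0 - z.1)| ≤ 4 * R ^ 2 := by
        rw [abs_mul, abs_mul, abs_of_pos (by norm_num : (0 : ℝ) < 2)]
        calc 2 * |z.1| * |v 0 - z.1| ≤ 2 * R * (2 * R) := by gcongr
          _ = 4 * R ^ 2 := by ring
      have f3 : |2 * z.1 * (v 0 - z.1)| / |X.B ^ 2| ≤ 4 * R ^ 2 := by
        rw [abs_of_pos (by positivity : 0 < X.B ^ 2), div_le_iff₀ (by positivity)]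
        have hB2 : 1 ≤ X.B ^ 2 := one_le_pow₀ hB
        calc |2 * z.1 * (v 0 - z.1)| ≤ 4 * R ^ 2 * 1 := by rw [mul_one]; exact f5
          _ ≤ 4 * R ^ 2 * X.B ^ 2 := by gcongr
      calc |2 * max 0 (1 - z.1 ^ 2 / X.B ^ 2)| * (|2 * z.1 * (v 0 - z.1)| / |X.B ^ 2|)
          ≤ 2 * (4 * R ^ 2) := mul_le_mul f1 f3 (by positivity) (by norm_num)
        _ = 8 * R ^ 2 := by ring
    have e5 : |lamd X.d (v 0)| ≤ 1 := by
      rw [abs_of_nonneg (lamd_nonneg _ _)]; exact lamd_le_one _ _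
    have e6 : |X.A| = X.A := abs_of_nonneg hA
    rw [e6]
    calc ((X.A * |fr z.2 v 1| + |2 * X.e * (fr z.2 v 1) ^ 2|) * |cutB X.B z.1| +
          |tent X.A X.Yp X.e z.2 (fr z.2 v)| *
            |2 * max 0 (1 - z.1 ^ 2 / X.B ^ 2) * (-(2 * z.1 * (v 0 - z.1) / X.B ^ 2))|) *
          |lamd X.d (v 0)|
        ≤ ((X.A * (2 * R) + 2 * X.e * (2 * R) ^ 2) * 1 +
          max 0 ((1 + X.A) * X.Yp) * (8 * R ^ 2)) * 1 := by
          gcongr
      _ = _ := by ring
  · have : L0 X z v = 0 := by unfold L0; rw [if_neg hT]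
    rw [this, abs_zero]
    positivity

/-! ### support and size of `osc`, `corr`, `gL`, `Lg` -/

theorem norm_us_le {s : ℝ} (hs : s = 1 ∨ s = -1) (y : ℝ) : ‖us y s‖ ≤ |y| + 1 := by
  have h1 : us y s = !₂[0, y, 0] + !₂[0, 0, s] := by
    unfold us
    ext i
    fin_cases i <;> simp
  have h2 : ‖(!₂[0, y, 0] : R3)‖ = |y| := by
    rw [EuclideanSpace.norm_eq, Fin.sum_univ_three]
    simp [Real.sqrt_sq_eq_abs]
  have h3 : ‖(!₂[0, 0, s] : R3)‖ = 1 := by
    rw [EuclideanSpace.norm_eq, Fin.sum_univ_three]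
    rcases hs with rfl | rfl <;> simp
  rw [h1]
  exact (norm_add_le _ _).trans (by rw [h2, h3])

theorem abs_ws_le {X : XP} (he : 0 ≤ X.e) {d1 : ℝ} (hd : 0 ≤ d1) (hd1 : d1 ≤ 1) (ρ : ℝ) {s : ℝ}
    (hs : s = 1 ∨ s = -1) (z : P2) (v : R3) :
    |ws X d1 ρ s z v| ≤ |ρ| * (6 * π * (‖v‖ + ‖z‖ + 1) * max 0 ((1 + X.A) * X.Yp)) := by
  set F := max 0 ((1 + X.A) * X.Yp) with hF
  have hF0 : 0 ≤ F := le_max_left _ _
  have hpi := Real.pi_pos
  have hm : Measurable (f0 X z) :=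
    (measurable_f0 X).comp (f := fun w : R3 => (z, w)) (by fun_prop)
  have h1 : |gsR (f0 X z) v (us z.2 s)| ≤ 4 * π * ‖v - us z.2 s‖ * F :=
    abs_gsR_le hm fun w _ => by rw [abs_of_nonneg (f0_nonneg X z w)]; exact f0_le X he z w
  have h2 : ‖v - us z.2 s‖ ≤ ‖v‖ + ‖z‖ + 1 := by
    have h3 := norm_us_le hs z.2
    have h4 : |z.2| ≤ ‖z‖ := norm_snd_le z
    linarith [norm_sub_le v (us z.2 s)]
  unfold ws
  rw [abs_mul]
  refine mul_le_mul_of_nonneg_left ?_ (abs_nonneg _)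
  refine (abs_sub _ _).trans ?_
  rw [abs_mul, abs_mul (2 * π * ‖v - us z.2 s‖), abs_of_nonneg (by linarith : 0 ≤ 1 - d1),
    abs_of_nonneg (by positivity : 0 ≤ 2 * π * ‖v - us z.2 s‖), abs_of_nonneg (f0_nonneg X z v)]
  have h5 : (1 - d1) * |gsR (f0 X z) v (us z.2 s)| ≤ 1 * (4 * π * ‖v - us z.2 s‖ * F) :=
    mul_le_mul (by linarith) h1 (abs_nonneg _) zero_le_one
  have h6 : 2 * π * ‖v - us z.2 s‖ * f0 X z v ≤ 2 * π * ‖v - us z.2 s‖ * F :=
    mul_le_mul_of_nonneg_left (f0_le X he z v) (by positivity)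
  have h7 : 6 * π * ‖v - us z.2 s‖ * F ≤ 6 * π * (‖v‖ + ‖z‖ + 1) * F := by gcongr
  linarith

theorem th_zero {X : XP} {Zs Vs : ℝ} (hZ : 0 < Zs) (hV : 0 < Vs) {z : P2} {v : R3}
    (h : 2 * Zs ≤ ‖z‖ ∨ 2 * Vs ≤ ‖v‖) : th X Zs Vs z v = 0 := by
  unfold th
  rcases h with h | h
  · rw [ramp_zero (by rw [le_div_iff₀ hZ]; exact h)]; ring
  · rw [ramp_zero (r := ‖v‖ / Vs) (by rw [le_div_iff₀ hV]; exact h)]; ring

theorem th_nonneg (X : XP) (Zs Vs : ℝ) (z : P2) (v : R3) : 0 ≤ th X Zs Vs z v :=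
  mul_nonneg (mul_nonneg (ramp_nonneg _) (ramp_nonneg _)) (lamd_nonneg _ _)

theorem th_le_one (X : XP) (Zs Vs : ℝ) (z : P2) (v : R3) : th X Zs Vs z v ≤ 1 := by
  unfold th
  have h1 := ramp_nonneg (‖z‖ / Zs)
  have h2 := ramp_nonneg (‖v‖ / Vs)
  have h3 := lamd_nonneg (X.d / 2) (v 0)
  calc ramp (‖z‖ / Zs) * ramp (‖v‖ / Vs) * lamd (X.d / 2) (v 0) ≤ 1 * 1 * 1 := by
        gcongr
        · exact ramp_le_one _
        · exact ramp_le_one _
        · exact lamd_le_one _ _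
    _ = 1 := by norm_num

theorem osc_zero {X : XP} {P : Par} {d1 Zs Vs s : ℝ} (hZ : 0 < Zs) (hV : 0 < Vs) {t : ℝ} {x : P2}
    {v : R3} (h : 2 * Zs ≤ ‖t⁻¹ • x‖ ∨ 2 * Vs ≤ ‖v‖) : osc X P d1 Zs Vs s t x v = 0 := by
  unfold osc
  rw [th_zero hZ hV h]; ring

theorem abs_osc_le {X : XP} {P : Par} {d1 Zs Vs s : ℝ} (he : 0 ≤ X.e) (hK : 0 ≤ P.K)
    (hd : 0 ≤ d1) (hd1 : d1 ≤ 1) (hZ : 0 < Zs) (hV : 0 < Vs) (hs : s = 1 ∨ s = -1) {t : ℝ}
    (ht : 0 < t) (x : P2) (v : R3) : |osc X P d1 Zs Vs s t x v| ≤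
      t⁻¹ * (P.K * (6 * π * (2 * Vs + 2 * Zs + 1) * max 0 ((1 + X.A) * X.Yp))) := by
  set F := max 0 ((1 + X.A) * X.Yp) with hF
  have hF0 : 0 ≤ F := le_max_left _ _
  have hpi := Real.pi_pos
  by_cases h : 2 * Zs ≤ ‖t⁻¹ • x‖ ∨ 2 * Vs ≤ ‖v‖
  · rw [osc_zero hZ hV h, abs_zero]; positivity
  · push Not at h
    unfold osc
    rw [abs_mul, abs_mul, abs_of_pos (inv_pos.2 ht), abs_of_nonneg (th_nonneg _ _ _ _ _)]
    have h1 := abs_ws_le (X := X) he hd hd1 (P.K * ky P (t⁻¹ • x).2) hs (t⁻¹ • x) v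
    have h2 : |P.K * ky P (t⁻¹ • x).2| ≤ P.K := by
      rw [abs_of_nonneg (mul_nonneg hK (Fuel.ky_nonneg _ _))]
      exact mul_le_of_le_one_right hK (Fuel.ky_le_one _ _)
    have h3 : |ws X d1 (P.K * ky P (t⁻¹ • x).2) s (t⁻¹ • x) v| ≤
        P.K * (6 * π * (2 * Vs + 2 * Zs + 1) * F) := by
      refine h1.trans ?_
      have h4 : ‖v‖ + ‖t⁻¹ • x‖ + 1 ≤ 2 * Vs + 2 * Zs + 1 := by linarith [h.1, h.2]
      gcongr
    calc t⁻¹ * th X Zs Vs (t⁻¹ • x) v * |ws X d1 (P.K * ky P (t⁻¹ • x).2) s (t⁻¹ • x) v|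
        ≤ t⁻¹ * 1 * (P.K * (6 * π * (2 * Vs + 2 * Zs + 1) * F)) := by
          gcongr
          exact th_le_one _ _ _ _ _
      _ = _ := by rw [mul_one]

theorem corr_zero {X : XP} {P : Par} {d1 Zs Vs : ℝ} (hZ : 0 < Zs) (hV : 0 < Vs) {t : ℝ} {x : P2}
    {v : R3} (h : 2 * Zs ≤ ‖t⁻¹ • x‖ ∨ 2 * Vs ≤ ‖v‖) : corr X P d1 Zs Vs t x v = 0 := by
  unfold corr
  rw [osc_zero hZ hV h, osc_zero hZ hV h]; ring

section low

variable {X : XP} {P : Par} {Y ey N d1 Zs Vs : ℝ} (h : LowOK X P Y ey N d1 Zs Vs)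

include h

theorem _root_.Crest.Agent.R68.X2.LowOK.psi0_zero {t : ℝ} {x : P2} {v : R3} (h1 : Zs < ‖t⁻¹ • x‖ ∨ Vs < ‖v‖) :
    psi0 X t x v = 0 := by
  by_contra h2
  have h3 := h.supp _ _ h2
  rcases h1 with h1 | h1
  · exact absurd h3.1 (not_le.2 h1)
  · exact absurd h3.2 (not_le.2 h1)

/-- support of the corrected test function -/
theorem _root_.Crest.Agent.R68.X2.LowOK.gL_zero (Cg : ℝ) {t : ℝ} {x : P2} {v : R3}
    (h1 : 4 * Zs ≤ ‖t⁻¹ • x‖ ∨ 4 * Vs ≤ ‖v‖) : gL X P d1 Zs Vs Cg t x v = 0 := by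
  have hZ : 0 < Zs := lt_of_lt_of_le one_pos h.Zs1
  have hV : 0 < Vs := lt_of_lt_of_le one_pos h.Vs1
  unfold gL
  rw [h.psi0_zero (h1.imp (fun h => by linarith) fun h => by linarith),
    corr_zero hZ hV (h1.imp (fun h => by linarith) fun h => by linarith)]
  rcases h1 with h1 | h1
  · rw [ramp_zero (r := ‖t⁻¹ • x‖ / (2 * Zs)) (by rw [le_div_iff₀ (by positivity)]; linarith)]
    ring
  · rw [ramp_zero (r := ‖v‖ / (2 * Vs)) (by rw [le_div_iff₀ (by positivity)]; linarith)]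
    ring

/-- support of `Lg` -/
theorem _root_.Crest.Agent.R68.X2.LowOK.Lg_zero (C : ℝ) {t : ℝ} (ht : 0 < t) {x : P2} {v : R3}
    (h1 : 4 * Zs * t < ‖x‖ ∨ 4 * Vs < ‖v‖) : Lg X P d1 Zs Vs C t x v = 0 := by
  have hZ : 0 < Zs := lt_of_lt_of_le one_pos h.Zs1
  have hV : 0 < Vs := lt_of_lt_of_le one_pos h.Vs1
  have hn : ‖t⁻¹ • x‖ = ‖x‖ / t := by
    rw [norm_smul, norm_inv, Real.norm_of_nonneg ht.le, inv_mul_eq_div]
  have h2 : 4 * Zs < ‖t⁻¹ • x‖ ∨ 4 * Vs < ‖v‖ :=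
    h1.imp (fun h => by rw [hn, lt_div_iff₀ ht]; exact h) id
  have e1 : L0 X (t⁻¹ • x) v = 0 := by
    by_contra h3
    have h4 := h.supp _ _ (f0_ne_of_L0 h3)
    rcases h2 with h2 | h2
    · linarith [h4.1]
    · linarith [h4.2]
  have e2 : nearI Zs Vs t x v = 0 := by
    unfold nearI
    rw [if_neg]
    rintro ⟨h3, h4⟩
    rcases h1 with h1 | h1 <;> linarith
  unfold Lg
  rw [e1, e2, osc_zero hZ hV (h2.imp (fun h => by linarith) fun h => by linarith),
    osc_zero hZ hV (h2.imp (fun h => by linarith) fun h => by linarith)]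
  ring


/-- size of `Lg` -/
theorem _root_.Crest.Agent.R68.X2.LowOK.abs_Lg_le {C : ℝ} (hC : 0 ≤ C) : ∃ C' : ℝ, 0 ≤ C' ∧ ∀ t, 0 < t → ∀ x v,
    |Lg X P d1 Zs Vs C t x v| ≤ C' * (t⁻¹ + 1) := by
  have hZ : 0 < Zs := lt_of_lt_of_le one_pos h.Zs1
  have hV : 0 < Vs := lt_of_lt_of_le one_pos h.Vs1
  have hA : 0 ≤ X.A := by rw [h.tent.AN]; linarith [h.tent.N1]
  have he := h.tent.e0.le
  have hK : 0 ≤ P.K := h.ok.K0
  set F := max 0 ((1 + X.A) * X.Yp) with hF
  have hF0 : 0 ≤ F := le_max_left _ _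
  have hpi := Real.pi_pos
  set R := Zs + Vs with hR
  set C1 := X.A * (2 * R) + 2 * X.e * (2 * R) ^ 2 + F * (8 * R ^ 2) with hC1
  have hC10 : 0 ≤ C1 := by positivity
  set C2 := P.K * (6 * π * (2 * Vs + 2 * Zs + 1) * F) with hC2
  have hC20 : 0 ≤ C2 := by positivity
  refine ⟨C1 + 2 * C2 + C, by positivity, ?_⟩
  intro t ht x v
  have hti : 0 < t⁻¹ := inv_pos.2 ht
  have h1 : |L0 X (t⁻¹ • x) v| ≤ C1 := by
    by_cases h0 : L0 X (t⁻¹ • x) v = 0
    · rw [h0, abs_zero]; exact hC10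
    · have h4 := h.supp _ _ (f0_ne_of_L0 h0)
      exact abs_L0_le' X hA he h.B1 _ v (by linarith [h4.1]) (by linarith [h4.2])
  have h2 := abs_osc_le (X := X) (P := P) (Zs := Zs) (Vs := Vs) he hK h.d10.le h.d11.le hZ hV
    (Or.inl rfl) ht x v
  have h3 := abs_osc_le (X := X) (P := P) (Zs := Zs) (Vs := Vs) he hK h.d10.le h.d11.le hZ hV
    (Or.inr rfl) ht x v
  have hc : ∀ s a, |chs P s a - 197 / 400| ≤ 1 := by
    intro s a
    have := Crest.Agent.R68.X.chs_nonneg P s a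
    have := Crest.Agent.R68.X.chs_le_one P s a
    rw [abs_le]; constructor <;> linarith
  have h4 : |nearI Zs Vs t x v| ≤ 1 := by
    unfold nearI; split_ifs <;> simp
  unfold Lg
  have e1 : |t⁻¹ * L0 X (t⁻¹ • x) v| ≤ t⁻¹ * C1 := by
    rw [abs_mul, abs_of_pos hti]
    exact mul_le_mul_of_nonneg_left h1 hti.le
  have e2 : |(chs P 1 (lab P t x) - 197 / 400) * osc X P d1 Zs Vs 1 t x v| ≤ t⁻¹ * C2 := by
    rw [abs_mul]
    calc _ ≤ 1 * (t⁻¹ * C2) := mul_le_mul (hc _ _) h2 (abs_nonneg _) zero_le_one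
      _ = _ := one_mul _
  have e3 : |(chs P (-1) (lab P t x) - 197 / 400) * osc X P d1 Zs Vs (-1) t x v| ≤ t⁻¹ * C2 := by
    rw [abs_mul]
    calc _ ≤ 1 * (t⁻¹ * C2) := mul_le_mul (hc _ _) h3 (abs_nonneg _) zero_le_one
      _ = _ := one_mul _
  have e4 : |C * nearI Zs Vs t x v| ≤ C := by
    rw [abs_mul, abs_of_nonneg hC]
    exact mul_le_of_le_one_right hC h4
  refine (abs_sub _ _).trans ((add_le_add ((abs_sub _ _).trans (add_le_add
    ((abs_sub _ _).trans (add_le_add e1 e2)) e3)) e4).trans ?_)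
  nlinarith

end low

end Crest.Agent.R68.X2.M60
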