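import Crest.Agent.R68.NAlg
import Crest.Agent.R68.NDamp1
import Crest.Agent.R68.DBil
import Crest.Agent.R68.FCell
import Crest.Agent.R68.A2
import Crest.Agent.R68.Carl4
import Crest.Agent.R68.LDefs
import Crest.Agent.R68.XDefs2
import Crest.Agent.R68.FSum
import Crest.Agent.R68.CNewt2
import Crest.Agent.R68.LMass

-- ▼ part R68/XWeak
section

/-!
# Row 68, PART X: weak (one-sided) form of the damped Duhamel equation, gain duality (helper485)

`H = N.Dam ν q` (`ν`, `q` arbitrary measurable fields).  If along flights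
`g(s) + ∫_s^r e ≤ g(r) + ∫_s^r k` then
`∫_0^t∫ g q + ∫_0^t∫ e H ≤ ∫ g(t) H(t) + ∫_0^t∫ (ν g + k) H`, and the reversed statement.
Position space: a measure `m` invariant under translations for `S`-periodic functions
(the plane with `S = ∅`, the cell with `S = range latt`).
-/

set_option autoImplicit false
open MeasureTheory Set Filter
open scoped ENNReal Topology
open Crest.AnalysisR.VecCalc3 Crest.AnalysisR.PDE.Boltzmann

noncomputable section

namespace Crest.Agent.R68.XWeak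

open Crest.Agent.R68.A
open Crest.Agent.R68.N (Fld acc Dam measurable_acc)
open Crest.Agent.R68.ND (O1 O1_split measurable_O1_left measurable_O1_right)

/-! ### one path -/

theorem path_w {n w : ℝ → ℝ≥0∞} (hn : Measurable n) (hw : Measurable w) {s t : ℝ} (h0 : 0 ≤ s)
    (_hst : s ≤ t) (hfin : O1 n s t ≠ ⊤) :
    ∫⁻ r in Ioo s t, w r * en (O1 n s r) = en (O1 n s t) * O1 w s t +
      ∫⁻ r in Ioo s t, n r * en (O1 n s r) * O1 w s r := by
  have hmE : Measurable fun r => en (O1 n s r) := measurable_en.comp (measurable_O1_right hn s)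
  have hp : Measurable fun r => n r * en (O1 n s r) := hn.mul hmE
  have key : ∀ r ∈ Ioo s t, en (O1 n s r) =
      (∫⁻ τ in Ioo r t, n τ * en (O1 n s τ)) + en (O1 n s t) := by
    intro r hr
    have hfr : O1 n r t ≠ ⊤ := ne_top_of_le_ne_top hfin (ND.O1_mono_left n hr.1.le)
    have h1 := ND.ftc_forw_fin' hn (h0.trans hr.1.le) hr.2.le hfr
    calc en (O1 n s r) = en (O1 n s r) * ((∫⁻ τ in Ioo r t, n τ * en (O1 n r τ)) + en (O1 n r t)) := by
          rw [h1, mul_one]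
      _ = (∫⁻ τ in Ioo r t, n τ * en (O1 n s τ)) + en (O1 n s t) := by
          rw [mul_add, ← lintegral_const_mul' _ _ (en_ne_top _), O1_split n hr.1.le hr.2.le, en_add]
          congr 1
          refine setLIntegral_congr_fun measurableSet_Ioo fun τ hτ => ?_
          rw [O1_split n hr.1.le hτ.1.le, en_add]
          ring
  calc ∫⁻ r in Ioo s t, w r * en (O1 n s r)
      = ∫⁻ r in Ioo s t, ((∫⁻ τ in Ioo r t, n τ * en (O1 n s τ)) * w r + en (O1 n s t) * w r) := by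
        refine setLIntegral_congr_fun measurableSet_Ioo fun r hr => ?_
        conv_lhs => rw [key r hr]
        ring
    _ = (∫⁻ r in Ioo s t, (∫⁻ τ in Ioo r t, n τ * en (O1 n s τ)) * w r) +
        ∫⁻ r in Ioo s t, en (O1 n s t) * w r := by
        rw [lintegral_add_right _ (hw.const_mul _)]
    _ = _ := by
        rw [lintegral_triangle hp hw, lintegral_const_mul' _ _ (en_ne_top _), add_comm]
        rfl

variable {n g e k : ℝ → ℝ≥0∞} {s t : ℝ}

theorem path_left (hn : Measurable n) (he : Measurable e) (gs : ℝ≥0∞) (h0 : 0 ≤ s)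
    (hst : s ≤ t) (hfin : O1 n s t ≠ ⊤) :
    gs + ∫⁻ r in Ioo s t, e r * en (O1 n s r) = en (O1 n s t) * (gs + O1 e s t) +
      ∫⁻ r in Ioo s t, n r * en (O1 n s r) * (gs + O1 e s r) := by
  have hmE : Measurable fun r => en (O1 n s r) := measurable_en.comp (measurable_O1_right hn s)
  have hp : Measurable fun r => n r * en (O1 n s r) := hn.mul hmE
  have h1 := ND.ftc_forw_fin' hn h0 hst hfin
  have e1 : ∫⁻ r in Ioo s t, n r * en (O1 n s r) * (gs + O1 e s r) =
      (∫⁻ r in Ioo s t, n r * en (O1 n s r)) * gs +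
        ∫⁻ r in Ioo s t, n r * en (O1 n s r) * O1 e s r := by
    rw [← lintegral_mul_const _ hp, ← lintegral_add_left (hp.mul_const _)]
    refine lintegral_congr fun r => ?_
    ring
  rw [path_w hn he h0 hst hfin, e1]
  calc gs + (en (O1 n s t) * O1 e s t + ∫⁻ r in Ioo s t, n r * en (O1 n s r) * O1 e s r)
      = ((∫⁻ r in Ioo s t, n r * en (O1 n s r)) + en (O1 n s t)) * gs +
        (en (O1 n s t) * O1 e s t + ∫⁻ r in Ioo s t, n r * en (O1 n s r) * O1 e s r) := by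
        rw [h1, one_mul]
    _ = _ := by ring




/-! ### translations -/

/-- periodicity with respect to a set of vectors -/
def PerS (S : Set P2) (G : P2 → ℝ≥0∞) : Prop := ∀ a ∈ S, ∀ x, G (x + a) = G x

/-- `m` is translation invariant on `S`-periodic functions -/
def TInv (m : Measure P2) (S : Set P2) : Prop :=
  ∀ G : P2 → ℝ≥0∞, Measurable G → PerS S G → ∀ a, ∫⁻ x, G (x + a) ∂m = ∫⁻ x, G x ∂m

theorem tinv_volume (S : Set P2) : TInv (volume : Measure P2) S := fun G _ _ a =>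
  lintegral_add_right_eq_self (μ := (volume : Measure P2)) G a

theorem perS_latt_iff {G : P2 → ℝ≥0∞} : PerS (range latt) G ↔ PerG G := by
  constructor
  · intro h x k
    exact h _ ⟨k, rfl⟩ x
  · rintro h a ⟨k, rfl⟩ x
    exact h x k

theorem tinv_cell : TInv ((volume : Measure P2).restrict cellG) (range latt) := fun G hG hp a =>
  lintegral_cellG_add hG (perS_latt_iff.1 hp) a

variable {m : Measure P2} [SFinite m] {S : Set P2}

/-- change of variables along the free flow -/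
theorem cv (hm : TInv m S) {G : P2 → R3 → ℝ≥0∞} (hG : Measurable fun p : P2 × R3 => G p.1 p.2)
    (hper : ∀ v, PerS S fun x => G x v) (τ : ℝ) :
    ∫⁻ p, G (p.1 + τ • bar p.2) p.2 ∂(m.prod (volume : Measure R3)) =
      ∫⁻ p, G p.1 p.2 ∂(m.prod (volume : Measure R3)) := by
  have h1 : Measurable fun p : P2 × R3 => G (p.1 + τ • bar p.2) p.2 :=
    hG.comp (f := fun p : P2 × R3 => (p.1 + τ • bar p.2, p.2)) (by fun_prop)
  rw [lintegral_prod_symm _ h1.aemeasurable, lintegral_prod_symm _ hG.aemeasurable]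
  refine lintegral_congr fun v => ?_
  exact hm (fun x => G x v) (hG.comp (by fun_prop : Measurable fun x : P2 => (x, v))) (hper v)
    (τ • bar v)

/-- periodicity of a field -/
def PerSF (S : Set P2) (F : Fld) : Prop := ∀ t v, PerS S fun x => F t x v

theorem PerSF.at {F : Fld} (hF : PerSF S F) {a : P2} (ha : a ∈ S) (t : ℝ) (x y : P2) (v : R3) :
    F t (x + a + y) v = F t (x + y) v := by
  have : x + a + y = (x + y) + a := by abel
  rw [this]
  exact hF t v a ha _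

theorem PerSF.at_sub {F : Fld} (hF : PerSF S F) {a : P2} (ha : a ∈ S) (t : ℝ) (x y : P2) (v : R3) :
    F t (x + a - y) v = F t (x - y) v := by
  have : x + a - y = (x - y) + a := by abel
  rw [this]
  exact hF t v a ha _

/-- the rate along the flight from `(s,y,v)` -/
def fw (F : Fld) (s : ℝ) (y : P2) (v : R3) : ℝ → ℝ≥0∞ := fun r => F r (y + (r - s) • bar v) v

theorem measurable_fw {F : Fld} (hF : Meas3 F) (s : ℝ) (y : P2) (v : R3) :
    Measurable (fw F s y v) := hF.comp (by fun_prop) (by fun_prop) (by fun_prop)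

theorem acc_flow (ν : Fld) (s r : ℝ) (y : P2) (v : R3) :
    acc ν s r (y + (r - s) • bar v) v = O1 (fw ν s y v) s r := by
  unfold acc O1 fw
  refine lintegral_congr fun τ => ?_
  congr 1
  module

theorem per_acc {ν : Fld} (hν : PerSF S ν) (s r : ℝ) (v : R3) : PerS S fun x => acc ν s r x v := by
  intro a ha x
  unfold acc
  exact lintegral_congr fun τ => hν.at_sub ha τ x _ v

/-- transport from time `s` to time `r` with the damping -/
def Tr (ν : Fld) (s : ℝ) (h : P2 → R3 → ℝ≥0∞) (r : ℝ) (x : P2) (v : R3) : ℝ≥0∞ :=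
  en (acc ν s r x v) * h (x - (r - s) • bar v) v

section start

variable {ν : Fld} {h : P2 → R3 → ℝ≥0∞}

theorem measurable_Tr (hν : Meas3 ν) (hh : Measurable fun p : P2 × R3 => h p.1 p.2) (s r : ℝ) :
    Measurable fun p : P2 × R3 => Tr ν s h r p.1 p.2 := by
  unfold Tr
  refine Measurable.mul (measurable_en.comp (measurable_acc hν measurable_const measurable_const
    measurable_fst measurable_snd)) ?_
  exact hh.comp (f := fun p : P2 × R3 => (p.1 - (r - s) • bar p.2, p.2)) (by fun_prop)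

theorem start_eq (hm : TInv m S) (hν : Meas3 ν) (hh : Measurable fun p : P2 × R3 => h p.1 p.2)
    (pν : PerSF S ν) (ph : ∀ v, PerS S fun x => h x v) {w : P2 → R3 → ℝ≥0∞}
    (hw : Measurable fun p : P2 × R3 => w p.1 p.2) (pw : ∀ v, PerS S fun x => w x v) (s r : ℝ) :
    ∫⁻ p, w p.1 p.2 * Tr ν s h r p.1 p.2 ∂(m.prod (volume : Measure R3)) =
      ∫⁻ p, w (p.1 + (r - s) • bar p.2) p.2 * en (O1 (fw ν s p.1 p.2) s r) * h p.1 p.2
        ∂(m.prod (volume : Measure R3)) := by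
  have h1 := cv hm (G := fun x v => w x v * Tr ν s h r x v)
    (hw.mul (measurable_Tr hν hh s r)) (fun v a ha x => by
      dsimp only
      unfold Tr
      have e1 : x + a - (r - s) • bar v = (x - (r - s) • bar v) + a := by abel
      have e2 := ph v a ha (x - (r - s) • bar v)
      have e3 := pw v a ha x
      have e4 := per_acc pν s r v a ha x
      dsimp only at e2 e3 e4
      rw [e1, e2, e3, e4]) (r - s)
  rw [← h1]
  refine lintegral_congr fun p => ?_
  unfold Tr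
  rw [acc_flow, add_sub_cancel_right, mul_assoc]

theorem measurable_O1_fw (hν : Meas3 ν) (s : ℝ) : Measurable fun q : (P2 × R3) × ℝ =>
    O1 (fw ν s q.1.1 q.1.2) s q.2 := by
  unfold O1 fw
  refine measurable_lintegral_Ioo (α := (P2 × R3) × ℝ) (q := fun z : ((P2 × R3) × ℝ) × ℝ =>
    ν z.2 (z.1.1.1 + (z.2 - s) • bar z.1.1.2) z.1.1.2) ?_ measurable_const measurable_snd
  exact hν.comp (by fun_prop) (by fun_prop) (by fun_prop)

theorem start_int (hm : TInv m S) (hν : Meas3 ν) (hh : Measurable fun p : P2 × R3 => h p.1 p.2)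
    (pν : PerSF S ν) (ph : ∀ v, PerS S fun x => h x v) {w : Fld} (hw : Meas3 w)
    (pw : PerSF S w) (s t : ℝ) :
    ∫⁻ r in Ioo s t, ∫⁻ p, w r p.1 p.2 * Tr ν s h r p.1 p.2 ∂(m.prod (volume : Measure R3)) =
      ∫⁻ p, (∫⁻ r in Ioo s t, fw w s p.1 p.2 r * en (O1 (fw ν s p.1 p.2) s r)) * h p.1 p.2
        ∂(m.prod (volume : Measure R3)) := by
  have hm1 : Measurable fun q : (P2 × R3) × ℝ => w q.2 (q.1.1 + (q.2 - s) • bar q.1.2) q.1.2 *
      en (O1 (fw ν s q.1.1 q.1.2) s q.2) * h q.1.1 q.1.2 := by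
    refine Measurable.mul (Measurable.mul ?_ ?_) ?_
    · exact hw.comp (by fun_prop) (by fun_prop) (by fun_prop)
    · exact measurable_en.comp (measurable_O1_fw hν s)
    · exact hh.comp (f := fun q : (P2 × R3) × ℝ => q.1) measurable_fst
  calc ∫⁻ r in Ioo s t, ∫⁻ p, w r p.1 p.2 * Tr ν s h r p.1 p.2 ∂(m.prod (volume : Measure R3))
      = ∫⁻ r in Ioo s t, ∫⁻ p, w r (p.1 + (r - s) • bar p.2) p.2 *
          en (O1 (fw ν s p.1 p.2) s r) * h p.1 p.2 ∂(m.prod (volume : Measure R3)) := by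
        refine lintegral_congr fun r => ?_
        exact start_eq hm hν hh pν ph (w := fun x v => w r x v)
          (hw.comp (f := fun _ => r) measurable_const measurable_fst measurable_snd)
          (fun v => pw r v) s r
    _ = ∫⁻ p, (∫⁻ r in Ioo s t, w r (p.1 + (r - s) • bar p.2) p.2 *
          en (O1 (fw ν s p.1 p.2) s r) * h p.1 p.2) ∂(m.prod (volume : Measure R3)) := by
        rw [lintegral_lintegral_swap]
        exact (hm1.comp (measurable_swap (α := ℝ) (β := P2 × R3))).aemeasurable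
    _ = _ := by
        refine lintegral_congr fun p => ?_
        rw [← lintegral_mul_const]
        · rfl
        · refine Measurable.mul (measurable_fw hw s p.1 p.2) ?_
          exact measurable_en.comp (measurable_O1_right (measurable_fw hν s p.1 p.2) s)

variable {g e k : Fld} {s t : ℝ}



end start

/-! ### Duhamel integrals -/

/-- Tonelli on a triangle -/
theorem tri {f : ℝ → ℝ → ℝ≥0∞} (hf : Measurable (Function.uncurry f)) (a t : ℝ) :
    ∫⁻ r in Ioo a t, ∫⁻ s in Ioo a r, f s r = ∫⁻ s in Ioo a t, ∫⁻ r in Ioo s t, f s r := by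
  have e1 : ∀ r ∈ Ioo a t, ∫⁻ s in Ioo a r, f s r
      = ∫⁻ s in Ioo a t, {p : ℝ × ℝ | p.1 < p.2}.indicator (Function.uncurry f) (s, r) := by
    intro r hr
    rw [← lintegral_indicator measurableSet_Ioo, ← lintegral_indicator measurableSet_Ioo]
    refine lintegral_congr fun s => ?_
    by_cases h1 : s ∈ Ioo a r
    · rw [indicator_of_mem h1, indicator_of_mem (show s ∈ Ioo a t from ⟨h1.1, h1.2.trans hr.2⟩),
        indicator_of_mem (show (s, r) ∈ {p : ℝ × ℝ | p.1 < p.2} from h1.2)]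
      rfl
    · rw [indicator_of_notMem h1]
      by_cases h2 : s ∈ Ioo a t
      · rw [indicator_of_mem h2, indicator_of_notMem]
        intro h3
        exact h1 ⟨h2.1, h3⟩
      · rw [indicator_of_notMem h2]
  have e2 : ∀ s ∈ Ioo a t, ∫⁻ r in Ioo s t, f s r
      = ∫⁻ r in Ioo a t, {p : ℝ × ℝ | p.1 < p.2}.indicator (Function.uncurry f) (s, r) := by
    intro s hs
    rw [← lintegral_indicator measurableSet_Ioo, ← lintegral_indicator measurableSet_Ioo]
    refine lintegral_congr fun r => ?_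
    by_cases h1 : r ∈ Ioo s t
    · rw [indicator_of_mem h1, indicator_of_mem (show r ∈ Ioo a t from ⟨hs.1.trans h1.1, h1.2⟩),
        indicator_of_mem (show (s, r) ∈ {p : ℝ × ℝ | p.1 < p.2} from h1.1)]
      rfl
    · rw [indicator_of_notMem h1]
      by_cases h2 : r ∈ Ioo a t
      · rw [indicator_of_mem h2, indicator_of_notMem]
        intro h3
        exact h1 ⟨h3, h2.2⟩
      · rw [indicator_of_notMem h2]
  rw [setLIntegral_congr_fun measurableSet_Ioo e1, setLIntegral_congr_fun measurableSet_Ioo e2,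
    lintegral_lintegral_swap]
  exact ((hf.indicator (measurableSet_lt measurable_fst measurable_snd)).comp
    measurable_swap).aemeasurable

/-- Duhamel integral from time `a` -/
def DamA (a : ℝ) (ν q : Fld) : Fld := fun t x v =>
  ∫⁻ s in Ioo a t, Tr ν s (q s) t x v


section duh

variable {ν q : Fld}

theorem measurable_Tr_joint (hν : Meas3 ν) (hq : Meas3 q) :
    Measurable fun z : (ℝ × ℝ) × (P2 × R3) => Tr ν z.1.1 (q z.1.1) z.1.2 z.2.1 z.2.2 := by
  unfold Tr
  refine Measurable.mul (measurable_en.comp (measurable_acc hν (by fun_prop) (by fun_prop)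
    (by fun_prop) (by fun_prop))) ?_
  exact hq.comp (by fun_prop) (by fun_prop) (by fun_prop)

theorem meas3_DamA (hν : Meas3 ν) (hq : Meas3 q) (a : ℝ) : Meas3 (DamA a ν q) := by
  unfold Meas3 DamA
  refine measurable_lintegral_Ioo (α := ℝ × P2 × R3) (q := fun z : (ℝ × P2 × R3) × ℝ =>
    Tr ν z.2 (q z.2) z.1.1 z.1.2.1 z.1.2.2) ?_ measurable_const measurable_fst
  exact (measurable_Tr_joint hν hq).comp
    (f := fun z : (ℝ × P2 × R3) × ℝ => ((z.2, z.1.1), (z.1.2.1, z.1.2.2))) (by fun_prop)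

theorem per_Tr (pν : PerSF S ν) {h : P2 → R3 → ℝ≥0∞} (ph : ∀ v, PerS S fun x => h x v) (s r : ℝ)
    (v : R3) : PerS S fun x => Tr ν s h r x v := by
  intro a ha x
  unfold Tr
  have e1 : x + a - (r - s) • bar v = (x - (r - s) • bar v) + a := by abel
  have e2 := ph v a ha (x - (r - s) • bar v)
  have e4 := per_acc pν s r v a ha x
  dsimp only at e2 e4 ⊢
  rw [e1, e2, e4]

theorem per_DamA (pν : PerSF S ν) (pq : PerSF S q) (a : ℝ) : PerSF S (DamA a ν q) := by
  intro t v b hb x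
  unfold DamA
  exact lintegral_congr fun s => per_Tr pν (fun v => pq s v) s t v b hb x

theorem duh_int (hν : Meas3 ν) (hq : Meas3 q) {w : P2 → R3 → ℝ≥0∞}
    (hw : Measurable fun p : P2 × R3 => w p.1 p.2) (a r : ℝ) :
    ∫⁻ p, w p.1 p.2 * DamA a ν q r p.1 p.2 ∂(m.prod (volume : Measure R3)) =
      ∫⁻ s in Ioo a r, ∫⁻ p, w p.1 p.2 * Tr ν s (q s) r p.1 p.2
        ∂(m.prod (volume : Measure R3)) := by
  have hj : Measurable fun z : ℝ × (P2 × R3) => w z.2.1 z.2.2 * Tr ν z.1 (q z.1) r z.2.1 z.2.2 := by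
    refine Measurable.mul ?_ ?_
    · exact hw.comp (f := fun z : ℝ × (P2 × R3) => z.2) measurable_snd
    · exact (measurable_Tr_joint hν hq).comp
        (f := fun z : ℝ × (P2 × R3) => ((z.1, r), z.2)) (by fun_prop)
  rw [lintegral_lintegral_swap (hj.aemeasurable)]
  refine lintegral_congr fun p => ?_
  unfold DamA
  rw [lintegral_const_mul]
  exact (measurable_Tr_joint hν hq).comp (f := fun s : ℝ => ((s, r), p)) (by fun_prop)

theorem duh_int2 (hν : Meas3 ν) (hq : Meas3 q) {w : Fld} (hw : Meas3 w) (a t : ℝ) :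
    ∫⁻ r in Ioo a t, ∫⁻ p, w r p.1 p.2 * DamA a ν q r p.1 p.2 ∂(m.prod (volume : Measure R3)) =
      ∫⁻ s in Ioo a t, ∫⁻ r in Ioo s t, ∫⁻ p, w r p.1 p.2 * Tr ν s (q s) r p.1 p.2
        ∂(m.prod (volume : Measure R3)) := by
  have hj : Measurable fun z : (ℝ × ℝ) × (P2 × R3) =>
      w z.1.2 z.2.1 z.2.2 * Tr ν z.1.1 (q z.1.1) z.1.2 z.2.1 z.2.2 :=
    (hw.comp (by fun_prop) (by fun_prop) (by fun_prop)).mul (measurable_Tr_joint hν hq)
  have hj2 : Measurable (Function.uncurry fun s r : ℝ => ∫⁻ p, w r p.1 p.2 *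
      Tr ν s (q s) r p.1 p.2 ∂(m.prod (volume : Measure R3))) :=
    Measurable.lintegral_prod_right' (f := fun z : (ℝ × ℝ) × (P2 × R3) =>
      w z.1.2 z.2.1 z.2.2 * Tr ν z.1.1 (q z.1.1) z.1.2 z.2.1 z.2.2) hj
  rw [← tri hj2]
  refine lintegral_congr fun r => ?_
  exact duh_int hν hq (w := fun x v => w r x v)
    (hw.comp (f := fun _ => r) measurable_const measurable_fst measurable_snd) a r

variable {g e k : Fld} {a t : ℝ}



/-- **restart identity** -/
theorem Dam_split (ν q : Fld) (h0 : 0 ≤ a) (hat : a ≤ t) (x : P2) (v : R3) :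
    Dam ν q t x v = Tr ν a (Dam ν q a) t x v + DamA a ν q t x v := by
  have h1 : Dam ν q t x v = O1 (fun s => Tr ν s (q s) t x v) 0 t := rfl
  rw [h1, O1_split _ h0 hat]
  congr 1
  unfold O1
  rw [Tr, Dam, ← lintegral_const_mul' _ _ (en_ne_top _)]
  refine setLIntegral_congr_fun measurableSet_Ioo fun s hs => ?_
  have e1 : acc ν s t x v = acc ν s a (x - (t - a) • bar v) v + acc ν a t x v := by
    have h2 : acc ν s t x v = O1 (fun τ => ν τ (x - (t - τ) • bar v) v) s t := rfl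
    have h3 : acc ν a t x v = O1 (fun τ => ν τ (x - (t - τ) • bar v) v) a t := rfl
    have h4 : acc ν s a (x - (t - a) • bar v) v =
        O1 (fun τ => ν τ (x - (t - τ) • bar v) v) s a := by
      unfold acc O1
      refine lintegral_congr fun τ => ?_
      congr 1
      module
    rw [h2, h3, h4, O1_split _ hs.2.le hat]
  have e2 : x - (t - a) • bar v - (a - s) • bar v = x - (t - s) • bar v := by module
  rw [Tr, e1, en_add, e2]
  ring

end duh

/-! ### the full weak forms (start term + Duhamel integral) -/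

section full

variable {ν q g e k : Fld} {h : P2 → R3 → ℝ≥0∞} {a t : ℝ}

/-- the path conditions needed for the lower form -/
def LowAt (ν g e k : Fld) (t s : ℝ) (x : P2) (v : R3) : Prop :=
  O1 (fw ν s x v) s t ≠ ⊤ ∧ ∀ r ∈ Icc s t,
    g s x v + O1 (fw e s x v) s r ≤ fw g s x v r + O1 (fw k s x v) s r

/-- the path conditions needed for the upper form -/
def UpAt (ν g e k : Fld) (t s : ℝ) (x : P2) (v : R3) : Prop :=
  O1 (fw ν s x v) s t ≠ ⊤ ∧ ∀ r ∈ Icc s t,
    fw g s x v r + O1 (fw k s x v) s r ≤ g s x v + O1 (fw e s x v) s r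

/-- all the measurability and periodicity hypotheses -/
structure Hyp (S : Set P2) (ν q g e k : Fld) : Prop where
  hν : Meas3 ν
  hq : Meas3 q
  hg : Meas3 g
  he : Meas3 e
  hk : Meas3 k
  pν : PerSF S ν
  pq : PerSF S q
  pg : PerSF S g
  pe : PerSF S e
  pk : PerSF S k

omit [SFinite m] in
theorem int_add {w F G : Fld} (hw : Meas3 w) (hF : Meas3 F) (r : ℝ) :
    ∫⁻ p, w r p.1 p.2 * (F r p.1 p.2 + G r p.1 p.2) ∂(m.prod (volume : Measure R3)) =
      ∫⁻ p, w r p.1 p.2 * F r p.1 p.2 ∂(m.prod (volume : Measure R3)) +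
        ∫⁻ p, w r p.1 p.2 * G r p.1 p.2 ∂(m.prod (volume : Measure R3)) := by
  have h1 : Measurable fun p : P2 × R3 => w r p.1 p.2 * F r p.1 p.2 :=
    (hw.comp (f := fun _ => r) measurable_const measurable_fst measurable_snd).mul
      (hF.comp (f := fun _ => r) measurable_const measurable_fst measurable_snd)
  rw [← lintegral_add_left h1]
  exact lintegral_congr fun p => mul_add _ _ _

theorem int_add_time {w F G : Fld} (hw : Meas3 w) (hF : Meas3 F) (a t : ℝ) :
    ∫⁻ r in Ioo a t, ∫⁻ p, w r p.1 p.2 * (F r p.1 p.2 + G r p.1 p.2)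
        ∂(m.prod (volume : Measure R3)) =
      (∫⁻ r in Ioo a t, ∫⁻ p, w r p.1 p.2 * F r p.1 p.2 ∂(m.prod (volume : Measure R3))) +
        ∫⁻ r in Ioo a t, ∫⁻ p, w r p.1 p.2 * G r p.1 p.2 ∂(m.prod (volume : Measure R3)) := by
  rw [← lintegral_add_left]
  · exact lintegral_congr fun r => int_add hw hF r
  · exact Measurable.lintegral_prod_right' (f := fun z : ℝ × (P2 × R3) =>
      w z.1 z.2.1 z.2.2 * F z.1 z.2.1 z.2.2) (hw.mul hF)

theorem meas3_Tr (hν : Meas3 ν) (hh : Measurable fun p : P2 × R3 => h p.1 p.2) (a : ℝ) :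
    Meas3 (fun r x v => Tr ν a h r x v) := by
  have := measurable_Tr_joint (ν := ν) (q := fun _ x v => h x v) hν
    (hh.comp (f := fun p : ℝ × P2 × R3 => p.2) measurable_snd)
  exact this.comp (f := fun p : ℝ × P2 × R3 => ((a, p.1), p.2)) (by fun_prop)





theorem per_Dam (pν : PerSF S ν) (pq : PerSF S q) : PerSF S (Dam ν q) := per_DamA pν pq 0

theorem meas3_Dam (hν : Meas3 ν) (hq : Meas3 q) : Meas3 (Dam ν q) := meas3_DamA hν hq 0



end full

/-! ### iterated integrals -/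

omit [SFinite m] in
/-- iterated form of the phase space integral -/
theorem iter_eq {F : P2 → R3 → ℝ≥0∞} (hF : Measurable fun p : P2 × R3 => F p.1 p.2) :
    ∫⁻ p, F p.1 p.2 ∂(m.prod (volume : Measure R3)) = ∫⁻ x, (∫⁻ v, F x v) ∂m :=
  lintegral_prod _ hF.aemeasurable

/-- the plane: `m = volume` -/
theorem iter_plane {F : P2 → R3 → ℝ≥0∞} (hF : Measurable fun p : P2 × R3 => F p.1 p.2) :
    ∫⁻ p, F p.1 p.2 ∂((volume : Measure P2).prod (volume : Measure R3)) = ∫⁻ x, ∫⁻ v, F x v :=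
  lintegral_prod _ hF.aemeasurable

/-- the cell: `m = volume.restrict cellG` -/
theorem iter_cell {F : P2 → R3 → ℝ≥0∞} (hF : Measurable fun p : P2 × R3 => F p.1 p.2) :
    ∫⁻ p, F p.1 p.2 ∂(((volume : Measure P2).restrict cellG).prod (volume : Measure R3)) =
      ∫⁻ x in cellG, ∫⁻ v, F x v :=
  lintegral_prod _ hF.aemeasurable

/-- slices of measurable fields -/
theorem slice2 {F : Fld} (hF : Meas3 F) (t : ℝ) : Measurable fun p : P2 × R3 => F t p.1 p.2 :=
  hF.comp (f := fun _ => t) measurable_const measurable_fst measurable_snd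

end Crest.Agent.R68.XWeak
end
end

-- ▼ part R68/XFun
section

/-!
# Row 68, PART X: functionals of the linear hot equation (helper485)

Signed weak form and the functional inequalities for `H = Dam (Gf φ H + σ)`.
`mm m w F t = ∫∫ w(t) F(t)`, `MM m w F a t = ∫_a^t ∫∫ w F`.
-/

set_option autoImplicit false
open MeasureTheory Set Filter
open scoped ENNReal Topology
open Crest.AnalysisR.VecCalc3 Crest.AnalysisR.PDE.Boltzmann

noncomputable section

namespace Crest.Agent.R68.XWeak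

open Crest.Agent.R68.A
open Crest.Agent.R68.N (Fld acc Dam measurable_acc)
open Crest.Agent.R68.ND (O1 O1_split measurable_O1_left measurable_O1_right)

/-- **one path, signed form** (`ψ = g1 - g2`, `ψ(s) + ∫_s^r (e-k) ≤ ψ(r)`) -/
theorem path_sgn {n g1 g2 e k : ℝ → ℝ≥0∞} {s t : ℝ} (hn : Measurable n) (hg1 : Measurable g1)
    (hg2 : Measurable g2) (he : Measurable e) (hk : Measurable k)
    (h0 : 0 ≤ s) (hst : s ≤ t) (hfin : O1 n s t ≠ ⊤)
    (hflow : ∀ r ∈ Icc s t, g1 s + g2 r + O1 e s r ≤ g1 r + g2 s + O1 k s r) :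
    (g1 s + ∫⁻ r in Ioo s t, e r * en (O1 n s r)) +
      (en (O1 n s t) * g2 t + ∫⁻ r in Ioo s t, n r * g2 r * en (O1 n s r)) ≤
    (g2 s + ∫⁻ r in Ioo s t, k r * en (O1 n s r)) +
      (en (O1 n s t) * g1 t + ∫⁻ r in Ioo s t, n r * g1 r * en (O1 n s r)) := by
  have hmE : Measurable fun r => en (O1 n s r) := measurable_en.comp (measurable_O1_right hn s)
  have hp : Measurable fun r => n r * en (O1 n s r) := hn.mul hmE
  have hO : ∀ {w : ℝ → ℝ≥0∞}, Measurable w → Measurable fun r => O1 w s r := fun hw =>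
    measurable_O1_right hw s
  have e1 : ∀ {g : ℝ → ℝ≥0∞}, Measurable g → ∫⁻ r in Ioo s t, n r * g r * en (O1 n s r) =
      ∫⁻ r in Ioo s t, n r * en (O1 n s r) * g r := by
    intro g _
    refine lintegral_congr fun r => ?_
    ring
  rw [path_left hn he (g1 s) h0 hst hfin, path_left hn hk (g2 s) h0 hst hfin, e1 hg1, e1 hg2]
  have c1 : Measurable fun r => n r * en (O1 n s r) * (g1 s + O1 e s r) :=
    hp.mul ((hO he).const_add _)
  have c2 : Measurable fun r => n r * en (O1 n s r) * (g2 s + O1 k s r) :=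
    hp.mul ((hO hk).const_add _)
  have key : (∫⁻ r in Ioo s t, n r * en (O1 n s r) * (g1 s + O1 e s r)) +
      (∫⁻ r in Ioo s t, n r * en (O1 n s r) * g2 r) ≤
      (∫⁻ r in Ioo s t, n r * en (O1 n s r) * (g2 s + O1 k s r)) +
      (∫⁻ r in Ioo s t, n r * en (O1 n s r) * g1 r) := by
    rw [← lintegral_add_left c1, ← lintegral_add_left c2]
    refine setLIntegral_mono_ae' measurableSet_Ioo (Eventually.of_forall fun r hr => ?_)
    rw [← mul_add, ← mul_add]
    refine mul_le_mul' le_rfl ?_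
    have := hflow r (Ioo_subset_Icc_self hr)
    calc g1 s + O1 e s r + g2 r = g1 s + g2 r + O1 e s r := by ring
      _ ≤ _ := this
      _ = g2 s + O1 k s r + g1 r := by ring
  have kt := mul_le_mul' (le_refl (en (O1 n s t))) (hflow t ⟨hst, le_rfl⟩)
  calc en (O1 n s t) * (g1 s + O1 e s t) + (∫⁻ r in Ioo s t, n r * en (O1 n s r) *
        (g1 s + O1 e s r)) + (en (O1 n s t) * g2 t + ∫⁻ r in Ioo s t, n r * en (O1 n s r) * g2 r)
      = en (O1 n s t) * (g1 s + g2 t + O1 e s t) + ((∫⁻ r in Ioo s t, n r * en (O1 n s r) *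
        (g1 s + O1 e s r)) + ∫⁻ r in Ioo s t, n r * en (O1 n s r) * g2 r) := by ring
    _ ≤ en (O1 n s t) * (g1 t + g2 s + O1 k s t) + ((∫⁻ r in Ioo s t, n r * en (O1 n s r) *
        (g2 s + O1 k s r)) + ∫⁻ r in Ioo s t, n r * en (O1 n s r) * g1 r) := add_le_add kt key
    _ = _ := by ring

/-- `∫∫ w(t) F(t)` -/
def mm (m : Measure P2) (w F : Fld) (t : ℝ) : ℝ≥0∞ :=
  ∫⁻ p, w t p.1 p.2 * F t p.1 p.2 ∂(m.prod (volume : Measure R3))

/-- `∫_a^t ∫∫ w F` -/
def MM (m : Measure P2) (w F : Fld) (a t : ℝ) : ℝ≥0∞ := ∫⁻ r in Ioo a t, mm m w F r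

variable {m : Measure P2} [SFinite m] {S : Set P2}

section basic

variable {w w' F G : Fld} {a t : ℝ}

theorem measurable_mm (hw : Meas3 w) (hF : Meas3 F) : Measurable fun r => mm m w F r :=
  Measurable.lintegral_prod_right' (f := fun z : ℝ × (P2 × R3) =>
      w z.1 z.2.1 z.2.2 * F z.1 z.2.1 z.2.2) (hw.mul hF)

omit [SFinite m] in
theorem mm_add_right (hw : Meas3 w) (hF : Meas3 F) (t : ℝ) :
    mm m w (fun t x v => F t x v + G t x v) t = mm m w F t + mm m w G t := int_add hw hF t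

omit [SFinite m] in
theorem mm_add_left (hw : Meas3 w) (hF : Meas3 F) (t : ℝ) :
    mm m (fun t x v => w t x v + w' t x v) F t = mm m w F t + mm m w' F t := by
  have h1 : Measurable fun p : P2 × R3 => w t p.1 p.2 * F t p.1 p.2 :=
    (slice2 hw t).mul (slice2 hF t)
  unfold mm
  rw [← lintegral_add_left h1]
  exact lintegral_congr fun p => add_mul _ _ _

theorem MM_add_right (hw : Meas3 w) (hF : Meas3 F) (a t : ℝ) :
    MM m w (fun t x v => F t x v + G t x v) a t = MM m w F a t + MM m w G a t :=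
  int_add_time hw hF a t

theorem MM_add_left (hw : Meas3 w) (hF : Meas3 F) (a t : ℝ) :
    MM m (fun t x v => w t x v + w' t x v) F a t = MM m w F a t + MM m w' F a t := by
  unfold MM
  rw [← lintegral_add_left (measurable_mm hw hF)]
  exact lintegral_congr fun r => mm_add_left hw hF r

omit [SFinite m] in
theorem MM_mono_on (h : ∀ r ∈ Ioo a t, ∀ᵐ p ∂(m.prod (volume : Measure R3)),
    w r p.1 p.2 * F r p.1 p.2 ≤ w' r p.1 p.2 * G r p.1 p.2) : MM m w F a t ≤ MM m w' G a t := by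
  unfold MM mm
  exact setLIntegral_mono_ae' measurableSet_Ioo
    (Eventually.of_forall fun r hr => lintegral_mono_ae (h r hr))

omit [SFinite m] in
theorem mm_congr (h : ∀ᵐ p ∂(m.prod (volume : Measure R3)), F t p.1 p.2 = G t p.1 p.2) :
    mm m w F t = mm m w G t := by
  unfold mm
  refine lintegral_congr_ae ?_
  filter_upwards [h] with p hp
  rw [hp]

omit [SFinite m] in
theorem MM_congr (h : ∀ r ∈ Ioo a t, ∀ᵐ p ∂(m.prod (volume : Measure R3)),
    F r p.1 p.2 = G r p.1 p.2) : MM m w F a t = MM m w G a t := by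
  unfold MM
  exact setLIntegral_congr_fun measurableSet_Ioo fun r hr => mm_congr (h r hr)

end basic

/-- the path conditions of the signed form -/
def SgnAt (ν g1 g2 e k : Fld) (t s : ℝ) (x : P2) (v : R3) : Prop :=
  O1 (fw ν s x v) s t ≠ ⊤ ∧ ∀ r ∈ Icc s t,
    g1 s x v + fw g2 s x v r + O1 (fw e s x v) s r ≤
      fw g1 s x v r + g2 s x v + O1 (fw k s x v) s r

/-- measurability and periodicity of a field -/
structure Ok (S : Set P2) (F : Fld) : Prop where
  m : Meas3 F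
  p : PerSF S F

theorem Ok.add {F G : Fld} (hF : Ok S F) (hG : Ok S G) : Ok S (fun t x v => F t x v + G t x v) :=
  ⟨hF.m.add hG.m, fun t v a ha x => by
    have e1 := hF.p t v a ha x
    have e2 := hG.p t v a ha x
    dsimp only at e1 e2 ⊢
    rw [e1, e2]⟩

theorem Ok.mul {F G : Fld} (hF : Ok S F) (hG : Ok S G) : Ok S (fun t x v => F t x v * G t x v) :=
  ⟨Measurable.mul hF.m hG.m, fun t v a ha x => by
    have e1 := hF.p t v a ha x
    have e2 := hG.p t v a ha x
    dsimp only at e1 e2 ⊢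
    rw [e1, e2]⟩

theorem ok_zero : Ok S (fun _ _ _ => 0) := ⟨measurable_const, fun _ _ _ _ _ => rfl⟩

section sgn

variable {ν g1 g2 e k q : Fld} {h : P2 → R3 → ℝ≥0∞} {s t a : ℝ}

/-- signed form, transport from one starting time -/
theorem start_sgn (hm : TInv m S) (Yν : Ok S ν) (hh : Measurable fun p : P2 × R3 => h p.1 p.2)
    (ph : ∀ v, PerS S fun x => h x v) (Y1 : Ok S g1) (Y2 : Ok S g2) (Ye : Ok S e) (Yk : Ok S k)
    (h0 : 0 ≤ s) (hst : s ≤ t)
    (H : ∀ᵐ p ∂(m.prod (volume : Measure R3)), h p.1 p.2 ≠ 0 → SgnAt ν g1 g2 e k t s p.1 p.2) :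
    ((∫⁻ p, g1 s p.1 p.2 * h p.1 p.2 ∂(m.prod (volume : Measure R3))) +
      (∫⁻ r in Ioo s t, ∫⁻ p, e r p.1 p.2 * Tr ν s h r p.1 p.2
        ∂(m.prod (volume : Measure R3)))) +
      ((∫⁻ p, g2 t p.1 p.2 * Tr ν s h t p.1 p.2 ∂(m.prod (volume : Measure R3))) +
      ∫⁻ r in Ioo s t, ∫⁻ p, (ν r p.1 p.2 * g2 r p.1 p.2) * Tr ν s h r p.1 p.2
        ∂(m.prod (volume : Measure R3))) ≤
    ((∫⁻ p, g2 s p.1 p.2 * h p.1 p.2 ∂(m.prod (volume : Measure R3))) +
      (∫⁻ r in Ioo s t, ∫⁻ p, k r p.1 p.2 * Tr ν s h r p.1 p.2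
        ∂(m.prod (volume : Measure R3)))) +
      ((∫⁻ p, g1 t p.1 p.2 * Tr ν s h t p.1 p.2 ∂(m.prod (volume : Measure R3))) +
      ∫⁻ r in Ioo s t, ∫⁻ p, (ν r p.1 p.2 * g1 r p.1 p.2) * Tr ν s h r p.1 p.2
        ∂(m.prod (volume : Measure R3))) := by
  have hν := Yν.m
  have pν := Yν.p
  have f1 := (Yν.mul Y1)
  have f2 := (Yν.mul Y2)
  rw [start_int hm hν hh pν ph Ye.m Ye.p, start_int hm hν hh pν ph Yk.m Yk.p,
    start_int hm hν hh pν ph f1.m f1.p, start_int hm hν hh pν ph f2.m f2.p,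
    start_eq hm hν hh pν ph (w := fun x v => g1 t x v) (slice2 Y1.m t) (fun v => Y1.p t v),
    start_eq hm hν hh pν ph (w := fun x v => g2 t x v) (slice2 Y2.m t) (fun v => Y2.p t v)]
  have m1 : ∀ {g : Fld}, Ok S g → Measurable fun p : P2 × R3 => g s p.1 p.2 * h p.1 p.2 :=
    fun hg => (slice2 hg.m s).mul hh
  have m2 : ∀ {g : Fld}, Ok S g → Measurable fun p : P2 × R3 =>
      g t (p.1 + (t - s) • bar p.2) p.2 * en (O1 (fw ν s p.1 p.2) s t) * h p.1 p.2 := by
    intro g hg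
    refine Measurable.mul (Measurable.mul ?_ ?_) hh
    · exact hg.m.comp (by fun_prop) (by fun_prop) (by fun_prop)
    · exact measurable_en.comp ((measurable_O1_fw hν s).comp
        (f := fun p : P2 × R3 => (p, t)) (by fun_prop))
  have m3 : ∀ {w : Fld}, Ok S w → Measurable fun p : P2 × R3 =>
      (∫⁻ r in Ioo s t, fw w s p.1 p.2 r * en (O1 (fw ν s p.1 p.2) s r)) * h p.1 p.2 := by
    intro w hw
    refine Measurable.mul ?_ hh
    refine measurable_lintegral_Ioo (α := P2 × R3) (q := fun z : (P2 × R3) × ℝ =>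
      fw w s z.1.1 z.1.2 z.2 * en (O1 (fw ν s z.1.1 z.1.2) s z.2)) ?_ measurable_const
      measurable_const
    refine Measurable.mul ?_ (measurable_en.comp (measurable_O1_fw hν s))
    unfold fw
    exact hw.m.comp (by fun_prop) (by fun_prop) (by fun_prop)
  have m4 : ∀ {g w : Fld}, Ok S g → Ok S w → Measurable fun p : P2 × R3 =>
      g s p.1 p.2 * h p.1 p.2 +
      (∫⁻ r in Ioo s t, fw w s p.1 p.2 r * en (O1 (fw ν s p.1 p.2) s r)) * h p.1 p.2 :=
    fun hg hw => (m1 hg).add (m3 hw)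
  rw [← lintegral_add_left (m1 Y1), ← lintegral_add_left (m1 Y2), ← lintegral_add_left (m2 Y1),
    ← lintegral_add_left (m2 Y2), ← lintegral_add_left (m4 Y1 Ye),
    ← lintegral_add_left (m4 Y2 Yk)]
  refine lintegral_mono_ae ?_
  filter_upwards [H] with p hp
  by_cases h1 : h p.1 p.2 = 0
  · simp [h1]
  · obtain ⟨hfin, hflow⟩ := hp h1
    have hgs : ∀ g : Fld, fw g s p.1 p.2 s = g s p.1 p.2 := by
      intro g
      unfold fw; simp
    have := path_sgn (n := fw ν s p.1 p.2) (g1 := fw g1 s p.1 p.2) (g2 := fw g2 s p.1 p.2)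
      (e := fw e s p.1 p.2) (k := fw k s p.1 p.2) (measurable_fw hν _ _ _)
      (measurable_fw Y1.m _ _ _) (measurable_fw Y2.m _ _ _)
      (measurable_fw Ye.m _ _ _) (measurable_fw Yk.m _ _ _) h0 hst hfin
      (by intro r hr; rw [hgs, hgs]; exact hflow r hr)
    rw [hgs, hgs] at this
    have h2 := mul_le_mul_left this (h p.1 p.2)
    refine le_trans (le_of_eq ?_) (h2.trans (le_of_eq ?_))
    · simp only [fw, add_mul]
      ring
    · simp only [fw, add_mul]
      ring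

theorem duh_eq (Yν : Ok S ν) (Yq : Ok S q) {w : Fld} (Yw : Ok S w) (a t : ℝ) :
    mm m w (DamA a ν q) t = ∫⁻ s in Ioo a t, ∫⁻ p, w t p.1 p.2 * Tr ν s (q s) t p.1 p.2
        ∂(m.prod (volume : Measure R3)) :=
  duh_int Yν.m Yq.m (w := fun x v => w t x v) (slice2 Yw.m t) a t

theorem duh_eq2 (Yν : Ok S ν) (Yq : Ok S q) {w : Fld} (Yw : Ok S w) (a t : ℝ) :
    MM m w (DamA a ν q) a t = ∫⁻ s in Ioo a t, ∫⁻ r in Ioo s t, ∫⁻ p, w r p.1 p.2 *
      Tr ν s (q s) r p.1 p.2 ∂(m.prod (volume : Measure R3)) :=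
  duh_int2 Yν.m Yq.m Yw.m a t

theorem meas_A (Yν : Ok S ν) (Yq : Ok S q) {w : Fld} (Yw : Ok S w) (t : ℝ) :
    Measurable fun s : ℝ => ∫⁻ p, w t p.1 p.2 * Tr ν s (q s) t p.1 p.2
      ∂(m.prod (volume : Measure R3)) := by
  refine Measurable.lintegral_prod_right' (f := fun z : ℝ × (P2 × R3) =>
    w t z.2.1 z.2.2 * Tr ν z.1 (q z.1) t z.2.1 z.2.2) ?_
  refine Measurable.mul (Yw.m.comp (by fun_prop) (by fun_prop) (by fun_prop)) ?_
  exact (measurable_Tr_joint Yν.m Yq.m).comp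
      (f := fun z : ℝ × (P2 × R3) => ((z.1, t), z.2)) (by fun_prop)

theorem meas_B (Yν : Ok S ν) (Yq : Ok S q) {w : Fld} (Yw : Ok S w) (t : ℝ) :
    Measurable fun s : ℝ => ∫⁻ r in Ioo s t, ∫⁻ p, w r p.1 p.2 * Tr ν s (q s) r p.1 p.2
      ∂(m.prod (volume : Measure R3)) := by
  have hj : Measurable fun z : (ℝ × ℝ) × (P2 × R3) =>
      w z.1.2 z.2.1 z.2.2 * Tr ν z.1.1 (q z.1.1) z.1.2 z.2.1 z.2.2 :=
    (Yw.m.comp (by fun_prop) (by fun_prop) (by fun_prop)).mul (measurable_Tr_joint Yν.m Yq.m)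
  have hj2 : Measurable (fun z : ℝ × ℝ => ∫⁻ p, w z.2 p.1 p.2 *
      Tr ν z.1 (q z.1) z.2 p.1 p.2 ∂(m.prod (volume : Measure R3))) :=
    Measurable.lintegral_prod_right' (f := fun z : (ℝ × ℝ) × (P2 × R3) =>
      w z.1.2 z.2.1 z.2.2 * Tr ν z.1.1 (q z.1.1) z.1.2 z.2.1 z.2.2) hj
  exact measurable_lintegral_Ioo (α := ℝ) (q := fun z : ℝ × ℝ => ∫⁻ p, w z.2 p.1 p.2 *
      Tr ν z.1 (q z.1) z.2 p.1 p.2 ∂(m.prod (volume : Measure R3))) hj2 measurable_id
      measurable_const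

/-- signed form, Duhamel integral from time `a` -/
theorem duh_sgn (hm : TInv m S) (Yν : Ok S ν) (Yq : Ok S q) (Y1 : Ok S g1) (Y2 : Ok S g2)
    (Ye : Ok S e) (Yk : Ok S k) (h0 : 0 ≤ a)
    (H : ∀ᵐ s ∂(volume.restrict (Ioo a t)), ∀ᵐ p ∂(m.prod (volume : Measure R3)),
      q s p.1 p.2 ≠ 0 → SgnAt ν g1 g2 e k t s p.1 p.2) :
    (MM m g1 q a t + MM m e (DamA a ν q) a t) + (mm m g2 (DamA a ν q) t +
      MM m (fun t x v => ν t x v * g2 t x v) (DamA a ν q) a t) ≤
    (MM m g2 q a t + MM m k (DamA a ν q) a t) + (mm m g1 (DamA a ν q) t +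
      MM m (fun t x v => ν t x v * g1 t x v) (DamA a ν q) a t) := by
  have f1 := (Yν.mul Y1)
  have f2 := (Yν.mul Y2)
  rw [duh_eq2 Yν Yq Ye, duh_eq2 Yν Yq Yk, duh_eq2 Yν Yq f1, duh_eq2 Yν Yq f2,
    duh_eq Yν Yq Y1, duh_eq Yν Yq Y2]
  have c1 : ∀ {g w : Fld}, Ok S g → Ok S w → Measurable fun s : ℝ => mm m g q s +
      ∫⁻ r in Ioo s t, ∫⁻ p, w r p.1 p.2 * Tr ν s (q s) r p.1 p.2
      ∂(m.prod (volume : Measure R3)) := fun hg hw =>
    (measurable_mm hg.m Yq.m).add (meas_B Yν Yq hw t)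
  unfold MM
  rw [← lintegral_add_left (measurable_mm Y1.m Yq.m), ← lintegral_add_left (measurable_mm Y2.m Yq.m),
    ← lintegral_add_left (meas_A Yν Yq Y1 t), ← lintegral_add_left (meas_A Yν Yq Y2 t),
    ← lintegral_add_left (c1 Y1 Ye), ← lintegral_add_left (c1 Y2 Yk)]
  refine lintegral_mono_ae ?_
  filter_upwards [H, ae_restrict_mem measurableSet_Ioo] with s hs hst
  exact start_sgn hm Yν (h := q s) (slice2 Yq.m s) (fun v => Yq.p s v) Y1 Y2 Ye Yk
    (h0.trans hst.1.le) hst.2.le hs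

/-- signed form between two times, `H r = Tr ν a h r + DamA a ν q r` -/
theorem sgn_gen (hm : TInv m S) (Yν : Ok S ν) (Yq : Ok S q) (Y1 : Ok S g1) (Y2 : Ok S g2)
    (Ye : Ok S e) (Yk : Ok S k) (hh : Measurable fun p : P2 × R3 => h p.1 p.2)
    (ph : ∀ v, PerS S fun x => h x v) (h0 : 0 ≤ a) (hat : a < t)
    (H0 : ∀ᵐ p ∂(m.prod (volume : Measure R3)), h p.1 p.2 ≠ 0 → SgnAt ν g1 g2 e k t a p.1 p.2)
    (H1 : ∀ᵐ s ∂(volume.restrict (Ioo a t)), ∀ᵐ p ∂(m.prod (volume : Measure R3)),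
      q s p.1 p.2 ≠ 0 → SgnAt ν g1 g2 e k t s p.1 p.2)
    {H : Fld} (hH : ∀ r ∈ Ioc a t, ∀ᵐ p ∂(m.prod (volume : Measure R3)),
      H r p.1 p.2 = Tr ν a h r p.1 p.2 + DamA a ν q r p.1 p.2) :
    (mm m g1 (fun _ => h) a + mm m g2 H t) + (MM m g1 q a t + MM m e H a t +
      MM m (fun t x v => ν t x v * g2 t x v) H a t) ≤
    (mm m g2 (fun _ => h) a + mm m g1 H t) + (MM m g2 q a t + MM m k H a t +
      MM m (fun t x v => ν t x v * g1 t x v) H a t) := by
  have hT : Meas3 (fun r x v => Tr ν a h r x v) := meas3_Tr Yν.m hh a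
  have f1 := (Yν.mul Y1)
  have f2 := (Yν.mul Y2)
  have e1 : ∀ {w : Fld}, Ok S w → MM m w H a t =
      MM m w (fun r x v => Tr ν a h r x v) a t + MM m w (DamA a ν q) a t := by
    intro w hw
    rw [← MM_add_right hw.m hT]
    exact MM_congr fun r hr => hH r (Ioo_subset_Ioc_self hr)
  have e2 : ∀ {w : Fld}, Ok S w → mm m w H t =
      mm m w (fun r x v => Tr ν a h r x v) t + mm m w (DamA a ν q) t := by
    intro w hw
    rw [← mm_add_right hw.m hT]
    exact mm_congr (hH t ⟨hat, le_rfl⟩)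
  rw [e1 Ye, e1 Yk, e1 f1, e1 f2, e2 Y1, e2 Y2]
  have h1 := start_sgn hm Yν hh ph Y1 Y2 Ye Yk h0 hat.le H0
  have h2 := duh_sgn hm Yν Yq Y1 Y2 Ye Yk h0 H1
  refine le_trans (le_of_eq ?_) ((add_le_add h1 h2).trans (le_of_eq ?_))
  · unfold MM mm
    ring
  · unfold MM mm
    ring

/-- signed form between two times for `H = Dam ν q` (a.e. at every time of `[a,t]`) -/
theorem sgn_from (hm : TInv m S) (Yν : Ok S ν) (Yq : Ok S q) (Y1 : Ok S g1) (Y2 : Ok S g2)
    (Ye : Ok S e) (Yk : Ok S k) (h0 : 0 ≤ a) (hat : a < t)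
    {H : Fld} (hH : ∀ r ∈ Icc a t, ∀ᵐ p ∂(m.prod (volume : Measure R3)),
      H r p.1 p.2 = Dam ν q r p.1 p.2)
    (H0 : ∀ᵐ p ∂(m.prod (volume : Measure R3)), H a p.1 p.2 ≠ 0 →
      SgnAt ν g1 g2 e k t a p.1 p.2)
    (H1 : ∀ᵐ s ∂(volume.restrict (Ioo a t)), ∀ᵐ p ∂(m.prod (volume : Measure R3)),
      q s p.1 p.2 ≠ 0 → SgnAt ν g1 g2 e k t s p.1 p.2) :
    (mm m g1 H a + mm m g2 H t) + (MM m g1 q a t + MM m e H a t +
      MM m (fun t x v => ν t x v * g2 t x v) H a t) ≤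
    (mm m g2 H a + mm m g1 H t) + (MM m g2 q a t + MM m k H a t +
      MM m (fun t x v => ν t x v * g1 t x v) H a t) := by
  have hD : Meas3 (Dam ν q) := meas3_Dam Yν.m Yq.m
  have h1 := sgn_gen (h := Dam ν q a) (H := H) hm Yν Yq Y1 Y2 Ye Yk (slice2 hD a)
    (fun v => per_Dam Yν.p Yq.p a v) h0 hat (by
      filter_upwards [H0, hH a ⟨le_rfl, hat.le⟩] with p hp1 hp2 hp3
      exact hp1 (by rw [hp2]; exact hp3)) H1 (by
      intro r hr
      filter_upwards [hH r ⟨hr.1.le, hr.2⟩] with p hp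
      rw [hp]
      exact Dam_split ν q h0 hr.1.le _ _)
  have e1 : ∀ w : Fld, mm m w (fun _ => Dam ν q a) a = mm m w H a := by
    intro w
    unfold mm
    refine lintegral_congr_ae ?_
    filter_upwards [hH a ⟨le_rfl, hat.le⟩] with p hp
    rw [hp]
  rw [e1, e1] at h1
  exact h1

end sgn

/-! ### functional forms with the linear gain -/

/-- adjoint of the linear gain against `φ` -/
def GaF (φ g : Fld) : Fld := fun t x v => D.Ga (φ t x) (g t x) v

section func

variable {φ g g1 g2 e k B1 B2 σ H : Fld} {a t : ℝ}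

theorem Ok.GaF (Yφ : Ok S φ) (Yg : Ok S g) : Ok S (XWeak.GaF φ g) := by
  refine ⟨?_, ?_⟩
  · have h1 : Measurable fun p : (ℝ × P2) × R3 => φ p.1.1 p.1.2 p.2 :=
      Yφ.m.comp (by fun_prop) (by fun_prop) (by fun_prop)
    have h2 : Measurable fun p : (ℝ × P2) × R3 => g p.1.1 p.1.2 p.2 :=
      Yg.m.comp (by fun_prop) (by fun_prop) (by fun_prop)
    have h3 := D.meas_Ga (α := ℝ × P2) (φ := fun q => φ q.1 q.2) (ψ := fun q => g q.1 q.2) h1 h2
    exact h3.comp (f := fun p : ℝ × P2 × R3 => ((p.1, p.2.1), p.2.2)) (by fun_prop)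
  · intro t v b hb x
    have e1 : φ t (x + b) = φ t x := by funext z; exact Yφ.p t z b hb x
    have e2 : g t (x + b) = g t x := by funext z; exact Yg.p t z b hb x
    unfold XWeak.GaF
    dsimp only
    rw [e1, e2]

theorem Ok.LcF (Yφ : Ok S φ) : Ok S (N.LcF φ) := by
  refine ⟨A.meas3_Lc Yφ.m, ?_⟩
  intro t v b hb x
  have e1 : φ t (x + b) = φ t x := by funext z; exact Yφ.p t z b hb x
  unfold N.LcF
  dsimp only
  rw [e1]

theorem Ok.Gf (Yφ : Ok S φ) (YH : Ok S H) : Ok S (L.Gf φ H) := by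
  refine ⟨L.meas3_Gf Yφ.m YH.m, ?_⟩
  intro t v b hb x
  have e1 : φ t (x + b) = φ t x := by funext z; exact Yφ.p t z b hb x
  have e2 : H t (x + b) = H t x := by funext z; exact YH.p t z b hb x
  unfold L.Gf
  dsimp only
  rw [e1, e2]

omit [SFinite m] in
/-- duality of the linear gain, integrated in `x` -/
theorem mm_Gf (Yφ : Ok S φ) (Yg : Ok S g) (YH : Ok S H) (t : ℝ) :
    mm m g (L.Gf φ H) t = mm m (GaF φ g) H t := by
  unfold mm
  have h1 := (Yφ.Gf YH)
  have h2 := (Yφ.GaF Yg)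
  rw [iter_eq (F := fun x v => g t x v * L.Gf φ H t x v) ((slice2 Yg.m t).mul (slice2 h1.m t)),
    iter_eq (F := fun x v => GaF φ g t x v * H t x v) ((slice2 h2.m t).mul (slice2 YH.m t))]
  refine lintegral_congr fun x => ?_
  have m1 : Measurable (φ t x) := Yφ.m.comp (f := fun _ => t) measurable_const measurable_const
    measurable_id
  have m2 : Measurable (H t x) := YH.m.comp (f := fun _ => t) measurable_const measurable_const
    measurable_id
  have m3 : Measurable (g t x) := Yg.m.comp (f := fun _ => t) measurable_const measurable_const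
    measurable_id
  have h3 := D.lintegral_mul_gain m1 m2 m3
  unfold L.Gf GaF
  rw [← lintegral_congr fun v => mul_comm (H t x v) (D.Ga (φ t x) (g t x) v), ← h3]
  refine lintegral_congr fun v => ?_
  rw [Qp_comm m2 m1 v, two_mul]

theorem MM_Gf (Yφ : Ok S φ) (Yg : Ok S g) (YH : Ok S H) (a t : ℝ) :
    MM m g (L.Gf φ H) a t = MM m (GaF φ g) H a t := by
  unfold MM
  exact lintegral_congr fun r => mm_Gf Yφ Yg YH r

/-- the source of the hot equation -/
def srcF (φ H σ : Fld) : Fld := fun t x v => L.Gf φ H t x v + σ t x v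

theorem Ok.srcF (Yφ : Ok S φ) (YH : Ok S H) (Yσ : Ok S σ) : Ok S (XWeak.srcF φ H σ) :=
  (Yφ.Gf YH).add Yσ

/-- `H = Dam (Gf H + σ)` a.e. at every time of `[a,t]` -/
def SolOn (m : Measure P2) (φ σ H : Fld) (a t : ℝ) : Prop :=
  ∀ r ∈ Icc a t, ∀ᵐ p ∂(m.prod (volume : Measure R3)),
    H r p.1 p.2 = Dam (N.LcF φ) (srcF φ H σ) r p.1 p.2



/-- **signed functional inequality** -/
theorem sgn_fun (hm : TInv m S) (Yφ : Ok S φ) (YH : Ok S H) (Yσ : Ok S σ) (Y1 : Ok S g1)
    (Y2 : Ok S g2) (Ye : Ok S e) (Yk : Ok S k) (YB1 : Ok S B1) (YB2 : Ok S B2) (h0 : 0 ≤ a)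
    (hat : a < t) (hH : SolOn m φ σ H a t)
    (H0 : ∀ᵐ p ∂(m.prod (volume : Measure R3)), H a p.1 p.2 ≠ 0 →
      SgnAt (N.LcF φ) g1 g2 e k t a p.1 p.2)
    (H1 : ∀ᵐ s ∂(volume.restrict (Ioo a t)), ∀ᵐ p ∂(m.prod (volume : Measure R3)),
      srcF φ H σ s p.1 p.2 ≠ 0 → SgnAt (N.LcF φ) g1 g2 e k t s p.1 p.2)
    (hpt : ∀ r ∈ Ioo a t, ∀ᵐ p ∂(m.prod (volume : Measure R3)), H r p.1 p.2 ≠ 0 →
      B1 r p.1 p.2 + (N.LcF φ r p.1 p.2 * g1 r p.1 p.2 + k r p.1 p.2 + GaF φ g2 r p.1 p.2) ≤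
      B2 r p.1 p.2 + (e r p.1 p.2 + GaF φ g1 r p.1 p.2 + N.LcF φ r p.1 p.2 * g2 r p.1 p.2))
    (hfin : (MM m (fun t x v => N.LcF φ t x v * g1 t x v) H a t + MM m k H a t +
        MM m (GaF φ g2) H a t ≠ ⊤) ∨
      (MM m e H a t + MM m (GaF φ g1) H a t +
        MM m (fun t x v => N.LcF φ t x v * g2 t x v) H a t ≠ ⊤)) :
    mm m g1 H a + mm m g2 H t + MM m g1 σ a t + MM m B1 H a t ≤
      mm m g2 H a + mm m g1 H t + MM m g2 σ a t + MM m B2 H a t := by
  have Yν := Yφ.LcF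
  have h1 := sgn_from hm Yν (Yφ.srcF YH Yσ) Y1 Y2 Ye Yk h0 hat hH H0 H1
  have e1 : ∀ {g : Fld}, Ok S g → MM m g (srcF φ H σ) a t =
      MM m (GaF φ g) H a t + MM m g σ a t := by
    intro g hg
    rw [← MM_Gf Yφ hg YH, ← MM_add_right hg.m (Yφ.Gf YH).m]
    rfl
  rw [e1 Y1, e1 Y2] at h1
  have f1 := Yν.mul Y1
  have f2 := Yν.mul Y2
  have f3 := Yφ.GaF Y1
  have f4 := Yφ.GaF Y2
  -- integrated pointwise inequality
  have h2 : MM m B1 H a t + (MM m (fun t x v => N.LcF φ t x v * g1 t x v) H a t +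
      MM m k H a t + MM m (GaF φ g2) H a t) ≤ MM m B2 H a t + (MM m e H a t +
      MM m (GaF φ g1) H a t + MM m (fun t x v => N.LcF φ t x v * g2 t x v) H a t) := by
    have g5 := f1.add Yk
    have g6 := g5.add f4
    have g7 := Ye.add f3
    have g8 := g7.add f2
    have s1 := MM_add_left (m := m) (w' := GaF φ g2) g5.m YH.m a t
    have s2 := MM_add_left (m := m) (w' := k) f1.m YH.m a t
    have s3 := MM_add_left (m := m) (w' := fun t x v => N.LcF φ t x v * g2 t x v) g7.m YH.m a t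
    have s4 := MM_add_left (m := m) (w' := GaF φ g1) Ye.m YH.m a t
    rw [← s2, ← s1, ← s4, ← s3, ← MM_add_left YB1.m YH.m, ← MM_add_left YB2.m YH.m]
    refine MM_mono_on fun r hr => ?_
    filter_upwards [hpt r hr] with p hp
    by_cases hz : H r p.1 p.2 = 0
    · simp [hz]
    · exact mul_le_mul' (hp hz) le_rfl
  generalize MM m B1 H a t = b1 at *
  generalize MM m B2 H a t = b2 at *
  generalize MM m (fun t x v => N.LcF φ t x v * g1 t x v) H a t = n1 at *
  generalize MM m (fun t x v => N.LcF φ t x v * g2 t x v) H a t = n2 at *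
  generalize MM m (GaF φ g1) H a t = q1 at *
  generalize MM m (GaF φ g2) H a t = q2 at *
  generalize MM m e H a t = ee at *
  generalize MM m k H a t = kk at *
  generalize MM m g1 σ a t = s1 at *
  generalize MM m g2 σ a t = s2 at *
  generalize mm m g1 H a = a1 at *
  generalize mm m g2 H a = a2 at *
  generalize mm m g1 H t = t1 at *
  generalize mm m g2 H t = t2 at *
  by_cases hb : b2 = ⊤
  · rw [hb]; simp
  have hX : n1 + kk + q2 ≠ ⊤ := by
    rcases hfin with h | h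
    · exact h
    · refine ne_top_of_le_ne_top (ENNReal.add_ne_top.2 ⟨hb, h⟩) (le_trans ?_ h2)
      exact le_add_self
  have h3 : (a1 + t2 + s1 + b1) + (n1 + kk + q2) ≤ (a2 + t1 + s2 + b2) + (n1 + kk + q2) := by
    calc (a1 + t2 + s1 + b1) + (n1 + kk + q2) = (a1 + t2 + s1) + (b1 + (n1 + kk + q2)) := by ring
      _ ≤ (a1 + t2 + s1) + (b2 + (ee + q1 + n2)) := by gcongr
      _ = (a1 + t2 + (q1 + s1 + ee + n2)) + b2 := by ring
      _ ≤ (a2 + t1 + (q2 + s2 + kk + n1)) + b2 := by gcongr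
      _ = _ := by ring
  exact (ENNReal.add_le_add_iff_right hX).1 h3

omit [SFinite m] in
theorem Ga_zero (φ : R3 → ℝ≥0∞) (v : R3) : D.Ga φ (fun _ => 0) v = 0 := by
  simp [D.Ga]

omit [SFinite m] in
theorem GaF_zero (φ : Fld) : GaF φ (fun _ _ _ => 0) = fun _ _ _ => 0 := by
  funext t x v
  exact Ga_zero _ _

omit [SFinite m] in
theorem mm_zero (F : Fld) (t : ℝ) : mm m (fun _ _ _ => 0) F t = 0 := by
  simp [mm]

omit [SFinite m] in
theorem MM_zero (F : Fld) (a t : ℝ) : MM m (fun _ _ _ => 0) F a t = 0 := by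
  simp [MM, mm]

omit [SFinite m] in
theorem LowAt.sgn {ν : Fld} {s : ℝ} {x : P2} {v : R3} (h : LowAt ν g e k t s x v) :
    SgnAt ν g (fun _ _ _ => 0) e k t s x v := by
  refine ⟨h.1, fun r hr => ?_⟩
  have := h.2 r hr
  simpa [fw] using this

omit [SFinite m] in
theorem UpAt.sgn {ν : Fld} {s : ℝ} {x : P2} {v : R3} (h : UpAt ν g e k t s x v) :
    SgnAt ν (fun _ _ _ => 0) g k e t s x v := by
  refine ⟨h.1, fun r hr => ?_⟩
  have := h.2 r hr
  simpa [fw] using this

/-- **lower functional**: `D g ≥ e - k`, `B1 + ν g + k ≤ B2 + e + Ga φ g` -/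
theorem low_fun (hm : TInv m S) (Yφ : Ok S φ) (YH : Ok S H) (Yσ : Ok S σ) (Yg : Ok S g)
    (Ye : Ok S e) (Yk : Ok S k) (YB1 : Ok S B1) (YB2 : Ok S B2) (h0 : 0 ≤ a)
    (hat : a < t) (hH : SolOn m φ σ H a t)
    (H0 : ∀ᵐ p ∂(m.prod (volume : Measure R3)), H a p.1 p.2 ≠ 0 →
      LowAt (N.LcF φ) g e k t a p.1 p.2)
    (H1 : ∀ᵐ s ∂(volume.restrict (Ioo a t)), ∀ᵐ p ∂(m.prod (volume : Measure R3)),
      srcF φ H σ s p.1 p.2 ≠ 0 → LowAt (N.LcF φ) g e k t s p.1 p.2)
    (hpt : ∀ r ∈ Ioo a t, ∀ᵐ p ∂(m.prod (volume : Measure R3)), H r p.1 p.2 ≠ 0 →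
      B1 r p.1 p.2 + (N.LcF φ r p.1 p.2 * g r p.1 p.2 + k r p.1 p.2) ≤
      B2 r p.1 p.2 + (e r p.1 p.2 + GaF φ g r p.1 p.2))
    (hfin : (MM m (fun t x v => N.LcF φ t x v * g t x v) H a t + MM m k H a t ≠ ⊤) ∨
      (MM m e H a t + MM m (GaF φ g) H a t ≠ ⊤)) :
    mm m g H a + MM m g σ a t + MM m B1 H a t ≤ mm m g H t + MM m B2 H a t := by
  have h := sgn_fun (g2 := fun _ _ _ => 0) hm Yφ YH Yσ Yg ok_zero Ye Yk YB1 YB2 h0 hat hH
    (by filter_upwards [H0] with p hp hp2 using (hp hp2).sgn)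
    (by filter_upwards [H1] with s hs; filter_upwards [hs] with p hp hp2 using (hp hp2).sgn)
    (by
      intro r hr
      filter_upwards [hpt r hr] with p hp hp2
      have := hp hp2
      rw [GaF_zero]
      simpa using this)
    (by
      rw [GaF_zero]
      simp only [mul_zero, MM_zero, add_zero]
      exact hfin)
  simp only [mm_zero, MM_zero, add_zero, zero_add] at h
  exact h

/-- **upper functional**: `D g ≤ e - k`, `B1 + e + Ga φ g ≤ B2 + ν g + k` -/
theorem up_fun (hm : TInv m S) (Yφ : Ok S φ) (YH : Ok S H) (Yσ : Ok S σ) (Yg : Ok S g)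
    (Ye : Ok S e) (Yk : Ok S k) (YB1 : Ok S B1) (YB2 : Ok S B2) (h0 : 0 ≤ a)
    (hat : a < t) (hH : SolOn m φ σ H a t)
    (H0 : ∀ᵐ p ∂(m.prod (volume : Measure R3)), H a p.1 p.2 ≠ 0 →
      UpAt (N.LcF φ) g e k t a p.1 p.2)
    (H1 : ∀ᵐ s ∂(volume.restrict (Ioo a t)), ∀ᵐ p ∂(m.prod (volume : Measure R3)),
      srcF φ H σ s p.1 p.2 ≠ 0 → UpAt (N.LcF φ) g e k t s p.1 p.2)
    (hpt : ∀ r ∈ Ioo a t, ∀ᵐ p ∂(m.prod (volume : Measure R3)), H r p.1 p.2 ≠ 0 →
      B1 r p.1 p.2 + (e r p.1 p.2 + GaF φ g r p.1 p.2) ≤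
      B2 r p.1 p.2 + (N.LcF φ r p.1 p.2 * g r p.1 p.2 + k r p.1 p.2))
    (hfin : (MM m (fun t x v => N.LcF φ t x v * g t x v) H a t + MM m k H a t ≠ ⊤) ∨
      (MM m e H a t + MM m (GaF φ g) H a t ≠ ⊤)) :
    mm m g H t + MM m B1 H a t ≤ mm m g H a + MM m g σ a t + MM m B2 H a t := by
  have h := sgn_fun (g1 := fun _ _ _ => 0) hm Yφ YH Yσ ok_zero Yg Yk Ye YB1 YB2 h0 hat hH
    (by filter_upwards [H0] with p hp hp2 using (hp hp2).sgn)
    (by filter_upwards [H1] with s hs; filter_upwards [hs] with p hp hp2 using (hp hp2).sgn)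
    (by
      intro r hr
      filter_upwards [hpt r hr] with p hp hp2
      have := hp hp2
      rw [GaF_zero]
      simp only [mul_zero, zero_add, add_zero]
      refine this.trans (le_of_eq ?_)
      ring)
    (by
      rw [GaF_zero]
      simp only [mul_zero, MM_zero, add_zero, zero_add]
      rcases hfin with h | h
      · right
        rwa [add_comm]
      · left
        exact h)
  simp only [mm_zero, MM_zero, add_zero, zero_add] at h
  exact h

end func

end Crest.Agent.R68.XWeak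
end
end

-- ▼ part R68/X2Int
section

/-!
# Row 68, PART X2 (helper485): integrated inequalities (`int_up`, `int_low`, `PW_eq_MW` of XIface)
-/

set_option autoImplicit false
open MeasureTheory Set Filter
open scoped ENNReal Real Topology
open Crest.AnalysisR.VecCalc3 Crest.AnalysisR.PDE.Boltzmann

noncomputable section

namespace Crest.Agent.R68.X2

open Crest.Agent.R68.L (Den Gf Dam TL sol)
open Crest.Agent.R68.A (Meas3)
open Crest.Agent.R68.Fuel (measurable_ofReal_phi density_phi_le perG_phi)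
open Crest.Agent.R68.C (phi_eq_zero_of_norm)
open Crest.Agent.R68.XWeak (Ok PerSF PerS TInv tinv_volume tinv_cell perS_latt_iff fw MM GaF srcF
  SolOn UpAt LowAt slice2 iter_plane iter_cell)

/-! ### the collision frequency of the fuel -/

theorem int_nu_le {P : Par} (h : P.Ok) {t : ℝ} (ht : 0 < t) (x : P2) (v : R3) :
    Lc (L.phiE P t x) v ≤ ENNReal.ofReal (2 * π * (P.Y + 5) *
      ((4 + 3 * (P.Y + 2) * t) ^ 2 * (P.K / t))) * ENNReal.ofReal (1 + ‖v‖) := by
  have hY := h.Y0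
  have hK := h.K0
  have hm : Measurable (L.phiE P t x) := by
    have := measurable_ofReal_phi h
    exact this.comp (f := fun u : R3 => ((t, x, u) : ℝ × P2 × R3)) (by fun_prop)
  rw [Lc_eq hm]
  have h1 : ∫⁻ vs, ENNReal.ofReal ‖v - vs‖ * L.phiE P t x vs ≤
      ∫⁻ vs, ENNReal.ofReal ((P.Y + 5) * (1 + ‖v‖)) * L.phiE P t x vs := by
    refine lintegral_mono fun vs => ?_
    by_cases hv : P.Y + 5 < ‖vs‖
    · have : L.phiE P t x vs = 0 := by
        show ENNReal.ofReal (phi P t x vs) = 0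
        rw [phi_eq_zero_of_norm h hv]
        simp
      simp [this]
    · refine mul_le_mul' (ENNReal.ofReal_le_ofReal ?_) le_rfl
      push Not at hv
      have h2 := norm_sub_le v vs
      nlinarith [norm_nonneg v, norm_nonneg vs]
  have h3 : ∫⁻ vs, L.phiE P t x vs ≤
      ENNReal.ofReal ((4 + 3 * (P.Y + 2) * t) ^ 2 * (P.K / t)) := by
    refine (density_phi_le h ht x).trans (ENNReal.ofReal_le_ofReal ?_)
    have hκ := Fuel.Ok.kap0 h
    have h4 : P.K / (t * (1 + P.kap * t)) ≤ P.K / t := by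
      refine div_le_div_of_nonneg_left hK ht ?_
      nlinarith [mul_nonneg hκ ht.le]
    gcongr
  calc ENNReal.ofReal (2 * π) * ∫⁻ vs, ENNReal.ofReal ‖v - vs‖ * L.phiE P t x vs
      ≤ ENNReal.ofReal (2 * π) * ∫⁻ vs, ENNReal.ofReal ((P.Y + 5) * (1 + ‖v‖)) * L.phiE P t x vs := by
        gcongr
    _ = ENNReal.ofReal (2 * π) * (ENNReal.ofReal ((P.Y + 5) * (1 + ‖v‖)) *
        ∫⁻ vs, L.phiE P t x vs) := by rw [lintegral_const_mul _ hm]
    _ ≤ ENNReal.ofReal (2 * π) * (ENNReal.ofReal ((P.Y + 5) * (1 + ‖v‖)) *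
        ENNReal.ofReal ((4 + 3 * (P.Y + 2) * t) ^ 2 * (P.K / t))) := by gcongr
    _ = _ := by
        rw [← ENNReal.ofReal_mul (by positivity), ← ENNReal.ofReal_mul (by positivity),
          ← ENNReal.ofReal_mul (by positivity)]
        congr 1
        ring

/-- uniform bound of the collision frequency on `[τ, t0]` -/
theorem int_nu_bound {P : Par} (h : P.Ok) {τ : ℝ} (hτ : 0 < τ) (t0 : ℝ) : ∃ Cn : ℝ≥0∞, Cn ≠ ⊤ ∧
    ∀ t, τ ≤ t → t ≤ t0 → ∀ x v, Lc (L.phiE P t x) v ≤ Cn * ENNReal.ofReal (1 + ‖v‖) := by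
  refine ⟨ENNReal.ofReal (2 * π * (P.Y + 5) * ((4 + 3 * (P.Y + 2) * t0) ^ 2 * (P.K / τ))),
    ENNReal.ofReal_ne_top, fun t h1 h2 x v => ?_⟩
  have ht : 0 < t := hτ.trans_le h1
  have hY := h.Y0
  have hK := h.K0
  refine (int_nu_le h ht x v).trans ?_
  refine mul_le_mul' (ENNReal.ofReal_le_ofReal ?_) le_rfl
  gcongr

theorem int_meas3_phiE {P : Par} (h : P.Ok) : Meas3 (L.phiE P) := measurable_ofReal_phi h

theorem int_per_phiE (P : Par) (t : ℝ) (v : R3) : PerG fun x => L.phiE P t x v := by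
  intro x k
  have := perG_phi P t v x k
  dsimp only at this ⊢
  unfold L.phiE
  rw [this]

/-- periodic fields are `Ok` for the lattice -/
theorem int_okP {F : Den} (hF : Meas3 F) (pF : ∀ t v, PerG fun x => F t x v) : Ok (range latt) F :=
  ⟨hF, fun t v => perS_latt_iff.2 (pF t v)⟩

/-- all measurable fields are `Ok` for the plane -/
theorem int_okE {F : Den} (hF : Meas3 F) : Ok ∅ F := ⟨hF, fun _ _ _ ha => ha.elim⟩

/-- finiteness of the accumulated frequency along flights -/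
theorem int_nu_flight {P : Par} (h : P.Ok) {τ s t t0 : ℝ} (hτ : 0 < τ) (hs : τ ≤ s) (ht : t ≤ t0)
    (x : P2) (v : R3) : ND.O1 (fw (N.LcF (L.phiE P)) s x v) s t ≠ ⊤ := by
  obtain ⟨Cn, hCn, hb⟩ := int_nu_bound h hτ t0
  have h1 : ND.O1 (fw (N.LcF (L.phiE P)) s x v) s t ≤
      ∫⁻ _ in Ioo s t, Cn * ENNReal.ofReal (1 + ‖v‖) := by
    unfold ND.O1
    refine setLIntegral_mono_ae' measurableSet_Ioo (Eventually.of_forall fun r hr => ?_)
    exact hb r (hs.trans hr.1.le) (hr.2.le.trans ht) _ _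
  refine ne_top_of_le_ne_top ?_ h1
  rw [setLIntegral_const]
  refine ENNReal.mul_ne_top (ENNReal.mul_ne_top hCn ENNReal.ofReal_ne_top) ?_
  simp

/-! ### comparison of notations -/

theorem int_GA_eq {φ g : Den} (hg : Meas3 g) : GA φ g = GaF φ g := by
  funext t x v
  show ∫⁻ u, φ t x u * gsE (g t x) v u = ∫⁻ vs, ∫⁻ w, D.kB v vs w * φ t x vs *
    (g t x (postVel v vs w) + g t x (postVelStar v vs w)) ∂sphereMeasure
  refine lintegral_congr fun u => ?_
  have hgm : Measurable (g t x) := hg.slice t x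
  have hm : Measurable fun w : R3 => ENNReal.ofReal |(inner ℝ (v - u) w : ℝ)| *
      (g t x (postVel v u w) + g t x (postVelStar v u w)) := by
    refine Measurable.mul (by fun_prop) (Measurable.add ?_ ?_)
    · exact hgm.comp (A.measurable_postVel (by fun_prop) (by fun_prop) (by fun_prop))
    · exact hgm.comp (A.measurable_postVelStar (by fun_prop) (by fun_prop) (by fun_prop))
  unfold gsE
  rw [← lintegral_const_mul _ hm]
  refine lintegral_congr fun w => ?_
  unfold D.kB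
  ring

theorem int_MW_eq_mm {W h : Den} (hW : Meas3 W) (hh : Meas3 h) (t : ℝ) :
    MW W h t = XWeak.mm ((volume : Measure P2).restrict cellG) W h t := by
  unfold MW XWeak.mm
  rw [iter_cell (F := fun x v => W t x v * h t x v) ((slice2 hW t).mul (slice2 hh t))]

theorem int_PW_eq_mm {W h : Den} (hW : Meas3 W) (hh : Meas3 h) (t : ℝ) :
    PW W h t = XWeak.mm (volume : Measure P2) W h t := by
  unfold PW XWeak.mm
  rw [iter_plane (F := fun x v => W t x v * h t x v) ((slice2 hW t).mul (slice2 hh t))]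

/-! ### hypotheses on a seed -/

theorem SeedH.solOn {P : Par} {g1 g2 τ t0 : ℝ} {σ H : Den} (h : SeedH P g1 g2 τ t0 σ H)
    (m : Measure P2) {a t : ℝ} (ha : 0 < a) (ht : t ≤ t0) : SolOn m (L.phiE P) σ H a t := by
  intro r hr
  exact Eventually.of_forall fun p => h.eqn r (ha.trans_le hr.1) (hr.2.trans ht) _ _

/-- UPPER, integrated; `W = OmE`, `Ψ = psiP`, `k = kap1 + kap2` -/
theorem int_up {P : Par} (hP : P.Ok) {g1 g2 τ t0 : ℝ} (hτ : 0 < τ) {σ H : Den}
    (h : SeedH P g1 g2 τ t0 σ H) {W Ψ k : Den} (mW : Meas3 W) (mΨ : Meas3 Ψ) (mk : Meas3 k)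
    (pW : ∀ t v, PerG (fun x => W t x v)) (pΨ : ∀ t v, PerG (fun x => Ψ t x v))
    (pk : ∀ t v, PerG (fun x => k t x v)) {a C : ℝ} (ha : 0 ≤ a) (hC : 0 ≤ C)
    (hfin : ∃ B : ℝ≥0∞, B ≠ ⊤ ∧ ∀ t, 0 < t → t ≤ t0 →
      MW (fun t x v => ENNReal.ofReal (1 + ‖v‖) * W t x v) (B2 P g1 g2 0) t ≤ B)
    (hkb : ∀ t, τ / 2 ≤ t → t ≤ t0 → ∀ x v, k t x v ≤ ENNReal.ofReal (C / τ ^ 3) * W t x v)
    (hpw : ∀ t, 0 < t → t ≤ t0 → ∀ x v, GA (L.phiE P) W t x v ≤ Lc (L.phiE P t x) v * W t x v + k t x v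
      + ENNReal.ofReal (a / t + C) * W t x v + ENNReal.ofReal C * GA (L.phiE P) Ψ t x v)
    (hfl : ∀ s r : ℝ, 0 < s → s ≤ r → r ≤ t0 → ∀ (x : P2) (v : R3),
      W r (x + (r - s) • bar v) v + ∫⁻ ρ in Ioo s r, k ρ (x + (ρ - s) • bar v) v
      ≤ W s x v + ∫⁻ ρ in Ioo s r, ENNReal.ofReal C * W ρ (x + (ρ - s) • bar v) v) :
    ∀ s t, τ ≤ s → s ≤ t → t ≤ t0 → MW W H t ≤ MW W H s
      + ∫⁻ r in Ioo s t, (ENNReal.ofReal (a / r + 2 * C) * MW W H r
        + ENNReal.ofReal C * MW (GA (L.phiE P) Ψ) H r + MW W σ r) := by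
  intro s t hs hst ht
  rcases hst.eq_or_lt with rfl | hlt
  · exact le_self_add
  have hs0 : 0 < s := hτ.trans_le hs
  set m : Measure P2 := (volume : Measure P2).restrict cellG with hmdef
  have mφ := int_meas3_phiE hP
  have Yφ : Ok (range latt) (L.phiE P) := int_okP mφ (int_per_phiE P)
  have YH : Ok (range latt) H := int_okP h.mH h.pH
  have Yσ : Ok (range latt) σ := int_okP h.ms h.ps
  have YW : Ok (range latt) W := int_okP mW pW
  have YΨ : Ok (range latt) Ψ := int_okP mΨ pΨ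
  have Yk : Ok (range latt) k := int_okP mk pk
  have Yc : ∀ f : ℝ → ℝ≥0∞, Measurable f → Ok (range latt) (fun t _ _ => f t : Den) := by
    intro f hf
    refine ⟨?_, fun _ _ _ _ _ => rfl⟩
    exact hf.comp (g := f) (f := fun p : ℝ × P2 × R3 => p.1) measurable_fst
  have Ye : Ok (range latt) (fun t x v => ENNReal.ofReal C * W t x v) :=
    (Yc (fun _ => ENNReal.ofReal C) measurable_const).mul YW
  have YGA := Yφ.GaF YΨ
  have YGW := Yφ.GaF YW
  have YB1 : Ok (range latt) (fun r x v => ENNReal.ofReal (a / r + 2 * C) * W r x v) :=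
    (Yc (fun r => ENNReal.ofReal (a / r + 2 * C)) (by fun_prop)).mul YW
  have YB2' : Ok (range latt) (fun r x v => ENNReal.ofReal C * GaF (L.phiE P) Ψ r x v) :=
    (Yc (fun _ => ENNReal.ofReal C) measurable_const).mul YGA
  have YB2 := YB1.add YB2'
  have Yν := Yφ.LcF
  -- finiteness
  obtain ⟨Cn, hCn, hnu⟩ := int_nu_bound hP hτ t0
  obtain ⟨A, hA, hHA⟩ := h.bdd
  obtain ⟨B, hB, hMB⟩ := hfin
  have hfinite : ∀ {w : Den} (c : ℝ≥0∞), c ≠ ⊤ → (∀ r, s ≤ r → r ≤ t → ∀ x v, w r x v ≤ c *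
      (ENNReal.ofReal (1 + ‖v‖) * W r x v)) → MM m w H s t ≠ ⊤ := by
    intro w c hc hw
    have h1 : MM m w H s t ≤ ∫⁻ _ in Ioo s t, c * A * B := by
      unfold MM
      refine setLIntegral_mono_ae' measurableSet_Ioo (Eventually.of_forall fun r hr => ?_)
      have h2 := hMB r (hs0.trans hr.1) (hr.2.le.trans ht)
      calc XWeak.mm m w H r ≤ ∫⁻ p, (c * (ENNReal.ofReal (1 + ‖p.2‖) * W r p.1 p.2)) *
            (A * B2 P g1 g2 0 r p.1 p.2) ∂(m.prod (volume : Measure R3)) := by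
            unfold XWeak.mm
            refine lintegral_mono fun p => ?_
            exact mul_le_mul' (hw r hr.1.le hr.2.le _ _) (hHA r (hs0.trans hr.1) (hr.2.le.trans ht) _ _)
        _ = c * A * ∫⁻ p, (ENNReal.ofReal (1 + ‖p.2‖) * W r p.1 p.2) *
            B2 P g1 g2 0 r p.1 p.2 ∂(m.prod (volume : Measure R3)) := by
            rw [← lintegral_const_mul' _ _ (ENNReal.mul_ne_top hc hA)]
            refine lintegral_congr fun p => ?_
            ring
        _ ≤ c * A * MW (fun t x v => ENNReal.ofReal (1 + ‖v‖) * W t x v) (B2 P g1 g2 0) r := by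
            gcongr
            unfold MW
            exact lintegral_prod_le _
        _ ≤ c * A * B := by gcongr
    refine ne_top_of_le_ne_top ?_ h1
    rw [setLIntegral_const]
    refine ENNReal.mul_ne_top (ENNReal.mul_ne_top (ENNReal.mul_ne_top hc hA) hB) ?_
    simp
  have hone : ∀ v : R3, (1 : ℝ≥0∞) ≤ ENNReal.ofReal (1 + ‖v‖) := fun v => by
    rw [ENNReal.one_le_ofReal]
    linarith [norm_nonneg v]
  have hf1 : MM m (fun t x v => N.LcF (L.phiE P) t x v * W t x v) H s t ≠ ⊤ := by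
    refine hfinite Cn hCn fun r h1 h2 x v => ?_
    calc N.LcF (L.phiE P) r x v * W r x v ≤ (Cn * ENNReal.ofReal (1 + ‖v‖)) * W r x v :=
          mul_le_mul' (hnu r (hs.trans h1) (h2.trans ht) x v) le_rfl
      _ = _ := by ring
  have hf2 : MM m k H s t ≠ ⊤ := by
    refine hfinite (ENNReal.ofReal (C / τ ^ 3)) ENNReal.ofReal_ne_top fun r h1 h2 x v => ?_
    calc k r x v ≤ ENNReal.ofReal (C / τ ^ 3) * W r x v :=
          hkb r (by linarith) (h2.trans ht) x v
      _ = ENNReal.ofReal (C / τ ^ 3) * (1 * W r x v) := by rw [one_mul]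
      _ ≤ _ := by gcongr; exact hone v
  have hup : ∀ s' ∈ Ico s t, ∀ x v, UpAt (N.LcF (L.phiE P)) W
      (fun t x v => ENNReal.ofReal C * W t x v) k t s' x v := by
    intro s' hs' x v
    refine ⟨int_nu_flight hP hτ (hs.trans hs'.1) ht x v, fun r hr => ?_⟩
    have := hfl s' r (hs0.trans_le hs'.1) hr.1 (hr.2.trans ht) x v
    unfold ND.O1 fw
    exact this
  have key := XWeak.up_fun (m := m) (S := range latt) (g := W)
    (e := fun t x v => ENNReal.ofReal C * W t x v) (k := k) (B1 := fun _ _ _ => 0)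
    (B2 := fun r x v => ENNReal.ofReal (a / r + 2 * C) * W r x v +
      ENNReal.ofReal C * GaF (L.phiE P) Ψ r x v) tinv_cell Yφ YH Yσ YW Ye Yk XWeak.ok_zero YB2
    hs0.le hlt (h.solOn m hs0 ht)
    (Eventually.of_forall fun p _ => hup s ⟨le_rfl, hlt⟩ _ _)
    (by
      filter_upwards [ae_restrict_mem measurableSet_Ioo] with s' hs'
      exact Eventually.of_forall fun p _ => hup s' ⟨hs'.1.le, hs'.2⟩ _ _)
    (by
      intro r hr
      refine Eventually.of_forall fun p _ => ?_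
      have h1 := hpw r (hs0.trans hr.1) (hr.2.le.trans ht) p.1 p.2
      rw [int_GA_eq mW, int_GA_eq mΨ] at h1
      rw [zero_add]
      have hr0 : 0 < r := hs0.trans hr.1
      have h2 : ENNReal.ofReal (a / r + 2 * C) =
          ENNReal.ofReal (a / r + C) + ENNReal.ofReal C := by
        rw [← ENNReal.ofReal_add (by positivity) hC]
        congr 1
        ring
      calc ENNReal.ofReal C * W r p.1 p.2 + GaF (L.phiE P) W r p.1 p.2
          ≤ ENNReal.ofReal C * W r p.1 p.2 + (Lc (L.phiE P r p.1) p.2 * W r p.1 p.2 + k r p.1 p.2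
            + ENNReal.ofReal (a / r + C) * W r p.1 p.2 +
              ENNReal.ofReal C * GaF (L.phiE P) Ψ r p.1 p.2) := by gcongr
        _ = _ := by
            rw [h2]
            simp only [N.LcF]
            ring)
    (Or.inl (ENNReal.add_ne_top.2 ⟨hf1, hf2⟩))
  rw [XWeak.MM_zero, add_zero] at key
  rw [int_MW_eq_mm mW h.mH, int_MW_eq_mm mW h.mH]
  refine key.trans (le_of_eq ?_)
  rw [add_assoc]
  congr 1
  rw [XWeak.MM_add_left YB1.m h.mH]
  have m1 := XWeak.measurable_mm (m := m) YB1.m h.mH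
  have m2 := XWeak.measurable_mm (m := m) YB2'.m h.mH
  have m3 := XWeak.measurable_mm (m := m) mW h.ms
  unfold MM
  rw [← lintegral_add_left m1, ← lintegral_add_left m3]
  refine lintegral_congr fun r => ?_
  rw [int_MW_eq_mm mW h.mH, int_MW_eq_mm mW h.ms, int_GA_eq mΨ, int_MW_eq_mm YGA.m h.mH]
  have e1 : XWeak.mm m (fun r x v => ENNReal.ofReal (a / r + 2 * C) * W r x v) H r =
      ENNReal.ofReal (a / r + 2 * C) * XWeak.mm m W H r := by
    unfold XWeak.mm
    rw [← lintegral_const_mul' _ _ ENNReal.ofReal_ne_top]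
    refine lintegral_congr fun p => ?_
    ring
  have e2 : XWeak.mm m (fun r x v => ENNReal.ofReal C * GaF (L.phiE P) Ψ r x v) H r =
      ENNReal.ofReal C * XWeak.mm m (GaF (L.phiE P) Ψ) H r := by
    unfold XWeak.mm
    rw [← lintegral_const_mul' _ _ ENNReal.ofReal_ne_top]
    refine lintegral_congr fun p => ?_
    ring
  rw [e1, e2]
  ring

/-- LOWER, integrated; `g = ofReal gL`, `Ψ = psiE` (not periodised), `kp`, `em` = negative and
positive part of `Lg`, `R` = error term -/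
theorem int_low {P : Par} (hP : P.Ok) {g1 g2 τ t0 : ℝ} (hτ : 0 < τ) {σ H : Den}
    (h : SeedH P g1 g2 τ t0 σ H) {g Ψ kp em R : Den} (mg : Meas3 g) (mΨ : Meas3 Ψ) (mk : Meas3 kp)
    (me : Meas3 em) (mR : Meas3 R) {a d1 : ℝ} (_ha : 0 ≤ a) (_hd1 : 0 < d1) {Z : ℝ}
    (hsupp : ∀ t, 0 < t → t ≤ t0 → ∀ x v, ‖x‖ > Z * t → g t x v = 0 ∧ kp t x v = 0 ∧ em t x v = 0)
    (hb : ∃ B : ℝ≥0∞, B ≠ ⊤ ∧ ∀ t, τ / 2 ≤ t → t ≤ t0 → ∀ x v, g t x v ≤ B ∧ kp t x v ≤ B ∧ em t x v ≤ B)
    (hfin : ∃ B : ℝ≥0∞, B ≠ ⊤ ∧ ∀ t, 0 < t → t ≤ t0 →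
      ∫⁻ x in {x : P2 | ‖x‖ ≤ Z * t}, ∫⁻ v, ENNReal.ofReal (1 + ‖v‖) * B2 P g1 g2 0 t x v ≤ B)
    (hpw : ∀ t, 0 < t → t ≤ t0 → ∀ x v, kp t x v + Lc (L.phiE P t x) v * g t x v
      + ENNReal.ofReal (a / t) * Ψ t x v + ENNReal.ofReal d1 * GA (L.phiE P) Ψ t x v
      ≤ em t x v + GA (L.phiE P) g t x v + R t x v)
    (hfl : ∀ s r : ℝ, 0 < s → s ≤ r → r ≤ t0 → ∀ (x : P2) (v : R3),
      g s x v + ∫⁻ ρ in Ioo s r, em ρ (x + (ρ - s) • bar v) v
      ≤ g r (x + (r - s) • bar v) v + ∫⁻ ρ in Ioo s r, kp ρ (x + (ρ - s) • bar v) v) :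
    ∀ s t, τ ≤ s → s ≤ t → t ≤ t0 → PW g H s
      + ∫⁻ r in Ioo s t, (ENNReal.ofReal (a / r) * PW Ψ H r
        + ENNReal.ofReal d1 * PW (GA (L.phiE P) Ψ) H r + PW g σ r)
      ≤ PW g H t + ∫⁻ r in Ioo s t, PW R H r := by
  intro s t hs hst ht
  rcases hst.eq_or_lt with rfl | hlt
  · simp
  have hs0 : 0 < s := hτ.trans_le hs
  set m : Measure P2 := (volume : Measure P2) with hmdef
  have mφ := int_meas3_phiE hP
  have Yφ : Ok ∅ (L.phiE P) := int_okE mφ
  have YH : Ok ∅ H := int_okE h.mH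
  have Yσ : Ok ∅ σ := int_okE h.ms
  have Yg : Ok ∅ g := int_okE mg
  have YΨ : Ok ∅ Ψ := int_okE mΨ
  have Yk : Ok ∅ kp := int_okE mk
  have Ye : Ok ∅ em := int_okE me
  have YR : Ok ∅ R := int_okE mR
  have Yc : ∀ f : ℝ → ℝ≥0∞, Measurable f → Ok ∅ (fun t _ _ => f t : Den) := by
    intro f hf
    refine ⟨?_, fun _ _ _ _ _ => rfl⟩
    exact hf.comp (g := f) (f := fun p : ℝ × P2 × R3 => p.1) measurable_fst
  have YGA := Yφ.GaF YΨ
  have YGg := Yφ.GaF Yg
  have YB1a : Ok ∅ (fun r x v => ENNReal.ofReal (a / r) * Ψ r x v) :=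
    (Yc (fun r => ENNReal.ofReal (a / r)) (by fun_prop)).mul YΨ
  have YB1b : Ok ∅ (fun r x v => ENNReal.ofReal d1 * GaF (L.phiE P) Ψ r x v) :=
    (Yc (fun _ => ENNReal.ofReal d1) measurable_const).mul YGA
  have YB1 := YB1a.add YB1b
  -- finiteness
  obtain ⟨Cn, hCn, hnu⟩ := int_nu_bound hP hτ t0
  obtain ⟨A, hA, hHA⟩ := h.bdd
  obtain ⟨Bg, hBg, hbg⟩ := hb
  obtain ⟨B, hB, hMB⟩ := hfin
  have hfinite : ∀ {w : Den} (c : ℝ≥0∞), c ≠ ⊤ → (∀ r, s ≤ r → r ≤ t → ∀ x v, w r x v ≤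
      {x : P2 | ‖x‖ ≤ Z * r}.indicator (fun _ => c * ENNReal.ofReal (1 + ‖v‖)) x) →
      MM m w H s t ≠ ⊤ := by
    intro w c hc hw
    have h1 : MM m w H s t ≤ ∫⁻ _ in Ioo s t, c * A * B := by
      unfold MM
      refine setLIntegral_mono_ae' measurableSet_Ioo (Eventually.of_forall fun r hr => ?_)
      have h2 := hMB r (hs0.trans hr.1) (hr.2.le.trans ht)
      have hS : MeasurableSet {x : P2 | ‖x‖ ≤ Z * r} :=
        measurableSet_le (by fun_prop) measurable_const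
      calc XWeak.mm m w H r ≤ ∫⁻ p, ({x : P2 | ‖x‖ ≤ Z * r}.indicator
              (fun _ => c * ENNReal.ofReal (1 + ‖p.2‖)) p.1) *
            (A * B2 P g1 g2 0 r p.1 p.2) ∂(m.prod (volume : Measure R3)) := by
            unfold XWeak.mm
            refine lintegral_mono fun p => ?_
            exact mul_le_mul' (hw r hr.1.le hr.2.le _ _) (hHA r (hs0.trans hr.1) (hr.2.le.trans ht) _ _)
        _ ≤ ∫⁻ x, ∫⁻ v, ({x : P2 | ‖x‖ ≤ Z * r}.indicator
              (fun _ => c * ENNReal.ofReal (1 + ‖v‖)) x) * (A * B2 P g1 g2 0 r x v) :=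
            lintegral_prod_le _
        _ = ∫⁻ x, {x : P2 | ‖x‖ ≤ Z * r}.indicator (fun x => c * A *
              ∫⁻ v, ENNReal.ofReal (1 + ‖v‖) * B2 P g1 g2 0 r x v) x := by
            refine lintegral_congr fun x => ?_
            by_cases hx : x ∈ {x : P2 | ‖x‖ ≤ Z * r}
            · simp only [indicator_of_mem hx]
              rw [← lintegral_const_mul' _ _ (ENNReal.mul_ne_top hc hA)]
              refine lintegral_congr fun v => ?_
              ring
            · simp only [indicator_of_notMem hx, zero_mul, lintegral_zero]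
        _ = c * A * ∫⁻ x in {x : P2 | ‖x‖ ≤ Z * r},
              ∫⁻ v, ENNReal.ofReal (1 + ‖v‖) * B2 P g1 g2 0 r x v := by
            rw [lintegral_indicator hS, lintegral_const_mul' _ _ (ENNReal.mul_ne_top hc hA)]
        _ ≤ c * A * B := by gcongr
    refine ne_top_of_le_ne_top ?_ h1
    rw [setLIntegral_const]
    refine ENNReal.mul_ne_top (ENNReal.mul_ne_top (ENNReal.mul_ne_top hc hA) hB) ?_
    simp
  have hone : ∀ v : R3, (1 : ℝ≥0∞) ≤ ENNReal.ofReal (1 + ‖v‖) := fun v => by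
    rw [ENNReal.one_le_ofReal]
    linarith [norm_nonneg v]
  have hf1 : MM m (fun t x v => N.LcF (L.phiE P) t x v * g t x v) H s t ≠ ⊤ := by
    refine hfinite (Cn * Bg) (ENNReal.mul_ne_top hCn hBg) fun r h1 h2 x v => ?_
    by_cases hx : ‖x‖ ≤ Z * r
    · rw [indicator_of_mem (show x ∈ {x : P2 | ‖x‖ ≤ Z * r} from hx)]
      calc N.LcF (L.phiE P) r x v * g r x v ≤ (Cn * ENNReal.ofReal (1 + ‖v‖)) * Bg :=
            mul_le_mul' (hnu r (hs.trans h1) (h2.trans ht) x v)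
              (hbg r (by linarith) (h2.trans ht) x v).1
        _ = _ := by ring
    · rw [(hsupp r (hs0.trans_le h1) (h2.trans ht) x v (not_le.1 hx)).1, mul_zero]
      exact zero_le
  have hf2 : MM m kp H s t ≠ ⊤ := by
    refine hfinite Bg hBg fun r h1 h2 x v => ?_
    by_cases hx : ‖x‖ ≤ Z * r
    · rw [indicator_of_mem (show x ∈ {x : P2 | ‖x‖ ≤ Z * r} from hx)]
      calc kp r x v ≤ Bg := (hbg r (by linarith) (h2.trans ht) x v).2.1
        _ = Bg * 1 := by rw [mul_one]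
        _ ≤ _ := by gcongr; exact hone v
    · rw [(hsupp r (hs0.trans_le h1) (h2.trans ht) x v (not_le.1 hx)).2.1]
      exact zero_le
  have hlow : ∀ s' ∈ Ico s t, ∀ x v, LowAt (N.LcF (L.phiE P)) g em kp t s' x v := by
    intro s' hs' x v
    refine ⟨int_nu_flight hP hτ (hs.trans hs'.1) ht x v, fun r hr => ?_⟩
    have := hfl s' r (hs0.trans_le hs'.1) hr.1 (hr.2.trans ht) x v
    unfold ND.O1 fw
    exact this
  have key := XWeak.low_fun (m := m) (S := ∅) (g := g)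
    (e := em) (k := kp) (B1 := fun r x v => ENNReal.ofReal (a / r) * Ψ r x v +
      ENNReal.ofReal d1 * GaF (L.phiE P) Ψ r x v)
    (B2 := R) (tinv_volume ∅) Yφ YH Yσ Yg Ye Yk YB1 YR
    hs0.le hlt (h.solOn m hs0 ht)
    (Eventually.of_forall fun p _ => hlow s ⟨le_rfl, hlt⟩ _ _)
    (by
      filter_upwards [ae_restrict_mem measurableSet_Ioo] with s' hs'
      exact Eventually.of_forall fun p _ => hlow s' ⟨hs'.1.le, hs'.2⟩ _ _)
    (by
      intro r hr
      refine Eventually.of_forall fun p _ => ?_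
      have h1 := hpw r (hs0.trans hr.1) (hr.2.le.trans ht) p.1 p.2
      rw [int_GA_eq mg, int_GA_eq mΨ] at h1
      simp only [N.LcF]
      refine le_trans (le_of_eq ?_) (h1.trans (le_of_eq ?_))
      · ring
      · ring)
    (Or.inl (ENNReal.add_ne_top.2 ⟨hf1, hf2⟩))
  rw [int_PW_eq_mm mg h.mH, int_PW_eq_mm mg h.mH]
  refine le_trans (le_of_eq ?_) (key.trans (le_of_eq ?_))
  · rw [add_assoc]
    congr 1
    rw [XWeak.MM_add_left YB1a.m h.mH]
    have m1 := XWeak.measurable_mm (m := m) YB1a.m h.mH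
    have m3 := XWeak.measurable_mm (m := m) mg h.ms
    unfold MM
    rw [← lintegral_add_left m1, ← lintegral_add_left m3]
    refine lintegral_congr fun r => ?_
    rw [int_PW_eq_mm mΨ h.mH, int_PW_eq_mm mg h.ms, int_GA_eq mΨ, int_PW_eq_mm YGA.m h.mH]
    have e1 : XWeak.mm m (fun r x v => ENNReal.ofReal (a / r) * Ψ r x v) H r =
        ENNReal.ofReal (a / r) * XWeak.mm m Ψ H r := by
      unfold XWeak.mm
      rw [← lintegral_const_mul' _ _ ENNReal.ofReal_ne_top]
      refine lintegral_congr fun p => ?_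
      ring
    have e2 : XWeak.mm m (fun r x v => ENNReal.ofReal d1 * GaF (L.phiE P) Ψ r x v) H r =
        ENNReal.ofReal d1 * XWeak.mm m (GaF (L.phiE P) Ψ) H r := by
      unfold XWeak.mm
      rw [← lintegral_const_mul' _ _ ENNReal.ofReal_ne_top]
      refine lintegral_congr fun p => ?_
      ring
    rw [e1, e2]
    ring
  · congr 1
    unfold MM
    refine lintegral_congr fun r => ?_
    rw [int_PW_eq_mm mR h.mH]

/-! ### periodisation -/

theorem int_measurable_f0 (X : XP) : Measurable fun p : P2 × R3 => f0 X p.1 p.2 := by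
  unfold f0 tentp tent fr cutB lamd
  fun_prop

theorem int_meas3_psiE (X : XP) : Meas3 (psiE X) := by
  unfold A.Meas3 psiE psi0
  refine ENNReal.measurable_ofReal.comp ?_
  exact (int_measurable_f0 X).comp (f := fun p : ℝ × P2 × R3 => (p.1⁻¹ • p.2.1, p.2.2)) (by fun_prop)


theorem int_gsE_tsum (ψ : ℤ × ℤ → R3 → ℝ≥0∞) (hψ : ∀ k, Measurable (ψ k)) (v u : R3) :
    gsE (fun w => ∑' k, ψ k w) v u = ∑' k, gsE (ψ k) v u := by
  have hm : ∀ k, Measurable fun w : R3 => ENNReal.ofReal |(inner ℝ (v - u) w : ℝ)| *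
      (ψ k (postVel v u w) + ψ k (postVelStar v u w)) := by
    intro k
    refine Measurable.mul (by fun_prop) (Measurable.add ?_ ?_)
    · exact (hψ k).comp (A.measurable_postVel (by fun_prop) (by fun_prop) (by fun_prop))
    · exact (hψ k).comp (A.measurable_postVelStar (by fun_prop) (by fun_prop) (by fun_prop))
  unfold gsE
  rw [← lintegral_tsum fun k => (hm k).aemeasurable]
  refine lintegral_congr fun w => ?_
  rw [← ENNReal.tsum_add, ENNReal.tsum_mul_left]

theorem int_GA_psiP {P : Par} (hP : P.Ok) (X : XP) (t : ℝ) (x : P2) (v : R3) :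
    GA (L.phiE P) (psiP X) t x v = ∑' k : ℤ × ℤ, GA (L.phiE P) (psiE X) t (x + latt k) v := by
  have hψ : ∀ k : ℤ × ℤ, Measurable (psiE X t (x + latt k)) := fun k => (int_meas3_psiE X).slice t _
  have hg : ∀ k : ℤ × ℤ, Measurable fun u : R3 => gsE (psiE X t (x + latt k)) v u := by
    intro k
    unfold gsE
    have h0 : Measurable fun z : R3 × R3 => ENNReal.ofReal |(inner ℝ (v - z.1) z.2 : ℝ)| := by
      fun_prop
    have h1 : Measurable fun z : R3 × R3 => psiE X t (x + latt k) (postVel v z.1 z.2) :=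
      (hψ k).comp (A.measurable_postVel measurable_const measurable_fst measurable_snd)
    have h2 : Measurable fun z : R3 × R3 => psiE X t (x + latt k) (postVelStar v z.1 z.2) :=
      (hψ k).comp (A.measurable_postVelStar measurable_const measurable_fst measurable_snd)
    exact Measurable.lintegral_prod_right' (f := fun z : R3 × R3 =>
      ENNReal.ofReal |(inner ℝ (v - z.1) z.2 : ℝ)| *
        (psiE X t (x + latt k) (postVel v z.1 z.2) +
          psiE X t (x + latt k) (postVelStar v z.1 z.2))) (h0.mul (h1.add h2))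
  have hφ : Measurable (L.phiE P t x) := (int_meas3_phiE hP).slice t x
  have hm : ∀ k : ℤ × ℤ, Measurable fun u : R3 =>
      L.phiE P t x u * gsE (psiE X t (x + latt k)) v u := fun k => hφ.mul (hg k)
  calc GA (L.phiE P) (psiP X) t x v
      = ∫⁻ u, ∑' k : ℤ × ℤ, L.phiE P t x u * gsE (psiE X t (x + latt k)) v u := by
        unfold GA
        refine lintegral_congr fun u => ?_
        rw [ENNReal.tsum_mul_left, ← int_gsE_tsum _ hψ]
        rfl
    _ = ∑' k : ℤ × ℤ, ∫⁻ u, L.phiE P t x u * gsE (psiE X t (x + latt k)) v u :=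
        lintegral_tsum fun k => (hm k).aemeasurable
    _ = _ := by
        refine tsum_congr fun k => ?_
        unfold GA
        refine lintegral_congr fun u => ?_
        have := int_per_phiE P t u x k
        dsimp only at this
        rw [this]

/-- periodisation -/
theorem PW_eq_MW {P : Par} (hP : P.Ok) {X : XP} {H : Den} (mH : Meas3 H)
    (pH : ∀ t v, PerG (fun x => H t x v)) (t : ℝ) :
    PW (GA (L.phiE P) (psiE X)) H t = MW (GA (L.phiE P) (psiP X)) H t := by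
  have YGA : Ok ∅ (GaF (L.phiE P) (psiE X)) := (int_okE (int_meas3_phiE hP)).GaF (int_okE (int_meas3_psiE X))
  have mG : Meas3 (GA (L.phiE P) (psiE X)) := by
    rw [int_GA_eq (int_meas3_psiE X)]
    exact YGA.m
  have hgm : Measurable fun q : P2 × R3 => GA (L.phiE P) (psiE X) t q.1 q.2 * H t q.1 q.2 :=
    (slice2 mG t).mul (slice2 mH t)
  have hg : Measurable fun x : P2 => ∫⁻ v, GA (L.phiE P) (psiE X) t x v * H t x v :=
    Measurable.lintegral_prod_right' (f := fun q : P2 × R3 =>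
      GA (L.phiE P) (psiE X) t q.1 q.2 * H t q.1 q.2) hgm
  have h1 := lintegral_cellG_tsum hg
  unfold PW MW
  rw [← h1]
  refine lintegral_congr fun x => ?_
  have hs : ∀ k : ℤ × ℤ, Measurable fun v : R3 =>
      GA (L.phiE P) (psiE X) t (x + latt k) v * H t (x + latt k) v := fun k =>
    (mG.slice t (x + latt k)).mul (mH.slice t (x + latt k))
  rw [← lintegral_tsum fun k => (hs k).aemeasurable]
  refine lintegral_congr fun v => ?_
  rw [int_GA_psiP hP, ← ENNReal.tsum_mul_right]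
  refine tsum_congr fun k => ?_
  have := pH t v x k
  dsimp only at this
  rw [this]

end Crest.Agent.R68.X2
end
end

-- ▼ part R68/X2Up

/-!
# Row 68, PART X2 (helper810): the integrated inequalities on a short time interval, with one
constant (abstract in the weights)
-/

set_option autoImplicit false
set_option maxHeartbeats 400000
open MeasureTheory Set Filter
open scoped ENNReal Real Topology
open Crest.AnalysisR.VecCalc3 Crest.AnalysisR.PDE.Boltzmann

noncomputable section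

namespace Crest.Agent.R68.X2.Fin

open Crest.Agent.R68.L (Den Gf Dam TL sol)
open Crest.Agent.R68.A (Meas3)

/-- upper inequality on `(0,T]` with the constant `C` -/
def UpP (P : Par) (g1 g2 A2 : ℝ) (W Ψ : Den) (T C : ℝ) : Prop :=
  ∀ (τ : ℝ) (σ H : Den), 0 < τ → SeedH P g1 g2 τ T σ H → ∀ s t, τ ≤ s → s ≤ t → t ≤ T →
    MW W H t ≤ MW W H s + ∫⁻ r in Ioo s t, (ENNReal.ofReal (A2 / r + C) * MW W H r
      + ENNReal.ofReal C * MW (GA (L.phiE P) Ψ) H r + MW W σ r)

/-- lower inequality on `(0,T]` with the constant `C` -/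
def LowP (P : Par) (g1 g2 A1 d1 : ℝ) (g Ψ W : Den) (T C : ℝ) : Prop :=
  ∀ (τ : ℝ) (σ H : Den), 0 < τ → SeedH P g1 g2 τ T σ H → ∀ s t, τ ≤ s → s ≤ t → t ≤ T →
    PW g H s + ∫⁻ r in Ioo s t, (ENNReal.ofReal (A1 / r) * PW g H r
      + ENNReal.ofReal d1 * MW (GA (L.phiE P) Ψ) H r + PW g σ r)
      ≤ PW g H t + ∫⁻ r in Ioo s t, ENNReal.ofReal C * MW W H r

theorem up_ev {P : Par} (hP : P.Ok) {g1 g2 : ℝ} {W Ψ k : Den} (mW : Meas3 W) (mΨ : Meas3 Ψ)
    (mk : Meas3 k)
    (pW : ∀ t v, PerG (fun x => W t x v)) (pΨ : ∀ t v, PerG (fun x => Ψ t x v))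
    (pk : ∀ t v, PerG (fun x => k t x v)) {a : ℝ} (ha : 0 ≤ a)
    (hfin : ∃ t0 : ℝ, 0 < t0 ∧ ∃ B : ℝ≥0∞, B ≠ ⊤ ∧ ∀ t, 0 < t → t ≤ t0 →
      MW (fun t x v => ENNReal.ofReal (1 + ‖v‖) * W t x v) (B2 P g1 g2 0) t ≤ B)
    (hk : ∃ t0 C : ℝ, 0 < t0 ∧ 0 ≤ C ∧ ∀ t, 0 < t → t ≤ t0 → ∀ x v,
      k t x v ≤ ENNReal.ofReal (C / t ^ 3) * W t x v)
    (hpw : ∃ t0 C : ℝ, 0 < t0 ∧ 0 ≤ C ∧ ∀ t, 0 < t → t ≤ t0 → ∀ x v,
      GA (L.phiE P) W t x v ≤ Lc (L.phiE P t x) v * W t x v + k t x v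
      + ENNReal.ofReal (a / t + C) * W t x v + ENNReal.ofReal C * GA (L.phiE P) Ψ t x v)
    (hfl : ∃ t0 C : ℝ, 0 < t0 ∧ 0 ≤ C ∧ ∀ s r : ℝ, 0 < s → s ≤ r → r ≤ t0 → ∀ (x : P2) (v : R3),
      W r (x + (r - s) • bar v) v + ∫⁻ ρ in Ioo s r, k ρ (x + (ρ - s) • bar v) v
      ≤ W s x v + ∫⁻ ρ in Ioo s r, ENNReal.ofReal C * W ρ (x + (ρ - s) • bar v) v) :
    ∃ T0 C0 : ℝ, 0 < T0 ∧ 0 ≤ C0 ∧ ∀ T C, 0 < T → T ≤ T0 → C0 ≤ C → UpP P g1 g2 a W Ψ T C := by
  obtain ⟨ta, hta, B, hB, hfin⟩ := hfin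
  obtain ⟨tb, Cb, htb, hCb, hk⟩ := hk
  obtain ⟨tc, Cc, htc, hCc, hpw⟩ := hpw
  obtain ⟨td, Cd, htd, hCd, hfl⟩ := hfl
  set Cm : ℝ := 8 * Cb + Cc + Cd with hCm
  have hCm0 : 0 ≤ Cm := by positivity
  refine ⟨min (min ta tb) (min tc td), 2 * Cm, by positivity, by positivity, ?_⟩
  intro T C hT hTle hC τ σ H hτ hS s t hs hst ht
  have h1 : T ≤ ta := hTle.trans ((min_le_left _ _).trans (min_le_left _ _))
  have h2 : T ≤ tb := hTle.trans ((min_le_left _ _).trans (min_le_right _ _))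
  have h3 : T ≤ tc := hTle.trans ((min_le_right _ _).trans (min_le_left _ _))
  have h4 : T ≤ td := hTle.trans ((min_le_right _ _).trans (min_le_right _ _))
  have key := int_up hP hτ hS mW mΨ mk pW pΨ pk ha hCm0
    ⟨B, hB, fun t ht1 ht2 => hfin t ht1 (ht2.trans h1)⟩
    (fun t ht1 ht2 x v => by
      have ht0 : 0 < t := by linarith
      refine (hk t ht0 (ht2.trans h2) x v).trans ?_
      gcongr ENNReal.ofReal ?_ * _
      rw [div_le_div_iff₀ (by positivity) (by positivity)]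
      have e1 : (τ / 2) ^ 3 ≤ t ^ 3 := pow_le_pow_left₀ (by positivity) ht1 3
      have e2 : τ ^ 3 ≤ 8 * t ^ 3 := by nlinarith
      calc Cb * τ ^ 3 ≤ Cb * (8 * t ^ 3) := by gcongr
        _ ≤ Cm * t ^ 3 := by
          rw [hCm]
          have : 0 < t ^ 3 := by positivity
          nlinarith)
    (fun t ht1 ht2 x v => by
      refine (hpw t ht1 (ht2.trans h3) x v).trans ?_
      have e1 : a / t + Cc ≤ a / t + Cm := by rw [hCm]; linarith
      have e2 : Cc ≤ Cm := by rw [hCm]; linarith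
      gcongr)
    (fun s r hs1 hsr hr x v => by
      refine (hfl s r hs1 hsr (hr.trans h4) x v).trans ?_
      have e2 : Cd ≤ Cm := by rw [hCm]; linarith
      gcongr) s t hs hst ht
  refine key.trans ?_
  gcongr with r hr
  linarith

/-- a weight supported in a small ball, dominated by a periodic weight -/
theorem PW_le_MW {R W H : Den} (mW : Meas3 W) (mH : Meas3 H)
    (pW : ∀ t v, PerG (fun x => W t x v)) (pH : ∀ t v, PerG (fun x => H t x v))
    {t Z c : ℝ} (hZ : Z < 7 / 20)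
    (hR : ∀ x v, R t x v ≤ if ‖x‖ ≤ Z then ENNReal.ofReal c * W t x v else 0) :
    PW R H t ≤ ENNReal.ofReal c * MW W H t := by
  set F : P2 → ℝ≥0∞ := fun x => ∫⁻ v, W t x v * H t x v with hF
  have mF : Measurable F := by
    refine Measurable.lintegral_prod_right' (f := fun p : P2 × R3 => W t p.1 p.2 * H t p.1 p.2) ?_
    exact (mW.comp measurable_const measurable_fst measurable_snd).mul
      (mH.comp measurable_const measurable_fst measurable_snd)
  have pF : PerG F := by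
    intro x k
    refine lintegral_congr fun v => ?_
    have e1 := pW t v x k
    have e2 := pH t v x k
    simp only at e1 e2
    rw [e1, e2]
  have h1 : ∀ x, (∫⁻ v, R t x v * H t x v) ≤
      {x : P2 | ‖x - 0‖ ≤ Z}.indicator (fun x => ENNReal.ofReal c * F x) x := by
    intro x
    by_cases hx : ‖x‖ ≤ Z
    · rw [indicator_of_mem (by simpa using hx), hF]
      simp only
      rw [← lintegral_const_mul' _ _ ENNReal.ofReal_ne_top]
      refine lintegral_mono fun v => ?_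
      have := hR x v
      rw [if_pos hx] at this
      calc R t x v * H t x v ≤ ENNReal.ofReal c * W t x v * H t x v := by gcongr
        _ = _ := by ring
    · rw [indicator_of_notMem (by simpa using hx)]
      refine le_of_eq ?_
      rw [lintegral_eq_zero_iff']
      · refine Eventually.of_forall fun v => ?_
        have := hR x v
        rw [if_neg hx] at this
        simp [nonpos_iff_eq_zero.1 this]
      · refine AEMeasurable.congr (f := fun _ => (0 : ℝ≥0∞)) aemeasurable_const ?_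
        refine Eventually.of_forall fun v => ?_
        have := hR x v
        rw [if_neg hx] at this
        simp [nonpos_iff_eq_zero.1 this]
  have hS : MeasurableSet {x : P2 | ‖x - 0‖ ≤ Z} :=
    measurableSet_le (by fun_prop) measurable_const
  calc PW R H t ≤ ∫⁻ x, {x : P2 | ‖x - 0‖ ≤ Z}.indicator (fun x => ENNReal.ofReal c * F x) x :=
        lintegral_mono h1
    _ = ∫⁻ x in {x : P2 | ‖x - 0‖ ≤ Z}, ENNReal.ofReal c * F x := lintegral_indicator hS _
    _ = ENNReal.ofReal c * ∫⁻ x in {x : P2 | ‖x - 0‖ ≤ Z}, F x :=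
        lintegral_const_mul' _ _ ENNReal.ofReal_ne_top
    _ ≤ ENNReal.ofReal c * ∫⁻ x in cellG, F x :=
        mul_le_mul' le_rfl (LMass.lintegral_ball_le mF pF 0 hZ)
    _ = ENNReal.ofReal c * MW W H t := rfl

/-- from a real increment inequality along a flight to the extended form -/
theorem flow_enn {L : ℝ → ℝ} {s r a b : ℝ} (hsr : s ≤ r) (hL : IntervalIntegrable L volume s r)
    (ha : 0 ≤ a) (h : ∫ ρ in s..r, L ρ ≤ b - a) :
    ENNReal.ofReal a + ∫⁻ ρ in Ioo s r, ENNReal.ofReal (L ρ) ≤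
      ENNReal.ofReal b + ∫⁻ ρ in Ioo s r, ENNReal.ofReal (-L ρ) := by
  rw [intervalIntegrable_iff_integrableOn_Ioo_of_le hsr] at hL
  rw [intervalIntegral.integral_of_le hsr, integral_Ioc_eq_integral_Ioo,
    integral_eq_lintegral_pos_part_sub_lintegral_neg_part hL] at h
  have f1 : (∫⁻ ρ in Ioo s r, ENNReal.ofReal (L ρ)) ≠ ⊤ := hL.lintegral_lt_top.ne
  have f2 : (∫⁻ ρ in Ioo s r, ENNReal.ofReal (-L ρ)) ≠ ⊤ := hL.neg.lintegral_lt_top.ne
  set p := ∫⁻ ρ in Ioo s r, ENNReal.ofReal (L ρ)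
  set n := ∫⁻ ρ in Ioo s r, ENNReal.ofReal (-L ρ)
  have hp : 0 ≤ p.toReal := ENNReal.toReal_nonneg
  have hn : 0 ≤ n.toReal := ENNReal.toReal_nonneg
  rw [← ENNReal.ofReal_toReal f1, ← ENNReal.ofReal_toReal f2, ← ENNReal.ofReal_add ha hp]
  calc ENNReal.ofReal (a + p.toReal) ≤ ENNReal.ofReal (b + n.toReal) :=
        ENNReal.ofReal_le_ofReal (by linarith)
    _ ≤ ENNReal.ofReal b + ENNReal.ofReal n.toReal := ENNReal.ofReal_add_le

theorem measurable_MW {W H : Den} (mW : Meas3 W) (mH : Meas3 H) :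
    Measurable fun r => MW W H r := by
  have h1 : (fun r => MW W H r) = fun r =>
      XWeak.mm ((volume : Measure P2).restrict cellG) W H r := by
    funext r; exact int_MW_eq_mm mW mH r
  rw [h1]
  exact XWeak.measurable_mm mW mH


/-- the correction near the lattice point -/
def errD (C : ℝ) (W : Den) : Den := fun t x v =>
  if ‖x‖ ≤ C * t then ENNReal.ofReal (C * t) * W t x v else 0

theorem PW_errD_le {W H : Den} (mW : Meas3 W) (mH : Meas3 H)
    (pW : ∀ t v, PerG (fun x => W t x v)) (pH : ∀ t v, PerG (fun x => H t x v))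
    {t C : ℝ} (hZ : C * t < 7 / 20) : PW (errD C W) H t ≤ ENNReal.ofReal (C * t) * MW W H t := by
  refine PW_le_MW (R := errD C W) (Z := C * t) (c := C * t) mW mH pW pH hZ fun x v => ?_
  unfold errD
  exact le_rfl

theorem PW_le_add {g Ψ E H : Den} (mΨ : Meas3 Ψ) (mH : Meas3 H) {r : ℝ}
    (h : ∀ x v, g r x v ≤ Ψ r x v + E r x v) : PW g H r ≤ PW Ψ H r + PW E H r := by
  have m1 : Measurable fun p : P2 × R3 => Ψ r p.1 p.2 * H r p.1 p.2 :=
    (mΨ.comp measurable_const measurable_fst measurable_snd).mul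
      (mH.comp measurable_const measurable_fst measurable_snd)
  unfold PW
  rw [← lintegral_add_left (Measurable.lintegral_prod_right' m1)]
  refine lintegral_mono fun x => ?_
  have m2 : Measurable fun v => Ψ r x v * H r x v := m1.comp measurable_prodMk_left
  show ∫⁻ v, g r x v * H r x v ≤ (∫⁻ v, Ψ r x v * H r x v) + ∫⁻ v, E r x v * H r x v
  rw [← lintegral_add_left m2]
  refine lintegral_mono fun v => ?_
  rw [← add_mul]
  exact mul_le_mul' (h x v) le_rfl

theorem low_ev {P : Par} (hP : P.Ok) {g1 g2 : ℝ} {W g kp em R : Den} {X : XP} (mW : Meas3 W)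
    (mg : Meas3 g) (mk : Meas3 kp) (me : Meas3 em) (mR : Meas3 R)
    (pW : ∀ t v, PerG (fun x => W t x v)) {a d1 : ℝ} (ha : 0 ≤ a) (hd1 : 0 < d1) {Z : ℝ}
    (_hZ : 0 ≤ Z)
    (hsupp : ∃ t0 : ℝ, 0 < t0 ∧ ∀ t, 0 < t → t ≤ t0 → ∀ x v, ‖x‖ > Z * t →
      g t x v = 0 ∧ kp t x v = 0 ∧ em t x v = 0)
    (hb : ∃ t0 : ℝ, 0 < t0 ∧ ∀ τ, 0 < τ → ∃ B : ℝ≥0∞, B ≠ ⊤ ∧ ∀ t, τ / 2 ≤ t → t ≤ t0 → ∀ x v,
      g t x v ≤ B ∧ kp t x v ≤ B ∧ em t x v ≤ B)
    (hfin : ∃ t0 : ℝ, 0 < t0 ∧ ∃ B : ℝ≥0∞, B ≠ ⊤ ∧ ∀ t, 0 < t → t ≤ t0 →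
      ∫⁻ x in {x : P2 | ‖x‖ ≤ Z * t}, ∫⁻ v, ENNReal.ofReal (1 + ‖v‖) * B2 P g1 g2 0 t x v ≤ B)
    (hpw : ∃ t0 : ℝ, 0 < t0 ∧ ∀ t, 0 < t → t ≤ t0 → ∀ x v,
      kp t x v + Lc (L.phiE P t x) v * g t x v
      + ENNReal.ofReal (a / t) * psiE X t x v + ENNReal.ofReal d1 * GA (L.phiE P) (psiE X) t x v
      ≤ em t x v + GA (L.phiE P) g t x v + R t x v)
    (hfl : ∃ t0 : ℝ, 0 < t0 ∧ ∀ s r : ℝ, 0 < s → s ≤ r → r ≤ t0 → ∀ (x : P2) (v : R3),
      g s x v + ∫⁻ ρ in Ioo s r, em ρ (x + (ρ - s) • bar v) v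
      ≤ g r (x + (r - s) • bar v) v + ∫⁻ ρ in Ioo s r, kp ρ (x + (ρ - s) • bar v) v)
    (hR : ∃ t0 C : ℝ, 0 < t0 ∧ 0 ≤ C ∧ ∀ t, 0 < t → t ≤ t0 → ∀ x v,
      R t x v ≤ if ‖x‖ ≤ C * t then ENNReal.ofReal C * W t x v else 0)
    (hg : ∃ t0 C : ℝ, 0 < t0 ∧ 0 ≤ C ∧ ∀ t, 0 < t → t ≤ t0 → ∀ x v,
      g t x v ≤ psiE X t x v + errD C W t x v) :
    ∃ T0 C0 : ℝ, 0 < T0 ∧ 0 ≤ C0 ∧ ∀ T C, 0 < T → T ≤ T0 → C0 ≤ C →
      LowP P g1 g2 a d1 g (psiP X) W T C := by
  obtain ⟨ta, hta, hsupp⟩ := hsupp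
  obtain ⟨tb, htb, hb⟩ := hb
  obtain ⟨tc, htc, B, hB, hfin⟩ := hfin
  obtain ⟨td, htd, hpw⟩ := hpw
  obtain ⟨te, hte, hfl⟩ := hfl
  obtain ⟨tf, Cf, htf, hCf, hR⟩ := hR
  obtain ⟨tg, Cg, htg, hCg, hg⟩ := hg
  set th : ℝ := min (1 / (4 * (Cf + 1))) (1 / (4 * (Cg + 1))) with hth
  have hthp : 0 < th := by rw [hth]; positivity
  refine ⟨min (min (min ta tb) (min tc td)) (min (min te tf) (min tg th)), Cf + a * Cg,
    by positivity, by positivity, ?_⟩
  intro T C hT hTle hC τ σ H hτ hS s t hs hst ht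
  have h1 : T ≤ ta := hTle.trans ((min_le_left _ _).trans ((min_le_left _ _).trans (min_le_left _ _)))
  have h2 : T ≤ tb := hTle.trans ((min_le_left _ _).trans ((min_le_left _ _).trans (min_le_right _ _)))
  have h3 : T ≤ tc := hTle.trans ((min_le_left _ _).trans ((min_le_right _ _).trans (min_le_left _ _)))
  have h4 : T ≤ td := hTle.trans ((min_le_left _ _).trans ((min_le_right _ _).trans (min_le_right _ _)))
  have h5 : T ≤ te := hTle.trans ((min_le_right _ _).trans ((min_le_left _ _).trans (min_le_left _ _)))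
  have h6 : T ≤ tf := hTle.trans ((min_le_right _ _).trans ((min_le_left _ _).trans (min_le_right _ _)))
  have h7 : T ≤ tg := hTle.trans ((min_le_right _ _).trans ((min_le_right _ _).trans (min_le_left _ _)))
  have h8 : T ≤ th := hTle.trans ((min_le_right _ _).trans ((min_le_right _ _).trans (min_le_right _ _)))
  have key := int_low hP hτ hS (R := R) (a := a) (d1 := d1) (Z := Z) mg (int_meas3_psiE X) mk me mR ha hd1
    (fun t ht1 ht2 x v hx => hsupp t ht1 (ht2.trans h1) x v hx)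
    (by
      obtain ⟨B', hB', hb'⟩ := hb τ hτ
      exact ⟨B', hB', fun t ht1 ht2 x v => hb' t ht1 (ht2.trans h2) x v⟩)
    ⟨B, hB, fun t ht1 ht2 => hfin t ht1 (ht2.trans h3)⟩
    (fun t ht1 ht2 x v => hpw t ht1 (ht2.trans h4) x v)
    (fun s r hs1 hsr hr x v => hfl s r hs1 hsr (hr.trans h5) x v) s t hs hst ht
  -- error terms
  have hCf1 : ∀ r, 0 < r → r ≤ T → Cf * r < 7 / 20 := by
    intro r hr hrT
    have e1 : r ≤ 1 / (4 * (Cf + 1)) := hrT.trans (h8.trans (min_le_left _ _))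
    calc Cf * r ≤ (Cf + 1) * (1 / (4 * (Cf + 1))) := by
          refine mul_le_mul (by linarith) e1 hr.le (by positivity)
      _ = 1 / 4 := by field_simp
      _ < 7 / 20 := by norm_num
  have hCg1 : ∀ r, 0 < r → r ≤ T → Cg * r < 7 / 20 := by
    intro r hr hrT
    have e1 : r ≤ 1 / (4 * (Cg + 1)) := hrT.trans (h8.trans (min_le_right _ _))
    calc Cg * r ≤ (Cg + 1) * (1 / (4 * (Cg + 1))) := by
          refine mul_le_mul (by linarith) e1 hr.le (by positivity)
      _ = 1 / 4 := by field_simp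
      _ < 7 / 20 := by norm_num
  have eR : ∀ r ∈ Ioo s t, PW R H r ≤ ENNReal.ofReal Cf * MW W H r := by
    intro r hr
    have hr0 : 0 < r := hτ.trans_le (hs.trans hr.1.le)
    have hrT : r ≤ T := hr.2.le.trans ht
    exact PW_le_MW mW hS.mH pW hS.pH (hCf1 r hr0 hrT) (fun x v => hR r hr0 (hrT.trans h6) x v)
  have eg : ∀ r ∈ Ioo s t, ENNReal.ofReal (a / r) * PW g H r ≤
      ENNReal.ofReal (a / r) * PW (psiE X) H r + ENNReal.ofReal (a * Cg) * MW W H r := by
    intro r hr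
    have hr0 : 0 < r := hτ.trans_le (hs.trans hr.1.le)
    have hrT : r ≤ T := hr.2.le.trans ht
    have e1 : PW g H r ≤ PW (psiE X) H r + PW (errD Cg W) H r :=
      PW_le_add (int_meas3_psiE X) hS.mH (hg r hr0 (hrT.trans h7))
    have e2 : PW (errD Cg W) H r ≤ ENNReal.ofReal (Cg * r) * MW W H r :=
      PW_errD_le mW hS.mH pW hS.pH (hCg1 r hr0 hrT)
    calc ENNReal.ofReal (a / r) * PW g H r
        ≤ ENNReal.ofReal (a / r) * (PW (psiE X) H r + ENNReal.ofReal (Cg * r) * MW W H r) := by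
          gcongr
          exact e1.trans (add_le_add le_rfl e2)
      _ = ENNReal.ofReal (a / r) * PW (psiE X) H r +
          (ENNReal.ofReal (a / r) * ENNReal.ofReal (Cg * r)) * MW W H r := by ring
      _ = _ := by
          rw [← ENNReal.ofReal_mul (by positivity)]
          congr 3
          field_simp
  have mMW := measurable_MW mW hS.mH
  have eq1 : ∀ r, PW (GA (L.phiE P) (psiE X)) H r = MW (GA (L.phiE P) (psiP X)) H r := fun r =>
    PW_eq_MW hP hS.mH hS.pH r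
  calc PW g H s + ∫⁻ r in Ioo s t, (ENNReal.ofReal (a / r) * PW g H r
        + ENNReal.ofReal d1 * MW (GA (L.phiE P) (psiP X)) H r + PW g σ r)
      ≤ PW g H s + ∫⁻ r in Ioo s t, ((ENNReal.ofReal (a / r) * PW (psiE X) H r
        + ENNReal.ofReal d1 * PW (GA (L.phiE P) (psiE X)) H r + PW g σ r) +
        ENNReal.ofReal (a * Cg) * MW W H r) := by
        gcongr 1
        refine setLIntegral_mono_ae' measurableSet_Ioo (Eventually.of_forall fun r hr => ?_)
        rw [eq1 r]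
        calc _ ≤ (ENNReal.ofReal (a / r) * PW (psiE X) H r + ENNReal.ofReal (a * Cg) * MW W H r)
            + ENNReal.ofReal d1 * MW (GA (L.phiE P) (psiP X)) H r + PW g σ r := by
              gcongr
              exact eg r hr
          _ = _ := by ring
    _ = (PW g H s + ∫⁻ r in Ioo s t, (ENNReal.ofReal (a / r) * PW (psiE X) H r
        + ENNReal.ofReal d1 * PW (GA (L.phiE P) (psiE X)) H r + PW g σ r)) +
        ∫⁻ r in Ioo s t, ENNReal.ofReal (a * Cg) * MW W H r := by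
        rw [lintegral_add_right _ (mMW.const_mul _), add_assoc]
    _ ≤ (PW g H t + ∫⁻ r in Ioo s t, PW R H r) +
        ∫⁻ r in Ioo s t, ENNReal.ofReal (a * Cg) * MW W H r := by
        gcongr
    _ ≤ (PW g H t + ∫⁻ r in Ioo s t, ENNReal.ofReal Cf * MW W H r) +
        ∫⁻ r in Ioo s t, ENNReal.ofReal (a * Cg) * MW W H r := by
        exact add_le_add (add_le_add le_rfl
          (setLIntegral_mono_ae' measurableSet_Ioo (Eventually.of_forall eR))) le_rfl
    _ = PW g H t + ∫⁻ r in Ioo s t, ENNReal.ofReal (Cf + a * Cg) * MW W H r := by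
        rw [add_assoc, ← lintegral_add_left (mMW.const_mul _)]
        congr 1
        refine lintegral_congr fun r => ?_
        rw [← add_mul, ← ENNReal.ofReal_add hCf (by positivity)]
    _ ≤ _ := by
        gcongr

end Crest.Agent.R68.X2.Fin
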