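import Crest.Agent.R68.SInst
import Crest.Agent.R68.X2F0_Mg
import Crest.Agent.R68.LProps
import Crest.Agent.R68.X2Up
import Crest.Agent.R68.X2Corr_Mg
import Crest.Agent.R68.X2Meas2_Mg
import Crest.Agent.R68.X2OmB2
import Crest.Agent.R68.X2F0f
import Crest.Agent.R68.LMass2
import Crest.Agent.R68.X1_Mg
import Crest.Agent.R68.NBnd
import Crest.Agent.R68.NStart
import Crest.Agent.R68.NExt2
import Crest.Agent.R68.K3
import Crest.Agent.R68.NDamp
import Crest.Agent.R68.NAlg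
import Crest.Agent.R68.LAncF
import Crest.Agent.R68.LNull
import Crest.Agent.R68.Main0

-- ▼ part R68/SOutF
section

/-!
# Row 68, Part S: `SOut_holds` (helper813) — the smoothing input of Part L for the final parameters
-/

set_option autoImplicit false
open MeasureTheory Set Filter
open scoped ENNReal Topology
open Crest.AnalysisR.VecCalc3 Crest.AnalysisR.PDE.Boltzmann

noncomputable section

namespace Crest.Agent.R68.L

theorem SOut_holds (Y g1 : ℝ) (hY : 1 ≤ Y) (hg1 : 0 < g1) : SOut Y g1 := by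
  intro V0 L ε _ hL hε
  have hY0 : 0 < Y := by linarith
  have hCN : 0 < CNw Y / 2 := by unfold CNw; positivity
  obtain ⟨K0, R, C, e, hK01, _, hR, hC, he, H⟩ := SI.fieldS hY0 hg1 hL hε
    (S.coreProp (g1 / 2 / 2) L (Y + 4) (CNw Y / 2) ((8 + 6 * Y) ^ 2) 2 (by positivity) hL
      (by positivity) hCN (by positivity))
  refine ⟨K0, fun K hK => ⟨R, ENNReal.ofReal (C * K ^ 2), hR.le, ENNReal.ofReal_ne_top, ?_⟩⟩
  intro ey hey _
  have hK0 : 0 ≤ K := by linarith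
  filter_upwards [eventually_ge_atTop 3] with p hp
  have hlim : ∀ᶠ j0 : ℕ in atTop, 12 * (1 + Y) * etaj p j0 ≤ e := by
    have h1 : Tendsto (fun j0 : ℕ => 12 * (1 + Y) * (1 / (2 * (j0 : ℝ) + 1))) atTop
        (𝓝 (12 * (1 + Y) * 0)) := by
      refine Tendsto.const_mul _ ?_
      have h2 : Tendsto (fun j0 : ℕ => 2 * (j0 : ℝ) + 1) atTop atTop :=
        tendsto_atTop_add_const_right _ _
          ((tendsto_natCast_atTop_atTop (R := ℝ)).const_mul_atTop (by norm_num))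
      have h3 := h2.inv_tendsto_atTop
      simp only [one_div]
      exact h3
    rw [mul_zero] at h1
    filter_upwards [h1.eventually (ge_mem_nhds he)] with j0 h3
    refine le_trans ?_ h3
    have h4 : etaj p j0 ≤ 1 / (2 * (j0 : ℝ) + 1) := by
      unfold etaj
      have h5 : (0 : ℝ) ≤ 1 / (2 * (j0 : ℝ) + 1) := by positivity
      have h6 : 1 / (2 * (j0 : ℝ) + 1) ≤ 1 := by
        rw [div_le_one (by positivity)]
        have : (0 : ℝ) ≤ j0 := by positivity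
        linarith
      calc (1 / (2 * (j0 : ℝ) + 1)) ^ p ≤ (1 / (2 * (j0 : ℝ) + 1)) ^ 1 :=
            pow_le_pow_of_le_one h5 h6 (by omega)
        _ = _ := pow_one _
    gcongr
  filter_upwards [ev_Ok K Y ey p hK0 hY0 hey hp, hlim] with j0 hP hη
  set P := par K Y ey p j0 with hPd
  have hkap : 0 < P.kap := lt_of_lt_of_le one_pos hP.kap1
  refine ⟨min (1 / 10) (min (1 / (10 * (P.Y + 2))) (min (1 / P.kap) ((50 * g1) ^ 2))), ?_, ?_⟩
  · have := hP.Y0
    positivity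
  · intro t0 _ h0
    have a1 : t0 ≤ 1 / 10 := h0.trans (min_le_left _ _)
    have h1 := h0.trans (min_le_right _ _)
    have a2 : t0 ≤ 1 / (10 * (P.Y + 2)) := h1.trans (min_le_left _ _)
    have h2 := h1.trans (min_le_right _ _)
    have a3 : t0 ≤ 1 / P.kap := h2.trans (min_le_left _ _)
    have a4 : t0 ≤ (50 * g1) ^ 2 := h2.trans (min_le_right _ _)
    have a5 : t0 * P.kap ≤ 1 := by
      calc t0 * P.kap ≤ 1 / P.kap * P.kap := by gcongr
        _ = 1 := by field_simp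
    have a6 : √t0 / 100 ≤ g1 / 2 := by
      have : √t0 ≤ 50 * g1 := by
        rw [← Real.sqrt_sq (show (0 : ℝ) ≤ 50 * g1 by positivity)]
        exact Real.sqrt_le_sqrt a4
      linarith
    exact H P hP rfl hK hη V0 t0 a1 a2 a5 a6

end Crest.Agent.R68.L
end
end

-- ▼ part R68/X2Fin
section

/-!
# Row 68, PART X2 (helper810): the final statement of X2
-/

set_option autoImplicit false
set_option maxHeartbeats 400000
open MeasureTheory Set Filter
open scoped ENNReal Real Topology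
open Crest.AnalysisR.VecCalc3 Crest.AnalysisR.PDE.Boltzmann

noncomputable section

namespace Crest.Agent.R68.X2.Fin

open Crest.Agent.R68.L (Den Gf Dam TL sol)
open Crest.Agent.R68.A (Meas3)

/-! ### the field `up` -/

theorem kap1_le {Y C2 gp : ℝ} (_hC2 : 0 ≤ C2) {t : ℝ} (ht : 0 < t) (x : P2) (v : R3) :
    kap1 Y C2 gp t x v ≤ ENNReal.ofReal (1 / t) * OmE Y C2 gp t x v := by
  unfold kap1
  split_ifs
  · unfold OmE Om
    rw [← ENNReal.ofReal_mul (by positivity)]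
    refine ENNReal.ofReal_le_ofReal ?_
    have h1 : C2 * |fr (Yc Y t x) v 1| ≤ hh C2 (fr (Yc Y t x) v) := by
      unfold hh
      have : 0 ≤ ‖fr (Yc Y t x) v‖ ^ 12 := by positivity
      linarith
    have h2 : 0 < Real.exp (gp * mm t x v ^ 2) := Real.exp_pos _
    calc C2 * |fr (Yc Y t x) v 1| / t * Real.exp (gp * mm t x v ^ 2)
        ≤ hh C2 (fr (Yc Y t x) v) / t * Real.exp (gp * mm t x v ^ 2) := by gcongr
      _ = 1 / t * (hh C2 (fr (Yc Y t x) v) * Real.exp (gp * mm t x v ^ 2)) := by ring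
  · exact zero_le

theorem kap2_le {Y C2 gp Z1 : ℝ} (hC2 : 0 ≤ C2) (hgp : 0 ≤ gp) {t : ℝ} (ht : 0 < t) (x : P2)
    (v : R3) : kap2 Y C2 gp Z1 t x v ≤ ENNReal.ofReal (gp / t ^ 3) * OmE Y C2 gp t x v := by
  unfold kap2
  split_ifs
  · unfold OmE
    rw [← ENNReal.ofReal_mul (by positivity)]
    refine ENNReal.ofReal_le_ofReal ?_
    have h1 : distG x ≤ 1 := distG_le_one x
    have h2 : 0 ≤ distG x := distG_nonneg x
    have h3 := pt_Om_nonneg (Y := Y) hC2 hgp t x v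
    have h4 : gp / 2 * (distG x / t) ^ 2 / t ≤ gp / t ^ 3 := by
      have e1 : gp / 2 * (distG x / t) ^ 2 / t = (gp / 2 * distG x ^ 2) / t ^ 3 := by
        field_simp
      rw [e1]
      gcongr
      nlinarith [mul_nonneg hgp h2]
    gcongr
  · exact zero_le

theorem up_fin {P : Par} (hP : P.Ok) (hY1 : 1 ≤ P.Y) {g1 g2 gp C2 Z1 : ℝ} (hg2 : 0 < g2)
    (hg21 : g2 ≤ g1) (hgp : 0 < gp) (hgp2 : 4 * gp ≤ g2) (hC2 : 0 ≤ C2) (hZ1 : 1 ≤ Z1) (X : XP)
    (hpw : ∃ t0 C : ℝ, 0 < t0 ∧ 0 ≤ C ∧ ∀ t, 0 < t → t ≤ t0 → ∀ (x : P2) (v : R3),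
      GA (L.phiE P) (OmE P.Y C2 gp) t x v ≤ Lc (L.phiE P t x) v * OmE P.Y C2 gp t x v
        + kap1 P.Y C2 gp t x v + kap2 P.Y C2 gp Z1 t x v
        + ENNReal.ofReal (π * P.K / t + C) * OmE P.Y C2 gp t x v
        + ENNReal.ofReal C * GA (L.phiE P) (psiP X) t x v) :
    ∃ T0 C0 : ℝ, 0 < T0 ∧ 0 ≤ C0 ∧ ∀ T C, 0 < T → T ≤ T0 → C0 ≤ C →
      UpP P g1 g2 (π * P.K) (OmE P.Y C2 gp) (psiP X) T C := by
  have hK := hP.K0
  refine up_ev hP (k := fun t x v => kap1 P.Y C2 gp t x v + kap2 P.Y C2 gp Z1 t x v)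
    (meas3_OmE _ _ _) (M60.meas3_psiP X)
    ((M60.meas3_kap1 _ _ _).add (M60.meas3_kap2 _ _ _ _))
    (fun t v => perG_OmE _ _ _ t v) (fun t v => M60.perG_psiP X t v) ?_ (by positivity)
    (Om_B2 hP hg2 hg21 hgp.le hgp2 hC2) ?_ ?_ ?_
  · intro t v x k
    have e1 := M60.perG_kap1 P.Y C2 gp t v x k
    have e2 := M60.perG_kap2 P.Y C2 gp Z1 t v x k
    simp only at e1 e2 ⊢
    rw [e1, e2]
  · refine ⟨1, 1 + gp, one_pos, by positivity, fun t ht ht1 x v => ?_⟩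
    refine (add_le_add (kap1_le hC2 ht x v) (kap2_le hC2 hgp.le ht x v)).trans ?_
    rw [← add_mul, ← ENNReal.ofReal_add (by positivity) (by positivity)]
    gcongr ENNReal.ofReal ?_ * _
    have e1 : (1 : ℝ) / t ≤ 1 / t ^ 3 := by
      apply one_div_le_one_div_of_le (by positivity)
      calc t ^ 3 = t * t ^ 2 := by ring
        _ ≤ t * 1 := by
          gcongr
          exact pow_le_one₀ ht.le ht1
        _ = t := mul_one t
    calc 1 / t + gp / t ^ 3 ≤ 1 / t ^ 3 + gp / t ^ 3 := by gcongr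
      _ = (1 + gp) / t ^ 3 := by ring
  · obtain ⟨t0, C, ht0, hC, h⟩ := hpw
    refine ⟨t0, C, ht0, hC, fun t ht ht1 x v => ?_⟩
    refine (h t ht ht1 x v).trans (le_of_eq ?_)
    ring
  · obtain ⟨t0, C, ht0, -, hC, h⟩ := flight_Om (C2 := C2) (gp := gp) (Z1 := Z1) hY1 hC2 hgp hZ1
    exact ⟨t0, C, ht0, hC, h⟩

/-! ### the field `low` -/

theorem one_le_OmE {Y C2 gp : ℝ} (hC2 : 0 ≤ C2) (hgp : 0 ≤ gp) (t : ℝ) (x : P2) (v : R3) :
    1 ≤ OmE Y C2 gp t x v := by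
  unfold OmE
  rw [← ENNReal.ofReal_one]
  refine ENNReal.ofReal_le_ofReal ?_
  have := pt_Om_ge (Y := Y) hC2 hgp t x v
  have : 0 ≤ ‖fr (Yc Y t x) v‖ ^ 12 := by positivity
  linarith

/-- `psi0 ≤ gL` when the constant `Cg` dominates the corrector -/
theorem psi0_le_gL {X : XP} {P : Par} {Y ey N d1 Zs Vs Cg : ℝ} (h : LowOK X P Y ey N d1 Zs Vs)
    (hCg : 0 ≤ Cg) {t : ℝ} {x : P2} {v : R3}
    (hc : |corr X P d1 Zs Vs t x v| ≤ Cg * t ^ 2 ∧
      (corr X P d1 Zs Vs t x v ≠ 0 → ‖t⁻¹ • x‖ ≤ 2 * Zs ∧ ‖v‖ ≤ 2 * Vs)) :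
    psi0 X t x v ≤ gL X P d1 Zs Vs Cg t x v := by
  have hZ : 0 < Zs := lt_of_lt_of_le one_pos h.Zs1
  have hV : 0 < Vs := lt_of_lt_of_le one_pos h.Vs1
  unfold gL
  by_cases h0 : corr X P d1 Zs Vs t x v = 0
  · rw [h0]
    have e1 := M60.ramp_nonneg (‖t⁻¹ • x‖ / (2 * Zs))
    have e2 := M60.ramp_nonneg (‖v‖ / (2 * Vs))
    have : 0 ≤ Cg * t ^ 2 * (ramp (‖t⁻¹ • x‖ / (2 * Zs)) * ramp (‖v‖ / (2 * Vs))) := by
      positivity
    linarith
  · obtain ⟨h1, h2⟩ := hc.2 h0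
    rw [M60.ramp_one (r := ‖t⁻¹ • x‖ / (2 * Zs)) (by rw [div_le_one₀ (by positivity)]; exact h1),
      M60.ramp_one (r := ‖v‖ / (2 * Vs)) (by rw [div_le_one₀ (by positivity)]; exact h2)]
    have := (abs_le.1 hc.1).1
    linarith

theorem hfin_low {P : Par} (hP : P.Ok) {g1 g2 gp C2 : ℝ} (hg2 : 0 < g2)
    (hg21 : g2 ≤ g1) (hgp : 0 < gp) (hgp2 : 4 * gp ≤ g2) (hC2 : 0 ≤ C2) {Z : ℝ} (hZ : 0 ≤ Z) :
    ∃ t0 : ℝ, 0 < t0 ∧ ∃ B : ℝ≥0∞, B ≠ ⊤ ∧ ∀ t, 0 < t → t ≤ t0 →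
      ∫⁻ x in {x : P2 | ‖x‖ ≤ Z * t}, ∫⁻ v, ENNReal.ofReal (1 + ‖v‖) * B2 P g1 g2 0 t x v ≤ B := by
  obtain ⟨t0, ht0, B, hB, h⟩ := Om_B2 hP hg2 hg21 hgp.le hgp2 hC2
  refine ⟨min t0 (1 / (4 * (Z + 1))), by positivity, B, hB, fun t ht ht1 => ?_⟩
  refine le_trans ?_ (h t ht (ht1.trans (min_le_left _ _)))
  have hZt : Z * t < 7 / 20 := by
    have e1 : t ≤ 1 / (4 * (Z + 1)) := ht1.trans (min_le_right _ _)
    calc Z * t ≤ (Z + 1) * (1 / (4 * (Z + 1))) := mul_le_mul (by linarith) e1 ht.le (by positivity)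
      _ = 1 / 4 := by field_simp
      _ < 7 / 20 := by norm_num
  set F : P2 → ℝ≥0∞ := fun x => ∫⁻ v, ENNReal.ofReal (1 + ‖v‖) * B2 P g1 g2 0 t x v with hF
  have mF : Measurable F := by
    refine Measurable.lintegral_prod_right'
      (f := fun p : P2 × R3 => ENNReal.ofReal (1 + ‖p.2‖) * B2 P g1 g2 0 t p.1 p.2) ?_
    exact (by fun_prop : Measurable fun p : P2 × R3 => ENNReal.ofReal (1 + ‖p.2‖)).mul
      (LMass.measurable_B2_t hP.Y0 g1 g2 0 ht.le)
  have pF : PerG F := by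
    intro x k
    refine lintegral_congr fun v => ?_
    have e1 := LMass.perG_B2 P g1 g2 0 t v x k
    simp only at e1
    rw [e1]
  have h1 := LMass.lintegral_ball_le mF pF 0 hZt
  simp only [sub_zero] at h1
  refine h1.trans ?_
  unfold MW
  refine lintegral_mono fun x => lintegral_mono fun v => ?_
  refine mul_le_mul' ?_ le_rfl
  calc ENNReal.ofReal (1 + ‖v‖) = ENNReal.ofReal (1 + ‖v‖) * 1 := (mul_one _).symm
    _ ≤ _ := mul_le_mul' le_rfl (one_le_OmE hC2 hgp.le t x v)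

theorem low_fin {X : XP} {P : Par} {Y ey N d1 Zs Vs Cg : ℝ} (h : LowOK X P Y ey N d1 Zs Vs)
    (hCg : 0 ≤ Cg)
    (hcs : ∃ t0 : ℝ, 0 < t0 ∧ ∀ t, 0 < t → t ≤ t0 → ∀ x v,
      |corr X P d1 Zs Vs t x v| ≤ Cg * t ^ 2 ∧
      (corr X P d1 Zs Vs t x v ≠ 0 → ‖t⁻¹ • x‖ ≤ 2 * Zs ∧ ‖v‖ ≤ 2 * Vs))
    (hf : ∀ (z : P2) (v : R3) (k : ℝ), 0 ≤ k → k ≤ 1 → (|z.2| ≤ X.Yp → k = 1) →
      (Y ≤ |z.2| → k = 0) →
      193 / 200 * N * f0 X z v ≤ L0 X z v
        + 197 / 400 * (ws X d1 (P.K * k) 1 z v + ws X d1 (P.K * k) (-1) z v))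
    {g1 g2 gp C2 : ℝ} (hg2 : 0 < g2) (hg21 : g2 ≤ g1) (hgp : 0 < gp) (hgp2 : 4 * gp ≤ g2)
    (hC2 : 0 ≤ C2) :
    ∃ T0 C0 : ℝ, 0 < T0 ∧ 0 ≤ C0 ∧ ∀ T C, 0 < T → T ≤ T0 → C0 ≤ C →
      LowP P g1 g2 (193 / 200 * N) d1
        (fun t x v => ENNReal.ofReal (gL X P d1 Zs Vs Cg t x v)) (psiP X) (OmE P.Y C2 gp) T C := by
  have hP := h.ok
  have hN : 0 ≤ N := by linarith [h.tent.N1]
  have hZ : 0 < Zs := lt_of_lt_of_le one_pos h.Zs1
  have hcs' : ∃ t0 C : ℝ, 0 < t0 ∧ 0 ≤ C ∧ ∀ t, 0 < t → t ≤ t0 → ∀ x v,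
      |corr X P d1 Zs Vs t x v| ≤ C * t ^ 2 ∧
      (corr X P d1 Zs Vs t x v ≠ 0 → ‖t⁻¹ • x‖ ≤ 2 * Zs ∧ ‖v‖ ≤ 2 * Vs) := by
    obtain ⟨t0, ht0, hh⟩ := hcs
    exact ⟨t0, Cg, ht0, hCg, hh⟩
  obtain ⟨tc, htc, hcs⟩ := hcs
  obtain ⟨tl, CL, htl, hCL, hfl⟩ := flight_gL h Cg
  obtain ⟨CF, hCF1, hCF2, hCF3, hCF4⟩ := f0_facts h.tent X.B X.d h.B1 h.d0
  obtain ⟨tp, Cp, htp, hCp, hpw⟩ := pw_low_of (C' := CL) h
    (PL.F0Ok.mk hCF1 (fun z v => (hCF2 z v).1) (fun z v => (hCF2 z v).2) hCF4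
      (fun z v hh => (hCF3 z v hh).2.2)) hCg hcs' hf
  obtain ⟨tg, Cgg, htg, htg1, hCgg, hgL⟩ := pt_gE h Cg hcs'
  obtain ⟨tg', Cg', htg', htg1', hCg', hgL'⟩ := pt_gL h Cg hcs'
  obtain ⟨CL', hCL', hLg⟩ := h.abs_Lg_le hCL
  refine low_ev hP (kp := fun t x v => ENNReal.ofReal (-Lg X P d1 Zs Vs CL t x v))
    (em := fun t x v => ENNReal.ofReal (Lg X P d1 Zs Vs CL t x v))
    (R := fun t x v => ENNReal.ofReal (Cp * (if ‖x‖ ≤ Cp * t then (1 + ‖v‖) else 0)))
    (Z := 4 * Zs)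
    (meas3_OmE _ _ _) (M60.meas3_gL _ _ _ _ _ _) (M60.meas3_Lg_neg _ _ _ _ _ _)
    (M60.meas3_Lg _ _ _ _ _ _) ?_ (fun t v => perG_OmE _ _ _ t v) (by positivity) h.d10
    (by positivity) ?_ ?_ (hfin_low hP hg2 hg21 hgp hgp2 hC2 (by positivity)) ?_ ?_ ?_ ?_
  · -- measurability of the error
    show Measurable fun p : ℝ × P2 × R3 =>
      ENNReal.ofReal (Cp * (if ‖p.2.1‖ ≤ Cp * p.1 then (1 + ‖p.2.2‖) else 0))
    refine Measurable.ennreal_ofReal (Measurable.const_mul ?_ _)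
    exact Measurable.ite (measurableSet_le (by fun_prop) (by fun_prop)) (by fun_prop)
      measurable_const
  · -- supports
    refine ⟨1, one_pos, fun t ht _ x v hx => ?_⟩
    have e1 : 4 * Zs ≤ ‖t⁻¹ • x‖ := by
      rw [pt_norm_z ht, le_div_iff₀ ht]; exact hx.le
    have e2 := h.gL_zero Cg (v := v) (Or.inl e1)
    have e3 := h.Lg_zero CL (v := v) ht (Or.inl hx)
    simp only [e2, e3, neg_zero, ENNReal.ofReal_zero, and_self]
  · -- bounds
    refine ⟨tg', htg', fun τ hτ => ⟨ENNReal.ofReal (Cg' + CL' * (2 / τ + 1)),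
      ENNReal.ofReal_ne_top, fun t ht1 ht2 x v => ?_⟩⟩
    have ht : 0 < t := by linarith
    have e1 : |gL X P d1 Zs Vs Cg t x v| ≤ Cg' := (hgL' t ht ht2 x v).2.1
    have e2 := hLg t ht x v
    have e3 : t⁻¹ ≤ 2 / τ := by
      rw [inv_eq_one_div, div_le_div_iff₀ ht hτ]; linarith
    have e4 : CL' * (t⁻¹ + 1) ≤ CL' * (2 / τ + 1) := by gcongr
    have e5 : 0 ≤ CL' * (2 / τ + 1) := by positivity
    refine ⟨ENNReal.ofReal_le_ofReal ?_, ENNReal.ofReal_le_ofReal ?_, ENNReal.ofReal_le_ofReal ?_⟩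
    · exact ((le_abs_self _).trans e1).trans (by linarith)
    · exact ((neg_le_abs _).trans e2).trans (by linarith)
    · exact ((le_abs_self _).trans e2).trans (by linarith)
  · -- pointwise inequality
    exact ⟨tp, htp, fun t ht ht1 x v => hpw t ht ht1 x v⟩
  · -- flights
    refine ⟨min tl tc, lt_min htl htc, fun s r hs hsr hr x v => ?_⟩
    obtain ⟨i1, i2⟩ := hfl s r hs hsr (hr.trans (min_le_left _ _)) x v
    refine flow_enn hsr i1 ?_ i2
    refine (pt_psi0_nonneg X s x v).trans (psi0_le_gL h hCg ?_)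
    exact hcs s hs (hsr.trans (hr.trans (min_le_right _ _))) x v
  · -- size of the error
    set c1 : ℝ := 2 * (1 + 8 * (1 + 16 * P.Y ^ 4)) with hc1
    have hc11 : 1 ≤ c1 := by
      rw [hc1]
      have : 0 ≤ P.Y ^ 4 := by positivity
      linarith
    refine ⟨1, Cp * c1, one_pos, by positivity, fun t ht _ x v => ?_⟩
    by_cases hx : ‖x‖ ≤ Cp * t
    · have hx' : ‖x‖ ≤ Cp * c1 * t := by
        refine hx.trans ?_
        have : 0 ≤ Cp * t := by positivity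
        nlinarith
      rw [if_pos hx', if_pos hx, ENNReal.ofReal_mul hCp, ENNReal.ofReal_mul hCp, mul_assoc]
      gcongr
      exact pt_w1 hP.Y0.le hC2 hgp.le t x v
    · rw [if_neg hx, mul_zero, ENNReal.ofReal_zero]
      exact zero_le
  · -- size of the correction
    refine ⟨min tg 1, Cgg + 4 * Zs, lt_min htg one_pos, by positivity, fun t ht ht1 x v => ?_⟩
    have ht2 : t ≤ tg := ht1.trans (min_le_left _ _)
    have ht3 : t ≤ 1 := ht1.trans (min_le_right _ _)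
    obtain ⟨-, -, b3, -, b5⟩ := hgL t ht ht2 x v
    by_cases hx : 4 * Zs * t < ‖x‖
    · rw [b3 hx]; exact zero_le
    · push Not at hx
      refine b5.trans ?_
      gcongr
      unfold errD
      have hx' : ‖x‖ ≤ (Cgg + 4 * Zs) * t := by
        refine hx.trans ?_
        have : 0 ≤ Cgg * t := by positivity
        linarith
      rw [if_pos hx']
      have e1 : (if ‖x‖ < 1 / 4 then (1 : ℝ≥0∞) else 0) ≤ OmE P.Y C2 gp t x v := by
        split_ifs
        · exact one_le_OmE hC2 hgp.le t x v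
        · exact zero_le
      refine mul_le_mul' (ENNReal.ofReal_le_ofReal ?_) e1
      calc Cgg * t ^ 2 = Cgg * t * t := by ring
        _ ≤ Cgg * t * 1 := by gcongr
        _ ≤ (Cgg + 4 * Zs) * t := by nlinarith

/-! ### all the data of the seeds -/

theorem seedData {P : Par} (hP : P.Ok) {N A Yp ey e Q1 κ g1 g2 : ℝ}
    (hK : KOK P.K P.Y N A Yp ey e Q1 κ) (hey : P.ey = ey) (hY : 1 ≤ P.Y) (hg2 : 0 < g2)
    (hg21 : g2 ≤ g1) :
    ∃ (T C d1 c1 : ℝ) (v0 : R3) (W g Ψp : Den),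
      SeedData P g1 g2 T (193 / 200 * N) (π * P.K) C d1 c1 v0 W g Ψp := by
  have tent : TentOK N A Yp P.Y ey e :=
    ⟨hK.N1, hK.AN, hK.Ypd, hY, hK.ey0, hK.eye, hK.e0, hK.e1, hK.e2⟩
  have hg1 : 0 < g1 := hg2.trans_le hg21
  have hK0 : 0 < P.K := by
    have h1 := hK.a3
    linarith
  obtain ⟨B0, d0, δ0, hB0, hd0, hδ0, hf⟩ := f0_ineq hK.Nd tent
  obtain ⟨gp0, d0', hgp0, hd0', hOm⟩ :=
    pw_Om hP tent hK.k1 hK.q1 hK.q4 hK.κ0 hK.κ1 hK.κ2 hK.he
  obtain ⟨gp, hgp, hgp1, hgp2⟩ : ∃ gp : ℝ, 0 < gp ∧ gp ≤ gp0 ∧ 4 * gp ≤ g2 :=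
    ⟨min gp0 (g2 / 4), lt_min hgp0 (by linarith), min_le_left _ _, by
      have := min_le_right gp0 (g2 / 4)
      linarith⟩
  obtain ⟨B0', Z1, hB0', hZ1, hOm⟩ := hOm gp hgp hgp1
  obtain ⟨B, hB1, hB2⟩ : ∃ B : ℝ, B0 ≤ B ∧ B0' ≤ B := ⟨max B0 B0', le_max_left _ _, le_max_right _ _⟩
  obtain ⟨d, hd, hd1, hd2, hd3⟩ : ∃ d : ℝ, 0 < d ∧ d ≤ d0 ∧ d ≤ d0' ∧ d ≤ 1 / 8 :=
    ⟨min d0 (min d0' (1 / 8)), by positivity, min_le_left _ _,
      (min_le_right _ _).trans (min_le_left _ _), (min_le_right _ _).trans (min_le_right _ _)⟩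
  obtain ⟨d1, hd10, hd1δ, hd11⟩ : ∃ d1 : ℝ, 0 < d1 ∧ d1 ≤ δ0 ∧ d1 < 1 :=
    ⟨min δ0 (1 / 2), by positivity, min_le_left _ _, (min_le_right _ _).trans_lt (by norm_num)⟩
  set X : XP := ⟨A, Yp, e, B, d⟩ with hX
  have hBB : 1 ≤ B := hB0.trans hB1
  obtain ⟨Cs, hCs1, -, hsupp, -⟩ := f0_facts tent B d hBB hd
  have hlow : LowOK X P P.Y ey N d1 Cs Cs :=
    ⟨hP, rfl, hey, tent, hBB, hd, hd10, hd11, hCs1, hCs1, fun z v h => ⟨(hsupp z v h).1,
      (hsupp z v h).2.1⟩⟩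
  have hC2 : 0 ≤ 1200 * (2 * π * P.K) := by positivity
  set C2 : ℝ := 1200 * (2 * π * P.K) with hC2d
  obtain ⟨tc, Cg, htc, hCg, hcs⟩ := corr_small hlow
  have hcs1 : ∃ t0 : ℝ, 0 < t0 ∧ ∀ t, 0 < t → t ≤ t0 → ∀ x v,
      |corr X P d1 Cs Cs t x v| ≤ Cg * t ^ 2 ∧
      (corr X P d1 Cs Cs t x v ≠ 0 → ‖t⁻¹ • x‖ ≤ 2 * Cs ∧ ‖v‖ ≤ 2 * Cs) := ⟨tc, htc, hcs⟩
  obtain ⟨Tu, Cu, hTu, hCu, hup⟩ := up_fin hP hY hg2 hg21 hgp hgp2 hC2 hZ1 X
    (hOm B d hB2 hd hd2)
  obtain ⟨Tl, Cl, hTl, hCl, hlw⟩ := low_fin hlow hCg hcs1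
    (fun z v k h1 h2 h3 h4 => hf B d d1 hB1 hd hd1 hd10 hd1δ z v k h1 h2 h3 h4)
    hg2 hg21 hgp hgp2 hC2
  obtain ⟨Tp, Cp, hTp, hTp1, hCp, hpt⟩ := pt_fields hlow hd3 hC2 hgp.le Cg ⟨tc, Cg, htc, hCg, hcs⟩
  obtain ⟨Tf, hTf, Bf, hBf, hfin⟩ := Om_B2 hP hg2 hg21 hgp.le hgp2 hC2
  set T : ℝ := min (min Tu Tl) (min (min Tp Tf) (g1 ^ 2)) with hT
  have hT0 : 0 < T := by positivity
  have h1 : T ≤ Tu := (min_le_left _ _).trans (min_le_left _ _)
  have h2 : T ≤ Tl := (min_le_left _ _).trans (min_le_right _ _)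
  have h3 : T ≤ Tp := (min_le_right _ _).trans ((min_le_left _ _).trans (min_le_left _ _))
  have h4 : T ≤ Tf := (min_le_right _ _).trans ((min_le_left _ _).trans (min_le_right _ _))
  have h5 : T ≤ g1 ^ 2 := (min_le_right _ _).trans (min_le_right _ _)
  have k1 : Cu ≤ Cu + Cl + Cp := by linarith
  have k2 : Cl ≤ Cu + Cl + Cp := by linarith
  have k3 : Cp ≤ Cu + Cl + Cp := by linarith
  refine ⟨T, Cu + Cl + Cp, d1, 1 / 16, v00, OmE P.Y C2 gp,
    fun t x v => ENNReal.ofReal (gL X P d1 Cs Cs Cg t x v), psiP X, ?_⟩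
  exact
    { T0 := hT0
      T1 := h3.trans hTp1
      hg1 := hg1
      hg2 := hg2.le
      Tg := by
        have : √T ≤ g1 := by
          rw [Real.sqrt_le_left hg1.le]
          exact h5
        linarith
      A20 := by positivity
      A12 := hK.a2
      C0 := by positivity
      d10 := hd10
      c10 := by norm_num
      mW := meas3_OmE _ _ _
      mg := M60.meas3_gL _ _ _ _ _ _
      mG := M60.meas3_GA_phiE P hP (M60.meas3_psiP X)
      pW := fun t v => perG_OmE _ _ _ t v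
      up := hup T _ hT0 h1 k1
      low := hlw T _ hT0 h2 k2
      crude := fun t ht htT x v => by
        refine ((hpt t ht (htT.trans h3) x v).1).trans ?_
        gcongr
      fin := ⟨Bf, hBf, fun t ht htT => by
        refine le_trans ?_ (hfin t ht (htT.trans h4))
        unfold MW
        refine lintegral_mono fun x => lintegral_mono fun v => ?_
        refine mul_le_mul' ?_ le_rfl
        calc OmE P.Y C2 gp t x v = 1 * OmE P.Y C2 gp t x v := (one_mul _).symm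
          _ ≤ _ := by
            refine mul_le_mul' ?_ le_rfl
            rw [← ENNReal.ofReal_one]
            exact ENNReal.ofReal_le_ofReal (by linarith [norm_nonneg v])⟩
      gs := fun t ht htT x v hx => (hpt t ht (htT.trans h3) x v).2.1 hx
      gb := fun t ht htT x v => by
        refine ((hpt t ht (htT.trans h3) x v).2.2.1).trans ?_
        gcongr
      w4 := fun t ht htT x v => by
        refine ((hpt t ht (htT.trans h3) x v).2.2.2.1).trans ?_
        gcongr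
      sg := fun t ht htT x v hx hv => (hpt t ht (htT.trans h3) x v).2.2.2.2.1 hx hv
      sW := fun t ht htT x v hx hv => by
        refine ((hpt t ht (htT.trans h3) x v).2.2.2.2.2 hx hv).trans ?_
        gcongr }

end Crest.Agent.R68.X2.Fin

namespace Crest.Agent.R68.X2

open Crest.Agent.R68.L (Den)

/-- **(X2), the final statement** -/
theorem X2Out'_holds {Y g1 g2 : ℝ} (hY : 1 ≤ Y) (hg2 : 0 < g2) (hg21 : g2 ≤ g1) :
    L.X2Out' Y g1 g2 := by
  obtain ⟨K0, hK0⟩ := exists_K0 hY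
  refine ⟨K0, fun K hK => ?_⟩
  obtain ⟨N, A, Yp, ey, e, Q1, κ, h⟩ := hK0 K hK
  refine ⟨ey, h.ey0, h.ey1, ?_⟩
  have hKK : 0 < K := by
    have := h.a3
    linarith
  filter_upwards [eventually_ge_atTop 3] with p hp
  filter_upwards [R68.ev_Ok K Y ey p hKK.le (by linarith : (0 : ℝ) < Y) h.ey0 hp] with j0 hP
  have hK' : KOK (par K Y ey p j0).K (par K Y ey p j0).Y N A Yp ey e Q1 κ := h
  obtain ⟨T, C, d1, c1, v0, W, g, Ψp, S⟩ := Fin.seedData hP hK' rfl hY hg2 hg21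
  exact X2_core hP S h.a3 h.a1

end Crest.Agent.R68.X2
end
end

-- ▼ part R68/LOut
section

/-!
# Row 68, PART L (helper685): the output of part L for `Main0`
-/

set_option autoImplicit false
open MeasureTheory Set Filter
open scoped ENNReal Real
open Crest.AnalysisR.VecCalc3 Crest.AnalysisR.PDE.Boltzmann

noncomputable section

namespace Crest.Agent.R68.L

/-- part L from the mass bound `X2Out'` -/
theorem LOut_of_X2 {Y : ℝ} (hY : 1 ≤ Y) (hX2 : X2Out' Y (1 / 25) (1 / 25)) : Main0.LOut Y :=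
  LOut_of hY (SOut_holds Y (1 / 25) hY (by norm_num)) (SOut_holds Y (1 / 50) hY (by norm_num))
    (X1.X1Out_holds hY (by norm_num) (by norm_num)) hX2



end Crest.Agent.R68.L
end
end

-- ▼ part R68/NZero
section

/-!
# Row 68, PART N (helper621): the starting point `u0 = H1 + k`, `k = ε Hs`
-/

set_option autoImplicit false
open MeasureTheory Set Filter
open scoped ENNReal Topology
open Crest.AnalysisR.VecCalc3 Crest.AnalysisR.PDE.Boltzmann

noncomputable section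

namespace Crest.Agent.R68.N

open Crest.Agent.R68.A (en Meas3)

/-- the remainder at the starting point -/
def rest0F (P : Par) (c c1 sp sp1 H1 k u0 : Fld) : Fld := fun t x v =>
  dd (sp t x v) (sp1 t x v) + 2 * Qp (ddF c c1 t x) (H1 t x) v +
    2 * Qp (ddF c (phiE P) t x) (k t x) v +
    (2 * Qp (H1 t x) (k t x) v + Qp (k t x) (k t x) v) +
    (Lc (ddF c c1 t x) v + Lc (k t x) v) * H1 t x v +
    (Lc (ddF c (phiE P) t x) v + Lc (u0 t x) v) * k t x v

/-- sum of two fields -/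
def addF (f g : Fld) : Fld := fun t x v => f t x v + g t x v

theorem meas3_addF {f g : Fld} (hf : Meas3 f) (hg : Meas3 g) : Meas3 (addF f g) := hf.add hg

theorem dd_self_add (a b : ℝ≥0∞) : dd (a + b) a ≤ b :=
  dd_le le_rfl (le_self_add.trans le_self_add)

/-- **pointwise estimate of the source at the starting point** -/
theorem dd_source0 {P : Par} {L0 : ℝ≥0∞} {c c1 sp sp1 H1 k : Fld} {t : ℝ} {x : P2}
    (hph : Measurable (phiE P t x))
    (hc : Measurable (c t x)) (hc1 : Measurable (c1 t x)) (hH : Measurable (H1 t x))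
    (hk : Measurable (k t x)) (v : R3) :
    dd (gainH c sp (addF H1 k) t x v +
        (nuT P L0 t x v - lossH c (addF H1 k) t x v) * addF H1 k t x v)
      (gainH c1 sp1 H1 t x v + (nuT P L0 t x v - lossH c1 H1 t x v) * H1 t x v +
        (Gf P k t x v + (nuT P L0 t x v - nuf P t x v) * k t x v)) ≤
    rest0F P c c1 sp sp1 H1 k (addF H1 k) t x v := by
  have hu : Measurable (addF H1 k t x) := hH.add hk
  have hdc : Measurable (ddF c c1 t x) := Measurable.dd hc hc1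
  -- gain
  set U := addF H1 k with hU
  have eU1 : Qp (c t x) (U t x) v = Qp (c t x) (H1 t x) v + Qp (c t x) (k t x) v :=
    A.Qp_add_right hc hH v
  have eU2 : Qp (U t x) (c t x) v = Qp (c t x) (H1 t x) v + Qp (c t x) (k t x) v := by
    rw [Qp_comm hu hc, eU1]
  have eU3 : Qp (U t x) (U t x) v = Qp (H1 t x) (H1 t x) v + 2 * Qp (H1 t x) (k t x) v +
      Qp (k t x) (k t x) v := by
    have h1 : Qp (U t x) (U t x) v = Qp (U t x) (H1 t x) v + Qp (U t x) (k t x) v :=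
      A.Qp_add_right hu hH v
    have h2 : Qp (U t x) (H1 t x) v = Qp (H1 t x) (H1 t x) v + Qp (k t x) (H1 t x) v :=
      A.Qp_add_left hH hH v
    have h3 : Qp (U t x) (k t x) v = Qp (H1 t x) (k t x) v + Qp (k t x) (k t x) v :=
      A.Qp_add_left hH hk v
    rw [h1, h2, h3, Qp_comm hk hH]; ring
  have e4 : Qp (H1 t x) (c1 t x) v = Qp (c1 t x) (H1 t x) v := Qp_comm hH hc1 v
  have e5 : Qp (k t x) (phiE P t x) v = Qp (phiE P t x) (k t x) v := Qp_comm hk hph v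
  have d1 : dd (Qp (c t x) (H1 t x) v) (Qp (c1 t x) (H1 t x) v) ≤
      Qp (ddF c c1 t x) (H1 t x) v := by
    refine (dd_Qp hc hc1 hH hH v).trans (le_of_eq ?_)
    have h0 : Qp (c1 t x) (fun z => dd (H1 t x z) (H1 t x z)) v = 0 := by
      unfold Qp
      simp
    rw [h0, add_zero]
    rfl
  have d2 : dd (Qp (c t x) (k t x) v) (Qp (phiE P t x) (k t x) v) ≤
      Qp (ddF c (phiE P) t x) (k t x) v := by
    refine (dd_Qp hc hph hk hk v).trans (le_of_eq ?_)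
    have h0 : Qp (phiE P t x) (fun z => dd (k t x z) (k t x z)) v = 0 := by
      unfold Qp
      simp
    rw [h0, add_zero]
    rfl
  -- gain difference
  have G : dd (gainH c sp U t x v) (gainH c1 sp1 H1 t x v + Gf P k t x v) ≤
      dd (sp t x v) (sp1 t x v) + 2 * Qp (ddF c c1 t x) (H1 t x) v +
        2 * Qp (ddF c (phiE P) t x) (k t x) v +
        (2 * Qp (H1 t x) (k t x) v + Qp (k t x) (k t x) v) := by
    unfold gainH Gf
    rw [eU1, eU2, eU3, e4, e5]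
    set a := Qp (c t x) (H1 t x) v
    set a1 := Qp (c1 t x) (H1 t x) v
    set b := Qp (c t x) (k t x) v
    set b1 := Qp (phiE P t x) (k t x) v
    set m := Qp (H1 t x) (H1 t x) v
    set n := 2 * Qp (H1 t x) (k t x) v
    set r := Qp (k t x) (k t x) v
    have h1 : sp t x v + (a + b) + (a + b) + (m + n + r) =
        (sp t x v + (a + a)) + (b + b) + (m + (n + r)) := by ring
    have h2 : sp1 t x v + a1 + a1 + m + (b1 + b1) =
        (sp1 t x v + (a1 + a1)) + (b1 + b1) + m := by ring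
    rw [h1, h2]
    refine (dd_add_add _ _ _ _).trans ?_
    refine (add_le_add (dd_add_add _ _ _ _) (dd_self_add m (n + r))).trans ?_
    refine (add_le_add (add_le_add ((dd_add_add _ _ _ _).trans
      (add_le_add le_rfl (dd_add_add _ _ _ _))) (dd_add_add _ _ _ _)) le_rfl).trans ?_
    calc _ ≤ dd (sp t x v) (sp1 t x v) + (Qp (ddF c c1 t x) (H1 t x) v +
          Qp (ddF c c1 t x) (H1 t x) v) + (Qp (ddF c (phiE P) t x) (k t x) v +
          Qp (ddF c (phiE P) t x) (k t x) v) + (n + r) := by gcongr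
      _ = _ := by ring
  -- loss difference
  have L : dd ((nuT P L0 t x v - lossH c U t x v) * U t x v)
      ((nuT P L0 t x v - lossH c1 H1 t x v) * H1 t x v +
        (nuT P L0 t x v - nuf P t x v) * k t x v) ≤
      (Lc (ddF c c1 t x) v + Lc (k t x) v) * H1 t x v +
        (Lc (ddF c (phiE P) t x) v + Lc (U t x) v) * k t x v := by
    have h1 : (nuT P L0 t x v - lossH c U t x v) * U t x v =
        (nuT P L0 t x v - lossH c U t x v) * H1 t x v +
        (nuT P L0 t x v - lossH c U t x v) * k t x v := by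
      rw [← mul_add]; rfl
    rw [h1]
    refine (dd_add_add _ _ _ _).trans (add_le_add ?_ ?_)
    · refine (dd_mul_right _ _ _).trans ?_
      gcongr
      refine (dd_tsub _ _ _).trans ((dd_lossH hc hc1 hu hH v).trans ?_)
      gcongr
      refine A.Lc_mono (fun z => ?_) v
      exact dd_self_add _ _
    · refine (dd_mul_right _ _ _).trans ?_
      gcongr
      refine (dd_tsub _ _ _).trans ?_
      unfold lossH nuf
      refine (dd_Lc (hc.add hu) hph v).trans ?_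
      have hdp : Measurable (ddF c (phiE P) t x) := Measurable.dd hc hph
      rw [← A.Lc_add hdp v]
      refine A.Lc_mono (fun z => ?_) v
      refine (dd_triangle _ (c t x z) _).trans ?_
      rw [add_comm]
      exact add_le_add le_rfl (dd_self_add _ _)
  have hre : gainH c1 sp1 H1 t x v + (nuT P L0 t x v - lossH c1 H1 t x v) * H1 t x v +
        (Gf P k t x v + (nuT P L0 t x v - nuf P t x v) * k t x v) =
      (gainH c1 sp1 H1 t x v + Gf P k t x v) +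
        ((nuT P L0 t x v - lossH c1 H1 t x v) * H1 t x v +
        (nuT P L0 t x v - nuf P t x v) * k t x v) := by ring
  rw [hre]
  refine (dd_add_add _ _ _ _).trans ((add_le_add G L).trans (le_of_eq ?_))
  unfold rest0F
  ring

variable {P : Par} {T V : ℝ} {Cf Sf : Fld → Fld} {Mc Wm : Fld} {CC CK : ℝ≥0∞} {q : ℝ}

/-- constant of the starting estimate -/
def CS (V q β g2 g2' : ℝ) (CC CK C1 : ℝ≥0∞) : ℝ≥0∞ :=
  let A := CK * ENNReal.ofReal (1 + V)
  let B := Cp β (g2 - g2')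
  let Q := Cp q (g2 - g2')
  let F := C1 * A * ENNReal.ofReal ((V + 1) ^ β) * B + A * Ce V g2 + 2 * Q
  CC * A * Ce V g2 * Q + 2 * (CC * A * Ce V g2 * C1 * CK * B) +
    2 * (CC * CK * F) + (2 * (C1 * CK * B) + CK) +
    (CC * A * Ce V g2 + 1) * CK * C1 * B +
    (CC * CK * F + (C1 * CK * B + CK))

theorem CS_ne_top {V q β g2 g2' : ℝ} {CC CK C1 : ℝ≥0∞} (h1 : CC ≠ ⊤) (h2 : CK ≠ ⊤)
    (h3 : C1 ≠ ⊤) : CS V q β g2 g2' CC CK C1 ≠ ⊤ := by
  have h5 : Ce V g2 ≠ ⊤ := Ce_ne_top V g2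
  have h6 : ENNReal.ofReal (1 + V) ≠ ⊤ := ENNReal.ofReal_ne_top
  have h7 : Cp β (g2 - g2') ≠ ⊤ := Cp_ne_top _ _
  have h8 : Cp q (g2 - g2') ≠ ⊤ := Cp_ne_top _ _
  have h9 : ENNReal.ofReal ((V + 1) ^ β) ≠ ⊤ := ENNReal.ofReal_ne_top
  unfold CS
  simp only
  finiteness

/-- **Bound of the remainder at the starting point.** -/
theorem rest0F_le (hC : ColdInp P T V Cf Sf Mc Wm CC q) (hV : 0 ≤ V) (hT1 : T ≤ 1) (hq : 0 ≤ q)
    {β g0 g1 g2 g1' g2' : ℝ} (hβ : 0 ≤ β) (hg2' : 0 ≤ g2') (h1 : g1' ≤ g1) (h2 : g2' < g2)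
    (hg : g1' + g2' ≤ 1) (hg0 : g1 + g2 ≤ g0)
    (hK : KInp P T Mc Wm q g0 g1 g2 CK) (hK' : KInp P T Mc Wm q (g1' + g2') g1' g2' CK)
    {H1 k : Fld} (mH : Meas3 H1) (pH : PerF H1) (mk : Meas3 k) (pk : PerF k)
    {C1 : ℝ≥0∞} (hC1 : C1 ≠ ⊤)
    (bH : ∀ t ∈ Ioc 0 T, ∀ x v, H1 t x v ≤ C1 * tx β t x * Zg P g0 t x v)
    {κ : ℝ → ℝ≥0∞} (mκ : Measurable κ) (hκ : ∀ s t, 0 < s → s ≤ t → t ≤ T → κ s ≤ κ t)
    (κt : ∀ t ∈ Ioc 0 T, κ t ≠ ⊤)
    (bk : ∀ t ∈ Ioc 0 T, ∀ x v, k t x v ≤ κ t * EE P g1 g2 t x v)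
    {t : ℝ} (ht : t ∈ Ioc 0 T) (x : P2) (v : R3) :
    rest0F P (Cf (LcF (addF H1 k))) (Cf (LcF H1)) (Sf (LcF (addF H1 k))) (Sf (LcF H1)) H1 k
        (addF H1 k) t x v ≤
      CS V q β g2 g2' CC CK C1 * (ev v * (κ t *
        (ENNReal.ofReal (t ^ β) + ENNReal.ofReal (t ^ q) + κ t) * EE P g1' g2' t x v)) := by
  have mu : Meas3 (addF H1 k) := meas3_addF mH mk
  have pu : PerF (addF H1 k) := fun s z y i => by
    have e1 : H1 s (y + latt i) z = H1 s y z := pH s z y i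
    have e2 : k s (y + latt i) z = k s y z := pk s z y i
    show addF H1 k s (y + latt i) z = addF H1 k s y z
    unfold addF
    rw [e1, e2]
  have mL : Meas3 (LcF (addF H1 k)) := meas3_LcF mu
  have mL' : Meas3 (LcF H1) := meas3_LcF mH
  have pL : PerF (LcF (addF H1 k)) := perF_LcF pu
  have pL' : PerF (LcF H1) := perF_LcF pH
  have hCC := hC.CC_ne
  have hCK := hK.ne
  have hg2 : 0 ≤ g2 := hg2'.trans h2.le
  -- the contribution of k to the rate
  have hLk : ∀ s ∈ Ioc 0 T, ∀ y u, ‖u‖ ≤ V → Lc (k s y) u ≤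
      (CK * ENNReal.ofReal (1 + V)) * κ s * ez2 g2 s y := by
    intro s hs y u hu
    refine ((Lc_le_mul (κt s hs) (bk s hs y) u).trans ?_)
    calc κ s * Lc (EE P g1 g2 s y) u ≤ κ s * (CK * ev u * ez2 g2 s y) := by
          gcongr; exact hK.lE s hs y u
      _ ≤ κ s * (CK * ENNReal.ofReal (1 + V) * ez2 g2 s y) := by
          gcongr; exact ev_le hu
      _ = _ := by ring
  have hlam : ∀ s ∈ Ioc 0 T, ∀ y u, ‖u‖ ≤ V → dd (LcF (addF H1 k) s y u) (LcF H1 s y u) ≤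
      (CK * ENNReal.ofReal (1 + V)) * κ s * ez2 g2 s y := by
    intro s hs y u hu
    refine le_trans ?_ (hLk s hs y u hu)
    refine (dd_Lc (mu.slice _ _) (mH.slice _ _) u).trans ?_
    exact A.Lc_mono (fun z => dd_self_add _ _) u
  have hdc := fun z => (cold_diff hC hV hg2 mL pL mL' pL' mκ hκ hlam ht x z).1
  have hsp := (cold_diff hC hV hg2 mL pL mL' pL' mκ hκ hlam ht x v).2
  -- comparison with the free fuel
  have hdp : ∀ z, dd (Cf (LcF (addF H1 k)) t x z) (phiE P t x z) ≤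
      CC * ENNReal.ofReal t * ((C1 * (CK * ENNReal.ofReal (1 + V)) *
        (ENNReal.ofReal ((V + 1) ^ β) * tx β t x) +
        (CK * ENNReal.ofReal (1 + V)) * Ce V g2 * κ t * ez2 g2 t x + tx q t x) * Mc t x z +
        Wm t x z) := by
    intro z
    set Del : ℝ → P2 → ℝ≥0∞ := fun s y => C1 * (CK * ENNReal.ofReal (1 + V)) * txm V β s y +
      (CK * ENNReal.ofReal (1 + V)) * Ce V g2 * κ s * em V g2 s y with hDel
    have hm : Measurable (fun p : ℝ × P2 => Del p.1 p.2) := by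
      simp only [hDel]
      exact ((measurable_txm V β).const_mul _).add
        (((mκ.comp measurable_fst).const_mul _).mul (measurable_em V g2))
    have hmono : MonoFl V T Del := by
      intro s t hs hst htT x v hv
      simp only [hDel]
      have i1 := txm_flight hV hβ hs hst x v hv
      have i2 := em_flight hV hg2 hs hst x v hv
      have i3 := hκ s t hs hst htT
      gcongr
    have hle : ∀ s ∈ Ioc 0 T, ∀ y u, ‖u‖ ≤ V → LcF (addF H1 k) s y u ≤ Del s y := by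
      intro s hs y u hu
      have e1 : LcF (addF H1 k) s y u = Lc (H1 s y) u + Lc (k s y) u :=
        A.Lc_add (mH.slice _ _) u
      rw [e1]
      simp only [hDel]
      refine add_le_add ?_ ?_
      · have hne : C1 * tx β s y ≠ ⊤ := ENNReal.mul_ne_top hC1 (tx_ne_top _ _ _)
        refine (Lc_le_mul hne (bH s hs y) u).trans ?_
        calc C1 * tx β s y * Lc (Zg P g0 s y) u ≤ C1 * tx β s y * (CK * ev u) := by
              gcongr; exact hK.lZ s hs y u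
          _ ≤ C1 * txm V β s y * (CK * ENNReal.ofReal (1 + V)) := by
              gcongr
              · exact tx_le_txm hV hβ hs.1.le y
              · exact ev_le hu
          _ = _ := by ring
      · refine (hLk s hs y u hu).trans ?_
        calc CK * ENNReal.ofReal (1 + V) * κ s * ez2 g2 s y
            ≤ CK * ENNReal.ofReal (1 + V) * κ s * (Ce V g2 * em V g2 s y) := by
              gcongr; exact ez2_le_em hV hg2 hs.1.le y
          _ = _ := by ring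
    refine (hC.lip0 _ mL pL Del hm hmono hle t ht x z).trans ?_
    simp only [hDel]
    gcongr
    · exact txm_le_tx hV hβ ht.1.le x
    · exact em_le_ez2 hg2 ht.1.le x
  set a₀ := CK * ENNReal.ofReal (1 + V) with hA
  set E := EE P g1 g2 t x v with hE
  set E' := EE P g1' g2' t x v with hE'
  set K := κ t with hKdef
  have hKt : K ≠ ⊤ := κt t ht
  set τ := ENNReal.ofReal t with hτ
  set τ' := ENNReal.ofReal (1 / t) with hτ'
  have hττ : τ * τ' = 1 := t_mul_inv ht.1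
  have hτ1 : τ ≤ 1 := ofReal_t_le_one (ht.2.trans hT1)
  set e2 := ez2 g2 t x with he2
  set Bβ := Cp β (g2 - g2') with hB
  set Bq := Cp q (g2 - g2') with hQ
  set X := ENNReal.ofReal (t ^ β) + ENNReal.ofReal (t ^ q) + K with hX
  have hXβ : ENNReal.ofReal (t ^ β) ≤ X := by rw [hX, add_assoc]; exact le_self_add
  have hXq : ENNReal.ofReal (t ^ q) ≤ X := by
    rw [hX, add_right_comm]; exact le_add_self
  have hXK : K ≤ X := le_add_self
  have hCe := Ce_ne_top V g2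
  have he2t : e2 ≠ ⊤ := ez2_ne_top _ _ _
  have hAt : a₀ ≠ ⊤ := ENNReal.mul_ne_top hCK ENNReal.ofReal_ne_top
  have hτt : τ ≠ ⊤ := ENNReal.ofReal_ne_top
  have htβ : tx β t x ≠ ⊤ := tx_ne_top _ _ _
  have htq : tx q t x ≠ ⊤ := tx_ne_top _ _ _
  have hVβ : ENNReal.ofReal ((V + 1) ^ β) ≠ ⊤ := ENNReal.ofReal_ne_top
  have e1v := one_le_ev v
  have e2le : e2 ≤ 1 := by
    rw [he2]; unfold ez2
    rw [← ENNReal.ofReal_one]
    apply ENNReal.ofReal_le_ofReal
    rw [Real.exp_le_one_iff]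
    nlinarith [sq_nonneg (distG x / t)]
  -- elementary weight inequalities
  have hEE' : E ≤ E' := EE_mono P h1 h2.le x v
  have hβE : tx β t x * E ≤ Bβ * X * E' := by
    refine (tx_mul_EE P hβ h2 ht.1 x v).trans ?_
    gcongr
    exact EE_mono P h1 le_rfl x v
  have hqE : tx q t x * E ≤ Bq * X * E' := by
    refine (tx_mul_EE P hq h2 ht.1 x v).trans ?_
    gcongr
    exact EE_mono P h1 le_rfl x v
  have hg0' : g1' + g2' ≤ g0 := by linarith
  have hβZ : tx β t x * e2 * Zg P g0 t x v ≤ Bβ * X * E' := by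
    calc tx β t x * e2 * Zg P g0 t x v
        ≤ (Bβ * ENNReal.ofReal (t ^ β) * ez2 g2' t x) * Zg P (g1' + g2') t x v :=
          mul_le_mul' (tx_mul_ez2 hβ h2 ht.1 x) (Zg_anti P hg0' x v)
      _ = Bβ * ENNReal.ofReal (t ^ β) * (ez2 g2' t x * Zg P (g1' + g2') t x v) := by ring
      _ ≤ Bβ * X * E' := by
          gcongr
          exact ez2_mul_Zg P hg2' ht.1.le x v
  have hqx : tx q t x * e2 * ENNReal.ofReal (Real.exp (-‖v‖ ^ 2)) ≤ Bq * X * E' := by
    calc tx q t x * e2 * ENNReal.ofReal (Real.exp (-‖v‖ ^ 2))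
        ≤ (Bq * ENNReal.ofReal (t ^ q) * ez2 g2' t x) * ENNReal.ofReal (Real.exp (-‖v‖ ^ 2)) :=
          mul_le_mul' (tx_mul_ez2 hq h2 ht.1 x) le_rfl
      _ = Bq * ENNReal.ofReal (t ^ q) * (ENNReal.ofReal (Real.exp (-‖v‖ ^ 2)) * ez2 g2' t x) := by
          ring
      _ ≤ Bq * X * E' := by
          gcongr
          exact exp_mul_ez2 P hg2' hg ht.1.le x v
  set F := C1 * a₀ * ENNReal.ofReal ((V + 1) ^ β) * Bβ + a₀ * Ce V g2 + 2 * Bq with hF
  -- the factor D of the comparison with the fuel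
  set D := C1 * a₀ * (ENNReal.ofReal ((V + 1) ^ β) * tx β t x) + a₀ * Ce V g2 * K * e2 + tx q t x
    with hD
  have hDt : D ≠ ⊤ := by rw [hD]; finiteness
  have hDE : (D + tx q t x) * E ≤ F * (X * E') := by
    calc (D + tx q t x) * E = C1 * a₀ * ENNReal.ofReal ((V + 1) ^ β) * (tx β t x * E) +
          a₀ * Ce V g2 * K * e2 * E + 2 * (tx q t x * E) := by rw [hD]; ring
      _ ≤ C1 * a₀ * ENNReal.ofReal ((V + 1) ^ β) * (Bβ * X * E') +
          a₀ * Ce V g2 * X * 1 * E' + 2 * (Bq * X * E') := by gcongr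
      _ = _ := by rw [hF]; ring
  -- S1
  have S1 : dd (Sf (LcF (addF H1 k)) t x v) (Sf (LcF H1) t x v) ≤
      CC * a₀ * Ce V g2 * Bq * (ev v * (K * X * E')) := by
    refine hsp.trans ?_
    calc CC * τ * (a₀ * Ce V g2 * K * e2) * tx q t x * ENNReal.ofReal (Real.exp (-‖v‖ ^ 2))
        = CC * τ * a₀ * Ce V g2 * K * (tx q t x * e2 * ENNReal.ofReal (Real.exp (-‖v‖ ^ 2))) := by
          ring
      _ ≤ CC * 1 * a₀ * Ce V g2 * K * (Bq * X * E') := by gcongr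
      _ = CC * a₀ * Ce V g2 * Bq * (1 * (K * X * E')) := by ring
      _ ≤ _ := by gcongr
  -- S2
  have hbH : ∀ z, H1 t x z ≤ C1 * tx β t x * Zg P g0 t x z := bH t ht x
  have hC1β : C1 * tx β t x ≠ ⊤ := ENNReal.mul_ne_top hC1 htβ
  have ha : CC * τ * (a₀ * Ce V g2 * K * e2) ≠ ⊤ := by finiteness
  have S2 : Qp (ddF (Cf (LcF (addF H1 k))) (Cf (LcF H1)) t x) (H1 t x) v ≤
      CC * a₀ * Ce V g2 * C1 * CK * Bβ * (ev v * (K * X * E')) := by
    refine (Qp_le_mul ha hC1β hdc hbH v).trans ?_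
    calc CC * τ * (a₀ * Ce V g2 * K * e2) * (C1 * tx β t x) * Qp (Mc t x) (Zg P g0 t x) v
        ≤ CC * τ * (a₀ * Ce V g2 * K * e2) * (C1 * tx β t x) * (CK * τ' * Zg P g0 t x v) := by
          gcongr
          exact hK.qMZ t ht x v
      _ = CC * a₀ * Ce V g2 * C1 * CK * ((τ * τ') * (K * (tx β t x * e2 * Zg P g0 t x v))) := by ring
      _ ≤ CC * a₀ * Ce V g2 * C1 * CK * (ev v * (K * (Bβ * X * E'))) := by
          rw [hττ]
          gcongr
      _ = _ := by ring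
  -- S3
  have S3 : Qp (ddF (Cf (LcF (addF H1 k))) (phiE P) t x) (k t x) v ≤
      CC * CK * F * (ev v * (K * X * E')) := by
    have hMW : ∀ z, ddF (Cf (LcF (addF H1 k))) (phiE P) t x z ≤
        (CC * τ) * (fun z => D * Mc t x z + Wm t x z) z := hdp
    have hct : CC * τ ≠ ⊤ := by finiteness
    have mM : Measurable (Mc t x) := hC.measM.slice _ _
    have mkx : Measurable (k t x) := mk.slice _ _
    have hadd : Qp (fun z => D * Mc t x z + Wm t x z) (k t x) v ≤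
        D * (K * Qp (Mc t x) (EE P g1 g2 t x) v) + K * Qp (Wm t x) (EE P g1 g2 t x) v := by
      rw [A.Qp_add_left (f := fun z => D * Mc t x z) (g := Wm t x) (mM.const_mul _) mkx v,
        A.Qp_const_mul_left hDt]
      have i1 : Qp (Mc t x) (k t x) v ≤ 1 * K * Qp (Mc t x) (EE P g1 g2 t x) v :=
        Qp_le_mul ENNReal.one_ne_top hKt (fun z => (one_mul _).ge) (bk t ht x) v
      have i2 : Qp (Wm t x) (k t x) v ≤ 1 * K * Qp (Wm t x) (EE P g1 g2 t x) v :=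
        Qp_le_mul ENNReal.one_ne_top hKt (fun z => (one_mul _).ge) (bk t ht x) v
      rw [one_mul] at i1 i2
      gcongr
    have h0 : Qp (ddF (Cf (LcF (addF H1 k))) (phiE P) t x) (k t x) v ≤
        CC * τ * 1 * Qp (fun z => D * Mc t x z + Wm t x z) (k t x) v :=
      Qp_le_mul hct ENNReal.one_ne_top hMW (fun z => (one_mul _).ge) v
    refine h0.trans ?_
    calc CC * τ * 1 * Qp (fun z => D * Mc t x z + Wm t x z) (k t x) v
        ≤ CC * τ * 1 * (D * (K * (CK * τ' * E)) + K * (CK * tx q t x * E)) := by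
          gcongr
          refine hadd.trans ?_
          gcongr
          · exact hK.qME t ht x v
          · exact hK.qWE t ht x v
      _ = CC * CK * K * ((τ * τ') * D * E + τ * tx q t x * E) := by ring
      _ ≤ CC * CK * K * (1 * D * E + 1 * tx q t x * E) := by rw [hττ]; gcongr
      _ = CC * CK * K * ((D + tx q t x) * E) := by ring
      _ ≤ CC * CK * K * (F * (X * E')) := by gcongr
      _ = CC * CK * F * (1 * (K * X * E')) := by ring
      _ ≤ _ := by gcongr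
  -- S4
  have S4a : Qp (H1 t x) (k t x) v ≤ C1 * CK * Bβ * (ev v * (K * X * E')) := by
    refine (Qp_le_mul hC1β hKt hbH (bk t ht x) v).trans ?_
    calc C1 * tx β t x * K * Qp (Zg P g0 t x) (EE P g1 g2 t x) v
        ≤ C1 * tx β t x * K * (CK * ev v * E) := by gcongr; exact hK.qZE t ht x v
      _ = C1 * CK * (ev v * (K * (tx β t x * E))) := by ring
      _ ≤ C1 * CK * (ev v * (K * (Bβ * X * E'))) := by gcongr
      _ = _ := by ring
  have S4b : Qp (k t x) (k t x) v ≤ CK * (ev v * (K * X * E')) := by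
    have hk1 : ∀ z, k t x z ≤ K * Zg P (g1' + g2') t x z := fun z => by
      refine (bk t ht x z).trans ?_
      gcongr
      exact (EE_mono P h1 h2.le x z).trans (EE_le_Zg P hg2' x z)
    have hk2 : ∀ z, k t x z ≤ K * EE P g1' g2' t x z := fun z => by
      refine (bk t ht x z).trans ?_
      gcongr
      exact EE_mono P h1 h2.le x z
    refine (Qp_le_mul hKt hKt hk1 hk2 v).trans ?_
    calc K * K * Qp (Zg P (g1' + g2') t x) (EE P g1' g2' t x) v
        ≤ K * X * (CK * ev v * E') := by gcongr; exact hK'.qZE t ht x v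
      _ = _ := by ring
  -- S5
  have hLdc : Lc (ddF (Cf (LcF (addF H1 k))) (Cf (LcF H1)) t x) v ≤
      CC * a₀ * Ce V g2 * CK * (ev v * (K * e2)) := by
    refine (Lc_le_mul ha hdc v).trans ?_
    calc CC * τ * (a₀ * Ce V g2 * K * e2) * Lc (Mc t x) v
        ≤ CC * τ * (a₀ * Ce V g2 * K * e2) * (CK * τ' * ev v) := by gcongr; exact hK.lM t ht x v
      _ = CC * a₀ * Ce V g2 * CK * ((τ * τ') * (ev v * (K * e2))) := by ring
      _ = _ := by rw [hττ, one_mul]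
  have hLkv : Lc (k t x) v ≤ CK * (ev v * (K * e2)) := by
    refine (Lc_le_mul hKt (bk t ht x) v).trans ?_
    calc K * Lc (EE P g1 g2 t x) v ≤ K * (CK * ev v * e2) := by gcongr; exact hK.lE t ht x v
      _ = _ := by ring
  have S5 : (Lc (ddF (Cf (LcF (addF H1 k))) (Cf (LcF H1)) t x) v + Lc (k t x) v) * H1 t x v ≤
      (CC * a₀ * Ce V g2 + 1) * CK * C1 * Bβ * (ev v * (K * X * E')) := by
    calc _ ≤ (CC * a₀ * Ce V g2 * CK * (ev v * (K * e2)) + CK * (ev v * (K * e2))) *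
          (C1 * tx β t x * Zg P g0 t x v) := by gcongr; exact hbH v
      _ = (CC * a₀ * Ce V g2 + 1) * CK * C1 * (ev v * (K * (tx β t x * e2 * Zg P g0 t x v))) := by
          ring
      _ ≤ (CC * a₀ * Ce V g2 + 1) * CK * C1 * (ev v * (K * (Bβ * X * E'))) := by gcongr
      _ = _ := by ring
  -- S6
  have hLdp : Lc (ddF (Cf (LcF (addF H1 k))) (phiE P) t x) v ≤
      CC * CK * ev v * (D + tx q t x) := by
    have hMW : ∀ z, ddF (Cf (LcF (addF H1 k))) (phiE P) t x z ≤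
        (CC * τ) * (fun z => D * Mc t x z + Wm t x z) z := hdp
    have hct : CC * τ ≠ ⊤ := by finiteness
    refine (Lc_le_mul hct hMW v).trans ?_
    have mM : Measurable (Mc t x) := hC.measM.slice _ _
    have hadd : Lc (fun z => D * Mc t x z + Wm t x z) v = D * Lc (Mc t x) v + Lc (Wm t x) v := by
      rw [A.Lc_add (f := fun z => D * Mc t x z) (g := Wm t x) (mM.const_mul _) v,
        A.Lc_const_mul hDt]
    rw [hadd]
    calc CC * τ * (D * Lc (Mc t x) v + Lc (Wm t x) v)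
        ≤ CC * τ * (D * (CK * τ' * ev v) + CK * tx q t x * ev v) := by
          gcongr
          · exact hK.lM t ht x v
          · exact hK.lW t ht x v
      _ = CC * CK * ev v * ((τ * τ') * D + τ * tx q t x) := by ring
      _ ≤ CC * CK * ev v * (1 * D + 1 * tx q t x) := by rw [hττ]; gcongr
      _ = _ := by ring
  have hLH : Lc (H1 t x) v ≤ C1 * CK * (ev v * tx β t x) := by
    refine (Lc_le_mul hC1β hbH v).trans ?_
    calc C1 * tx β t x * Lc (Zg P g0 t x) v ≤ C1 * tx β t x * (CK * ev v) := by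
          gcongr; exact hK.lZ t ht x v
      _ = _ := by ring
  have hLu : Lc (addF H1 k t x) v ≤ C1 * CK * (ev v * tx β t x) + CK * (ev v * K) := by
    have e1 : Lc (addF H1 k t x) v = Lc (H1 t x) v + Lc (k t x) v := A.Lc_add (mH.slice _ _) v
    rw [e1]
    refine add_le_add hLH (hLkv.trans ?_)
    calc CK * (ev v * (K * e2)) ≤ CK * (ev v * (K * 1)) := by gcongr
      _ = _ := by rw [mul_one]
  have S6 : (Lc (ddF (Cf (LcF (addF H1 k))) (phiE P) t x) v + Lc (addF H1 k t x) v) * k t x v ≤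
      (CC * CK * F + (C1 * CK * Bβ + CK)) * (ev v * (K * X * E')) := by
    calc _ ≤ (CC * CK * ev v * (D + tx q t x) + (C1 * CK * (ev v * tx β t x) + CK * (ev v * K))) *
          (K * E) := by gcongr; exact bk t ht x v
      _ = CC * CK * ev v * K * ((D + tx q t x) * E) + C1 * CK * ev v * K * (tx β t x * E) +
          CK * ev v * K * K * E := by ring
      _ ≤ CC * CK * ev v * K * (F * (X * E')) + C1 * CK * ev v * K * (Bβ * X * E') +
          CK * ev v * K * X * E' := by gcongr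
      _ = _ := by ring
  unfold rest0F
  calc _ ≤ CC * a₀ * Ce V g2 * Bq * (ev v * (K * X * E')) +
        2 * (CC * a₀ * Ce V g2 * C1 * CK * Bβ * (ev v * (K * X * E'))) +
        2 * (CC * CK * F * (ev v * (K * X * E'))) +
        (2 * (C1 * CK * Bβ * (ev v * (K * X * E'))) + CK * (ev v * (K * X * E'))) +
        (CC * a₀ * Ce V g2 + 1) * CK * C1 * Bβ * (ev v * (K * X * E')) +
        (CC * CK * F + (C1 * CK * Bβ + CK)) * (ev v * (K * X * E')) := by gcongr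
    _ = _ := by
        unfold CS
        simp only [← hA, ← hB, ← hQ, ← hF]
        ring

end Crest.Agent.R68.N
end
end

-- ▼ part R68/NWt
section

/-!
# Row 68, PART N (helper621): the weight `Wt` of the fixed point argument
-/

set_option autoImplicit false
open MeasureTheory Set Filter
open scoped ENNReal Topology
open Crest.AnalysisR.VecCalc3 Crest.AnalysisR.PDE.Boltzmann

noncomputable section

namespace Crest.Agent.R68.N

open Crest.Agent.R68.A (en Meas3)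
open Crest.Agent.R68.ND (cw meas3_cw perF_cw B2_eq_EE neuL neuL_eq meas3_neuL TT_eq_TL TT_iter_eq
  TL_mono_lt)
open Crest.Agent.R68.L (TL TL_smul meas3_TL meas3_iter)

/-- `e^{λt} t^b EE`, cut to positive times -/
def WW (P : Par) (g1 g2 b lam : ℝ) : Fld := fun t x v =>
  ENNReal.ofReal (Real.exp (lam * t)) * cw P g1 g2 b t x v

/-- the weight of the fixed point argument -/
def Wt (P : Par) (g1 g2 b lam : ℝ) : Fld := neuL (Crest.Agent.R68.phiE P) (WW P g1 g2 b lam)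

theorem meas3_WW {P : Par} (hY : 0 < P.Y) (g1 g2 b lam : ℝ) : Meas3 (WW P g1 g2 b lam) := by
  have h := meas3_cw hY g1 g2 b
  unfold Meas3 at h ⊢
  unfold WW
  refine Measurable.mul ?_ h
  fun_prop

theorem meas3_Wt {P : Par} (hOk : P.Ok) (g1 g2 b lam : ℝ) : Meas3 (Wt P g1 g2 b lam) :=
  meas3_neuL (L.meas3_phiE hOk) (meas3_WW hOk.Y0 g1 g2 b lam)

theorem WW_eq (P : Par) (g1 g2 b lam : ℝ) {t : ℝ} (ht : 0 < t) (x : P2) (v : R3) :
    WW P g1 g2 b lam t x v = ENNReal.ofReal (Real.exp (lam * t)) *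
      (ENNReal.ofReal (t ^ b) * EE P g1 g2 t x v) := by
  unfold WW cw
  rw [if_pos ht, B2_eq_EE P g1 g2 b ht]

/-- (w1) -/
theorem Wt_eq {P : Par} (hOk : P.Ok) (g1 g2 b lam : ℝ) (t : ℝ) (x : P2) (v : R3) :
    Wt P g1 g2 b lam t x v = WW P g1 g2 b lam t x v + TT P (Wt P g1 g2 b lam) t x v := by
  have hφ : Meas3 (Crest.Agent.R68.phiE P) := L.meas3_phiE hOk
  have h1 := neuL_eq hφ (meas3_WW hOk.Y0 g1 g2 b lam) t x v
  rw [TT_eq_TL hφ (meas3_Wt hOk g1 g2 b lam) (fun s _ y z => rfl) x v]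
  exact h1

/-- (w2) -/
theorem WW_le_Wt {P : Par} (hOk : P.Ok) (g1 g2 b lam : ℝ) (t : ℝ) (x : P2) (v : R3) :
    WW P g1 g2 b lam t x v ≤ Wt P g1 g2 b lam t x v := by
  rw [Wt_eq hOk]; exact le_self_add

theorem iter_WW_le {P : Par} (hOk : P.Ok) (g1 g2 b : ℝ) {lam : ℝ} (hl : 0 ≤ lam) (m : ℕ) :
    ∀ t x v, (TL (Crest.Agent.R68.phiE P))^[m] (WW P g1 g2 b lam) t x v ≤
      ENNReal.ofReal (Real.exp (lam * t)) *
        (TL (Crest.Agent.R68.phiE P))^[m] (cw P g1 g2 b) t x v := by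
  have hφ : Meas3 (Crest.Agent.R68.phiE P) := L.meas3_phiE hOk
  have mc := meas3_cw hOk.Y0 g1 g2 b
  induction m with
  | zero => intro t x v; exact le_rfl
  | succ m ih =>
    intro t x v
    rw [Function.iterate_succ_apply', Function.iterate_succ_apply']
    have h1 := TL_smul hφ (meas3_iter hφ mc m) (ENNReal.ofReal (Real.exp (lam * t)))
    have h2 := congrFun (congrFun (congrFun h1 t) x) v
    rw [← h2]
    refine TL_mono_lt (fun s hs y z => (ih s y z).trans ?_) x v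
    gcongr
    exact hs.2.le

/-- (w3) -/
theorem Wt_le {P : Par} (hOk : P.Ok) {T g1 g2 b lam : ℝ} (hl : 0 ≤ lam) {CL : ℝ≥0∞}
    (neu : ∀ t ∈ Ioc 0 T, ∀ x v,
      ∑' m : ℕ, (TT P)^[m] (fun s y z => ENNReal.ofReal (s ^ b) * EE P g1 g2 s y z) t x v ≤
        CL * ENNReal.ofReal (t ^ b) * EE P g1 g2 t x v)
    {t : ℝ} (ht : t ∈ Ioc 0 T) (x : P2) (v : R3) :
    Wt P g1 g2 b lam t x v ≤ CL * WW P g1 g2 b lam t x v := by
  have hφ : Meas3 (Crest.Agent.R68.phiE P) := L.meas3_phiE hOk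
  have mc := meas3_cw hOk.Y0 g1 g2 b
  have h1 : neuL (Crest.Agent.R68.phiE P) (cw P g1 g2 b) t x v ≤
      CL * ENNReal.ofReal (t ^ b) * EE P g1 g2 t x v := by
    refine le_trans (le_of_eq ?_) (neu t ht x v)
    unfold neuL
    refine tsum_congr fun m => ?_
    refine (TT_iter_eq hφ mc (T := T) (fun s hs _ y z => ?_) m t ht.1 ht.2 x v).symm
    unfold cw
    rw [if_pos hs, B2_eq_EE P g1 g2 b hs]
  calc Wt P g1 g2 b lam t x v
      ≤ ∑' m : ℕ, ENNReal.ofReal (Real.exp (lam * t)) *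
        (TL (Crest.Agent.R68.phiE P))^[m] (cw P g1 g2 b) t x v :=
        ENNReal.tsum_le_tsum fun m => iter_WW_le hOk g1 g2 b hl m t x v
    _ = ENNReal.ofReal (Real.exp (lam * t)) * neuL (Crest.Agent.R68.phiE P) (cw P g1 g2 b) t x v := by
        rw [ENNReal.tsum_mul_left]; rfl
    _ ≤ ENNReal.ofReal (Real.exp (lam * t)) * (CL * ENNReal.ofReal (t ^ b) * EE P g1 g2 t x v) := by
        gcongr
    _ = _ := by rw [WW_eq P g1 g2 b lam ht.1]; ring

theorem TT_mono_lt {P : Par} {h k : Fld} {t : ℝ}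
    (hhk : ∀ s ∈ Ioo 0 t, ∀ y z, h s y z ≤ k s y z) (x : P2) (v : R3) :
    TT P h t x v ≤ TT P k t x v := by
  unfold TT Dam
  refine setLIntegral_mono_ae' measurableSet_Ioo (Eventually.of_forall fun s hs => ?_)
  gcongr _ * ?_
  unfold Gf
  exact add_le_add (A.Qp_mono (fun _ => le_rfl) (fun z => hhk s hs _ z) v)
    (A.Qp_mono (fun z => hhk s hs _ z) (fun _ => le_rfl) v)

theorem TT_smul {P : Par} (f : Fld) {c : ℝ≥0∞} (hc : c ≠ ⊤) (t : ℝ) (x : P2) (v : R3) :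
    TT P (fun s y z => c * f s y z) t x v = c * TT P f t x v := by
  unfold TT Dam
  rw [← lintegral_const_mul' _ _ hc]
  refine lintegral_congr fun s => ?_
  unfold Gf
  rw [A.Qp_const_mul_left hc, A.Qp_const_mul_right hc]
  ring

/-- the weight absorbs: `T W + (δ/2) W ≤ (1 - δ/2) W` -/
theorem Wt_absorb {P : Par} (hOk : P.Ok) {T g1 g2 b lam : ℝ} (hl : 0 ≤ lam) {CL : ℝ≥0∞}
    (hCL : CL ≠ ⊤)
    (neu : ∀ t ∈ Ioc 0 T, ∀ x v,
      ∑' m : ℕ, (TT P)^[m] (fun s y z => ENNReal.ofReal (s ^ b) * EE P g1 g2 s y z) t x v ≤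
        CL * ENNReal.ofReal (t ^ b) * EE P g1 g2 t x v)
    {t : ℝ} (ht : t ∈ Ioc 0 T) (x : P2) (v : R3) :
    TT P (Wt P g1 g2 b lam) t x v + (CL + 1)⁻¹ / 2 * Wt P g1 g2 b lam t x v ≤
      (1 - (CL + 1)⁻¹ / 2) * Wt P g1 g2 b lam t x v := by
  set δ : ℝ≥0∞ := (CL + 1)⁻¹ with hδ
  set W := Wt P g1 g2 b lam t x v with hW
  have hc0 : CL + 1 ≠ 0 := by simp
  have hct : CL + 1 ≠ ⊤ := by finiteness
  have hδ1 : δ ≤ 1 := by
    rw [hδ, ENNReal.inv_le_one]
    exact le_add_self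
  have hδ2 : δ / 2 < 1 := by
    refine lt_of_le_of_lt (ENNReal.div_le_div_right hδ1 2) ?_
    rw [one_div]
    exact ENNReal.inv_lt_one.2 (by norm_num)
  have h1 : δ * W ≤ WW P g1 g2 b lam t x v := by
    have h2 : W ≤ (CL + 1) * WW P g1 g2 b lam t x v :=
      (Wt_le hOk hl neu ht x v).trans (by gcongr; exact le_self_add)
    calc δ * W ≤ δ * ((CL + 1) * WW P g1 g2 b lam t x v) := by gcongr
      _ = WW P g1 g2 b lam t x v := by
        rw [← mul_assoc, hδ, ENNReal.inv_mul_cancel hc0 hct, one_mul]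
  have h2 : TT P (Wt P g1 g2 b lam) t x v + δ * W ≤ W := by
    calc _ ≤ TT P (Wt P g1 g2 b lam) t x v + WW P g1 g2 b lam t x v := by gcongr
      _ = W := by rw [hW, Wt_eq hOk g1 g2 b lam t x v, add_comm, ← Wt_eq hOk g1 g2 b lam t x v]
  have h3 : δ / 2 * W + δ / 2 * W = δ * W := by
    rw [← add_mul, ENNReal.add_halves]
  by_cases hWt : W = ⊤
  · rw [hWt, ENNReal.mul_top (a := 1 - δ / 2) (tsub_pos_of_lt hδ2).ne']
    exact le_top
  · have hd : δ / 2 ≠ ⊤ := hδ2.ne_top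
    rw [ENNReal.sub_mul (fun _ _ => hWt), one_mul]
    apply ENNReal.le_sub_of_add_le_right (ENNReal.mul_ne_top hd hWt)
    rw [add_assoc, h3]
    exact h2

end Crest.Agent.R68.N
end
end

-- ▼ part R68/NAbs
section

/-!
# Row 68, PART N (helper559): absorption of `1+|v|` with the factor `e^{λ t}`
-/

set_option autoImplicit false
open MeasureTheory Set Filter
open scoped ENNReal Topology
open Crest.AnalysisR.VecCalc3 Crest.AnalysisR.PDE.Boltzmann

noncomputable section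

namespace Crest.Agent.R68.ND

open Crest.Agent.R68.N (Fld dd ddF acc Dam ev EE dd_comm dd_self dd_le_iff dd_le_add dd_add_add dd_mul_left
  dd_lintegral measurable_acc measurable_Dam_integrand)

open Crest.Agent.R68.A (en Meas3)

/-- `∫_0^t e^{-κ(t-s)} ds ≤ 1/κ` -/
theorem lintegral_exp_le {κ t c : ℝ} (hκ : 0 < κ) (ht : 0 < t) (hc : 0 ≤ c) :
    ∫⁻ s in Ioo 0 t, ENNReal.ofReal (c * Real.exp (-κ * (t - s))) ≤ ENNReal.ofReal (c / κ) := by
  have hint : IntervalIntegrable (fun s : ℝ => c * Real.exp (-κ * (t - s))) volume 0 t := by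
    apply Continuous.intervalIntegrable
    fun_prop
  have h2 : ∫⁻ s in Ioo 0 t, ENNReal.ofReal (c * Real.exp (-κ * (t - s))) =
      ENNReal.ofReal (∫ s in (0 : ℝ)..t, c * Real.exp (-κ * (t - s))) := by
    rw [intervalIntegrable_iff_integrableOn_Ioc_of_le ht.le] at hint
    rw [intervalIntegral.integral_of_le ht.le, restrict_Ioo_eq_restrict_Ioc]
    rw [ofReal_integral_eq_lintegral_ofReal hint]
    rw [Filter.EventuallyLE, ae_restrict_iff' measurableSet_Ioc]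
    filter_upwards with s hs
    have := Real.exp_pos (-κ * (t - s))
    simp only [Pi.zero_apply]
    positivity
  rw [h2]
  apply ENNReal.ofReal_le_ofReal
  have h3 : ∫ s in (0 : ℝ)..t, c * Real.exp (-κ * (t - s)) =
      c / κ * Real.exp (-κ * (t - t)) - c / κ * Real.exp (-κ * (t - 0)) := by
    refine intervalIntegral.integral_eq_sub_of_hasDerivAt
      (f := fun s : ℝ => c / κ * Real.exp (-κ * (t - s))) (fun s _ => ?_) hint
    have h4 : HasDerivAt (fun s : ℝ => -κ * (t - s)) κ s := by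
      have := ((hasDerivAt_id s).const_sub t).const_mul (-κ)
      simpa using this
    have h5 := (h4.exp).const_mul (c / κ)
    have e : c / κ * (Real.exp (-κ * (t - s)) * κ) = c * Real.exp (-κ * (t - s)) := by
      field_simp
    rw [e] at h5
    exact h5
  rw [h3]
  have h6 : 0 ≤ c / κ * Real.exp (-κ * (t - 0)) := by positivity
  simp only [sub_self, mul_zero, Real.exp_zero, mul_one]
  linarith

/-- the absorption integral -/
theorem lintegral_absorb_exp {lam t : ℝ} (hl : 1 ≤ lam) (ht : 0 < t) (ht1 : t ≤ 1) {a : ℝ}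
    (ha : 0 ≤ a) :
    ∫⁻ s in Ioo 0 t, ENNReal.ofReal ((1 + a) * (Real.exp (-lam * (t - s)) *
      Real.exp (-((√t - √s) / 100) * a ^ 2))) ≤ ENNReal.ofReal (9 / √lam) := by
  set κ : ℝ := lam + a ^ 2 / 200 with hκ
  have hl0 : 0 < lam := by linarith
  have hκ0 : 0 < κ := by positivity
  have h1 : ∀ s ∈ Ioo 0 t, ENNReal.ofReal ((1 + a) * (Real.exp (-lam * (t - s)) *
      Real.exp (-((√t - √s) / 100) * a ^ 2))) ≤
      ENNReal.ofReal ((1 + a) * Real.exp (-κ * (t - s))) := by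
    intro s hs
    apply ENNReal.ofReal_le_ofReal
    rw [← Real.exp_add]
    apply mul_le_mul_of_nonneg_left _ (by positivity)
    apply Real.exp_le_exp.2
    have h2 : (t - s) / 2 ≤ √t - √s := by
      have e1 : t - s = (√t - √s) * (√t + √s) := by
        have := Real.mul_self_sqrt ht.le
        have := Real.mul_self_sqrt hs.1.le
        nlinarith
      have e2 : √t ≤ 1 := Real.sqrt_le_one.2 ht1
      have e3 : √s ≤ √t := Real.sqrt_le_sqrt hs.2.le
      have e4 : 0 ≤ √s := Real.sqrt_nonneg _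
      rw [e1]
      nlinarith
    rw [hκ]
    have h3 : 0 ≤ a ^ 2 := sq_nonneg a
    nlinarith
  refine (setLIntegral_mono' measurableSet_Ioo h1).trans ?_
  refine (lintegral_exp_le hκ0 ht (by positivity)).trans ?_
  apply ENNReal.ofReal_le_ofReal
  have hs1 : 1 ≤ √lam := Real.one_le_sqrt.2 hl
  have hss : √lam * √lam = lam := Real.mul_self_sqrt hl0.le
  rw [div_le_div_iff₀ hκ0 (by positivity), hκ]
  nlinarith [sq_nonneg (√lam * 3 - a / 6), sq_nonneg (√lam - a)]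

/-- **absorption lemma** for `e^{λ s} B2` -/
theorem Duh_lin_exp (P : Par) {g1 g2 b lam : ℝ} (hb : 0 ≤ b) (hg : 0 ≤ g2) (hl : 1 ≤ lam)
    {t : ℝ} (ht : 0 < t) (ht1 : t ≤ 1) (x : P2) (v : R3) :
    Duh (fun s y z => ev z * (ENNReal.ofReal (Real.exp (lam * s)) *
      (ENNReal.ofReal (s ^ b) * EE P g1 g2 s y z))) t x v ≤
      ENNReal.ofReal (9 / √lam) * (ENNReal.ofReal (Real.exp (lam * t)) *
        (ENNReal.ofReal (t ^ b) * EE P g1 g2 t x v)) := by
  apply K.Duh_le_of _ x v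
    (fun s => ENNReal.ofReal ((1 + ‖v‖) * (Real.exp (-lam * (t - s)) *
      Real.exp (-((√t - √s) / 100) * ‖v‖ ^ 2)))) _ _ _
    (lintegral_absorb_exp hl ht ht1 (norm_nonneg v))
  · fun_prop
  · intro s hs
    have h1 : EE P g1 g2 s (x - (t - s) • bar v) v ≤
        ENNReal.ofReal (Real.exp (-((√t - √s) / 100) * ‖v‖ ^ 2)) * EE P g1 g2 t x v := by
      have := K.B2_flight' P (g1 := g1) (b := 0) hg hs.1 hs.2.le x v
      unfold EE
      simpa using this
    have h2 : ev v = ENNReal.ofReal (1 + ‖v‖) := by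
      unfold ev
      rw [ENNReal.ofReal_add zero_le_one (norm_nonneg v), ENNReal.ofReal_one]
    have h3 : ENNReal.ofReal (s ^ b) ≤ ENNReal.ofReal (t ^ b) :=
      ENNReal.ofReal_le_ofReal (Real.rpow_le_rpow hs.1.le hs.2.le hb)
    have h4 : ENNReal.ofReal (Real.exp (lam * s)) =
        ENNReal.ofReal (Real.exp (-lam * (t - s))) * ENNReal.ofReal (Real.exp (lam * t)) := by
      rw [← ENNReal.ofReal_mul (Real.exp_pos _).le, ← Real.exp_add]
      congr 2
      ring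
    calc ev v * (ENNReal.ofReal (Real.exp (lam * s)) *
          (ENNReal.ofReal (s ^ b) * EE P g1 g2 s (x - (t - s) • bar v) v))
        ≤ ENNReal.ofReal (1 + ‖v‖) * ((ENNReal.ofReal (Real.exp (-lam * (t - s))) *
          ENNReal.ofReal (Real.exp (lam * t))) * (ENNReal.ofReal (t ^ b) *
          (ENNReal.ofReal (Real.exp (-((√t - √s) / 100) * ‖v‖ ^ 2)) * EE P g1 g2 t x v))) := by
          rw [h2, h4]
          gcongr
      _ = _ := by
          rw [ENNReal.ofReal_mul (p := 1 + ‖v‖) (by positivity),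
            ENNReal.ofReal_mul (Real.exp_pos _).le]
          ring


end Crest.Agent.R68.ND
end
end

-- ▼ part R68/NMain
section

/-!
# Row 68, PART N (helper621): the nonlinear step
-/

set_option autoImplicit false
open MeasureTheory Set Filter
open scoped ENNReal Topology
open Crest.AnalysisR.VecCalc3 Crest.AnalysisR.PDE.Boltzmann

noncomputable section

namespace Crest.Agent.R68.N

open Crest.Agent.R68.A (en Meas3)
open Crest.Agent.R68.ND (Dat change_rate_flight')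

variable {P : Par} {T V : ℝ} {Cf Sf : Fld → Fld} {Mc Wm : Fld} {CC CK : ℝ≥0∞} {q : ℝ}

/-- bounds of the loss rate of the hot equation for `H ≤ CB Z_g` -/
theorem loss_bds (hOk : P.Ok) (hC : ColdInp P T V Cf Sf Mc Wm CC q) (hT1 : T ≤ 1) (hq : 0 ≤ q)
    {g g1 g2 : ℝ} (hK : KInp P T Mc Wm q g g1 g2 CK) {H : Fld} (mH : Meas3 H) (pH : PerF H)
    {CB : ℝ≥0∞} (hCB : CB ≠ ⊤) (bH : ∀ t ∈ Ioc 0 T, ∀ x v, H t x v ≤ CB * Zg P g t x v)
    {t : ℝ} (ht : t ∈ Ioc 0 T) (x : P2) (v : R3) :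
    lossH (Cf (LcF H)) H t x v ≤ nuT P
      (CC * (CB * CK * ENNReal.ofReal (1 + V) + ENNReal.ofReal (2 ^ q) + 1) * CK + CB * CK) t x v ∧
    ∀ L0 : ℝ≥0∞, nuT P L0 t x v ≤ lossH (Cf (LcF H)) H t x v +
      (CC * (CB * CK * ENNReal.ofReal (1 + V) + ENNReal.ofReal (2 ^ q) + 1) * CK + L0) * ev v := by
  have mφ : Meas3 (phiE P) := L.meas3_phiE hOk
  have mL : Meas3 (LcF H) := meas3_LcF mH
  have pL : PerF (LcF H) := perF_LcF pH
  have mc : Meas3 (Cf (LcF H)) := hC.measC _ mL pL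
  have hCC := hC.CC_ne
  have hCK := hK.ne
  have hbd : ∀ s ∈ Ioc 0 T, ∀ y u, ‖u‖ ≤ V → LcF H s y u ≤ CB * CK * ENNReal.ofReal (1 + V) := by
    intro s hs y u hu
    refine (Lc_le_mul hCB (bH s hs y) u).trans ?_
    calc CB * Lc (Zg P g s y) u ≤ CB * (CK * ev u) := by gcongr; exact hK.lZ s hs y u
      _ ≤ CB * (CK * ENNReal.ofReal (1 + V)) := by gcongr; exact ev_le hu
      _ = _ := by ring
  have hdp := fun z => cold_phi hC hT1 hq mL pL hbd ht x z
  set F := CB * CK * ENNReal.ofReal (1 + V) + ENNReal.ofReal (2 ^ q) + 1 with hF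
  set τ := ENNReal.ofReal t with hτ
  set τ' := ENNReal.ofReal (1 / t) with hτ'
  have hττ : τ * τ' = 1 := t_mul_inv ht.1
  have hFt : F ≠ ⊤ := by
    have h7 : ENNReal.ofReal (2 ^ q) ≠ ⊤ := ENNReal.ofReal_ne_top
    have h6 : ENNReal.ofReal (1 + V) ≠ ⊤ := ENNReal.ofReal_ne_top
    rw [hF]; finiteness
  have hτt : τ ≠ ⊤ := ENNReal.ofReal_ne_top
  have h1 : Lc (ddF (Cf (LcF H)) (phiE P) t x) v ≤ CC * F * CK * ev v := by
    have ha : CC * F * τ ≠ ⊤ := by finiteness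
    refine (Lc_le_mul ha hdp v).trans ?_
    calc CC * F * τ * Lc (Mc t x) v ≤ CC * F * τ * (CK * τ' * ev v) := by
          gcongr; exact hK.lM t ht x v
      _ = CC * F * CK * ((τ * τ') * ev v) := by ring
      _ = _ := by rw [hττ, one_mul]
  constructor
  · have h2 : Lc (Cf (LcF H) t x) v ≤ nuf P t x v + Lc (ddF (Cf (LcF H)) (phiE P) t x) v := by
      unfold nuf
      rw [← A.Lc_add (mφ.slice t x) v]
      exact A.Lc_mono (fun z => le_add_dd _ _) v
    have h3 : Lc (H t x) v ≤ CB * CK * ev v := by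
      refine (Lc_le_mul hCB (bH t ht x) v).trans ?_
      calc CB * Lc (Zg P g t x) v ≤ CB * (CK * ev v) := by gcongr; exact hK.lZ t ht x v
        _ = _ := by ring
    have h4 : lossH (Cf (LcF H)) H t x v = Lc (Cf (LcF H) t x) v + Lc (H t x) v :=
      A.Lc_add (mc.slice t x) v
    rw [h4]
    calc Lc (Cf (LcF H) t x) v + Lc (H t x) v
        ≤ (nuf P t x v + CC * F * CK * ev v) + CB * CK * ev v := by
          refine add_le_add (h2.trans ?_) h3
          gcongr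
      _ = nuf P t x v + (CC * F * CK + CB * CK) * ev v := by ring
      _ = _ := rfl
  · intro L0
    have h2 := nuT_sub_lossH (P := P) (L0 := L0) (c := Cf (LcF H)) (H := H) (mc.slice t x)
      (mφ.slice t x) v
    rw [tsub_le_iff_left] at h2
    refine h2.trans ?_
    calc _ ≤ lossH (Cf (LcF H)) H t x v + (CC * F * CK * ev v + L0 * ev v) := by gcongr
      _ = _ := by ring

/-- choice of `λ` -/
theorem exists_lam {A η : ℝ≥0∞} (hA : A ≠ ⊤) (hη : η ≠ 0) :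
    ∃ lam : ℝ, 1 ≤ lam ∧ A * ENNReal.ofReal (9 / √lam) ≤ η := by
  have h1 : Tendsto (fun lam : ℝ => 9 / √lam) atTop (𝓝 0) :=
    Tendsto.div_atTop tendsto_const_nhds (Real.tendsto_sqrt_atTop)
  have h2 : Tendsto (fun lam : ℝ => ENNReal.ofReal (9 / √lam)) atTop (𝓝 0) := by
    have := ENNReal.tendsto_ofReal h1
    rwa [ENNReal.ofReal_zero] at this
  have h3 : Tendsto (fun lam : ℝ => A * ENNReal.ofReal (9 / √lam)) atTop (𝓝 0) := by
    have := ENNReal.Tendsto.const_mul (a := A) h2 (Or.inr hA)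
    rwa [mul_zero] at this
  have h4 : ∀ᶠ lam : ℝ in atTop, A * ENNReal.ofReal (9 / √lam) < η :=
    h3.eventually_lt_const (pos_iff_ne_zero.2 hη)
  obtain ⟨lam, h5, h6⟩ := (h4.and (eventually_ge_atTop 1)).exists
  exact ⟨lam, h6, h5.le⟩

theorem ofReal_rpow_le_one {t b : ℝ} (ht : 0 ≤ t) (ht1 : t ≤ 1) (hb : 0 ≤ b) :
    ENNReal.ofReal (t ^ b) ≤ 1 := by
  rw [← ENNReal.ofReal_one]
  exact ENNReal.ofReal_le_ofReal (Real.rpow_le_one ht ht1 hb)

theorem ofReal_rpow_anti {t b b' : ℝ} (ht : 0 < t) (ht1 : t ≤ 1) (hb : b ≤ b') :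
    ENNReal.ofReal (t ^ b') ≤ ENNReal.ofReal (t ^ b) :=
  ENNReal.ofReal_le_ofReal (Real.rpow_le_rpow_of_exponent_ge ht ht1 hb)

theorem one_le_exp_mul {lam t : ℝ} (hl : 0 ≤ lam) (ht : 0 ≤ t) :
    1 ≤ ENNReal.ofReal (Real.exp (lam * t)) := by
  rw [← ENNReal.ofReal_one]
  apply ENNReal.ofReal_le_ofReal
  exact Real.one_le_exp (by positivity)

/-- `Duh` of a multiple of the absorbed weight -/
theorem Duh_WW_le (P : Par) {f : Fld} {A : ℝ≥0∞} (hA : A ≠ ⊤) {g1 g2 b lam : ℝ} (hb : 0 ≤ b)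
    (hg2 : 0 ≤ g2) (hl : 1 ≤ lam) {t : ℝ} (ht : 0 < t) (ht1 : t ≤ 1) (x : P2) (v : R3)
    (hf : ∀ s ∈ Ioo 0 t, ∀ y, f s y v ≤ A * (ev v * (ENNReal.ofReal (Real.exp (lam * s)) *
      (ENNReal.ofReal (s ^ b) * EE P g1 g2 s y v)))) :
    Duh f t x v ≤ A * ENNReal.ofReal (9 / √lam) * WW P g1 g2 b lam t x v := by
  have h1 : Duh f t x v ≤ A * Duh (fun s y z => ev z * (ENNReal.ofReal (Real.exp (lam * s)) *
      (ENNReal.ofReal (s ^ b) * EE P g1 g2 s y z))) t x v := by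
    unfold Duh
    rw [← lintegral_const_mul' _ _ hA]
    exact setLIntegral_mono_ae' measurableSet_Ioo (Eventually.of_forall fun s hs => hf s hs _)
  refine h1.trans ?_
  rw [WW_eq P g1 g2 b lam ht, mul_assoc]
  gcongr
  exact ND.Duh_lin_exp P hb hg2 hl ht ht1 x v

theorem WW_eq_top {P : Par} {g1 g2 b lam : ℝ} {t : ℝ} (ht : 0 < t) {x : P2} {v : R3}
    (hD : Dw P t x v ≤ 0) : WW P g1 g2 b lam t x v = ⊤ := by
  have h1 : Dm P t x v = ⊤ := by
    unfold Dm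
    rw [ENNReal.ofReal_of_nonpos hD]
    exact ENNReal.zero_rpow_of_neg (by norm_num)
  rw [WW_eq P g1 g2 b lam ht, EE_eq, h1, ENNReal.mul_top, ENNReal.mul_top, ENNReal.mul_top]
  · exact (ENNReal.ofReal_pos.2 (Real.exp_pos _)).ne'
  · exact (ENNReal.ofReal_pos.2 (Real.rpow_pos_of_pos ht _)).ne'
  · refine (ENNReal.ofReal_pos.2 ?_).ne'
    unfold gau
    positivity

theorem half_facts (CL : ℝ≥0∞) : (CL + 1)⁻¹ / 2 < 1 ∧ 1 - (1 - (CL + 1)⁻¹ / 2) = (CL + 1)⁻¹ / 2 := by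
  have hδ1 : (CL + 1)⁻¹ ≤ 1 := by
    rw [ENNReal.inv_le_one]
    exact le_add_self
  have hδ2 : (CL + 1)⁻¹ / 2 < 1 := by
    refine lt_of_le_of_lt (ENNReal.div_le_div_right hδ1 2) ?_
    rw [one_div]
    exact ENNReal.inv_lt_one.2 (by norm_num)
  exact ⟨hδ2, ENNReal.sub_sub_cancel ENNReal.one_ne_top hδ2.le⟩

/-- **Lipschitz estimate of the fixed point map on the ball** -/
theorem psi_lip (hOk : P.Ok) (hC : ColdInp P T V Cf Sf Mc Wm CC q) (hV : 0 ≤ V) (hT1 : T ≤ 1)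
    (hq : 0 ≤ q) {g1' g2' b : ℝ} (hg2' : 0 ≤ g2') (hg : g1' + g2' ≤ 1) (hb : 0 ≤ b)
    (hK' : KInp P T Mc Wm q (g1' + g2') g1' g2' CK) {CL : ℝ≥0∞} (hCL : CL ≠ ⊤)
    (neu : ∀ t ∈ Ioc 0 T, ∀ x v,
      ∑' m : ℕ, (TT P)^[m] (fun s y z => ENNReal.ofReal (s ^ b) * EE P g1' g2' s y z) t x v ≤
        CL * ENNReal.ofReal (t ^ b) * EE P g1' g2' t x v)
    {H0 : P2 → R3 → ℝ≥0∞} {H H' : Fld} (mH : Meas3 H) (pH : PerF H) (mH' : Meas3 H')
    (pH' : PerF H') {CB L0 : ℝ≥0∞} (hCB : CB ≠ ⊤) (hL0 : L0 ≠ ⊤)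
    (bH : ∀ t ∈ Ioc 0 T, ∀ x v, H t x v ≤ CB * Zg P (g1' + g2') t x v)
    (bH' : ∀ t ∈ Ioc 0 T, ∀ x v, H' t x v ≤ CB * Zg P (g1' + g2') t x v)
    {lam : ℝ} (hl : 1 ≤ lam)
    (hlam : CR V q g2' CC CK CB L0 * CL * ENNReal.ofReal (9 / √lam) ≤ (CL + 1)⁻¹ / 2)
    {d : ℝ≥0∞} (hd : d ≠ ⊤)
    (hdd : ∀ t ∈ Ioc 0 T, ∀ x v, dd (H t x v) (H' t x v) ≤ d * Wt P g1' g2' b lam t x v) :
    ∀ t ∈ Ioc 0 T, ∀ x v, dd (Psi P L0 Cf Sf H0 H t x v) (Psi P L0 Cf Sf H0 H' t x v) ≤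
      (1 - (CL + 1)⁻¹ / 2) * d * Wt P g1' g2' b lam t x v := by
  intro t ht x v
  have hl0 : 0 ≤ lam := zero_le_one.trans hl
  have mφ : Meas3 (phiE P) := L.meas3_phiE hOk
  have mL : Meas3 (LcF H) := meas3_LcF mH
  have pL : PerF (LcF H) := perF_LcF pH
  have mL' : Meas3 (LcF H') := meas3_LcF mH'
  have pL' : PerF (LcF H') := perF_LcF pH'
  have hCC := hC.CC_ne
  have hCK := hK'.ne
  have hCR : CR V q g2' CC CK CB L0 ≠ ⊤ := CR_ne_top hCC hCK hCB hL0
  -- the weight of the difference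
  set w : ℝ → ℝ≥0∞ := fun s => d * CL * (ENNReal.ofReal (Real.exp (lam * s)) *
    ENNReal.ofReal (s ^ b)) with hw
  have mw : Measurable w := by
    rw [hw]; fun_prop
  have hmono : ∀ s t, 0 < s → s ≤ t → t ≤ T → w s ≤ w t := by
    intro s t hs hst _
    simp only [hw]
    gcongr
  have wt : ∀ t ∈ Ioc 0 T, w t ≠ ⊤ := by
    intro t _
    simp only [hw]
    have h1 : ENNReal.ofReal (Real.exp (lam * t)) ≠ ⊤ := ENNReal.ofReal_ne_top
    have h2 : ENNReal.ofReal (t ^ b) ≠ ⊤ := ENNReal.ofReal_ne_top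
    finiteness
  have bk : ∀ t ∈ Ioc 0 T, ∀ x v, ddF H H' t x v ≤ w t * EE P g1' g2' t x v := by
    intro t ht x v
    refine (hdd t ht x v).trans ?_
    calc d * Wt P g1' g2' b lam t x v ≤ d * (CL * WW P g1' g2' b lam t x v) := by
          gcongr
          exact Wt_le hOk hl0 neu ht x v
      _ = _ := by
          rw [WW_eq P g1' g2' b lam ht.1]
          simp only [hw]
          ring
  have hrest := fun s (hs : s ∈ Ioo 0 t) (y : P2) =>
    restF_le (L0 := L0) hC hV hT1 hq hg2' hg hK' mH pH mH' pH' hCB bH bH' mw hmono wt bk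
      ⟨hs.1, hs.2.le.trans ht.2⟩ y v
  have h1 := psi_lip_core (P := P) (L0 := L0) (H0 := H0) mφ mH mH' (hC.measC _ mL pL)
    (hC.measC _ mL' pL') (hC.measS _ mL pL) (hC.measS _ mL' pL') t x v
  refine h1.trans ?_
  -- the linear part
  have h2 : TT P (ddF H H') t x v ≤ d * TT P (Wt P g1' g2' b lam) t x v := by
    rw [← TT_smul (Wt P g1' g2' b lam) hd t x v]
    exact TT_mono_lt (fun s hs y z => hdd s ⟨hs.1, hs.2.le.trans ht.2⟩ y z) x v
  have hA : CR V q g2' CC CK CB L0 * CL * d ≠ ⊤ := by finiteness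
  have h3 : Duh (restF P L0 (Cf (LcF H)) (Cf (LcF H')) (Sf (LcF H)) (Sf (LcF H')) H H') t x v ≤
      CR V q g2' CC CK CB L0 * CL * d * ENNReal.ofReal (9 / √lam) *
        WW P g1' g2' b lam t x v := by
    refine Duh_WW_le P hA hb hg2' hl ht.1 (ht.2.trans hT1) x v (fun s hs y => ?_)
    refine (hrest s hs y).trans (le_of_eq ?_)
    simp only [hw]
    ring
  calc _ ≤ d * TT P (Wt P g1' g2' b lam) t x v +
        CR V q g2' CC CK CB L0 * CL * d * ENNReal.ofReal (9 / √lam) *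
          WW P g1' g2' b lam t x v := add_le_add h2 h3
    _ = d * (TT P (Wt P g1' g2' b lam) t x v +
        CR V q g2' CC CK CB L0 * CL * ENNReal.ofReal (9 / √lam) * WW P g1' g2' b lam t x v) := by
        ring
    _ ≤ d * (TT P (Wt P g1' g2' b lam) t x v +
        (CL + 1)⁻¹ / 2 * Wt P g1' g2' b lam t x v) := by
        gcongr
        exact WW_le_Wt hOk g1' g2' b lam t x v
    _ ≤ d * ((1 - (CL + 1)⁻¹ / 2) * Wt P g1' g2' b lam t x v) := by
        gcongr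
        exact Wt_absorb hOk hl0 hCL neu ht x v
    _ = _ := by ring

/-- **the starting point is an approximate fixed point** -/
theorem psi_start (hOk : P.Ok) (hC : ColdInp P T V Cf Sf Mc Wm CC q) (hV : 0 ≤ V) (hT1 : T ≤ 1)
    (hq : 0 ≤ q) {β g0 g1 g2 g1' g2' a b : ℝ} (hβ : 0 ≤ β) (hg2' : 0 ≤ g2') (hgg1 : g1' ≤ g1)
    (hgg2 : g2' < g2) (hg : g1' + g2' ≤ 1) (hg0 : g1 + g2 ≤ g0) (hb0 : 0 ≤ b)
    (hb : b ≤ 2 * (a - 2)) (hbβ : b ≤ β) (hbq : b ≤ q) (ha : 2 < a)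
    (hK : KInp P T Mc Wm q g0 g1 g2 CK) (hK' : KInp P T Mc Wm q (g1' + g2') g1' g2' CK)
    {H0 : P2 → R3 → ℝ≥0∞} {H1 : Fld} (h1 : HotSol P Cf Sf H0 T H1) {C1 : ℝ≥0∞} (hC1 : C1 ≠ ⊤)
    (hH1 : ∀ t ∈ Ioc 0 T, ∀ x v, H1 t x v ≤ C1 * tx β t x * Zg P g0 t x v)
    {Hs : Fld} {CL : ℝ≥0∞} (hL : LInp P T Hs g1 g2 g1' g2' a b CL) {L0 : ℝ≥0∞} (hL0 : L0 ≠ ⊤)
    (hloss : ∀ t ∈ Ioc 0 T, ∀ x v, lossH (Cf (LcF H1)) H1 t x v ≤ nuT P L0 t x v)
    {ε : ℝ≥0∞} (hε0 : ε ≠ 0) (hε1 : ε ≤ 1) {lam : ℝ} (hl : 1 ≤ lam)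
    (hlam : CS V q β g2 g2' CC CK C1 * (CL * (2 + CL)) * ENNReal.ofReal (9 / √lam) ≤
      (CL + 1)⁻¹ / 2) :
    ∀ t ∈ Ioc 0 T, ∀ x v,
      dd (Psi P L0 Cf Sf H0 (addF H1 (fun s y z => ε * Hs s y z)) t x v)
        (addF H1 (fun s y z => ε * Hs s y z) t x v) ≤
      (1 - (1 - (CL + 1)⁻¹ / 2)) * ε * Wt P g1' g2' b lam t x v := by
  intro t ht x v
  obtain ⟨hδ2, hδ3⟩ := half_facts CL
  have hCL := hL.ne
  have hl0 : 0 ≤ lam := zero_le_one.trans hl
  have hct : CL + 1 ≠ ⊤ := by finiteness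
  rw [hδ3]
  rcases le_or_gt (Dw P t x v) 0 with hD | hD
  · -- `D = 0`: the weight is infinite
    have hW : Wt P g1' g2' b lam t x v = ⊤ := by
      refine top_le_iff.1 ?_
      rw [← WW_eq_top (g1 := g1') (g2 := g2') (b := b) (lam := lam) ht.1 hD]
      exact WW_le_Wt hOk g1' g2' b lam t x v
    rw [hW, ENNReal.mul_top]
    · exact le_top
    · refine mul_ne_zero ?_ hε0
      exact (ENNReal.div_pos (ENNReal.inv_ne_zero.2 hct) (by norm_num)).ne'
  have hεt : ε ≠ ⊤ := ne_top_of_le_ne_top ENNReal.one_ne_top hε1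
  have mφ : Meas3 (phiE P) := L.meas3_phiE hOk
  set k : Fld := fun s y z => ε * Hs s y z with hk
  have mk : Meas3 k := Measurable.const_mul hL.meas ε
  have pk : PerF k := by
    intro s z y i
    simp only [hk]
    rw [show Hs s (y + latt i) z = Hs s y z from hL.per s z y i]
  have mu : Meas3 (addF H1 k) := meas3_addF h1.meas mk
  have pu : PerF (addF H1 k) := fun s z y i => by
    have e1 : H1 s (y + latt i) z = H1 s y z := h1.per s z y i
    have e2 : k s (y + latt i) z = k s y z := pk s z y i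
    show addF H1 k s (y + latt i) z = addF H1 k s y z
    unfold addF
    rw [e1, e2]
  have mL : Meas3 (LcF (addF H1 k)) := meas3_LcF mu
  have pL : PerF (LcF (addF H1 k)) := perF_LcF pu
  have mL1 : Meas3 (LcF H1) := meas3_LcF h1.meas
  have pL1 : PerF (LcF H1) := perF_LcF h1.per
  have mn : Meas3 (nuT P L0) := meas3_nuT mφ L0
  have mnu : Meas3 (nuf P) := meas3_nuf mφ
  set c := Cf (LcF (addF H1 k)) with hc
  set c1 := Cf (LcF H1) with hc1
  set sp := Sf (LcF (addF H1 k)) with hsp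
  set sp1 := Sf (LcF H1) with hsp1
  have mc : Meas3 c := hC.measC _ mL pL
  have mc1 : Meas3 c1 := hC.measC _ mL1 pL1
  have ms : Meas3 sp := hC.measS _ mL pL
  have ms1 : Meas3 sp1 := hC.measS _ mL1 pL1
  have mG : Meas3 (Gf P k) := meas3_Gf mφ mk
  -- sources
  set S0 : Fld := fun s y z => gainH c sp (addF H1 k) s y z +
    (nuT P L0 s y z - lossH c (addF H1 k) s y z) * addF H1 k s y z with hS0
  set S1 : Fld := fun s y z => gainH c1 sp1 H1 s y z +
    (nuT P L0 s y z - lossH c1 H1 s y z) * H1 s y z with hS1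
  set S2 : Fld := fun s y z => Gf P k s y z + (nuT P L0 s y z - nuf P s y z) * k s y z with hS2
  have mS0 : Meas3 S0 := Measurable.add (meas3_gainH mc ms mu)
    (Measurable.mul (Measurable.sub mn (meas3_lossH mc mu)) mu)
  have mS1 : Meas3 S1 := Measurable.add (meas3_gainH mc1 ms1 h1.meas)
    (Measurable.mul (Measurable.sub mn (meas3_lossH mc1 h1.meas)) h1.meas)
  have mS2 : Meas3 S2 := Measurable.add mG (Measurable.mul (Measurable.sub mn mnu) mk)
  -- `H1` is a fixed point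
  have e1 : H1 t x v = Dat (nuT P L0) H0 t x v + Dam (nuT P L0) S1 t x v := by
    have := HotSol.eq_Psi mφ hC hK hL0 h1 hloss t ht x v hD
    rw [Psi_eq] at this
    exact this
  -- the equation of `k` with the rate `nuT`
  have e2 : k t x v = Dam (nuT P L0) S2 t x v := by
    have h3 : ∀ s ∈ Ioc 0 t, k s (x - (t - s) • bar v) v =
        Dat (nuf P) (fun _ _ => 0) s (x - (t - s) • bar v) v +
          Dam (nuf P) (Gf P k) s (x - (t - s) • bar v) v := by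
      intro s hs
      have h4 := hL.eqn s ⟨hs.1, hs.2.trans ht.2⟩ (x - (t - s) • bar v) v
      have h5 : Dat (nuf P) (fun _ _ => 0) s (x - (t - s) • bar v) v = 0 := by
        unfold Dat; simp
      rw [h5, zero_add]
      show ε * Hs s (x - (t - s) • bar v) v = TT P k s (x - (t - s) • bar v) v
      rw [h4]
      exact (TT_smul Hs hεt s _ v).symm
    have h6 := change_rate_flight' (n := nuf P) (n' := nuT P L0) (q := Gf P k) (H := k)
      (h0 := fun _ _ => 0) mnu mn mG ht.1 (fun s _ => le_self_add) h3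
      (fun r hr _ => acc_nuT_ne_top hC hK hL0 ht.2 x v hr)
    rw [h6]
    have h7 : Dat (nuT P L0) (fun _ _ => 0) t x v = 0 := by
      unfold Dat; simp
    rw [h7, zero_add]
  have e3 : addF H1 k t x v = Dat (nuT P L0) H0 t x v +
      Dam (nuT P L0) (fun s y z => S1 s y z + S2 s y z) t x v := by
    rw [Dam_add' mn mS1 t x v]
    unfold addF
    rw [← add_assoc, ← e1, ← e2]
  have e4 : Psi P L0 Cf Sf H0 (addF H1 k) t x v = Dat (nuT P L0) H0 t x v +
      Dam (nuT P L0) S0 t x v := Psi_eq P L0 Cf Sf H0 (addF H1 k) t x v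
  rw [e3, e4]
  refine (dd_add_add _ _ _ _).trans ?_
  rw [dd_self, zero_add]
  -- pointwise estimate of the sources
  have h8 : dd (Dam (nuT P L0) S0 t x v) (Dam (nuT P L0) (fun s y z => S1 s y z + S2 s y z) t x v) ≤
      Dam (nuT P L0) (rest0F P c c1 sp sp1 H1 k (addF H1 k)) t x v := by
    have mS12 : Meas3 (fun s y z => S1 s y z + S2 s y z) := Measurable.add mS1 mS2
    refine dd_Dam_le mn mS0 mS12 (fun s _ => ?_)
    exact dd_source0 (mφ.slice _ _) (mc.slice _ _) (mc1.slice _ _) (h1.meas.slice _ _)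
      (mk.slice _ _) v
  refine h8.trans ((Dam_le_Duh _ _ _ _ _).trans ?_)
  -- the bound of the remainder
  set κ : ℝ → ℝ≥0∞ := fun s => ε * CL * ENNReal.ofReal (s ^ (a - 2)) with hκdef
  have mκ : Measurable κ := by rw [hκdef]; fun_prop
  have ha2 : 0 ≤ a - 2 := by linarith
  have hκ : ∀ s t, 0 < s → s ≤ t → t ≤ T → κ s ≤ κ t := by
    intro s t hs hst _
    simp only [hκdef]
    gcongr
  have κt : ∀ t ∈ Ioc 0 T, κ t ≠ ⊤ := by
    intro t _
    simp only [hκdef]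
    have h2 : ENNReal.ofReal (t ^ (a - 2)) ≠ ⊤ := ENNReal.ofReal_ne_top
    finiteness
  have bk : ∀ t ∈ Ioc 0 T, ∀ x v, k t x v ≤ κ t * EE P g1 g2 t x v := by
    intro t ht x v
    simp only [hk, hκdef]
    calc ε * Hs t x v ≤ ε * (CL * ENNReal.ofReal (t ^ (a - 2)) * EE P g1 g2 t x v) := by
          gcongr; exact hL.le t ht x v
      _ = _ := by ring
  have hCS : CS V q β g2 g2' CC CK C1 ≠ ⊤ := CS_ne_top hC.CC_ne hK.ne hC1
  have hA : CS V q β g2 g2' CC CK C1 * (CL * (2 + CL)) * ε ≠ ⊤ := by finiteness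
  have h9 : Duh (rest0F P c c1 sp sp1 H1 k (addF H1 k)) t x v ≤
      CS V q β g2 g2' CC CK C1 * (CL * (2 + CL)) * ε * ENNReal.ofReal (9 / √lam) *
        WW P g1' g2' b lam t x v := by
    refine Duh_WW_le P hA hb0 hg2' hl ht.1 (ht.2.trans hT1) x v (fun s hs y => ?_)
    have hs1 : s ≤ 1 := (hs.2.le.trans ht.2).trans hT1
    refine (rest0F_le hC hV hT1 hq hβ hg2' hgg1 hgg2 hg hg0 hK hK' h1.meas h1.per mk pk hC1 hH1
      mκ hκ κt bk ⟨hs.1, hs.2.le.trans ht.2⟩ y v).trans ?_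
    have i1 : κ s ≤ ε * CL := by
      simp only [hκdef]
      calc ε * CL * ENNReal.ofReal (s ^ (a - 2)) ≤ ε * CL * 1 := by
            gcongr; exact ofReal_rpow_le_one hs.1.le hs1 ha2
        _ = _ := mul_one _
    have i2 : κ s * κ s ≤ ε * CL * CL * ENNReal.ofReal (s ^ b) := by
      simp only [hκdef]
      have i3 : ENNReal.ofReal (s ^ (a - 2)) * ENNReal.ofReal (s ^ (a - 2)) ≤
          ENNReal.ofReal (s ^ b) := by
        rw [← ENNReal.ofReal_mul (Real.rpow_nonneg hs.1.le _), ← Real.rpow_add hs.1]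
        exact ofReal_rpow_anti hs.1 hs1 (by linarith)
      calc ε * CL * ENNReal.ofReal (s ^ (a - 2)) * (ε * CL * ENNReal.ofReal (s ^ (a - 2)))
          = ε * CL * (ε * CL) * (ENNReal.ofReal (s ^ (a - 2)) * ENNReal.ofReal (s ^ (a - 2))) := by
            ring
        _ ≤ ε * CL * (1 * CL) * ENNReal.ofReal (s ^ b) := by gcongr
        _ = _ := by ring
    have i4 : κ s * (ENNReal.ofReal (s ^ β) + ENNReal.ofReal (s ^ q) + κ s) ≤
        ε * (CL * (2 + CL)) * ENNReal.ofReal (s ^ b) := by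
      calc κ s * (ENNReal.ofReal (s ^ β) + ENNReal.ofReal (s ^ q) + κ s)
          = κ s * (ENNReal.ofReal (s ^ β) + ENNReal.ofReal (s ^ q)) + κ s * κ s := by ring
        _ ≤ ε * CL * (ENNReal.ofReal (s ^ b) + ENNReal.ofReal (s ^ b)) +
            ε * CL * CL * ENNReal.ofReal (s ^ b) := by
            gcongr ?_ * (?_ + ?_) + ?_
            · exact ofReal_rpow_anti hs.1 hs1 hbβ
            · exact ofReal_rpow_anti hs.1 hs1 hbq
        _ = _ := by ring
    have i5 : 1 ≤ ENNReal.ofReal (Real.exp (lam * s)) := one_le_exp_mul hl0 hs.1.le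
    calc CS V q β g2 g2' CC CK C1 * (ev v * (κ s *
          (ENNReal.ofReal (s ^ β) + ENNReal.ofReal (s ^ q) + κ s) * EE P g1' g2' s y v))
        ≤ CS V q β g2 g2' CC CK C1 * (ev v * (ε * (CL * (2 + CL)) * ENNReal.ofReal (s ^ b) *
          EE P g1' g2' s y v)) := by gcongr
      _ = CS V q β g2 g2' CC CK C1 * (CL * (2 + CL)) * ε * (ev v * (1 *
          (ENNReal.ofReal (s ^ b) * EE P g1' g2' s y v))) := by ring
      _ ≤ _ := by gcongr
  refine h9.trans ?_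
  calc CS V q β g2 g2' CC CK C1 * (CL * (2 + CL)) * ε * ENNReal.ofReal (9 / √lam) *
        WW P g1' g2' b lam t x v
      = (CS V q β g2 g2' CC CK C1 * (CL * (2 + CL)) * ENNReal.ofReal (9 / √lam)) * ε *
        WW P g1' g2' b lam t x v := by ring
    _ ≤ (CL + 1)⁻¹ / 2 * ε * Wt P g1' g2' b lam t x v := by
        gcongr
        exact WW_le_Wt hOk g1' g2' b lam t x v

theorem Wt_le' (hOk : P.Ok) (hT1 : T ≤ 1) {g1 g2 b lam : ℝ} (hl : 0 ≤ lam) {CL : ℝ≥0∞}
    (neu : ∀ t ∈ Ioc 0 T, ∀ x v,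
      ∑' m : ℕ, (TT P)^[m] (fun s y z => ENNReal.ofReal (s ^ b) * EE P g1 g2 s y z) t x v ≤
        CL * ENNReal.ofReal (t ^ b) * EE P g1 g2 t x v)
    {t : ℝ} (ht : t ∈ Ioc 0 T) (x : P2) (v : R3) :
    Wt P g1 g2 b lam t x v ≤
      CL * ENNReal.ofReal (Real.exp lam) * (ENNReal.ofReal (t ^ b) * EE P g1 g2 t x v) := by
  refine (Wt_le hOk hl neu ht x v).trans ?_
  rw [WW_eq P g1 g2 b lam ht.1, mul_assoc]
  gcongr
  nlinarith [ht.1, ht.2]

/-- **Part N without the non-uniqueness statement** -/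
theorem N_main_pre
    {CL C1 : ℝ≥0∞} {g0 g1 g2 g1' g2' a b β : ℝ}
    (hOk : P.Ok) (hT1 : T ≤ 1) (hV : 0 ≤ V)
    (hg2 : 0 < g2') (hg1' : g1' + g2' ≤ 1) (hgg1 : g1' < g1) (hgg2 : g2' < g2)
    (hg0 : g1 + g2 ≤ g0)
    (hb0 : 0 < b) (hb : b ≤ 2 * (a - 2)) (hbβ : b ≤ β) (hbq : b ≤ q)
    (ha : 2 < a)
    (hC : ColdInp P T V Cf Sf Mc Wm CC q)
    (hK : KInp P T Mc Wm q g0 g1 g2 CK) (hK' : KInp P T Mc Wm q (g1' + g2') g1' g2' CK)
    {H0 : P2 → R3 → ℝ≥0∞} (mH0 : Measurable (fun p : P2 × R3 => H0 p.1 p.2))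
    (pH0 : ∀ v, PerG (fun x => H0 x v))
    {H1 : Fld} (h1 : HotSol P Cf Sf H0 T H1) (hC1 : C1 ≠ ⊤)
    (hH1 : ∀ t ∈ Ioc 0 T, ∀ x v, H1 t x v ≤ C1 * tx β t x * Zg P g0 t x v)
    {Hs : Fld} (hL : LInp P T Hs g1 g2 g1' g2' a b CL)
    {ε0 : ℝ≥0∞} (hε0 : 0 < ε0) :
    ∃ (H2 : Fld) (ε : ℝ≥0∞) (lam : ℝ), ε ≠ 0 ∧ ε ≠ ⊤ ∧ 1 ≤ lam ∧ HotSol P Cf Sf H0 T H2 ∧
      (∀ t ∈ Ioc 0 T, ∀ x v, dd (H2 t x v) (addF H1 (fun s y z => ε * Hs s y z) t x v) ≤
        ε * Wt P g1' g2' b lam t x v) ∧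
      (∀ t ∈ Ioc 0 T, ∀ x v, dd (H1 t x v) (H2 t x v) ≤
        ε0 * ENNReal.ofReal (t ^ (min b (a - 2))) * EE P g1' g2' t x v) := by
  have hq : 0 ≤ q := hb0.le.trans hbq
  have hβ : 0 ≤ β := hb0.le.trans hbβ
  have ha2 : 0 ≤ a - 2 := by linarith
  have hCL := hL.ne
  have hCK := hK.ne
  have hCC := hC.CC_ne
  have mφ : Meas3 (phiE P) := L.meas3_phiE hOk
  have pφ : PerF (phiE P) := L.perG_phiE P
  -- constants
  set CB : ℝ≥0∞ := C1 * ENNReal.ofReal (2 ^ β) + CL + 1 with hCBdef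
  have h2β : ENNReal.ofReal (2 ^ β) ≠ ⊤ := ENNReal.ofReal_ne_top
  have hCB : CB ≠ ⊤ := by rw [hCBdef]; finiteness
  have h2q : ENNReal.ofReal (2 ^ q) ≠ ⊤ := ENNReal.ofReal_ne_top
  have h1V : ENNReal.ofReal (1 + V) ≠ ⊤ := ENNReal.ofReal_ne_top
  set F : ℝ≥0∞ := CB * CK * ENNReal.ofReal (1 + V) + ENNReal.ofReal (2 ^ q) + 1 with hF
  have hFt : F ≠ ⊤ := by rw [hF]; finiteness
  set L0 : ℝ≥0∞ := CC * F * CK + CB * CK with hL0def
  have hL0 : L0 ≠ ⊤ := by rw [hL0def]; finiteness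
  have hCR : CR V q g2' CC CK CB L0 ≠ ⊤ := CR_ne_top hCC hCK hCB hL0
  have hCS : CS V q β g2 g2' CC CK C1 ≠ ⊤ := CS_ne_top hCC hCK hC1
  have hct : CL + 1 ≠ ⊤ := by finiteness
  obtain ⟨hδ2, hδ3⟩ := half_facts CL
  have hδ0 : (CL + 1)⁻¹ / 2 ≠ 0 :=
    (ENNReal.div_pos (ENNReal.inv_ne_zero.2 hct) (by norm_num)).ne'
  -- choice of `λ`
  obtain ⟨lam, hl, hlam⟩ := exists_lam (A := CR V q g2' CC CK CB L0 * CL +
    CS V q β g2 g2' CC CK C1 * (CL * (2 + CL))) (by finiteness) hδ0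
  have hl0 : 0 ≤ lam := zero_le_one.trans hl
  have hlam1 : CR V q g2' CC CK CB L0 * CL * ENNReal.ofReal (9 / √lam) ≤ (CL + 1)⁻¹ / 2 :=
    le_trans (by gcongr; exact le_self_add) hlam
  have hlam2 : CS V q β g2 g2' CC CK C1 * (CL * (2 + CL)) * ENNReal.ofReal (9 / √lam) ≤
      (CL + 1)⁻¹ / 2 :=
    le_trans (by gcongr; exact le_add_self) hlam
  -- choice of `ε`
  have hexp : ENNReal.ofReal (Real.exp lam) ≠ ⊤ := ENNReal.ofReal_ne_top
  set M : ℝ≥0∞ := CL + CL * ENNReal.ofReal (Real.exp lam) + 1 with hM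
  have hMt : M ≠ ⊤ := by rw [hM]; finiteness
  have hM0 : M ≠ 0 := by rw [hM]; simp
  have hM1 : 1 ≤ M := le_add_self
  set m0 : ℝ≥0∞ := min ε0 1 with hm0
  have hm00 : m0 ≠ 0 := (lt_min hε0 zero_lt_one).ne'
  have hm01 : m0 ≤ 1 := min_le_right _ _
  have hm0t : m0 ≠ ⊤ := ne_top_of_le_ne_top ENNReal.one_ne_top hm01
  set ε : ℝ≥0∞ := m0 / M with hε
  have hε00 : ε ≠ 0 := (ENNReal.div_pos hm00 hMt).ne'
  have hεM : ε * M = m0 := ENNReal.div_mul_cancel hM0 hMt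
  have hε1 : ε ≤ 1 := by
    calc ε = ε * 1 := (mul_one _).symm
      _ ≤ ε * M := by gcongr
      _ = m0 := hεM
      _ ≤ 1 := hm01
  have hεt : ε ≠ ⊤ := ne_top_of_le_ne_top ENNReal.one_ne_top hε1
  have hεCLe : ε * (CL * ENNReal.ofReal (Real.exp lam)) ≤ 1 := by
    calc ε * (CL * ENNReal.ofReal (Real.exp lam)) ≤ ε * M := by
          gcongr
          rw [hM]
          exact le_trans (le_add_self) (le_self_add)
      _ = m0 := hεM
      _ ≤ 1 := hm01
  have hεCL : ε * CL ≤ CL := by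
    calc ε * CL ≤ 1 * CL := by gcongr
      _ = CL := one_mul _
  -- the starting point
  set k : Fld := fun s y z => ε * Hs s y z with hk
  have mk : Meas3 k := Measurable.const_mul hL.meas ε
  have pk : PerF k := by
    intro s z y i
    simp only [hk]
    rw [show Hs s (y + latt i) z = Hs s y z from hL.per s z y i]
  set u0 : Fld := addF H1 k with hu0
  have mu : Meas3 u0 := meas3_addF h1.meas mk
  have pu : PerF u0 := fun s z y i => by
    have e1 : H1 s (y + latt i) z = H1 s y z := h1.per s z y i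
    have e2 : k s (y + latt i) z = k s y z := pk s z y i
    show addF H1 k s (y + latt i) z = addF H1 k s y z
    unfold addF
    rw [e1, e2]
  -- bounds
  have hg0' : g1' + g2' ≤ g0 := by linarith
  have bH1 : ∀ t ∈ Ioc 0 T, ∀ x v, H1 t x v ≤
      C1 * ENNReal.ofReal (2 ^ β) * Zg P (g1' + g2') t x v := by
    intro t ht x v
    refine (hH1 t ht x v).trans ?_
    gcongr
    · exact tx_le_const hβ ht.1.le (ht.2.trans hT1) x
    · exact Zg_anti P hg0' x v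
  have bH1' : ∀ t ∈ Ioc 0 T, ∀ x v, H1 t x v ≤ CB * Zg P (g1' + g2') t x v := by
    intro t ht x v
    refine (bH1 t ht x v).trans ?_
    gcongr
    rw [hCBdef, add_assoc]
    exact le_self_add
  have bS : ∀ H, SS T ε u0 (Wt P g1' g2' b lam) H → ∀ t ∈ Ioc 0 T, ∀ x v,
      H t x v ≤ CB * Zg P (g1' + g2') t x v := by
    intro H hH t ht x v
    have hZ : EE P g1' g2' t x v ≤ Zg P (g1' + g2') t x v := EE_le_Zg P hg2.le x v
    have h3 : H t x v ≤ u0 t x v + ε * Wt P g1' g2' b lam t x v :=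
      (le_add_dd _ _).trans (add_le_add le_rfl (hH.2.2 t ht x v))
    have h4 : ε * Wt P g1' g2' b lam t x v ≤ 1 * Zg P (g1' + g2') t x v := by
      calc ε * Wt P g1' g2' b lam t x v ≤ ε * (CL * ENNReal.ofReal (Real.exp lam) *
            (ENNReal.ofReal (t ^ b) * EE P g1' g2' t x v)) := by
            gcongr
            exact Wt_le' hOk hT1 hl0 hL.neu ht x v
        _ = ε * (CL * ENNReal.ofReal (Real.exp lam)) *
            (ENNReal.ofReal (t ^ b) * EE P g1' g2' t x v) := by ring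
        _ ≤ 1 * (1 * EE P g1' g2' t x v) := by
            gcongr
            exact ofReal_rpow_le_one ht.1.le (ht.2.trans hT1) hb0.le
        _ = 1 * EE P g1' g2' t x v := by rw [one_mul]
        _ ≤ _ := by gcongr
    have h5 : k t x v ≤ CL * Zg P (g1' + g2') t x v := by
      simp only [hk]
      calc ε * Hs t x v ≤ ε * (CL * ENNReal.ofReal (t ^ (a - 2)) * EE P g1 g2 t x v) := by
            gcongr
            exact hL.le t ht x v
        _ = ε * CL * ENNReal.ofReal (t ^ (a - 2)) * EE P g1 g2 t x v := by ring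
        _ ≤ CL * 1 * EE P g1' g2' t x v := by
            gcongr
            · exact ofReal_rpow_le_one ht.1.le (ht.2.trans hT1) ha2
            · exact EE_mono P hgg1.le hgg2.le x v
        _ ≤ CL * Zg P (g1' + g2') t x v := by
            rw [mul_one]
            gcongr
    calc H t x v ≤ u0 t x v + ε * Wt P g1' g2' b lam t x v := h3
      _ ≤ (C1 * ENNReal.ofReal (2 ^ β) * Zg P (g1' + g2') t x v +
          CL * Zg P (g1' + g2') t x v) + 1 * Zg P (g1' + g2') t x v := by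
          refine add_le_add (add_le_add (bH1 t ht x v) h5) h4
      _ = _ := by rw [hCBdef]; ring
  -- the fixed point
  have hth : 1 - (CL + 1)⁻¹ / 2 < 1 :=
    ENNReal.sub_lt_self ENNReal.one_ne_top one_ne_zero hδ0
  have hloss1 : ∀ t ∈ Ioc 0 T, ∀ x v, lossH (Cf (LcF H1)) H1 t x v ≤ nuT P L0 t x v :=
    fun t ht x v => (loss_bds hOk hC hT1 hq hK' h1.meas h1.per hCB bH1' ht x v).1
  obtain ⟨H2, hS2, hfix⟩ := exists_fix (T := T) (th := 1 - (CL + 1)⁻¹ / 2) (rho := ε) (u0 := u0)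
    (W' := Wt P g1' g2' b lam) (L0 := L0) (Cf := Cf) (Sf := Sf) mφ pφ
    (fun lam m p => ⟨hC.measC lam m p, hC.perC lam m p⟩)
    (fun lam m p => ⟨hC.measS lam m p, hC.perS lam m p⟩) mH0 pH0 hth hε00 hεt mu pu
    (fun H H' hH hH' d hd hdd =>
      psi_lip hOk hC hV hT1 hq hg2.le hg1' hb0.le hK' hCL hL.neu hH.1 hH.2.1 hH'.1 hH'.2.1
        hCB hL0 (bS H hH) (bS H' hH') hl hlam1 hd hdd)
    (psi_start hOk hC hV hT1 hq hβ hg2.le hgg1.le hgg2 hg1' hg0 hb0.le hb hbβ hbq ha hK hK' h1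
      hC1 hH1 hL hL0 hloss1 hε00 hε1 hl hlam2)
  have bH2 := bS H2 hS2
  have hWt : ∀ t ∈ Ioc 0 T, ∀ x v, 0 < Dw P t x v → Wt P g1' g2' b lam t x v ≠ ⊤ := by
    intro t ht x v hD
    refine ne_top_of_le_ne_top ?_ (Wt_le' hOk hT1 hl0 hL.neu ht x v)
    have h3 : Dm P t x v ≠ ⊤ := Dm_ne_top hD
    have h4 : EE P g1' g2' t x v ≠ ⊤ := by
      rw [EE_eq]
      exact ENNReal.mul_ne_top ENNReal.ofReal_ne_top h3
    exact ENNReal.mul_ne_top (by finiteness) (ENNReal.mul_ne_top ENNReal.ofReal_ne_top h4)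
  have hsol : HotSol P Cf Sf H0 T H2 :=
    HotSol_of_Psi mφ hC hS2.1 hS2.2.1 (fun t ht x v hD => hfix t ht x v (hWt t ht x v hD))
      (fun t ht x v => (loss_bds hOk hC hT1 hq hK' hS2.1 hS2.2.1 hCB bH2 ht x v).1)
      (C3 := CC * F * CK + L0) (by finiteness)
      (fun t ht x v => (loss_bds hOk hC hT1 hq hK' hS2.1 hS2.2.1 hCB bH2 ht x v).2 L0)
      hCB bH2
  refine ⟨H2, ε, lam, hε00, hεt, hl, hsol, hS2.2.2, fun t ht x v => ?_⟩
  have ht1 : t ≤ 1 := ht.2.trans hT1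
  have h3 : dd (H1 t x v) (u0 t x v) ≤ k t x v := by
    rw [dd_comm]; exact dd_self_add _ _
  have h4 : dd (u0 t x v) (H2 t x v) ≤ ε * Wt P g1' g2' b lam t x v := by
    rw [dd_comm]; exact hS2.2.2 t ht x v
  have hmin1 : ENNReal.ofReal (t ^ b) ≤ ENNReal.ofReal (t ^ (min b (a - 2))) :=
    ofReal_rpow_anti ht.1 ht1 (min_le_left _ _)
  have hmin2 : ENNReal.ofReal (t ^ (a - 2)) ≤ ENNReal.ofReal (t ^ (min b (a - 2))) :=
    ofReal_rpow_anti ht.1 ht1 (min_le_right _ _)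
  calc dd (H1 t x v) (H2 t x v) ≤ dd (H1 t x v) (u0 t x v) + dd (u0 t x v) (H2 t x v) :=
        dd_triangle _ _ _
    _ ≤ ε * (CL * ENNReal.ofReal (t ^ (a - 2)) * EE P g1 g2 t x v) +
        ε * (CL * ENNReal.ofReal (Real.exp lam) *
          (ENNReal.ofReal (t ^ b) * EE P g1' g2' t x v)) := by
        refine add_le_add (h3.trans ?_) (h4.trans ?_)
        · simp only [hk]
          gcongr
          exact hL.le t ht x v
        · gcongr
          exact Wt_le' hOk hT1 hl0 hL.neu ht x v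
    _ ≤ ε * (CL * ENNReal.ofReal (t ^ (min b (a - 2))) * EE P g1' g2' t x v) +
        ε * (CL * ENNReal.ofReal (Real.exp lam) *
          (ENNReal.ofReal (t ^ (min b (a - 2))) * EE P g1' g2' t x v)) := by
        gcongr
        exact EE_mono P hgg1.le hgg2.le x v
    _ = ε * (CL + CL * ENNReal.ofReal (Real.exp lam)) *
        (ENNReal.ofReal (t ^ (min b (a - 2))) * EE P g1' g2' t x v) := by ring
    _ ≤ ε * M * (ENNReal.ofReal (t ^ (min b (a - 2))) * EE P g1' g2' t x v) := by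
        gcongr
        rw [hM]
        exact le_self_add
    _ ≤ ε0 * (ENNReal.ofReal (t ^ (min b (a - 2))) * EE P g1' g2' t x v) := by
        rw [hεM]
        gcongr
        exact min_le_left _ _
    _ = _ := by ring

end Crest.Agent.R68.N
end
end

-- ▼ part R68/NExt3
section

/-!
# Row 68, PART N (helper559): the equivalent weight `W' = ∑ T^m W`, `W = e^{λ t} t^b EE`
-/

set_option autoImplicit false
open MeasureTheory Set Filter
open scoped ENNReal Topology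
open Crest.AnalysisR.VecCalc3 Crest.AnalysisR.PDE.Boltzmann

noncomputable section

namespace Crest.Agent.R68.ND

open Crest.Agent.R68.A (en Meas3)
open Crest.Agent.R68.N (Fld PerF TT EE nuf LInp ddF dd)
open Crest.Agent.R68.L (TL TL_tsum TL_add TL_smul meas3_TL meas3_iter sol)

/-- the weight `e^{λ t} t^b EE(g1,g2)` -/
def WW (P : Par) (lam g1 g2 b : ℝ) : Fld := fun t x v =>
  ENNReal.ofReal (Real.exp (lam * t)) * (ENNReal.ofReal (t ^ b) * EE P g1 g2 t x v)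

/-- the Neumann series of `WW` -/
def Wp (P : Par) (lam g1 g2 b : ℝ) : Fld := fun t x v =>
  ∑' m : ℕ, (TT P)^[m] (WW P lam g1 g2 b) t x v

/-- `WW` cut to positive times -/
def WWc (P : Par) (lam g1 g2 b : ℝ) : Fld := fun t x v =>
  ENNReal.ofReal (Real.exp (lam * t)) * cw P g1 g2 b t x v

section

variable {P : Par} {lam g1 g2 b : ℝ}

theorem meas3_WWc (hY : 0 < P.Y) : Meas3 (WWc P lam g1 g2 b) := by
  have h1 : Measurable fun p : ℝ × P2 × R3 => ENNReal.ofReal (Real.exp (lam * p.1)) := by fun_prop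
  exact Measurable.mul h1 (meas3_cw hY g1 g2 b)


theorem WW_eq_WWc {s : ℝ} (hs : 0 < s) (y : P2) (z : R3) :
    WW P lam g1 g2 b s y z = WWc P lam g1 g2 b s y z := by
  unfold WW WWc cw
  rw [if_pos hs, B2_eq_EE P g1 g2 b hs]

theorem Wp_eq (hφ : Meas3 (Crest.Agent.R68.phiE P)) (hY : 0 < P.Y) {t : ℝ} (ht : 0 < t) (x : P2)
    (v : R3) : Wp P lam g1 g2 b t x v = neuL (Crest.Agent.R68.phiE P) (WWc P lam g1 g2 b) t x v := by
  unfold Wp neuL
  refine tsum_congr fun m => ?_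
  exact TT_iter_eq hφ (meas3_WWc hY) (T := t) (fun s hs _ y z => WW_eq_WWc hs y z) m t ht le_rfl x v




/-- iterates with the factor `e^{λ t}` -/
theorem iter_exp_le {φ : Fld} (hφ : Meas3 φ) (hl : 0 ≤ lam) {f g : Fld} (hf : Meas3 f)
    (hfg : ∀ s, 0 < s → ∀ y z, g s y z ≤ ENNReal.ofReal (Real.exp (lam * s)) * f s y z) (m : ℕ) :
    ∀ t, 0 < t → ∀ x v, (TL φ)^[m] g t x v ≤
      ENNReal.ofReal (Real.exp (lam * t)) * (TL φ)^[m] f t x v := by
  induction m with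
  | zero => exact hfg
  | succ m ih =>
    intro t ht x v
    rw [Function.iterate_succ_apply', Function.iterate_succ_apply']
    have h1 : TL φ ((TL φ)^[m] g) t x v ≤
        TL φ (fun s y z => ENNReal.ofReal (Real.exp (lam * t)) * (TL φ)^[m] f s y z) t x v := by
      refine TL_mono_lt (fun s hs y z => (ih s hs.1 y z).trans ?_) x v
      gcongr
      exact hs.2.le
    refine h1.trans (le_of_eq ?_)
    have h2 := TL_smul (φ := φ) hφ (meas3_iter hφ hf m) (ENNReal.ofReal (Real.exp (lam * t)))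
    rw [h2]

/-- (w2) -/
theorem Wp_le (hφ : Meas3 (Crest.Agent.R68.phiE P)) (hY : 0 < P.Y) (hl : 0 ≤ lam) {T : ℝ}
    {CL : ℝ≥0∞} (hneu : ∀ t ∈ Ioc 0 T, ∀ x v,
      ∑' m : ℕ, (TT P)^[m] (fun s y z => ENNReal.ofReal (s ^ b) * EE P g1 g2 s y z) t x v ≤
        CL * ENNReal.ofReal (t ^ b) * EE P g1 g2 t x v) {t : ℝ} (ht : t ∈ Ioc 0 T) (x : P2)
    (v : R3) : Wp P lam g1 g2 b t x v ≤ CL * WW P lam g1 g2 b t x v := by
  rw [Wp_eq hφ hY ht.1]
  unfold neuL
  have hcm : Meas3 (cw P g1 g2 b) := meas3_cw hY g1 g2 b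
  calc ∑' m : ℕ, (TL (Crest.Agent.R68.phiE P))^[m] (WWc P lam g1 g2 b) t x v
      ≤ ∑' m : ℕ, ENNReal.ofReal (Real.exp (lam * t)) *
          (TL (Crest.Agent.R68.phiE P))^[m] (cw P g1 g2 b) t x v :=
        ENNReal.tsum_le_tsum fun m => iter_exp_le hφ hl hcm (fun s _ y z => le_rfl) m t ht.1 x v
    _ = ENNReal.ofReal (Real.exp (lam * t)) * ∑' m : ℕ,
          (TL (Crest.Agent.R68.phiE P))^[m] (cw P g1 g2 b) t x v := ENNReal.tsum_mul_left
    _ = ENNReal.ofReal (Real.exp (lam * t)) * ∑' m : ℕ,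
          (TT P)^[m] (fun s y z => ENNReal.ofReal (s ^ b) * EE P g1 g2 s y z) t x v := by
        congr 1
        refine tsum_congr fun m => ?_
        symm
        refine TT_iter_eq hφ hcm (T := t) (fun s hs _ y z => ?_) m t ht.1 le_rfl x v
        unfold cw
        rw [if_pos hs, B2_eq_EE P g1 g2 b hs]
    _ ≤ ENNReal.ofReal (Real.exp (lam * t)) * (CL * ENNReal.ofReal (t ^ b) * EE P g1 g2 t x v) := by
        gcongr
        exact hneu t ht x v
    _ = _ := by unfold WW; ring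

/-- (w4) -/
theorem Wp_ne_top (hφ : Meas3 (Crest.Agent.R68.phiE P)) (hY : 0 < P.Y) (hl : 0 ≤ lam) {T : ℝ}
    {CL : ℝ≥0∞} (hCL : CL ≠ ⊤) (hneu : ∀ t ∈ Ioc 0 T, ∀ x v,
      ∑' m : ℕ, (TT P)^[m] (fun s y z => ENNReal.ofReal (s ^ b) * EE P g1 g2 s y z) t x v ≤
        CL * ENNReal.ofReal (t ^ b) * EE P g1 g2 t x v) {t : ℝ} (ht : t ∈ Ioc 0 T) {x : P2}
    {v : R3} (hD : 0 < Dw P t x v) : Wp P lam g1 g2 b t x v ≠ ⊤ := by
  refine ne_top_of_le_ne_top ?_ (Wp_le hφ hY hl hneu ht x v)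
  have h1 : Dm P t x v ≠ ⊤ := by
    unfold Dm
    refine ENNReal.rpow_ne_top_of_ne_zero ?_ ENNReal.ofReal_ne_top
    simpa using hD
  unfold WW
  rw [EE, B2]
  exact ENNReal.mul_ne_top hCL (ENNReal.mul_ne_top ENNReal.ofReal_ne_top
    (ENNReal.mul_ne_top ENNReal.ofReal_ne_top (ENNReal.mul_ne_top ENNReal.ofReal_ne_top h1)))



end

end Crest.Agent.R68.ND
end
end

-- ▼ part R68/NDiff
section

/-!
# Row 68, PART N (helper559): the two hot components differ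

If `Hs = T Hs` on `(0,T]` and `Hs` is a.e. dominated by a weight `W` whose Neumann series `∑ T^m W`
is finite at `(t,x,v)`, then `Hs t x v = 0`.  Consequently a second solution which is close to
`H1 + eps Hs` (error in the weight `W`) differs from `H1`.
-/

set_option autoImplicit false
open MeasureTheory Set Filter
open scoped ENNReal Topology
open Crest.AnalysisR.VecCalc3 Crest.AnalysisR.PDE.Boltzmann

noncomputable section

namespace Crest.Agent.R68.ND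

open Crest.Agent.R68.A (en Meas3)
open Crest.Agent.R68.N (Fld PerF TT EE nuf LInp ddF dd)
open Crest.Agent.R68.L (TL TL_tsum TL_add TL_smul meas3_TL meas3_iter sol)

/-- cut to the times `(0,T)` -/
def cutO (T : ℝ) (f : Fld) : Fld := fun t x v => if t ∈ Ioo 0 T then f t x v else 0

theorem meas3_cutO {T : ℝ} {f : Fld} (hf : Meas3 f) : Meas3 (cutO T f) :=
  Measurable.ite (measurable_fst measurableSet_Ioo) hf measurable_const



/-- **Uniqueness below the weight**: a solution of `Hs = T Hs` which is a.e. `≤ W` vanishes wherever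
`∑ T^m W` is finite. -/
theorem eq_zero_of_ae_le {φ : Fld} (hφ : Meas3 φ) {Hs W : Fld} (hH : Meas3 Hs) (hW : Meas3 W)
    {T : ℝ} (heqn : ∀ t, 0 < t → t ≤ T → ∀ x v, Hs t x v = TL φ Hs t x v)
    (hle : ∀ᵐ p : ℝ × P2 × R3, p.1 ∈ Ioo 0 T → Hs p.1 p.2.1 p.2.2 ≤ W p.1 p.2.1 p.2.2)
    {t : ℝ} (ht : t ∈ Ioo 0 T) (x : P2) (v : R3) (hfin : neuL φ W t x v ≠ ⊤) : Hs t x v = 0 := by
  set A : Fld := cutO T Hs with hA
  set M : Fld := fun t x v => min (A t x v) (W t x v) with hM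
  have mA : Meas3 A := meas3_cutO hH
  have mM : Meas3 M := Measurable.min mA hW
  have hae : ∀ᵐ p : D.Ph, 0 < p.1 → A p.1 p.2.1 p.2.2 = M p.1 p.2.1 p.2.2 := by
    filter_upwards [hle] with p hp _
    rw [hM]
    symm
    refine min_eq_left ?_
    by_cases hpt : p.1 ∈ Ioo 0 T
    · rw [hA]; unfold cutO; rw [if_pos hpt]; exact hp hpt
    · rw [hA]; unfold cutO; rw [if_neg hpt]; exact zero_le
  have hTT := L.TL_TL_congr' hφ mA mM hae
  -- `Hs ≤ T T W` on `(0,T)`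
  have h2 : ∀ s, s ∈ Ioo 0 T → ∀ y z, Hs s y z ≤ (TL φ)^[2] W s y z := by
    intro s hs y z
    have e1 : Hs s y z = TL φ (TL φ A) s y z := by
      rw [heqn s hs.1 hs.2.le]
      refine TL_congr_lt (fun r hr y z => ?_) y z
      rw [heqn r hr.1 (hr.2.le.trans hs.2.le)]
      refine TL_congr_lt (fun q hq y z => ?_) y z
      rw [hA]; unfold cutO
      rw [if_pos ⟨hq.1, hq.2.trans (hr.2.trans hs.2)⟩]
    rw [e1, hTT]
    show TL φ (TL φ M) s y z ≤ TL φ (TL φ W) s y z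
    exact TL_mono_lt (fun r _ y z => TL_mono_lt (fun q _ y z => min_le_right _ _) y z) y z
  -- iteration
  have hk : ∀ k : ℕ, ∀ s, s ∈ Ioo 0 T → ∀ y z, Hs s y z ≤ (TL φ)^[k + 2] W s y z := by
    intro k
    induction k with
    | zero => exact h2
    | succ k ih =>
      intro s hs y z
      rw [show k + 1 + 2 = (k + 2) + 1 from by ring, Function.iterate_succ_apply',
        heqn s hs.1 hs.2.le]
      exact TL_mono_lt (fun r hr y z => ih r ⟨hr.1, hr.2.trans hs.2⟩ y z) y z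
  have hten : Tendsto (fun m : ℕ => (TL φ)^[m] W t x v) atTop (𝓝 0) :=
    ENNReal.tendsto_atTop_zero_of_tsum_ne_top hfin
  have hten2 : Tendsto (fun k : ℕ => (TL φ)^[k + 2] W t x v) atTop (𝓝 0) :=
    (tendsto_add_atTop_iff_nat 2).2 hten
  exact le_antisymm (ge_of_tendsto' hten2 fun k => hk k t ht x v) zero_le

theorem neuL_const_mul {φ : Fld} (hφ : Meas3 φ) {f : Fld} (hf : Meas3 f) (c : ℝ≥0∞) (t : ℝ)
    (x : P2) (v : R3) : neuL φ (fun t x v => c * f t x v) t x v = c * neuL φ f t x v := by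
  have key : ∀ m : ℕ, (TL φ)^[m] (fun t x v => c * f t x v) =
      fun t x v => c * (TL φ)^[m] f t x v := by
    intro m
    induction m with
    | zero => rfl
    | succ m ih =>
      rw [Function.iterate_succ_apply', ih, Function.iterate_succ_apply']
      exact TL_smul (φ := φ) hφ (meas3_iter hφ hf m) c
  unfold neuL
  rw [← ENNReal.tsum_mul_left]
  exact tsum_congr fun m => by rw [key m]

theorem Dw_pos_of_Dm {P : Par} {t : ℝ} {x : P2} {v : R3} (h : Dm P t x v ≠ ⊤) : 0 < Dw P t x v := by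
  by_contra hc
  push Not at hc
  apply h
  unfold Dm
  rw [ENNReal.ofReal_of_nonpos hc]
  exact ENNReal.zero_rpow_of_neg (by norm_num)

/-- `Dw > 0` for almost every `(t,x,v)` with `t > 0` -/
theorem ae_Dw_pos {P : Par} (hP : P.Ok) :
    ∀ᵐ p : ℝ × P2 × R3, 0 < p.1 → 0 < Dw P p.1 p.2.1 p.2.2 := by
  have hD := L.parD_of_ok hP
  have hm : MeasurableSet {p : (ℝ × P2) × R3 | 0 < p.1.1 → 0 < Dw P p.1.1 p.1.2 p.2} := by
    have h1 : Measurable fun p : ℝ × P2 × R3 => if 0 ≤ p.1 then Dm P p.1 p.2.1 p.2.2 else 1 :=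
      DPole.measurable_Dm hD.Y
    have h2 : MeasurableSet {p : ℝ × P2 × R3 | 0 < p.1 →
        (if 0 ≤ p.1 then Dm P p.1 p.2.1 p.2.2 else 1) ≠ ⊤} := by
      have e : {p : ℝ × P2 × R3 | 0 < p.1 →
          (if 0 ≤ p.1 then Dm P p.1 p.2.1 p.2.2 else 1) ≠ ⊤} =
          {p : ℝ × P2 × R3 | 0 < p.1}ᶜ ∪ {p : ℝ × P2 × R3 |
          (if 0 ≤ p.1 then Dm P p.1 p.2.1 p.2.2 else 1) ≠ ⊤} := by
        ext p
        simp only [mem_union, mem_compl_iff, mem_ofPred_eq]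
        tauto
      rw [e]
      exact (measurableSet_lt measurable_const measurable_fst).compl.union
        (h1 (measurableSet_singleton _)).compl
    have h3 : {p : (ℝ × P2) × R3 | 0 < p.1.1 → 0 < Dw P p.1.1 p.1.2 p.2} =
        (MeasurableEquiv.prodAssoc : (ℝ × P2) × R3 ≃ᵐ ℝ × P2 × R3) ⁻¹' {p : ℝ × P2 × R3 |
        0 < p.1 → (if 0 ≤ p.1 then Dm P p.1 p.2.1 p.2.2 else 1) ≠ ⊤} := by
      ext p
      simp only [mem_ofPred_eq, mem_preimage]
      show _ ↔ (0 < p.1.1 → (if 0 ≤ p.1.1 then Dm P p.1.1 p.1.2 p.2 else 1) ≠ ⊤)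
      by_cases hp : 0 < p.1.1
      · simp only [hp, hp.le, if_true, true_imp_iff]
        refine ⟨fun h => ?_, Dw_pos_of_Dm⟩
        unfold Dm
        exact ENNReal.rpow_ne_top_of_ne_zero (by simpa using h) ENNReal.ofReal_ne_top
      · simp [hp]
    rw [h3]
    exact MeasurableEquiv.prodAssoc.measurable h2
  have h4 : ∀ᵐ p : (ℝ × P2) × R3, 0 < p.1.1 → 0 < Dw P p.1.1 p.1.2 p.2 := by
    rw [Measure.volume_eq_prod, Measure.ae_prod_iff_ae_ae hm]
    refine Eventually.of_forall fun q => ?_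
    by_cases hq : 0 < q.1
    · filter_upwards [L.ae_Dm_ne_top hD hq.le q.2] with v hv _ using Dw_pos_of_Dm hv
    · exact Eventually.of_forall fun v h => absurd h hq
  exact (volume_preserving_prodAssoc (α₁ := ℝ) (β₁ := P2) (γ₁ := R3)).symm.quasiMeasurePreserving.ae h4

/-- **(F1 ≠ F2) The two hot components differ.** -/
theorem diff_not_ae {P : Par} (hP : P.Ok) (hφ : Meas3 (Crest.Agent.R68.phiE P)) {T : ℝ} {Hs : Fld}
    {g1 g2 g1' g2' a b lam : ℝ} {CL : ℝ≥0∞} (hl : 0 ≤ lam)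
    (hL : LInp P T Hs g1 g2 g1' g2' a b CL) {H1 H2 : Fld} {eps C : ℝ≥0∞} (he : eps ≠ 0)
    (he' : eps ≠ ⊤) (hC : C ≠ ⊤)
    (hfin : ∀ t ∈ Ioo 0 T, ∀ x v, 0 < Dw P t x v → H1 t x v ≠ ⊤)
    (hcl : ∀ t ∈ Ioo 0 T, ∀ x v, 0 < Dw P t x v →
      dd (H2 t x v) (H1 t x v + eps * Hs t x v) ≤ C * Wp P lam g1' g2' b t x v) :
    ¬ ∀ᵐ p : ℝ × P2 × R3, p.1 ∈ Ioo 0 T → H1 p.1 p.2.1 p.2.2 = H2 p.1 p.2.1 p.2.2 := by
  intro hae
  have hD := L.parD_of_ok hP
  have hDw := ae_Dw_pos hP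
  set W : Fld := fun t x v => (eps⁻¹ * (C * CL)) * WWc P lam g1' g2' b t x v with hW
  have mW : Meas3 W := Measurable.const_mul (meas3_WWc hD.Y) _
  have hle : ∀ᵐ p : ℝ × P2 × R3, p.1 ∈ Ioo 0 T → Hs p.1 p.2.1 p.2.2 ≤ W p.1 p.2.1 p.2.2 := by
    filter_upwards [hae, hDw] with p hp hDp hpt
    have hD0 := hDp hpt.1
    have h1 := hfin p.1 hpt p.2.1 p.2.2 hD0
    have h2 := hcl p.1 hpt p.2.1 p.2.2 hD0
    rw [← hp hpt] at h2
    have h3 := (N.dd_le_iff.1 h2).2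
    have h4 : eps * Hs p.1 p.2.1 p.2.2 ≤ C * Wp P lam g1' g2' b p.1 p.2.1 p.2.2 := by
      rwa [ENNReal.add_le_add_iff_left h1] at h3
    have h5 := Wp_le (lam := lam) hφ hD.Y hl hL.neu (t := p.1) ⟨hpt.1, hpt.2.le⟩ p.2.1 p.2.2
    rw [WW_eq_WWc hpt.1] at h5
    have h6 : eps * Hs p.1 p.2.1 p.2.2 ≤ C * (CL * WWc P lam g1' g2' b p.1 p.2.1 p.2.2) :=
      h4.trans (by gcongr)
    calc Hs p.1 p.2.1 p.2.2 = eps⁻¹ * (eps * Hs p.1 p.2.1 p.2.2) := by
          rw [← mul_assoc, ENNReal.inv_mul_cancel he he', one_mul]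
      _ ≤ eps⁻¹ * (C * (CL * WWc P lam g1' g2' b p.1 p.2.1 p.2.2)) := by gcongr
      _ = W p.1 p.2.1 p.2.2 := by rw [hW]; ring
  have heqn : ∀ t, 0 < t → t ≤ T → ∀ x v, Hs t x v = TL (Crest.Agent.R68.phiE P) Hs t x v := by
    intro t ht htT x v
    rw [hL.eqn t ⟨ht, htT⟩ x v]
    exact TT_eq_TL hφ hL.meas (fun s _ y z => rfl) x v
  apply hL.pos
  filter_upwards [hDw] with p hDp hpt
  refine eq_zero_of_ae_le hφ hL.meas mW heqn hle hpt p.2.1 p.2.2 ?_
  rw [hW, neuL_const_mul hφ (meas3_WWc hD.Y), ← Wp_eq hφ hD.Y hpt.1]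
  refine ENNReal.mul_ne_top (ENNReal.mul_ne_top (ENNReal.inv_ne_top.2 he)
    (ENNReal.mul_ne_top hC hL.ne)) ?_
  exact Wp_ne_top hφ hD.Y hl hL.ne hL.neu ⟨hpt.1, hpt.2.le⟩ (hDp hpt.1)

end Crest.Agent.R68.ND
end
end

-- ▼ part R68/NOut

/-!
# Row 68, PART N (helper621, helper559): the nonlinear step, final statement
-/

set_option autoImplicit false
open MeasureTheory Set Filter
open scoped ENNReal Topology
open Crest.AnalysisR.VecCalc3 Crest.AnalysisR.PDE.Boltzmann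

noncomputable section

namespace Crest.Agent.R68.N

open Crest.Agent.R68.A (en Meas3)

/-- **Part N.** If the unburnt solution `H1` and an ancient solution `Hs` of the linear hot
equation are given, there is a second solution `H2` with the same datum. -/
theorem N_main {P : Par} {T V : ℝ} {Cf Sf : Fld → Fld} {Mc Wm : Fld} {CC CK CL C1 : ℝ≥0∞} {q : ℝ}
    {g0 g1 g2 g1' g2' a b β : ℝ}
    (hOk : P.Ok) (hT1 : T ≤ 1) (hV : 0 ≤ V)
    (hg2 : 0 < g2') (hg1' : g1' + g2' ≤ 1) (hgg1 : g1' < g1) (hgg2 : g2' < g2)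
    (hg0 : g1 + g2 ≤ g0)
    (hb0 : 0 < b) (hb : b ≤ 2 * (a - 2)) (hbβ : b ≤ β) (hbq : b ≤ q)
    (ha : 2 < a)
    (hC : ColdInp P T V Cf Sf Mc Wm CC q)
    (hK : KInp P T Mc Wm q g0 g1 g2 CK) (hK' : KInp P T Mc Wm q (g1' + g2') g1' g2' CK)
    {H0 : P2 → R3 → ℝ≥0∞} (mH0 : Measurable (fun p : P2 × R3 => H0 p.1 p.2))
    (pH0 : ∀ v, PerG (fun x => H0 x v))
    {H1 : Fld} (h1 : HotSol P Cf Sf H0 T H1) (hC1 : C1 ≠ ⊤)
    (hH1 : ∀ t ∈ Ioc 0 T, ∀ x v, H1 t x v ≤ C1 * tx β t x * Zg P g0 t x v)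
    {Hs : Fld} (hL : LInp P T Hs g1 g2 g1' g2' a b CL)
    {ε0 : ℝ≥0∞} (hε0 : 0 < ε0) :
    ∃ H2 : Fld, HotSol P Cf Sf H0 T H2 ∧
      (∀ t ∈ Ioc 0 T, ∀ x v, dd (H1 t x v) (H2 t x v) ≤
        ε0 * ENNReal.ofReal (t ^ (min b (a - 2))) * EE P g1' g2' t x v) ∧
      ¬ ∀ᵐ p : ℝ × P2 × R3, p.1 ∈ Ioo 0 T → H1 p.1 p.2.1 p.2.2 = H2 p.1 p.2.1 p.2.2 := by
  obtain ⟨H2, ε, lam, hε00, hεt, hl, hsol, hcl, hclose⟩ :=
    N_main_pre hOk hT1 hV hg2 hg1' hgg1 hgg2 hg0 hb0 hb hbβ hbq ha hC hK hK' mH0 pH0 h1 hC1 hH1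
      hL hε0
  refine ⟨H2, hsol, hclose, ?_⟩
  have mφ : Meas3 (phiE P) := L.meas3_phiE hOk
  refine ND.diff_not_ae (lam := lam) hOk mφ (zero_le_one.trans hl) hL hε00 hεt hεt ?_ ?_
  · intro t ht x v hD
    refine ne_top_of_le_ne_top ?_ (hH1 t ⟨ht.1, ht.2.le⟩ x v)
    refine ENNReal.mul_ne_top (ENNReal.mul_ne_top hC1 (tx_ne_top _ _ _)) ?_
    exact ENNReal.mul_ne_top ENNReal.ofReal_ne_top (Dm_ne_top hD)
  · intro t ht x v _
    rw [ND.Wp_eq mφ hOk.Y0 ht.1]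
    exact hcl t ⟨ht.1, ht.2.le⟩ x v

/-- **Part N, final statement** -/
theorem NOut_holds : Main0.NOut := by
  intro P T V Cf Sf Mc Wm CC CK CL C1 q g0 g1 g2 g1' g2' a b β hOk _ hT1 hV _ hg2 _ hg1' hgg1 hgg2
    hg0 hb0 hb hbβ hbq ha hC hK hK' H0 mH0 pH0 _ H1 h1 hC1 hH1 Hs hL ε0 hε0
  exact N_main hOk hT1 hV hg2 hg1' hgg1 hgg2 hg0 hb0 hb hbβ hbq ha hC hK hK' mH0 pH0 h1 hC1 hH1
    hL hε0

end Crest.Agent.R68.N
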