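import Mathlib
import Crest.Agent.R68.SDefs
import Crest.Agent.R68.SPlane

/-!
# Row 68, Part S: strips (helper180)

Measures of the small exceptional sets of the two-step block: strips `|α + ⟨g,p⟩| ≤ d`, annuli,
the strip `|J| < d'` of the slope, the strip `|A| < d`.
-/

set_option autoImplicit false
open MeasureTheory Set Metric
open scoped ENNReal NNReal
open Crest.AnalysisR.VecCalc3 Crest.AnalysisR.PDE.Boltzmann

namespace Crest.Agent.R68.S

/-- (T1) strip in a box of the plane -/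
theorem volume_strip_dot (p0 g : P2) (α R d : ℝ) (hg : g ≠ 0) :
    volume {p : P2 | ‖p - p0‖ ≤ R ∧ |α + dot2 g p| ≤ d} ≤ ENNReal.ofReal (4 * R * d / ‖g‖) := by
  have hg0 : 0 < ‖g‖ := norm_pos_iff.2 hg
  by_cases hR : 0 ≤ R
  swap
  · have : {p : P2 | ‖p - p0‖ ≤ R ∧ |α + dot2 g p| ≤ d} = ∅ := by
      ext p
      simp only [mem_ofPred_eq, mem_empty_iff_false, iff_false, not_and]
      intro h
      exact absurd ((norm_nonneg _).trans h) hR
    rw [this, measure_empty]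
    exact zero_le
  by_cases hd : 0 ≤ d
  swap
  · have : {p : P2 | ‖p - p0‖ ≤ R ∧ |α + dot2 g p| ≤ d} = ∅ := by
      ext p
      simp only [mem_ofPred_eq, mem_empty_iff_false, iff_false, not_and]
      intro _ h
      exact absurd ((abs_nonneg _).trans h) hd
    rw [this, measure_empty]
    exact zero_le
  set c : ℝ := α + dot2 g p0 with hc
  have hmp : MeasurePreserving (fun p : ℝ × ℝ => p - p0) volume volume :=
    measurePreserving_sub_right volume _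
  have hms : MeasurableSet {p : ℝ × ℝ | |g.1 * p.1 + g.2 * p.2 + c| ≤ d ∧ |p.1| ≤ R ∧ |p.2| ≤ R} :=
    (ms_strip g.1 g.2 c d).inter ((ms_abs_fst R).inter (ms_abs_snd R))
  have hsub : {p : P2 | ‖p - p0‖ ≤ R ∧ |α + dot2 g p| ≤ d}
      ⊆ (fun p : ℝ × ℝ => p - p0) ⁻¹'
        {p : ℝ × ℝ | |g.1 * p.1 + g.2 * p.2 + c| ≤ d ∧ |p.1| ≤ R ∧ |p.2| ≤ R} := by
    rintro p ⟨h1, h2⟩
    refine ⟨?_, (norm_fst_le (p - p0)).trans h1, (norm_snd_le (p - p0)).trans h1⟩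
    have : g.1 * (p - p0).1 + g.2 * (p - p0).2 + c = α + dot2 g p := by
      rw [hc]; unfold dot2; simp only [Prod.fst_sub, Prod.snd_sub]; ring
    rw [this]; exact h2
  refine (measure_mono hsub).trans ?_
  rw [hmp.measure_preimage hms.nullMeasurableSet]
  refine volume_strip g.1 g.2 c R d ‖g‖ hg0 ?_ hR hd
  rw [Prod.norm_def, Real.norm_eq_abs, Real.norm_eq_abs]



theorem AA_eq (z0 a1 a2 : R3) (p1 : P2) :
    AA z0 a1 a2 p1 = z0 2 - a2 2
      - dot2 (bar z0 - bar a1) (p1 - bar z0) / (z0 2 - a1 2) := by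
  unfold AA gz dot2 bar
  simp only [Prod.fst_sub, Prod.snd_sub]
  ring

theorem volume_box (p0 : P2) (R : ℝ) :
    volume {p : P2 | ‖p - p0‖ ≤ R} ≤ ENNReal.ofReal (4 * R ^ 2) := by
  by_cases hR : 0 ≤ R
  · have h : {p : P2 | ‖p - p0‖ ≤ R} ⊆ Icc (p0.1 - R) (p0.1 + R) ×ˢ Icc (p0.2 - R) (p0.2 + R) := by
      intro p hp
      have h1 : |(p - p0).1| ≤ R := (norm_fst_le (p - p0)).trans hp
      have h2 : |(p - p0).2| ≤ R := (norm_snd_le (p - p0)).trans hp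
      rw [abs_le, Prod.fst_sub] at h1
      rw [abs_le, Prod.snd_sub] at h2
      refine ⟨⟨?_, ?_⟩, ⟨?_, ?_⟩⟩ <;> linarith [h1.1, h1.2, h2.1, h2.2]
    refine (measure_mono h).trans ?_
    rw [show (volume : Measure (ℝ × ℝ)) = volume.prod volume from rfl, Measure.prod_prod,
      Real.volume_Icc, Real.volume_Icc, ← ENNReal.ofReal_mul (by linarith)]
    apply ENNReal.ofReal_le_ofReal
    nlinarith
  · have : {p : P2 | ‖p - p0‖ ≤ R} = ∅ := by
      ext p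
      simp only [mem_ofPred_eq, mem_empty_iff_false, iff_false]
      intro h
      exact hR ((norm_nonneg _).trans h)
    rw [this, measure_empty]
    exact zero_le

/-- (T4) the strip `|A| < d` -/
theorem volume_AA_strip (R b0 : ℝ) (hR : 0 < R) (hb0 : 0 < b0) :
    ∃ C : ℝ, 0 < C ∧ ∀ (z0 a1 a2 : R3), b0 ≤ |z0 2 - a1 2| → b0 ≤ |z0 2 - a2 2| →
      ∀ d : ℝ, 0 < d →
        volume {p1 : P2 | ‖p1 - bar z0‖ ≤ R ∧ |AA z0 a1 a2 p1| < d} ≤ ENNReal.ofReal (C * d) := by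
  refine ⟨16 * R ^ 2 / b0, by positivity, ?_⟩
  intro z0 a1 a2 hb ha d hd
  set b := z0 2 - a1 2 with hbdef
  set a := z0 2 - a2 2 with hadef
  have hbne : b ≠ 0 := by
    intro h; rw [h, abs_zero] at hb; linarith
  set g : P2 := (-b⁻¹) • (bar z0 - bar a1) with hg
  have hA : ∀ p1, AA z0 a1 a2 p1 = (a - dot2 g (bar z0)) + dot2 g p1 := by
    intro p1
    rw [AA_eq, ← hbdef, ← hadef, hg]
    unfold dot2
    simp only [Prod.fst_sub, Prod.snd_sub, Prod.smul_fst, Prod.smul_snd, smul_eq_mul]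
    field_simp
    ring
  by_cases hd2 : b0 / 2 ≤ d
  · refine (measure_mono (fun p hp => hp.1)).trans ((volume_box (bar z0) R).trans ?_)
    apply ENNReal.ofReal_le_ofReal
    rw [div_mul_eq_mul_div, le_div_iff₀ hb0]
    nlinarith [mul_le_mul_of_nonneg_left hd2 (by positivity : (0:ℝ) ≤ 8 * R ^ 2)]
  · push Not at hd2
    by_cases hgs : b0 / (4 * R) ≤ ‖g‖
    · have hgpos : 0 < ‖g‖ := lt_of_lt_of_le (by positivity) hgs
      have hsub : {p1 : P2 | ‖p1 - bar z0‖ ≤ R ∧ |AA z0 a1 a2 p1| < d}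
          ⊆ {p : P2 | ‖p - bar z0‖ ≤ R ∧ |(a - dot2 g (bar z0)) + dot2 g p| ≤ d} := by
        rintro p ⟨h1, h2⟩
        rw [hA] at h2
        exact ⟨h1, h2.le⟩
      refine (measure_mono hsub).trans
        ((volume_strip_dot (bar z0) g _ R d (norm_pos_iff.1 hgpos)).trans ?_)
      apply ENNReal.ofReal_le_ofReal
      rw [div_le_iff₀ hgpos]
      calc 4 * R * d = (16 * R ^ 2 / b0 * d) * (b0 / (4 * R)) := by field_simp; ring
        _ ≤ (16 * R ^ 2 / b0 * d) * ‖g‖ := by gcongr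
    · push Not at hgs
      have hemp : {p1 : P2 | ‖p1 - bar z0‖ ≤ R ∧ |AA z0 a1 a2 p1| < d} = ∅ := by
        ext p
        simp only [mem_ofPred_eq, mem_empty_iff_false, iff_false, not_and, not_lt]
        intro hp
        have h1 : AA z0 a1 a2 p = a + dot2 g (p - bar z0) := by
          rw [hA]; unfold dot2; simp only [Prod.fst_sub, Prod.snd_sub]; ring
        have h2 : |dot2 g (p - bar z0)| ≤ 2 * (b0 / (4 * R)) * R := by
          have hg1 : |g.1| ≤ b0 / (4 * R) := (norm_fst_le g).trans hgs.le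
          have hg2 : |g.2| ≤ b0 / (4 * R) := (norm_snd_le g).trans hgs.le
          have hp1 : |(p - bar z0).1| ≤ R := (norm_fst_le _).trans hp
          have hp2 : |(p - bar z0).2| ≤ R := (norm_snd_le _).trans hp
          unfold dot2
          calc |g.1 * (p - bar z0).1 + g.2 * (p - bar z0).2|
              ≤ |g.1| * |(p - bar z0).1| + |g.2| * |(p - bar z0).2| := by
                rw [← abs_mul, ← abs_mul]; exact abs_add_le _ _
            _ ≤ b0 / (4 * R) * R + b0 / (4 * R) * R := by gcongr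
            _ = _ := by ring
        have h3 : 2 * (b0 / (4 * R)) * R = b0 / 2 := by field_simp; ring
        rw [h3] at h2
        rw [h1]
        have h4 : |a| ≤ |a + dot2 g (p - bar z0)| + |dot2 g (p - bar z0)| := by
          have : a = (a + dot2 g (p - bar z0)) - dot2 g (p - bar z0) := by ring
          calc |a| = |(a + dot2 g (p - bar z0)) - dot2 g (p - bar z0)| := by rw [← this]
            _ ≤ _ := abs_sub _ _
        linarith
      rw [hemp, measure_empty]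
      exact zero_le

theorem abs_dot2_le_norm (x y : P2) : |dot2 x y| ≤ 2 * ‖x‖ * ‖y‖ := by
  have ha1 : |x.1| ≤ ‖x‖ := norm_fst_le x
  have ha2 : |x.2| ≤ ‖x‖ := norm_snd_le x
  have hb1 : |y.1| ≤ ‖y‖ := norm_fst_le y
  have hb2 : |y.2| ≤ ‖y‖ := norm_snd_le y
  unfold dot2
  calc |x.1 * y.1 + x.2 * y.2| ≤ |x.1| * |y.1| + |x.2| * |y.2| := by
        rw [← abs_mul, ← abs_mul]; exact abs_add_le _ _
    _ ≤ ‖x‖ * ‖y‖ + ‖x‖ * ‖y‖ := by gcongr
    _ = 2 * ‖x‖ * ‖y‖ := by ring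

/-- Sherman–Morrison lower bound of the gradient -/
theorem grad_lower {a b δ P : ℝ} {q X : P2} (hb : b ≠ 0) (hδ : 0 < δ) (hP : ‖q‖ ≤ P)
    (hΔ : δ ≤ |a * b + dot2 q q|) :
    |a| * ‖X‖ ≤ ‖a • X + (dot2 q X / b) • q‖ * (1 + 2 * P ^ 2 / δ) := by
  set w : P2 := a • X + (dot2 q X / b) • q with hw
  set D : ℝ := a * b + dot2 q q with hD
  have key : (a * D) • X = D • w - (dot2 w q) • q := by
    apply Prod.ext
    · simp only [hw, hD, dot2, Prod.fst_sub, Prod.fst_add, Prod.snd_add, Prod.smul_fst,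
        Prod.smul_snd, smul_eq_mul]
      field_simp
      ring
    · simp only [hw, hD, dot2, Prod.snd_sub, Prod.fst_add, Prod.snd_add, Prod.smul_fst,
        Prod.smul_snd, smul_eq_mul]
      field_simp
      ring
  have hP0 : 0 ≤ P := (norm_nonneg _).trans hP
  have hDpos : 0 < |D| := lt_of_lt_of_le hδ hΔ
  have h1 : |a| * ‖X‖ * |D| ≤ |D| * ‖w‖ + 2 * ‖w‖ * P * P := by
    have e1 : ‖(a * D) • X‖ = |a| * ‖X‖ * |D| := by
      rw [norm_smul, Real.norm_eq_abs, abs_mul]; ring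
    rw [← e1, key]
    calc ‖D • w - dot2 w q • q‖ ≤ ‖D • w‖ + ‖dot2 w q • q‖ := norm_sub_le _ _
      _ = |D| * ‖w‖ + |dot2 w q| * ‖q‖ := by
          rw [norm_smul, norm_smul, Real.norm_eq_abs, Real.norm_eq_abs]
      _ ≤ |D| * ‖w‖ + (2 * ‖w‖ * P) * P := by
          have h2 : |dot2 w q| ≤ 2 * ‖w‖ * P := (abs_dot2_le_norm w q).trans (by gcongr)
          gcongr
      _ = |D| * ‖w‖ + 2 * ‖w‖ * P * P := by ring
  have h2 : 2 * ‖w‖ * P * P ≤ ‖w‖ * (2 * P ^ 2 / δ) * |D| := by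
    have : 2 * ‖w‖ * P * P = ‖w‖ * (2 * P ^ 2 / δ) * δ := by field_simp
    rw [this]
    gcongr
  have h3 : |a| * ‖X‖ * |D| ≤ ‖w‖ * (1 + 2 * P ^ 2 / δ) * |D| := by nlinarith
  exact le_of_mul_le_mul_right h3 hDpos

theorem inner_sub_vec3_pm (z0 : R3) (ub : P2) (s1 s2 : ℝ) :
    (inner ℝ (z0 - vec3 ub.1 ub.2 s1) (z0 - vec3 ub.1 ub.2 s2) : ℝ)
      = dot2 (bar z0 - ub) (bar z0 - ub) + (z0 2 - s1) * (z0 2 - s2) := by
  have h : ∀ s, z0 - vec3 ub.1 ub.2 s = vec3 (z0 0 - ub.1) (z0 1 - ub.2) (z0 2 - s) := by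
    intro s
    apply vec3_ext <;> simp
  rw [h, h, inner_vec3]
  unfold dot2 bar
  simp only [Prod.fst_sub, Prod.snd_sub]

@[simp] theorem bar_vec3 (x y z : ℝ) : bar (vec3 x y z) = (x, y) := rfl

/-- `JJ` is affine in `p₂` -/
theorem JJ_affine (z0 : R3) (ub : P2) (s1 s2 τ : ℝ) (p1 p2 : P2)
    (hb : z0 2 - s1 ≠ 0) (hA : AA z0 (vec3 ub.1 ub.2 s1) (vec3 ub.1 ub.2 s2) p1 ≠ 0)
    (hτ : τ ≠ 0) :
    JJ z0 (vec3 ub.1 ub.2 s1) (vec3 ub.1 ub.2 s2) (τ, p1, p2)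
      = JJ z0 (vec3 ub.1 ub.2 s1) (vec3 ub.1 ub.2 s2) (τ, p1, 0)
        + dot2 ((τ * AA z0 (vec3 ub.1 ub.2 s1) (vec3 ub.1 ub.2 s2) p1 ^ 2)⁻¹ •
          ((z0 2 - s2) • (p1 - bar z0) +
            (dot2 (bar z0 - ub) (p1 - bar z0) / (z0 2 - s1)) • (bar z0 - ub))) p2 := by
  have hAeq := AA_eq z0 (vec3 ub.1 ub.2 s1) (vec3 ub.1 ub.2 s2) p1
  simp only [bar_vec3, vec3_two, Prod.mk.eta] at hAeq
  unfold JJ
  simp only [bar_vec3, vec3_two, Prod.mk.eta]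
  set A := AA z0 (vec3 ub.1 ub.2 s1) (vec3 ub.1 ub.2 s2) p1 with hAdef
  set a := z0 2 - s2 with ha
  set b := z0 2 - s1 with hbd
  set m := dot2 (bar z0 - ub) (p1 - bar z0) / b with hm
  have hmb : dot2 (bar z0 - ub) (p1 - bar z0) = m * b := by
    rw [hm]; field_simp
  have haA : a = A + m := by rw [hAeq]; ring
  rw [hmb, haA]
  have e1 : ∀ p : P2, dot2 (p - p1) (p1 - bar z0) = dot2 p (p1 - bar z0) - dot2 p1 (p1 - bar z0) := by
    intro p; unfold dot2; simp only [Prod.fst_sub, Prod.snd_sub]; ring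
  have e2 : ∀ p : P2, dot2 (p - p1) (p1 - ub) = dot2 p (p1 - bar z0) + dot2 p (bar z0 - ub)
      - dot2 p1 (p1 - ub) := by
    intro p; unfold dot2; simp only [Prod.fst_sub, Prod.snd_sub]; ring
  have e3 : dot2 ((τ * A ^ 2)⁻¹ • ((A + m) • (p1 - bar z0) + m • (bar z0 - ub))) p2
      = (τ * A ^ 2)⁻¹ * ((A + m) * dot2 p2 (p1 - bar z0) + m * dot2 p2 (bar z0 - ub)) := by
    unfold dot2
    simp only [Prod.smul_fst, Prod.smul_snd, Prod.fst_add, Prod.snd_add, smul_eq_mul]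
    ring
  have e4 : ∀ x : P2, dot2 0 x = 0 := by intro x; unfold dot2; simp
  rw [e1, e1, e2, e2, e3, e4, e4]
  field_simp
  ring

/-- (T3) the strip `|J| < d'` -/
theorem volume_JJ_strip (U R0 R L d b0 d1 : ℝ) (hU : 0 < U) (hR0 : 0 < R0) (hR : 0 < R)
    (hL : 0 < L) (hd : 0 < d) (hb0 : 0 < b0) (hd1 : 0 < d1) :
    ∃ C : ℝ, 0 < C ∧ ∀ (z0 : R3) (ub : P2) (s1 s2 : ℝ), (s1 = 1 ∨ s1 = -1) → (s2 = 1 ∨ s2 = -1) →
      ‖z0‖ ≤ R0 → ‖ub‖ ≤ U → b0 ≤ |z0 2 - 1| → b0 ≤ |z0 2 + 1| →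
      d1 ≤ |(inner ℝ (z0 - vec3 ub.1 ub.2 1) (z0 - vec3 ub.1 ub.2 (-1)) : ℝ)| →
      ∀ (τ : ℝ) (p1 : P2), d ≤ τ → τ ≤ L → d ≤ ‖p1 - bar z0‖ → ‖p1 - bar z0‖ ≤ R →
        d ≤ |AA z0 (vec3 ub.1 ub.2 s1) (vec3 ub.1 ub.2 s2) p1| → ∀ d' : ℝ, 0 < d' →
        volume {p2 : P2 | ‖p2 - p1‖ ≤ R ∧
            |JJ z0 (vec3 ub.1 ub.2 s1) (vec3 ub.1 ub.2 s2) (τ, p1, p2)| < d'}
          ≤ ENNReal.ofReal (C * d') := by
  set P : ℝ := R0 + U with hP
  set δ : ℝ := min (b0 ^ 2) d1 with hδ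
  have hδ0 : 0 < δ := lt_min (by positivity) hd1
  have hP0 : 0 < P := by positivity
  set Am : ℝ := R0 + 1 + 2 * P * R / b0 with hAm
  have hAm0 : 0 < Am := by positivity
  set κ : ℝ := 1 + 2 * P ^ 2 / δ with hκ
  have hκ0 : 0 < κ := by positivity
  refine ⟨4 * R * (L * Am ^ 2 * κ / (d * b0)), by positivity, ?_⟩
  intro z0 ub s1 s2 hs1 hs2 hz0 hub hbp hbm hin τ p1 hτ hτL hZ hZR hA d' hd'
  have habs : ∀ s : ℝ, (s = 1 ∨ s = -1) → b0 ≤ |z0 2 - s| := by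
    rintro s (rfl | rfl)
    · exact hbp
    · rwa [sub_neg_eq_add]
  have hb := habs s1 hs1
  have ha := habs s2 hs2
  have hbne : z0 2 - s1 ≠ 0 := by
    intro h; rw [h, abs_zero] at hb; linarith
  have hτ0 : 0 < τ := lt_of_lt_of_le hd hτ
  have hq : ‖bar z0 - ub‖ ≤ P := (norm_sub_le _ _).trans (add_le_add ((nbar_le z0).trans hz0) hub)
  -- the discriminant
  have hΔ : δ ≤ |(z0 2 - s2) * (z0 2 - s1) + dot2 (bar z0 - ub) (bar z0 - ub)| := by
    by_cases hss : s1 = s2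
    · subst hss
      have h1 : 0 ≤ dot2 (bar z0 - ub) (bar z0 - ub) := by
        unfold dot2; nlinarith [mul_self_nonneg (bar z0 - ub).1, mul_self_nonneg (bar z0 - ub).2]
      have h2 : b0 ^ 2 ≤ (z0 2 - s1) * (z0 2 - s1) := by
        have := mul_le_mul hb hb hb0.le (abs_nonneg _)
        rw [abs_mul_abs_self] at this
        nlinarith
      rw [abs_of_nonneg (by nlinarith [sq_nonneg b0])]
      exact (min_le_left _ _).trans (by linarith)
    · have h1 : (z0 2 - s2) * (z0 2 - s1) + dot2 (bar z0 - ub) (bar z0 - ub)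
          = (inner ℝ (z0 - vec3 ub.1 ub.2 1) (z0 - vec3 ub.1 ub.2 (-1)) : ℝ) := by
        rw [inner_sub_vec3_pm]
        rcases hs1 with rfl | rfl <;> rcases hs2 with rfl | rfl
        · exact absurd rfl hss
        · ring
        · ring
        · exact absurd rfl hss
      rw [h1]
      exact (min_le_right _ _).trans hin
  set w : P2 := (z0 2 - s2) • (p1 - bar z0) +
    (dot2 (bar z0 - ub) (p1 - bar z0) / (z0 2 - s1)) • (bar z0 - ub) with hw
  have hwlow : b0 * d ≤ ‖w‖ * κ := by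
    have h1 := grad_lower (X := p1 - bar z0) hbne hδ0 hq hΔ
    calc b0 * d ≤ |z0 2 - s2| * ‖p1 - bar z0‖ := by gcongr
      _ ≤ _ := h1
  have hwpos : 0 < ‖w‖ := by
    by_contra hcon
    push Not at hcon
    have : ‖w‖ = 0 := le_antisymm hcon (norm_nonneg _)
    rw [this, zero_mul] at hwlow
    nlinarith [mul_pos hb0 hd]
  set A := AA z0 (vec3 ub.1 ub.2 s1) (vec3 ub.1 ub.2 s2) p1 with hAdef
  have hA0 : 0 < |A| := lt_of_lt_of_le hd hA
  have hAne : A ≠ 0 := abs_pos.1 hA0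
  have hAle : |A| ≤ Am := by
    have h1 := AA_eq z0 (vec3 ub.1 ub.2 s1) (vec3 ub.1 ub.2 s2) p1
    simp only [bar_vec3, vec3_two, Prod.mk.eta] at h1
    rw [← hAdef] at h1
    rw [h1]
    have h2 : |z0 2 - s2| ≤ R0 + 1 := by
      have h3 : |z0 2| ≤ R0 := (PiLp.norm_apply_le z0 2).trans hz0
      rcases hs2 with rfl | rfl <;> rw [abs_le] at * <;> constructor <;> linarith [h3.1, h3.2]
    have h4 : |dot2 (bar z0 - ub) (p1 - bar z0) / (z0 2 - s1)| ≤ 2 * P * R / b0 := by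
      rw [abs_div]
      have h5 : |dot2 (bar z0 - ub) (p1 - bar z0)| ≤ 2 * P * R :=
        (abs_dot2_le_norm _ _).trans (by gcongr)
      gcongr
    calc _ ≤ |z0 2 - s2| + |dot2 (bar z0 - ub) (p1 - bar z0) / (z0 2 - s1)| := abs_sub _ _
      _ ≤ R0 + 1 + 2 * P * R / b0 := by gcongr
  set β : P2 := (τ * A ^ 2)⁻¹ • w with hβ
  have hτA : 0 < τ * A ^ 2 := by positivity
  have hβn : ‖β‖ = ‖w‖ / (τ * A ^ 2) := by
    rw [hβ, norm_smul, Real.norm_eq_abs, abs_of_pos (by positivity)]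
    field_simp
  have hβpos : 0 < ‖β‖ := by rw [hβn]; positivity
  have hβlow : d * b0 / (L * Am ^ 2 * κ) ≤ ‖β‖ := by
    rw [hβn, div_le_div_iff₀ (by positivity) hτA]
    have h1 : τ * A ^ 2 ≤ L * Am ^ 2 := by
      have : A ^ 2 ≤ Am ^ 2 := by
        rw [← sq_abs A]; exact pow_le_pow_left₀ (abs_nonneg _) hAle 2
      gcongr
    calc d * b0 * (τ * A ^ 2) = (b0 * d) * (τ * A ^ 2) := by ring
      _ ≤ (‖w‖ * κ) * (L * Am ^ 2) := by gcongr
      _ = ‖w‖ * (L * Am ^ 2 * κ) := by ring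
  have hsub : {p2 : P2 | ‖p2 - p1‖ ≤ R ∧
        |JJ z0 (vec3 ub.1 ub.2 s1) (vec3 ub.1 ub.2 s2) (τ, p1, p2)| < d'}
      ⊆ {p : P2 | ‖p - p1‖ ≤ R ∧
        |JJ z0 (vec3 ub.1 ub.2 s1) (vec3 ub.1 ub.2 s2) (τ, p1, 0) + dot2 β p| ≤ d'} := by
    rintro p ⟨h1, h2⟩
    refine ⟨h1, ?_⟩
    rw [JJ_affine z0 ub s1 s2 τ p1 p hbne hAne hτ0.ne'] at h2
    exact h2.le
  refine (measure_mono hsub).trans
    ((volume_strip_dot p1 β _ R d' (norm_pos_iff.1 hβpos)).trans ?_)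
  apply ENNReal.ofReal_le_ofReal
  rw [div_le_iff₀ hβpos]
  calc 4 * R * d' = 4 * R * (L * Am ^ 2 * κ / (d * b0)) * d' * (d * b0 / (L * Am ^ 2 * κ)) := by
        field_simp
    _ ≤ 4 * R * (L * Am ^ 2 * κ / (d * b0)) * d' * ‖β‖ := by gcongr

end Crest.Agent.R68.S
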