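import Mathlib
import Crest.Agent.R68.SGraph
import Crest.Agent.R68.SPlane
import Crest.Agent.R68.SHeight
import Crest.Agent.R68.SDefs
import Crest.Agent.R68.SAnti
import Crest.Agent.R68.SStrip

-- ▼ part R68/STop
section

/-! Row 68, Part S: bounds of the scaled operator `Top` (helper262) -/

set_option autoImplicit false
open MeasureTheory Set Metric
open scoped ENNReal NNReal
open Crest.AnalysisR.VecCalc3 Crest.AnalysisR.PDE.Boltzmann

noncomputable section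

namespace Crest.Agent.R68.S

theorem PA_mono {κ : ℝ} {u v : R3} {g g' : R3 → ℝ≥0∞} (h : ∀ z, g z ≤ g' z) :
    PA κ u v g ≤ PA κ u v g' := planeInt_mono (fun z => by gcongr; exact h z) _ _


attribute [local irreducible] rot vec3

theorem measurable_planeInt_arg (v w : R3) :
    Measurable fun p : ℝ × ℝ => v + rot w (vec3 p.1 p.2 0) := by
  have h : Measurable fun p : ℝ × ℝ => vec3 p.1 p.2 0 := by fun_prop
  exact ((rot w).continuous.measurable.comp h).const_add v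

theorem PA_add_le {κ : ℝ} {u v : R3} {g1 g2 : R3 → ℝ≥0∞} (h1 : Measurable g1) :
    PA κ u v (fun z => g1 z + g2 z) ≤ PA κ u v g1 + PA κ u v g2 := by
  unfold PA planeInt
  rw [← lintegral_add_left]
  · exact le_of_eq (lintegral_congr fun p => by simp only [mul_add])
  · exact ((measurable_ker κ v).mul h1).comp (measurable_planeInt_arg v _)

theorem PA_const_mul {κ : ℝ} {u v : R3} {g : R3 → ℝ≥0∞} (hg : Measurable g) (a : ℝ≥0∞) :
    PA κ u v (fun z => a * g z) = a * PA κ u v g := by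
  unfold PA planeInt
  rw [← lintegral_const_mul]
  · exact lintegral_congr fun p => by ring
  · exact ((measurable_ker κ v).mul hg).comp (measurable_planeInt_arg v _)

theorem one_le_Sg {M : ℕ} (q : Fin M → R3) (z : R3) : 1 ≤ Sg q z := le_self_add

/-- plane integral of a function bounded by `B` off `S` and by `N * Sg` on `S` -/
theorem PA_le_split {M : ℕ} {κ : ℝ} {u v : R3} {g : R3 → ℝ≥0∞} {B N : ℝ≥0∞} {S : Set R3}
    (hS : MeasurableSet S)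
    (q : Fin M → R3) (h : ∀ z, g z ≤ B + N * S.indicator (Sg q) z) :
    PA κ u v g ≤ B * PA κ u v (Sg q) + N * PA κ u v (S.indicator (Sg q)) := by
  calc PA κ u v g ≤ PA κ u v (fun z => B * Sg q z + N * S.indicator (Sg q) z) := by
        apply PA_mono
        intro z
        refine (h z).trans ?_
        gcongr
        calc B = B * 1 := (mul_one _).symm
          _ ≤ B * Sg q z := by gcongr; exact one_le_Sg q z
    _ ≤ PA κ u v (fun z => B * Sg q z) + PA κ u v (fun z => N * S.indicator (Sg q) z) :=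
        PA_add_le (measurable_const.mul (measurable_Sg q))
    _ = _ := by
        rw [PA_const_mul (measurable_Sg q), PA_const_mul ((measurable_Sg q).indicator hS)]

section

variable {Ω : Type} [MeasurableSpace Ω] {π : Measure Ω} {κ L U CN CD : ℝ} {M : ℕ}
  {χ : Ω → ℝ → P2 → ℝ≥0∞} {u : Ω → ℝ → P2 → R3} {W : ℝ → P2 → R3 → ℝ≥0∞}

/-- general bound: plane integrals at most `B` on the fuel -/
theorem Top_le_of_PA' (H : Hyp π L U CN CD M χ u W) {f : ℝ → P2 → R3 → ℝ≥0∞} {B : ℝ≥0∞}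
    {c d : ℝ} {ξ : P2} {v : R3} (hc : 0 ≤ c) (hd : d ≤ L)
    (hB : ∀ (ω : Ω) (c1 : ℝ), c < c1 → c1 < d → χ ω c1 (ξ - (c1 - c) • bar v) ≠ 0 →
      PA κ (u ω c1 (ξ - (c1 - c) • bar v)) v (f c1 (ξ - (c1 - c) • bar v)) ≤ B) :
    Top π κ d χ u f c ξ v ≤ ENNReal.ofReal CN * ENNReal.ofReal (d - c) * B * W c ξ v := by
  unfold Top
  calc ∫⁻ c1 in Ioo c d, ∫⁻ ω, χ ω c1 (ξ - (c1 - c) • bar v) *
        Aop κ (u ω c1 (ξ - (c1 - c) • bar v)) v (f c1 (ξ - (c1 - c) • bar v)) ∂π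
      ≤ ∫⁻ _ in Ioo c d, ENNReal.ofReal CN * B * W c ξ v := by
        apply setLIntegral_mono' measurableSet_Ioo
        intro c1 hc1
        calc ∫⁻ ω, χ ω c1 (ξ - (c1 - c) • bar v) *
            Aop κ (u ω c1 (ξ - (c1 - c) • bar v)) v (f c1 (ξ - (c1 - c) • bar v)) ∂π
            ≤ ∫⁻ ω, (χ ω c1 (ξ - (c1 - c) • bar v) *
              ENNReal.ofReal ‖u ω c1 (ξ - (c1 - c) • bar v) - v‖⁻¹) * B ∂π := by
              apply lintegral_mono
              intro ω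
              by_cases h0 : χ ω c1 (ξ - (c1 - c) • bar v) = 0
              · simp only [h0, zero_mul, le_refl]
              · simp only
                rw [mul_assoc]
                gcongr
                unfold Aop
                gcongr
                exact hB ω c1 hc1.1 hc1.2 h0
          _ = (∫⁻ ω, (χ ω c1 (ξ - (c1 - c) • bar v) *
              ENNReal.ofReal ‖u ω c1 (ξ - (c1 - c) • bar v) - v‖⁻¹) ∂π) * B := by
              rw [lintegral_mul_const]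
              have h1 : Measurable fun ω : Ω => (ω, c1, ξ - (c1 - c) • bar v) := by fun_prop
              have h2 := H.mχ.comp h1
              have h3 := H.mu.comp h1
              exact h2.mul (ENNReal.measurable_ofReal.comp ((h3.sub_const v).norm.inv))
          _ ≤ (ENNReal.ofReal CN * W c1 (ξ - (c1 - c) • bar v) v) * B := by
              gcongr
              exact H.newton c1 _ v (hc.trans hc1.1.le) (hc1.2.le.trans hd)
          _ ≤ (ENNReal.ofReal CN * W c ξ v) * B := by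
              gcongr
              exact H.Wmono c c1 ξ v hc hc1.1.le (hc1.2.le.trans hd)
          _ = ENNReal.ofReal CN * B * W c ξ v := by ring
    _ = ENNReal.ofReal CN * ENNReal.ofReal (d - c) * B * W c ξ v := by
        rw [setLIntegral_const, Real.volume_Ioo]
        ring

/-- bound with a lower bound of `‖u - v‖` -/
theorem Top_le_of_PA_far (H : Hyp π L U CN CD M χ u W) {f : ℝ → P2 → R3 → ℝ≥0∞} {B : ℝ≥0∞}
    {c d r : ℝ} {ξ : P2} {v : R3} (hr : 0 < r)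
    (hB : ∀ (ω : Ω) (c1 : ℝ), c < c1 → c1 < d → χ ω c1 (ξ - (c1 - c) • bar v) ≠ 0 →
      r ≤ ‖u ω c1 (ξ - (c1 - c) • bar v) - v‖ ∧
      PA κ (u ω c1 (ξ - (c1 - c) • bar v)) v (f c1 (ξ - (c1 - c) • bar v)) ≤ B) :
    Top π κ d χ u f c ξ v ≤ ENNReal.ofReal r⁻¹ * ENNReal.ofReal (d - c) * B := by
  unfold Top
  calc ∫⁻ c1 in Ioo c d, ∫⁻ ω, χ ω c1 (ξ - (c1 - c) • bar v) *
        Aop κ (u ω c1 (ξ - (c1 - c) • bar v)) v (f c1 (ξ - (c1 - c) • bar v)) ∂π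
      ≤ ∫⁻ _ in Ioo c d, ENNReal.ofReal r⁻¹ * B := by
        apply setLIntegral_mono' measurableSet_Ioo
        intro c1 hc1
        calc ∫⁻ ω, χ ω c1 (ξ - (c1 - c) • bar v) *
            Aop κ (u ω c1 (ξ - (c1 - c) • bar v)) v (f c1 (ξ - (c1 - c) • bar v)) ∂π
            ≤ ∫⁻ _, ENNReal.ofReal r⁻¹ * B ∂π := by
              apply lintegral_mono
              intro ω
              by_cases h0 : χ ω c1 (ξ - (c1 - c) • bar v) = 0
              · simp only [h0, zero_mul, zero_le]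
              · simp only
                obtain ⟨h1, h2⟩ := hB ω c1 hc1.1 hc1.2 h0
                calc χ ω c1 (ξ - (c1 - c) • bar v) *
                    Aop κ (u ω c1 (ξ - (c1 - c) • bar v)) v (f c1 (ξ - (c1 - c) • bar v))
                    ≤ 1 * Aop κ (u ω c1 (ξ - (c1 - c) • bar v)) v
                        (f c1 (ξ - (c1 - c) • bar v)) := by
                      gcongr
                      exact H.χ1 _ _ _
                  _ ≤ ENNReal.ofReal r⁻¹ * B := by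
                      rw [one_mul]
                      unfold Aop
                      gcongr
          _ = ENNReal.ofReal r⁻¹ * B * π univ := by rw [lintegral_const]
          _ ≤ ENNReal.ofReal r⁻¹ * B * 1 := by
              gcongr
              exact H.fin
          _ = ENNReal.ofReal r⁻¹ * B := mul_one _
    _ = ENNReal.ofReal r⁻¹ * ENNReal.ofReal (d - c) * B := by
        rw [setLIntegral_const, Real.volume_Ioo]
        ring

/-- boundedness of `Top` on the class `N W` -/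
theorem Top_le' (H : Hyp π L U CN CD M χ u W) {CG : ℝ}
    (hCG : ∀ (q : Fin M → R3) (u v : R3), PA κ u v (Sg q) ≤ ENNReal.ofReal CG)
    {f : ℝ → P2 → R3 → ℝ≥0∞} {N : ℝ≥0∞} {c d : ℝ} (hc : 0 ≤ c) (hd : d ≤ L)
    (hf : ∀ (c1 : ℝ) (ξ : P2) (v : R3), c < c1 → c1 < d → f c1 ξ v ≤ N * W c1 ξ v)
    (ξ : P2) (v : R3) :
    Top π κ d χ u f c ξ v ≤
      ENNReal.ofReal CN * ENNReal.ofReal (d - c) * (N * ENNReal.ofReal CD * ENNReal.ofReal CG) *
        W c ξ v := by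
  apply Top_le_of_PA' H hc hd
  intro ω c1 h1 h2 _
  obtain ⟨q, hq⟩ := H.Wsg c1 (ξ - (c1 - c) • bar v) (hc.trans h1.le) (h2.le.trans hd)
  calc PA κ (u ω c1 (ξ - (c1 - c) • bar v)) v (f c1 (ξ - (c1 - c) • bar v))
      ≤ PA κ (u ω c1 (ξ - (c1 - c) • bar v)) v (fun z => (N * ENNReal.ofReal CD) * Sg q z) := by
        apply PA_mono
        intro z
        rw [mul_assoc]
        exact (hf c1 _ z h1 h2).trans (by gcongr; exact hq z)
    _ = N * ENNReal.ofReal CD * PA κ (u ω c1 (ξ - (c1 - c) • bar v)) v (Sg q) :=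
        PA_const_mul (measurable_Sg q) _
    _ ≤ _ := by gcongr; exact hCG q _ _

/-- the version on the full window -/
theorem Top_le (H : Hyp π L U CN CD M χ u W) {CG : ℝ}
    (hCG : ∀ (q : Fin M → R3) (u v : R3), PA κ u v (Sg q) ≤ ENNReal.ofReal CG)
    {f : ℝ → P2 → R3 → ℝ≥0∞} {N : ℝ≥0∞}
    (hf : ∀ (c : ℝ) (ξ : P2) (v : R3), 0 ≤ c → c ≤ L → f c ξ v ≤ N * W c ξ v)
    (c : ℝ) (ξ : P2) (v : R3) (hc : 0 ≤ c) :
    Top π κ L χ u f c ξ v ≤
      (ENNReal.ofReal CN * ENNReal.ofReal L * ENNReal.ofReal CD * ENNReal.ofReal CG) * N *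
        W c ξ v := by
  refine (Top_le' H hCG hc le_rfl (fun c1 ξ v h1 h2 => hf c1 ξ v (hc.trans h1.le) h2.le)
    ξ v).trans ?_
  calc ENNReal.ofReal CN * ENNReal.ofReal (L - c) * (N * ENNReal.ofReal CD * ENNReal.ofReal CG) *
        W c ξ v
      ≤ ENNReal.ofReal CN * ENNReal.ofReal L * (N * ENNReal.ofReal CD * ENNReal.ofReal CG) *
        W c ξ v := by
        gcongr
        linarith
    _ = _ := by ring

end

end Crest.Agent.R68.S
end
end

-- ▼ part R68/SCore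
section

/-! Row 68, Part S: the smoothing lemma `core`, from the two-step block (helper262) -/

set_option autoImplicit false
open MeasureTheory Set Metric
open scoped ENNReal NNReal
open Crest.AnalysisR.VecCalc3 Crest.AnalysisR.PDE.Boltzmann

noncomputable section

namespace Crest.Agent.R68.S

attribute [local irreducible] rot vec3

/-- exceptional velocities after the first collision -/
def bad1 (R d : ℝ) (ub : P2) : Set R3 :=
  {z | R < ‖z‖ ∨ ‖z - vec3 ub.1 ub.2 1‖ < d ∨ ‖z - vec3 ub.1 ub.2 (-1)‖ < d}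

/-- exceptional velocities after the second collision -/
def bad2 (R d : ℝ) (ub : P2) : Set R3 :=
  {z | R < ‖z‖ ∨ |z 2 - 1| < d ∨ |z 2 + 1| < d ∨
    |(inner ℝ (z - vec3 ub.1 ub.2 1) (z - vec3 ub.1 ub.2 (-1)) : ℝ)| < d}

/-- the conclusion of the two-step block lemma -/
def BlockStmt (κ L U CN CD : ℝ) (M : ℕ) (R0 d1 ε ρ e C : ℝ) : Prop :=
  ∀ (Ω : Type) [MeasurableSpace Ω] (π : Measure Ω) (χ : Ω → ℝ → P2 → ℝ≥0∞)
    (u : Ω → ℝ → P2 → R3) (W : ℝ → P2 → R3 → ℝ≥0∞) (ub : P2) (s : Ω → ℝ),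
    Hyp π L U CN CD M χ u W → Near L U e ρ χ u ub s → Measurable s →
    ∀ f : ℝ → P2 → R3 → ℝ≥0∞, Measurable (fun q : ℝ × P2 × R3 => f q.1 q.2.1 q.2.2) →
    ∀ N m : ℝ≥0∞, (∀ (c : ℝ) (ξ : P2) (v : R3), 0 ≤ c → c ≤ L → f c ξ v ≤ N * W c ξ v) →
    (∀ c : ℝ, 0 ≤ c → c ≤ L →
      ∫⁻ ξ in closedBall (0 : P2) ρ, ∫⁻ z in closedBall (0 : R3) ρ, f c ξ z ≤ m) →
    ∀ (c : ℝ) (ξ : P2) (z0 : R3), 0 ≤ c → c ≤ L → ‖ξ‖ ≤ R0 → z0 ∉ bad2 R0 d1 ub →
    Top π κ L χ u (Top π κ L χ u f) c ξ z0 ≤ ENNReal.ofReal ε * N + ENNReal.ofReal C * m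

theorem Near.mono {Ω : Type} {L U e e' ρ ρ' : ℝ} {χ : Ω → ℝ → P2 → ℝ≥0∞}
    {u : Ω → ℝ → P2 → R3} {ub : P2} {s : Ω → ℝ} (h : Near L U e ρ χ u ub s)
    (he : e ≤ e') (hρ : ρ' ≤ ρ) : Near L U e' ρ' χ u ub s where
  s1 := h.s1
  ubd := h.ubd
  close := fun ω c ξ h0 h1 h2 h3 => (h.close ω c ξ h0 h1 (h2.trans hρ) h3).trans he
  lip := fun ω c c' ξ ξ' h0 h1 h2 h3 h4 h5 h6 h7 =>
    (h.lip ω c c' ξ ξ' h0 h1 (h2.trans hρ) h3 h4 h5 (h6.trans hρ) h7).trans (by gcongr)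

theorem measurableSet_bad1 (R d : ℝ) (ub : P2) : MeasurableSet (bad1 R d ub) := by
  exact (measurableSet_lt measurable_const measurable_norm).union
    ((measurableSet_lt (measurable_id.sub_const _).norm measurable_const).union
      (measurableSet_lt (measurable_id.sub_const _).norm measurable_const))

theorem measurableSet_bad2 (R d : ℝ) (ub : P2) : MeasurableSet (bad2 R d ub) := by
  have h1 : Continuous fun z : R3 => |z 2 - 1| := by fun_prop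
  have h2 : Continuous fun z : R3 => |z 2 + 1| := by fun_prop
  have h3 : Continuous fun z : R3 =>
    |(inner ℝ (z - vec3 ub.1 ub.2 1) (z - vec3 ub.1 ub.2 (-1)) : ℝ)| := by fun_prop
  exact (measurableSet_lt measurable_const measurable_norm).union
    ((measurableSet_lt h1.measurable measurable_const).union
      ((measurableSet_lt h2.measurable measurable_const).union
        (measurableSet_lt h3.measurable measurable_const)))

set_option maxHeartbeats 1000000 in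
theorem core (κ L U CN CD : ℝ) (M : ℕ) (hκ : 0 < κ) (hL : 0 < L) (hU : 0 < U) (hCN : 0 < CN)
    (hCD : 0 < CD)
    (hblock : ∀ R0 d1 ε : ℝ, 0 < R0 → 0 < d1 → 0 < ε →
      ∃ ρ e C : ℝ, 0 < ρ ∧ 0 < e ∧ 0 < C ∧ BlockStmt κ L U CN CD M R0 d1 ε ρ e C)
    {ε : ℝ} (hε : 0 < ε) :
    ∃ ρ e C : ℝ, 0 < ρ ∧ 0 < e ∧ 0 < C ∧
    ∀ (Ω : Type) [MeasurableSpace Ω] (π : Measure Ω) (χ : Ω → ℝ → P2 → ℝ≥0∞)
      (u : Ω → ℝ → P2 → R3) (W : ℝ → P2 → R3 → ℝ≥0∞) (ub : P2) (s : Ω → ℝ),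
      Hyp π L U CN CD M χ u W → Near L U e ρ χ u ub s → Measurable s →
      ∀ f : ℝ → P2 → R3 → ℝ≥0∞, Measurable (fun q : ℝ × P2 × R3 => f q.1 q.2.1 q.2.2) →
      ∀ N m : ℝ≥0∞, (∀ (c : ℝ) (ξ : P2) (v : R3), 0 ≤ c → c ≤ L → f c ξ v ≤ N * W c ξ v) →
      (∀ c : ℝ, 0 ≤ c → c ≤ L →
        ∫⁻ ξ in closedBall (0 : P2) ρ, ∫⁻ z in closedBall (0 : R3) ρ, f c ξ z ≤ m) →
      ∀ v : R3, (Top π κ L χ u)^[4] f 0 0 v ≤
        (ENNReal.ofReal ε * N + ENNReal.ofReal C * m) * W 0 0 v := by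
  obtain ⟨CG, hCG0, hCG⟩ := PA_whole M hκ
  set ct : ℝ := CN * L * CD * CG with hct
  have hct0 : 0 < ct := by positivity
  -- far velocities
  set R1 : ℝ := U + 1 + L * ct ^ 3 * CD * CG / ε with hR1
  have hR1U : 0 < R1 - U := by
    have : 0 < L * ct ^ 3 * CD * CG / ε := by positivity
    linarith
  have hR10 : 0 < R1 := by linarith
  have hfar : (R1 - U)⁻¹ * L * ct ^ 3 * CD * CG ≤ ε := by
    have h1 : L * ct ^ 3 * CD * CG / ε ≤ R1 - U := by linarith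
    have h2 : (R1 - U)⁻¹ * L * ct ^ 3 * CD * CG = (L * ct ^ 3 * CD * CG) / (R1 - U) := by
      field_simp
    rw [h2, div_le_iff₀ hR1U]
    rw [div_le_iff₀ hε] at h1
    linarith
  -- first step
  set ε2 : ℝ := ε / 3 / (CN * L * ct ^ 3 * CD) with hε2
  have hε20 : 0 < ε2 := by positivity
  obtain ⟨d0, R2, hd0, hR2, hbad1⟩ := PA_dist M (R1 := R1) hκ hε20
  -- second step
  set ε3 : ℝ := ε / 3 / (CN * L * CG * (2 / d0) * L * ct ^ 2 * CD) with hε3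
  have hε30 : 0 < ε3 := by positivity
  obtain ⟨d1, R3', e3, hd1, hR3, he3, hbad2⟩ :=
    PA_height M (U := U) (R1 := R2) hκ hd0 hε30
  -- block
  set ε4 : ℝ := ε / 3 / (CN * L * CG * (2 / d0) * L * CG) with hε4
  have hε40 : 0 < ε4 := by positivity
  set R0 : ℝ := max R3' (L * R1 + L * R2) with hR0
  have hR00 : 0 < R0 := lt_of_lt_of_le hR3 (le_max_left _ _)
  obtain ⟨ρ4, e4, C4, hρ4, he4, hC4, hB⟩ := hblock R0 d1 ε4 hR00 hd1 hε40
  set C : ℝ := CN * L * CG * (2 / d0) * L * CG * C4 with hC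
  have hC0 : 0 < C := by positivity
  refine ⟨max ρ4 R0, min (min e3 e4) (d0 / 2), C, lt_of_lt_of_le hρ4 (le_max_left _ _),
    by positivity, hC0, ?_⟩
  intro Ω _ π χ u W ub s H hN hs f hf N m hfN hfm v
  set ρ := max ρ4 R0 with hρ
  set e := min (min e3 e4) (d0 / 2) with he
  set T := Top π κ L χ u with hT
  set CT : ℝ≥0∞ := ENNReal.ofReal ct with hCTdef
  have hCT : ENNReal.ofReal CN * ENNReal.ofReal L * ENNReal.ofReal CD * ENNReal.ofReal CG = CT := by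
    rw [hCTdef, hct, ENNReal.ofReal_mul (by positivity), ENNReal.ofReal_mul (by positivity),
      ENNReal.ofReal_mul hCN.le]
  have hNear4 : Near L U e4 ρ4 χ u ub s :=
    hN.mono ((min_le_left _ _).trans (min_le_right _ _)) (le_max_left _ _)
  -- crude bounds
  have hT1 : ∀ (c : ℝ) (ξ : P2) (v : R3), 0 ≤ c → T f c ξ v ≤ (CT * N) * W c ξ v := by
    intro c ξ v hc
    rw [← hCT]
    exact Top_le H hCG hfN c ξ v hc
  have hT2 : ∀ (c : ℝ) (ξ : P2) (v : R3), 0 ≤ c → T (T f) c ξ v ≤ (CT * (CT * N)) * W c ξ v := by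
    intro c ξ v hc
    rw [← hCT]
    rw [← hCT] at hT1
    exact Top_le H hCG (fun c ξ v hc _ => hT1 c ξ v hc) c ξ v hc
  have hT3 : ∀ (c : ℝ) (ξ : P2) (v : R3), 0 ≤ c →
      T (T (T f)) c ξ v ≤ (CT * (CT * (CT * N))) * W c ξ v := by
    intro c ξ v hc
    rw [← hCT]
    rw [← hCT] at hT2
    exact Top_le H hCG (fun c ξ v hc _ => hT2 c ξ v hc) c ξ v hc
  have hiter : (Top π κ L χ u)^[4] f = T (T (T (T f))) := rfl
  rw [hiter]
  -- block
  set B2 : ℝ≥0∞ := ENNReal.ofReal ε4 * N + ENNReal.ofReal C4 * m with hB2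
  have hblk : ∀ (c : ℝ) (ξ : P2) (z0 : R3), 0 ≤ c → c ≤ L → ‖ξ‖ ≤ R0 → z0 ∉ bad2 R0 d1 ub →
      T (T f) c ξ z0 ≤ B2 := by
    apply hB Ω π χ u W ub s H hNear4 hs f hf N m hfN
    intro c h0 h1
    refine le_trans ?_ (hfm c h0 h1)
    have hρ' : ρ4 ≤ ρ := le_max_left _ _
    calc ∫⁻ ξ in closedBall (0 : P2) ρ4, ∫⁻ z in closedBall (0 : R3) ρ4, f c ξ z
        ≤ ∫⁻ ξ in closedBall (0 : P2) ρ, ∫⁻ z in closedBall (0 : R3) ρ4, f c ξ z :=
          lintegral_mono_set (closedBall_subset_closedBall hρ')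
      _ ≤ _ := lintegral_mono fun ξ => lintegral_mono_set (closedBall_subset_closedBall hρ')
  -- third application
  set B3 : ℝ≥0∞ := ENNReal.ofReal (2 / d0) * ENNReal.ofReal L *
    (B2 * ENNReal.ofReal CG + CT * (CT * N) * ENNReal.ofReal CD * ENNReal.ofReal ε3) with hB3
  have hthird : ∀ (c : ℝ) (ξ : P2) (z1 : R3), 0 ≤ c → c ≤ L → ‖ξ‖ ≤ L * R1 → z1 ∉ bad1 R2 d0 ub →
      T (T (T f)) c ξ z1 ≤ B3 := by
    intro c ξ z1 hc hcL hξ hz1
    simp only [bad1, mem_ofPred_eq, not_or, not_lt] at hz1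
    obtain ⟨hz1R, hz1p, hz1m⟩ := hz1
    have h := Top_le_of_PA_far (κ := κ) (d := L) H (f := T (T f))
      (B := B2 * ENNReal.ofReal CG + CT * (CT * N) * ENNReal.ofReal CD * ENNReal.ofReal ε3)
      (c := c) (r := d0 / 2) (ξ := ξ) (v := z1) (by positivity) ?_
    · refine h.trans ?_
      rw [hB3]
      have h2 : (d0 / 2)⁻¹ = 2 / d0 := by field_simp
      rw [h2]
      gcongr
      linarith
    · intro ω c1 h1 h2 hχ
      have hξ1 : ‖ξ - (c1 - c) • bar z1‖ ≤ L * R1 + L * R2 := by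
        calc ‖ξ - (c1 - c) • bar z1‖ ≤ ‖ξ‖ + ‖(c1 - c) • bar z1‖ := norm_sub_le _ _
          _ ≤ L * R1 + L * R2 := by
              rw [norm_smul, Real.norm_eq_abs, abs_of_pos (by linarith)]
              have := (nbar_le z1).trans hz1R
              gcongr
              linarith
      have hξρ : ‖ξ - (c1 - c) • bar z1‖ ≤ ρ :=
        hξ1.trans ((le_max_right _ _).trans (le_max_right _ _))
      have hcl := hN.close ω c1 (ξ - (c1 - c) • bar z1) (hc.trans h1.le) h2.le hξρ hχ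
      have hs := hN.s1 ω
      constructor
      · have h4 : d0 ≤ ‖z1 - vec3 ub.1 ub.2 (s ω)‖ := by
          rcases hs with hs | hs <;> rw [hs] <;> assumption
        have h5 : ‖z1 - vec3 ub.1 ub.2 (s ω)‖ ≤
            ‖u ω c1 (ξ - (c1 - c) • bar z1) - z1‖ +
              ‖u ω c1 (ξ - (c1 - c) • bar z1) - vec3 ub.1 ub.2 (s ω)‖ := by
          calc ‖z1 - vec3 ub.1 ub.2 (s ω)‖ =
              ‖(u ω c1 (ξ - (c1 - c) • bar z1) - vec3 ub.1 ub.2 (s ω)) -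
                (u ω c1 (ξ - (c1 - c) • bar z1) - z1)‖ := by congr 1; abel
            _ ≤ _ := by rw [add_comm]; exact norm_sub_le _ _
        have h6 : e ≤ d0 / 2 := min_le_right _ _
        linarith
      · obtain ⟨q, hq⟩ := H.Wsg c1 (ξ - (c1 - c) • bar z1) (hc.trans h1.le) h2.le
        have hsplit := PA_le_split (κ := κ) (u := u ω c1 (ξ - (c1 - c) • bar z1)) (v := z1)
          (g := T (T f) c1 (ξ - (c1 - c) • bar z1)) (B := B2)
          (N := CT * (CT * N) * ENNReal.ofReal CD)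
          (measurableSet_bad2 R3' d1 ub) q ?_
        · refine hsplit.trans ?_
          gcongr
          · exact hCG q _ _
          · exact hbad2 ub (s ω) z1 _ q hs hN.ubd hz1R hz1p hz1m
              (hcl.trans ((min_le_left _ _).trans (min_le_left _ _)))
        · intro z
          by_cases hz : z ∈ bad2 R3' d1 ub
          · rw [indicator_of_mem hz]
            calc T (T f) c1 (ξ - (c1 - c) • bar z1) z
                ≤ CT * (CT * N) * W c1 (ξ - (c1 - c) • bar z1) z := hT2 _ _ _ (hc.trans h1.le)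
              _ ≤ CT * (CT * N) * (ENNReal.ofReal CD * Sg q z) := by gcongr; exact hq z
              _ ≤ B2 + CT * (CT * N) * ENNReal.ofReal CD * Sg q z := by
                  rw [mul_assoc (CT * (CT * N))]
                  exact le_add_self
          · rw [indicator_of_notMem hz, mul_zero, add_zero]
            apply hblk _ _ _ (hc.trans h1.le) h2.le (hξ1.trans (le_max_right _ _))
            intro h
            apply hz
            simp only [bad2, mem_ofPred_eq] at h ⊢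
            rcases h with h | h
            · left
              exact lt_of_le_of_lt (le_max_left _ _) h
            · right; exact h
  -- fourth application
  rcases le_total R1 ‖v‖ with hv | hv
  · have h := Top_le_of_PA_far (κ := κ) (d := L) H (f := T (T (T f)))
      (B := CT * (CT * (CT * N)) * ENNReal.ofReal CD * ENNReal.ofReal CG)
      (c := 0) (r := R1 - U) (ξ := 0) (v := v) hR1U ?_
    · refine h.trans ?_
      rw [sub_zero]
      calc ENNReal.ofReal (R1 - U)⁻¹ * ENNReal.ofReal L *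
            (CT * (CT * (CT * N)) * ENNReal.ofReal CD * ENNReal.ofReal CG)
          = ENNReal.ofReal ((R1 - U)⁻¹ * L * ct ^ 3 * CD * CG) * N := by
            have e0 : ENNReal.ofReal (R1 - U)⁻¹ * ENNReal.ofReal L * ENNReal.ofReal ct ^ 3 *
                ENNReal.ofReal CD * ENNReal.ofReal CG =
                ENNReal.ofReal ((R1 - U)⁻¹ * L * ct ^ 3 * CD * CG) := by
              rw [← ENNReal.ofReal_pow hct0.le]
              simp only [ENNReal.ofReal_mul', hCG0.le, hL.le, hCD.le,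
                (by positivity : 0 ≤ ct ^ 3)]
            rw [hCTdef, ← e0]
            ring
        _ ≤ ENNReal.ofReal ε * N := by gcongr
        _ ≤ (ENNReal.ofReal ε * N + ENNReal.ofReal C * m) * 1 := by
            rw [mul_one]; exact le_self_add
        _ ≤ (ENNReal.ofReal ε * N + ENNReal.ofReal C * m) * W 0 0 v := by
            gcongr
            exact H.W1 _ _ _
    · intro ω c1 h1 h2 hχ
      constructor
      · have h3 := H.bd ω c1 _ hχ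
        have h4 := norm_sub_norm_le v (u ω c1 (0 - (c1 - 0) • bar v))
        rw [norm_sub_rev] at h4
        linarith
      · obtain ⟨q, hq⟩ := H.Wsg c1 (0 - (c1 - 0) • bar v) h1.le h2.le
        calc PA κ (u ω c1 (0 - (c1 - 0) • bar v)) v (T (T (T f)) c1 (0 - (c1 - 0) • bar v))
            ≤ PA κ (u ω c1 (0 - (c1 - 0) • bar v)) v
                (fun z => (CT * (CT * (CT * N)) * ENNReal.ofReal CD) * Sg q z) := by
              apply PA_mono
              intro z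
              rw [mul_assoc (CT * (CT * (CT * N)))]
              exact (hT3 c1 _ z h1.le).trans (by gcongr; exact hq z)
          _ = (CT * (CT * (CT * N)) * ENNReal.ofReal CD) *
                PA κ (u ω c1 (0 - (c1 - 0) • bar v)) v (Sg q) :=
              PA_const_mul (measurable_Sg q) _
          _ ≤ _ := by gcongr; exact hCG q _ _
  · have h := Top_le_of_PA' (κ := κ) (d := L) H (f := T (T (T f)))
      (B := B3 * ENNReal.ofReal CG +
        CT * (CT * (CT * N)) * ENNReal.ofReal CD * ENNReal.ofReal ε2)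
      (c := 0) (ξ := 0) (v := v) le_rfl le_rfl ?_
    · refine h.trans ?_
      rw [sub_zero]
      gcongr
      rw [hB3, hB2, hCTdef]
      have e1 : CN * L * CG * (2 / d0) * L * CG * ε4 = ε / 3 := by
        rw [hε4]; field_simp
      have e2 : CN * L * CG * (2 / d0) * L * ct ^ 2 * CD * ε3 = ε / 3 := by
        rw [hε3]; field_simp
      have e3 : CN * L * ct ^ 3 * CD * ε2 = ε / 3 := by
        rw [hε2]; field_simp
      have e1' : ENNReal.ofReal CN * ENNReal.ofReal L * ENNReal.ofReal CG *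
          ENNReal.ofReal (2 / d0) * ENNReal.ofReal L * ENNReal.ofReal CG * ENNReal.ofReal ε4 =
          ENNReal.ofReal (ε / 3) := by
        rw [← e1]
        simp only [ENNReal.ofReal_mul', hε40.le, hCG0.le, hL.le, (by positivity : 0 ≤ 2 / d0),
          hCN.le]
      have e2' : ENNReal.ofReal CN * ENNReal.ofReal L * ENNReal.ofReal CG *
          ENNReal.ofReal (2 / d0) * ENNReal.ofReal L * ENNReal.ofReal ct ^ 2 * ENNReal.ofReal CD *
            ENNReal.ofReal ε3 = ENNReal.ofReal (ε / 3) := by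
        rw [← e2, ← ENNReal.ofReal_pow hct0.le]
        simp only [ENNReal.ofReal_mul', hε30.le, hCG0.le, hL.le, (by positivity : 0 ≤ 2 / d0),
          hCN.le, hCD.le, (by positivity : 0 ≤ ct ^ 2)]
      have e3' : ENNReal.ofReal CN * ENNReal.ofReal L * ENNReal.ofReal ct ^ 3 * ENNReal.ofReal CD *
            ENNReal.ofReal ε2 = ENNReal.ofReal (ε / 3) := by
        rw [← e3, ← ENNReal.ofReal_pow hct0.le]
        simp only [ENNReal.ofReal_mul', hε20.le, hL.le, hCD.le, (by positivity : 0 ≤ ct ^ 3)]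
      have e4' : ENNReal.ofReal CN * ENNReal.ofReal L * ENNReal.ofReal CG *
          ENNReal.ofReal (2 / d0) * ENNReal.ofReal L * ENNReal.ofReal CG * ENNReal.ofReal C4 =
          ENNReal.ofReal C := by
        rw [hC]
        simp only [ENNReal.ofReal_mul', hC4.le, hCG0.le, hL.le, (by positivity : 0 ≤ 2 / d0)]
      have e5 : ENNReal.ofReal ε = ENNReal.ofReal (ε / 3) + ENNReal.ofReal (ε / 3) +
          ENNReal.ofReal (ε / 3) := by
        rw [← ENNReal.ofReal_add (by positivity) (by positivity),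
          ← ENNReal.ofReal_add (by positivity) (by positivity)]
        congr 1; ring
      rw [e5]
      nth_rw 1 [← e1']
      nth_rw 1 [← e2']
      nth_rw 1 [← e3']
      rw [← e4']
      apply le_of_eq
      ring
    · intro ω c1 h1 h2 hχ
      have hξ1 : ‖(0 : P2) - (c1 - 0) • bar v‖ ≤ L * R1 := by
        rw [zero_sub, norm_neg, sub_zero, norm_smul, Real.norm_eq_abs, abs_of_pos h1]
        have := (nbar_le v).trans hv
        gcongr
      obtain ⟨q, hq⟩ := H.Wsg c1 (0 - (c1 - 0) • bar v) h1.le h2.le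
      have hsplit := PA_le_split (κ := κ) (u := u ω c1 (0 - (c1 - 0) • bar v)) (v := v)
        (g := T (T (T f)) c1 (0 - (c1 - 0) • bar v)) (B := B3)
        (N := CT * (CT * (CT * N)) * ENNReal.ofReal CD)
        (measurableSet_bad1 R2 d0 ub) q ?_
      · refine hsplit.trans ?_
        gcongr
        · exact hCG q _ _
        · exact hbad1 q (vec3 ub.1 ub.2 1) (vec3 ub.1 ub.2 (-1)) _ v hv
      · intro z
        by_cases hz : z ∈ bad1 R2 d0 ub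
        · rw [indicator_of_mem hz]
          calc T (T (T f)) c1 (0 - (c1 - 0) • bar v) z
              ≤ CT * (CT * (CT * N)) * W c1 (0 - (c1 - 0) • bar v) z := hT3 _ _ _ h1.le
            _ ≤ CT * (CT * (CT * N)) * (ENNReal.ofReal CD * Sg q z) := by gcongr; exact hq z
            _ ≤ B3 + CT * (CT * (CT * N)) * ENNReal.ofReal CD * Sg q z := by
                rw [mul_assoc (CT * (CT * (CT * N)))]
                exact le_add_self
        · rw [indicator_of_notMem hz, mul_zero, add_zero]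
          exact hthird _ _ _ h1.le h2.le hξ1 hz

end Crest.Agent.R68.S
end
end

-- ▼ part R68/SDet
section

/-!
R68 / S (smoothing lemma): the third component of the second collision product as an explicit
rational function of `κ = 1/τ`; exact finite differences, gradient in the last variable,
Sherman–Morrison lower bound (helper60).

`zF z3 a m r p0 X κ = z3 - κ m - ⟨r - κ X, p0 + κ X⟩ / (a - κ m)`, where
`z̄₁ = z̄₀ + κ X`, `r = p - z̄₀`, `p0 = z̄₀ - ū₂`, `a = z₀₃ - σ₂`, `m = ⟨X, z̄₀ - ū₁⟩ / (z₀₃ - σ₁)`.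
-/

set_option autoImplicit false
open MeasureTheory Set
open scoped ENNReal

namespace Crest.Agent.R68.S

theorem abs_dot2_le {a b : P2} {A B : ℝ} (ha : ‖a‖ ≤ A) (hb : ‖b‖ ≤ B) :
    |dot2 a b| ≤ 2 * A * B := by
  have hA : 0 ≤ A := (norm_nonneg a).trans ha
  have ha1 : |a.1| ≤ A := (norm_fst_le a).trans ha
  have ha2 : |a.2| ≤ A := (norm_snd_le a).trans ha
  have hb1 : |b.1| ≤ B := (norm_fst_le b).trans hb
  have hb2 : |b.2| ≤ B := (norm_snd_le b).trans hb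
  unfold dot2
  calc |a.1 * b.1 + a.2 * b.2| ≤ |a.1| * |b.1| + |a.2| * |b.2| := by
        rw [← abs_mul, ← abs_mul]; exact abs_add_le _ _
    _ ≤ A * B + A * B := by gcongr
    _ = 2 * A * B := by ring

/-- third component of the second collision product as a function of `κ = 1/τ` -/
noncomputable def zF (z3 a m : ℝ) (r p0 X : P2) (κ : ℝ) : ℝ :=
  z3 - κ * m - dot2 (r - κ • X) (p0 + κ • X) / (a - κ * m)

/-- the `κ`-derivative of `zF` for constant fields -/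
noncomputable def zD (a m : ℝ) (r p0 X : P2) (κ : ℝ) : ℝ :=
  -m - ((dot2 X (r - p0) - 2 * κ * dot2 X X) * (a - κ * m) +
    dot2 (r - κ • X) (p0 + κ • X) * m) / (a - κ * m) ^ 2

/-- exact finite difference in `κ` for constant fields -/
theorem zF_sub {z3 a m : ℝ} {r p0 X : P2} {κ κ' : ℝ} (h : a - κ * m ≠ 0)
    (h' : a - κ' * m ≠ 0) :
    zF z3 a m r p0 X κ' - zF z3 a m r p0 X κ =
      (κ' - κ) * (zD a m r p0 X κ + (κ' - κ) * (dot2 X X / (a - κ' * m) -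
        m * ((dot2 X (r - p0) - 2 * κ * dot2 X X) * (a - κ * m) +
          dot2 (r - κ • X) (p0 + κ • X) * m) / ((a - κ * m) ^ 2 * (a - κ' * m)))) := by
  have hN' : dot2 (r - κ' • X) (p0 + κ' • X) = dot2 (r - κ • X) (p0 + κ • X) +
      (κ' - κ) * ((dot2 X (r - p0) - 2 * κ * dot2 X X) - (κ' - κ) * dot2 X X) := by
    unfold dot2
    simp only [Prod.fst_sub, Prod.snd_sub, Prod.fst_add, Prod.snd_add, Prod.smul_fst,
      Prod.smul_snd, smul_eq_mul]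
    ring
  have hB : a - κ' * m = (a - κ * m) - (κ' - κ) * m := by ring
  unfold zF zD
  rw [hN', hB]
  rw [hB] at h'
  generalize dot2 (r - κ • X) (p0 + κ • X) = N at *
  generalize dot2 X (r - p0) - 2 * κ * dot2 X X = Bk at *
  generalize dot2 X X = XX at *
  generalize hA : a - κ * m = A at *
  have hκ : κ' = κ + (κ' - κ) := by ring
  generalize κ' - κ = Δ at *
  subst hκ
  field_simp
  ring

/-- dependence on the first field (through `m`) -/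
theorem zF_sub_m {z3 a m m' : ℝ} {r p0 X : P2} {κ : ℝ} (h : a - κ * m ≠ 0)
    (h' : a - κ * m' ≠ 0) :
    zF z3 a m' r p0 X κ - zF z3 a m r p0 X κ =
      -(κ * (m' - m)) * (1 + dot2 (r - κ • X) (p0 + κ • X) / ((a - κ * m) * (a - κ * m'))) := by
  unfold zF
  field_simp
  ring



set_option maxHeartbeats 2000000 in
/-- antilipschitz estimate on short cells, with slowly varying first field -/
theorem zF_anti {z3 a m m' : ℝ} {r p0 X : P2} {τ τ' R d2 J0 e1 ℓ : ℝ}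
    (hR : 1 ≤ R) (hd2 : 0 < d2) (hd21 : d2 ≤ 1) (hJ0 : 0 < J0)
    (hτ : R⁻¹ ≤ τ) (hτ' : R⁻¹ ≤ τ') (hτR : τ ≤ R) (hτR' : τ' ≤ R)
    (hX : ‖X‖ ≤ R) (hr : ‖r‖ ≤ R) (hp0 : ‖p0‖ ≤ R) (ha : |a| ≤ R) (hm : |m| ≤ R)
    (hA : d2 ≤ |a - τ⁻¹ * m|) (hA' : d2 ≤ |a - τ'⁻¹ * m'|)
    (hmm : |m' - m| ≤ e1 * |τ - τ'|) (hJ : J0 * τ ^ 2 ≤ |zD a m r p0 X τ⁻¹|)
    (hℓ : |τ - τ'| ≤ ℓ) (hℓ0 : 4 * R * ℓ ≤ 1) (hℓ1 : 2 * R * e1 * ℓ ≤ d2)
    (hℓ2 : 416 * R ^ 10 * ℓ ≤ d2 ^ 3 * J0)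
    (he1 : 136 * R ^ 5 * e1 ≤ d2 ^ 2 * J0) :
    J0 / 2 * |τ - τ'| ≤
      |zF z3 a m r p0 X τ⁻¹ - zF z3 a m' r p0 X τ'⁻¹| := by
  have hR0 : 0 < R := by linarith
  have hτ0 : 0 < τ := lt_of_lt_of_le (by positivity) hτ
  have hτ0' : 0 < τ' := lt_of_lt_of_le (by positivity) hτ'
  set κ := τ⁻¹ with hκ
  set κ' := τ'⁻¹ with hκ'
  have hκR : κ ≤ R := by
    rw [hκ, inv_le_comm₀ hτ0 hR0]; exact hτ
  have hκR' : κ' ≤ R := by
    rw [hκ', inv_le_comm₀ hτ0' hR0]; exact hτ'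
  have hκ0 : 0 < κ := by positivity
  have hκ0' : 0 < κ' := by positivity
  have hκl : R⁻¹ ≤ κ := by
    rw [hκ]; gcongr
  have hκl' : R⁻¹ ≤ κ' := by
    rw [hκ']; gcongr
  set T : ℝ := |τ - τ'| with hT
  have hT0 : 0 ≤ T := abs_nonneg _
  rcases hT0.eq_or_lt with hT00 | hTpos
  · rw [← hT00, mul_zero]; exact abs_nonneg _
  have he1' : 0 ≤ e1 := by
    have := (abs_nonneg (m' - m)).trans hmm
    by_contra hcon
    push Not at hcon
    nlinarith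
  have hmmR : κ' * |m' - m| ≤ R * e1 * T := by
    calc κ' * |m' - m| ≤ R * (e1 * T) := by gcongr
      _ = R * e1 * T := by ring
  -- middle denominator
  have hAm : d2 / 2 ≤ |a - κ' * m| := by
    have h1 : |a - κ' * m'| ≤ |a - κ' * m| + κ' * |m' - m| := by
      have : a - κ' * m' = (a - κ' * m) - κ' * (m' - m) := by ring
      rw [this]
      calc |(a - κ' * m) - κ' * (m' - m)| ≤ |a - κ' * m| + |κ' * (m' - m)| := abs_sub _ _
        _ = |a - κ' * m| + κ' * |m' - m| := by rw [abs_mul, abs_of_pos hκ0']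
    have h2 : R * e1 * T ≤ d2 / 2 := by
      have : R * e1 * T ≤ R * e1 * ℓ := by gcongr
      linarith
    linarith
  have hA0 : a - κ * m ≠ 0 := by
    intro h0; rw [h0, abs_zero] at hA; linarith
  have hA0' : a - κ' * m' ≠ 0 := by
    intro h0; rw [h0, abs_zero] at hA'; linarith
  have hAm0 : a - κ' * m ≠ 0 := by
    intro h0; rw [h0, abs_zero] at hAm; linarith
  -- sizes
  have hN : ∀ k : ℝ, 0 < k → k ≤ R → |dot2 (r - k • X) (p0 + k • X)| ≤ 8 * R ^ 4 := by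
    intro k hk hkR
    have h1 : ‖k • X‖ ≤ R * R := by
      rw [norm_smul, Real.norm_eq_abs, abs_of_pos hk]
      gcongr
    have h2 : ‖r - k • X‖ ≤ R + R * R := (norm_sub_le _ _).trans (by gcongr)
    have h3 : ‖p0 + k • X‖ ≤ R + R * R := (norm_add_le _ _).trans (by gcongr)
    refine (abs_dot2_le h2 h3).trans ?_
    have h4 : R + R * R ≤ 2 * R ^ 2 := by nlinarith
    calc 2 * (R + R * R) * (R + R * R) ≤ 2 * (2 * R ^ 2) * (2 * R ^ 2) := by gcongr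
      _ = 8 * R ^ 4 := by ring
  have hXX : |dot2 X X| ≤ 2 * R ^ 2 := (abs_dot2_le hX hX).trans (by nlinarith)
  have hBk : |dot2 X (r - p0) - 2 * κ * dot2 X X| ≤ 8 * R ^ 3 := by
    have h1 : |dot2 X (r - p0)| ≤ 2 * R * (R + R) :=
      abs_dot2_le hX ((norm_sub_le _ _).trans (by gcongr))
    have h2 : |2 * κ * dot2 X X| ≤ 2 * R * (2 * R ^ 2) := by
      rw [abs_mul, abs_of_pos (by positivity : (0:ℝ) < 2 * κ)]
      gcongr
    have h3 : R ^ 2 ≤ R ^ 3 := pow_le_pow_right₀ hR (by norm_num)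
    calc |dot2 X (r - p0) - 2 * κ * dot2 X X| ≤ |dot2 X (r - p0)| + |2 * κ * dot2 X X| :=
          abs_sub _ _
      _ ≤ 2 * R * (R + R) + 2 * R * (2 * R ^ 2) := by gcongr
      _ ≤ 8 * R ^ 3 := by nlinarith
  have hAle : |a - κ * m| ≤ 2 * R ^ 2 := by
    calc |a - κ * m| ≤ |a| + |κ * m| := abs_sub _ _
      _ ≤ R + R * R := by
          rw [abs_mul, abs_of_pos hκ0]; gcongr
      _ ≤ 2 * R ^ 2 := by nlinarith
  -- remainder
  set Rem : ℝ := dot2 X X / (a - κ' * m) -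
        m * ((dot2 X (r - p0) - 2 * κ * dot2 X X) * (a - κ * m) +
          dot2 (r - κ • X) (p0 + κ • X) * m) / ((a - κ * m) ^ 2 * (a - κ' * m)) with hRem
  have hRemle : |Rem| ≤ 52 * R ^ 6 / d2 ^ 3 := by
    have h1 : |dot2 X X / (a - κ' * m)| ≤ 2 * R ^ 2 / (d2 / 2) := by
      rw [abs_div]; gcongr
    have hnum : |m * ((dot2 X (r - p0) - 2 * κ * dot2 X X) * (a - κ * m) +
          dot2 (r - κ • X) (p0 + κ • X) * m)| ≤ 24 * R ^ 6 := by
      rw [abs_mul]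
      have : |(dot2 X (r - p0) - 2 * κ * dot2 X X) * (a - κ * m) +
          dot2 (r - κ • X) (p0 + κ • X) * m| ≤ 8 * R ^ 3 * (2 * R ^ 2) + 8 * R ^ 4 * R := by
        refine (abs_add_le _ _).trans ?_
        rw [abs_mul, abs_mul]
        have := hN κ hκ0 hκR
        gcongr
      calc |m| * _ ≤ R * (8 * R ^ 3 * (2 * R ^ 2) + 8 * R ^ 4 * R) := by gcongr
        _ = 24 * R ^ 6 := by ring
    have h2 : |m * ((dot2 X (r - p0) - 2 * κ * dot2 X X) * (a - κ * m) +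
          dot2 (r - κ • X) (p0 + κ • X) * m) / ((a - κ * m) ^ 2 * (a - κ' * m))| ≤
        24 * R ^ 6 / (d2 ^ 2 * (d2 / 2)) := by
      rw [abs_div, abs_mul ((a - κ * m) ^ 2), abs_pow]
      gcongr
    have h3 : R ^ 2 ≤ R ^ 6 := pow_le_pow_right₀ hR (by norm_num)
    have h4 : d2 ^ 3 ≤ d2 := by
      calc d2 ^ 3 ≤ d2 ^ 1 := pow_le_pow_of_le_one hd2.le hd21 (by norm_num)
        _ = d2 := pow_one _
    calc |Rem| ≤ _ := abs_sub _ _
      _ ≤ 2 * R ^ 2 / (d2 / 2) + 24 * R ^ 6 / (d2 ^ 2 * (d2 / 2)) := add_le_add h1 h2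
      _ = 4 * R ^ 2 / d2 + 48 * R ^ 6 / d2 ^ 3 := by field_simp; ring
      _ ≤ 4 * R ^ 6 / d2 ^ 3 + 48 * R ^ 6 / d2 ^ 3 := by gcongr
      _ = 52 * R ^ 6 / d2 ^ 3 := by ring
  -- the two differences
  have hΔ : |κ' - κ| = κ * κ' * T := by
    have : κ' - κ = κ * κ' * (τ - τ') := by
      rw [hκ, hκ']; field_simp
    rw [this, abs_mul, abs_of_pos (by positivity)]
  have hΔle : |κ' - κ| ≤ R ^ 2 * T := by
    rw [hΔ]
    calc κ * κ' * T ≤ R * R * T := by gcongr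
      _ = R ^ 2 * T := by ring
  have hΔge : 3 / 4 * T ≤ |κ' - κ| * τ ^ 2 := by
    rw [hΔ]
    have h1 : κ * κ' * T * τ ^ 2 = (τ * κ') * T := by
      rw [hκ]; field_simp
    rw [h1]
    gcongr
    have h2 : τ' - τ ≤ ℓ := (neg_le_abs _).trans' (by linarith) |>.trans hℓ
    have h3 : κ' * τ' = 1 := by rw [hκ']; field_simp
    have h4 : κ' * (τ' - τ) ≤ R * ℓ := by
      rcases le_total 0 (τ' - τ) with h | h
      · exact mul_le_mul hκR' h2 h hR0.le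
      · have : κ' * (τ' - τ) ≤ 0 := mul_nonpos_of_nonneg_of_nonpos hκ0'.le h
        have h5 : 0 ≤ R * ℓ := mul_nonneg hR0.le (hT0.trans hℓ)
        linarith
    have h6 : τ * κ' = 1 - κ' * (τ' - τ) := by linarith [mul_comm τ κ', mul_sub κ' τ' τ]
    rw [h6]
    linarith
  have hℓ00 : 0 ≤ ℓ := hT0.trans hℓ
  have hfirst : 5 / 8 * J0 * T ≤ |zF z3 a m r p0 X κ' - zF z3 a m r p0 X κ| := by
    rw [zF_sub hA0 hAm0, abs_mul]
    have h2 : |zD a m r p0 X κ| ≤ |zD a m r p0 X κ + (κ' - κ) * Rem| + |(κ' - κ) * Rem| := by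
      have : zD a m r p0 X κ = (zD a m r p0 X κ + (κ' - κ) * Rem) - (κ' - κ) * Rem := by ring
      calc |zD a m r p0 X κ| = |(zD a m r p0 X κ + (κ' - κ) * Rem) - (κ' - κ) * Rem| := by
            rw [← this]
        _ ≤ _ := abs_sub _ _
    have h3 : |κ' - κ| * |(κ' - κ) * Rem| ≤ J0 / 8 * T := by
      rw [abs_mul]
      have h3 : |κ' - κ| ≤ R ^ 2 * ℓ := hΔle.trans (by gcongr)
      calc |κ' - κ| * (|κ' - κ| * |Rem|) ≤ (R ^ 2 * T) * ((R ^ 2 * ℓ) * (52 * R ^ 6 / d2 ^ 3)) := by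
            gcongr
        _ = (416 * R ^ 10 * ℓ) / (8 * d2 ^ 3) * T := by field_simp; ring
        _ ≤ (d2 ^ 3 * J0) / (8 * d2 ^ 3) * T := by gcongr
        _ = J0 / 8 * T := by field_simp
    have h4 : |κ' - κ| * |zD a m r p0 X κ| ≤
        |κ' - κ| * |zD a m r p0 X κ + (κ' - κ) * Rem| + |κ' - κ| * |(κ' - κ) * Rem| := by
      rw [← mul_add]
      gcongr
    have h5 : 3 / 4 * T * J0 ≤ |κ' - κ| * |zD a m r p0 X κ| := by
      calc 3 / 4 * T * J0 ≤ |κ' - κ| * τ ^ 2 * J0 := by gcongr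
        _ = |κ' - κ| * (J0 * τ ^ 2) := by ring
        _ ≤ |κ' - κ| * |zD a m r p0 X κ| := by gcongr
    nlinarith [h3, h4, h5]
  have hsecond : |zF z3 a m' r p0 X κ' - zF z3 a m r p0 X κ'| ≤ 17 * R ^ 5 * e1 / d2 ^ 2 * T := by
    rw [zF_sub_m hAm0 hA0', abs_mul, abs_neg, abs_mul, abs_of_pos hκ0']
    have h1 : |1 + dot2 (r - κ' • X) (p0 + κ' • X) / ((a - κ' * m) * (a - κ' * m'))| ≤
        1 + 8 * R ^ 4 / (d2 / 2 * d2) := by
      refine (abs_add_le _ _).trans ?_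
      rw [abs_one, abs_div, abs_mul]
      have := hN κ' hκ0' hκR'
      gcongr
    have h2 : 1 + 8 * R ^ 4 / (d2 / 2 * d2) ≤ 17 * R ^ 4 / d2 ^ 2 := by
      have h3 : (1 : ℝ) ≤ R ^ 4 / d2 ^ 2 := by
        rw [le_div_iff₀ (by positivity), one_mul]
        calc d2 ^ 2 ≤ 1 := pow_le_one₀ hd2.le hd21
          _ ≤ R ^ 4 := one_le_pow₀ hR
      calc 1 + 8 * R ^ 4 / (d2 / 2 * d2) ≤ R ^ 4 / d2 ^ 2 + 8 * R ^ 4 / (d2 / 2 * d2) := by
            gcongr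
        _ = 17 * R ^ 4 / d2 ^ 2 := by field_simp; ring
    calc κ' * |m' - m| * _ ≤ (R * e1 * T) * (17 * R ^ 4 / d2 ^ 2) := by
          have h5 := h1.trans h2
          gcongr
      _ = 17 * R ^ 5 * e1 / d2 ^ 2 * T := by ring
  have hfin : 17 * R ^ 5 * e1 / d2 ^ 2 ≤ J0 / 8 := by
    rw [div_le_div_iff₀ (by positivity) (by positivity)]
    nlinarith [he1]
  have htri : |zF z3 a m r p0 X κ' - zF z3 a m r p0 X κ| ≤
      |zF z3 a m r p0 X κ - zF z3 a m' r p0 X κ'| +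
        |zF z3 a m' r p0 X κ' - zF z3 a m r p0 X κ'| := by
    have : zF z3 a m r p0 X κ' - zF z3 a m r p0 X κ =
        -((zF z3 a m r p0 X κ - zF z3 a m' r p0 X κ') +
          (zF z3 a m' r p0 X κ' - zF z3 a m r p0 X κ')) := by ring
    rw [this, abs_neg]
    exact abs_add_le _ _
  have h8 : 17 * R ^ 5 * e1 / d2 ^ 2 * T ≤ J0 / 8 * T := by gcongr
  have h9 : J0 / 2 * T = 5 / 8 * J0 * T - J0 / 8 * T := by ring
  linarith

end Crest.Agent.R68.S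
end

-- ▼ part R68/SDet2
section

/-!
R68 / S (smoothing lemma): dependence of `zD` on the fields (helper60).
-/

set_option autoImplicit false
open MeasureTheory Set
open scoped ENNReal

namespace Crest.Agent.R68.S

theorem zF_N_le {R κ : ℝ} {r p0 X : P2} (hR : 1 ≤ R) (hκ0 : 0 < κ) (hκR : κ ≤ R)
    (hX : ‖X‖ ≤ R) (hr : ‖r‖ ≤ R) (hp0 : ‖p0‖ ≤ R) :
    |dot2 (r - κ • X) (p0 + κ • X)| ≤ 8 * R ^ 4 := by
  have hR0 : 0 < R := by linarith
  have h1 : ‖κ • X‖ ≤ R * R := by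
    rw [norm_smul, Real.norm_eq_abs, abs_of_pos hκ0]
    gcongr
  have h2 : ‖r - κ • X‖ ≤ R + R * R := (norm_sub_le _ _).trans (by gcongr)
  have h3 : ‖p0 + κ • X‖ ≤ R + R * R := (norm_add_le _ _).trans (by gcongr)
  refine (abs_dot2_le h2 h3).trans ?_
  have h4 : R + R * R ≤ 2 * R ^ 2 := by nlinarith
  calc 2 * (R + R * R) * (R + R * R) ≤ 2 * (2 * R ^ 2) * (2 * R ^ 2) := by gcongr
    _ = 8 * R ^ 4 := by ring

theorem zF_Bk_le {R κ : ℝ} {r p0 X : P2} (hR : 1 ≤ R) (hκ0 : 0 < κ) (hκR : κ ≤ R)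
    (hX : ‖X‖ ≤ R) (hr : ‖r‖ ≤ R) (hp0 : ‖p0‖ ≤ R) :
    |dot2 X (r - p0) - 2 * κ * dot2 X X| ≤ 8 * R ^ 3 := by
  have hR0 : 0 < R := by linarith
  have hXX : |dot2 X X| ≤ 2 * R ^ 2 := (abs_dot2_le hX hX).trans (by nlinarith)
  have h1 : |dot2 X (r - p0)| ≤ 2 * R * (R + R) :=
    abs_dot2_le hX ((norm_sub_le _ _).trans (by gcongr))
  have h2 : |2 * κ * dot2 X X| ≤ 2 * R * (2 * R ^ 2) := by
    rw [abs_mul, abs_of_pos (by positivity : (0:ℝ) < 2 * κ)]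
    gcongr
  have h3 : R ^ 2 ≤ R ^ 3 := pow_le_pow_right₀ hR (by norm_num)
  calc |dot2 X (r - p0) - 2 * κ * dot2 X X| ≤ |dot2 X (r - p0)| + |2 * κ * dot2 X X| :=
        abs_sub _ _
    _ ≤ 2 * R * (R + R) + 2 * R * (2 * R ^ 2) := by gcongr
    _ ≤ 8 * R ^ 3 := by nlinarith

theorem abs_zD_sub_le {a a' m m' κ R δ E : ℝ} {r p0 p0' X : P2} (hR : 1 ≤ R) (hδ : 0 < δ)
    (hδ1 : δ ≤ 1) (hκ0 : 0 < κ) (hκR : κ ≤ R)
    (hX : ‖X‖ ≤ R) (hr : ‖r‖ ≤ R) (hp0 : ‖p0‖ ≤ R) (hp0' : ‖p0'‖ ≤ R)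
    (ha : |a| ≤ R) (ha' : |a'| ≤ R) (hm : |m| ≤ R) (hm' : |m'| ≤ R)
    (hA : δ ≤ |a - κ * m|) (hA' : δ ≤ |a' - κ * m'|)
    (hEa : |a - a'| ≤ E) (hEm : |m - m'| ≤ E) (hEp : ‖p0 - p0'‖ ≤ E) :
    |zD a m r p0 X κ - zD a' m' r p0' X κ| ≤ 225 * R ^ 8 / δ ^ 4 * E := by
  have hR0 : 0 < R := by linarith
  have hE0 : 0 ≤ E := (abs_nonneg _).trans hEa
  set A := a - κ * m with hAdef
  set A' := a' - κ * m' with hAdef'
  set N := dot2 (r - κ • X) (p0 + κ • X) with hNdef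
  set N' := dot2 (r - κ • X) (p0' + κ • X) with hNdef'
  set B := dot2 X (r - p0) - 2 * κ * dot2 X X with hBdef
  set B' := dot2 X (r - p0') - 2 * κ * dot2 X X with hBdef'
  have hN : |N| ≤ 8 * R ^ 4 := zF_N_le hR hκ0 hκR hX hr hp0
  have hN' : |N'| ≤ 8 * R ^ 4 := zF_N_le hR hκ0 hκR hX hr hp0'
  have hB' : |B'| ≤ 8 * R ^ 3 := zF_Bk_le hR hκ0 hκR hX hr hp0'
  have hAle : ∀ x y : ℝ, |x| ≤ R → |y| ≤ R → |x - κ * y| ≤ 2 * R ^ 2 := by
    intro x y hx hy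
    calc |x - κ * y| ≤ |x| + |κ * y| := abs_sub _ _
      _ ≤ R + R * R := by
          rw [abs_mul, abs_of_pos hκ0]; gcongr
      _ ≤ 2 * R ^ 2 := by nlinarith
  have hAle1 := hAle a m ha hm
  have hAle2 := hAle a' m' ha' hm'
  have hA0 : A ≠ 0 := by
    intro h0; rw [h0, abs_zero] at hA; linarith
  have hA0' : A' ≠ 0 := by
    intro h0; rw [h0, abs_zero] at hA'; linarith
  have hdA : |A - A'| ≤ 2 * R * E := by
    have : A - A' = (a - a') - κ * (m - m') := by rw [hAdef, hAdef']; ring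
    rw [this]
    calc |(a - a') - κ * (m - m')| ≤ |a - a'| + |κ * (m - m')| := abs_sub _ _
      _ ≤ E + R * E := by rw [abs_mul, abs_of_pos hκ0]; gcongr
      _ ≤ 2 * R * E := by nlinarith
  have hdB : |B - B'| ≤ 2 * R * E := by
    have : B - B' = -dot2 X (p0 - p0') := by
      rw [hBdef, hBdef']; unfold dot2
      simp only [Prod.fst_sub, Prod.snd_sub]; ring
    rw [this, abs_neg]
    exact abs_dot2_le hX hEp
  have hdN : |N - N'| ≤ 4 * R ^ 2 * E := by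
    have : N - N' = dot2 (r - κ • X) (p0 - p0') := by
      rw [hNdef, hNdef']; unfold dot2
      simp only [Prod.fst_sub, Prod.snd_sub, Prod.fst_add, Prod.snd_add]; ring
    rw [this]
    have h1 : ‖κ • X‖ ≤ R * R := by
      rw [norm_smul, Real.norm_eq_abs, abs_of_pos hκ0]
      gcongr
    have h2 : ‖r - κ • X‖ ≤ R + R * R := (norm_sub_le _ _).trans (by gcongr)
    refine (abs_dot2_le h2 hEp).trans ?_
    have h4 : R + R * R ≤ 2 * R ^ 2 := by nlinarith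
    calc 2 * (R + R * R) * E ≤ 2 * (2 * R ^ 2) * E := by gcongr
      _ = 4 * R ^ 2 * E := by ring
  set P := B * A + N * m with hPdef
  set P' := B' * A' + N' * m' with hPdef'
  have hP' : |P'| ≤ 24 * R ^ 5 := by
    calc |P'| ≤ |B' * A'| + |N' * m'| := abs_add_le _ _
      _ ≤ 8 * R ^ 3 * (2 * R ^ 2) + 8 * R ^ 4 * R := by
          rw [abs_mul, abs_mul]; gcongr
      _ = 24 * R ^ 5 := by ring
  have hdP : |P - P'| ≤ 32 * R ^ 4 * E := by
    have : P - P' = (B - B') * A + B' * (A - A') + ((N - N') * m + N' * (m - m')) := by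
      rw [hPdef, hPdef']; ring
    rw [this]
    have h3 : R ^ 3 ≤ R ^ 4 := pow_le_pow_right₀ hR (by norm_num)
    calc |(B - B') * A + B' * (A - A') + ((N - N') * m + N' * (m - m'))|
        ≤ |(B - B') * A| + |B' * (A - A')| + (|(N - N') * m| + |N' * (m - m')|) :=
          (abs_add_le _ _).trans (add_le_add (abs_add_le _ _) (abs_add_le _ _))
      _ ≤ 2 * R * E * (2 * R ^ 2) + 8 * R ^ 3 * (2 * R * E) +
            (4 * R ^ 2 * E * R + 8 * R ^ 4 * E) := by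
          rw [abs_mul, abs_mul, abs_mul, abs_mul]; gcongr
      _ = (8 * R ^ 3 + 24 * R ^ 4) * E := by ring
      _ ≤ (8 * R ^ 4 + 24 * R ^ 4) * E := by gcongr
      _ = 32 * R ^ 4 * E := by ring
  have hinv : |1 / A ^ 2 - 1 / A' ^ 2| ≤ 8 * R ^ 3 * E / δ ^ 4 := by
    have : 1 / A ^ 2 - 1 / A' ^ 2 = -((A - A') * (A' + A)) / (A ^ 2 * A' ^ 2) := by
      field_simp; ring
    rw [this, abs_div, abs_neg, abs_mul, abs_mul (A ^ 2), abs_pow, abs_pow]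
    have h1 : |A' + A| ≤ 4 * R ^ 2 := by
      calc |A' + A| ≤ |A'| + |A| := abs_add_le _ _
        _ ≤ 2 * R ^ 2 + 2 * R ^ 2 := by gcongr
        _ = 4 * R ^ 2 := by ring
    calc |A - A'| * |A' + A| / (|A| ^ 2 * |A'| ^ 2) ≤ 2 * R * E * (4 * R ^ 2) / (δ ^ 2 * δ ^ 2) := by
          gcongr
      _ = 8 * R ^ 3 * E / δ ^ 4 := by ring
  have key : zD a m r p0 X κ - zD a' m' r p0' X κ =
      -(m - m') - ((P - P') / A ^ 2 + P' * (1 / A ^ 2 - 1 / A' ^ 2)) := by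
    unfold zD
    rw [← hAdef, ← hAdef', ← hBdef, ← hBdef', ← hNdef, ← hNdef', ← hPdef, ← hPdef']
    ring
  rw [key]
  have hδ4 : δ ^ 4 ≤ 1 := pow_le_one₀ hδ.le hδ1
  have hδ42 : δ ^ 4 ≤ δ ^ 2 := pow_le_pow_of_le_one hδ.le hδ1 (by norm_num)
  have hR8 : (1 : ℝ) ≤ R ^ 8 := one_le_pow₀ hR
  have hR48 : R ^ 4 ≤ R ^ 8 := pow_le_pow_right₀ hR (by norm_num)
  have t1 : |m - m'| ≤ R ^ 8 / δ ^ 4 * E := by
    have : 1 ≤ R ^ 8 / δ ^ 4 := by
      rw [le_div_iff₀ (by positivity)]; linarith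
    calc |m - m'| ≤ E := hEm
      _ = 1 * E := (one_mul _).symm
      _ ≤ R ^ 8 / δ ^ 4 * E := by gcongr
  have t2 : |(P - P') / A ^ 2| ≤ 32 * R ^ 8 / δ ^ 4 * E := by
    rw [abs_div, abs_pow]
    calc |P - P'| / |A| ^ 2 ≤ 32 * R ^ 4 * E / δ ^ 2 := by gcongr
      _ ≤ 32 * R ^ 8 * E / δ ^ 4 := by gcongr
      _ = 32 * R ^ 8 / δ ^ 4 * E := by ring
  have t3 : |P' * (1 / A ^ 2 - 1 / A' ^ 2)| ≤ 192 * R ^ 8 / δ ^ 4 * E := by
    rw [abs_mul]
    calc |P'| * |1 / A ^ 2 - 1 / A' ^ 2| ≤ 24 * R ^ 5 * (8 * R ^ 3 * E / δ ^ 4) := by gcongr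
      _ = 192 * R ^ 8 / δ ^ 4 * E := by ring
  calc |-(m - m') - ((P - P') / A ^ 2 + P' * (1 / A ^ 2 - 1 / A' ^ 2))|
      ≤ |-(m - m')| + |(P - P') / A ^ 2 + P' * (1 / A ^ 2 - 1 / A' ^ 2)| := abs_sub _ _
    _ ≤ |m - m'| + (|(P - P') / A ^ 2| + |P' * (1 / A ^ 2 - 1 / A' ^ 2)|) := by
        rw [abs_neg]
        gcongr
        exact abs_add_le _ _
    _ ≤ R ^ 8 / δ ^ 4 * E + (32 * R ^ 8 / δ ^ 4 * E + 192 * R ^ 8 / δ ^ 4 * E) := by gcongr
    _ = 225 * R ^ 8 / δ ^ 4 * E := by ring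

end Crest.Agent.R68.S
end

-- ▼ part R68/SMap
section

/-!
R68 / S (smoothing lemma), (M1)-(M4): the two-step map `Phi` in the frozen variables of `SDefs`
(helper60).
-/

set_option autoImplicit false
open MeasureTheory Set Metric
open scoped ENNReal NNReal
open Crest.AnalysisR.VecCalc3 Crest.AnalysisR.PDE.Boltzmann

noncomputable section

namespace Crest.Agent.R68.S

theorem norm_bar_le (v : R3) : ‖bar v‖ ≤ ‖v‖ := by
  unfold bar
  rw [Prod.norm_def]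
  exact max_le (PiLp.norm_apply_le v 0) (PiLp.norm_apply_le v 1)

theorem bar_sub (u v : R3) : bar (u - v) = bar u - bar v := by
  unfold bar; simp

theorem abs_coord_le (v : R3) (i : Fin 3) : |v i| ≤ ‖v‖ := PiLp.norm_apply_le v i

/-- the coefficient `m` of `SDet` -/
def mm (z0 u1 : R3) (X : P2) : ℝ := dot2 X (bar z0 - bar u1) / (z0 2 - u1 2)

theorem gz_eq (z0 u1 : R3) (X : P2) (κ : ℝ) :
    gz z0 u1 (bar z0 + κ • X) = z0 2 - κ * mm z0 u1 X := by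
  unfold gz mm dot2 bar
  simp only [Prod.fst_sub, Prod.snd_sub, Prod.fst_add, Prod.snd_add, Prod.smul_fst,
    Prod.smul_snd, smul_eq_mul]
  ring

theorem bar_gpt_60 (v u : R3) (p : P2) : bar (gpt v u p) = p := by
  unfold gpt bar; simp

theorem gpt_two (v u : R3) (p : P2) : gpt v u p 2 = gz v u p := by
  unfold gpt; simp

theorem gpt_zero (v u : R3) (p : P2) : gpt v u p 0 = p.1 := by
  unfold gpt; simp

theorem gpt_one (v u : R3) (p : P2) : gpt v u p 1 = p.2 := by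
  unfold gpt; simp

/-- `z₂,₃` is the function `zF` of `SDet` -/
theorem gz_gpt_eq (z0 u1 u2 : R3) (X p2 : P2) (κ : ℝ) :
    gz (gpt z0 u1 (bar z0 + κ • X)) u2 p2 =
      zF (z0 2) (z0 2 - u2 2) (mm z0 u1 X) (p2 - bar z0) (bar z0 - bar u2) X κ := by
  have h := gz_eq z0 u1 X κ
  unfold zF
  rw [show gz (gpt z0 u1 (bar z0 + κ • X)) u2 p2 = gz z0 u1 (bar z0 + κ • X) -
    (((bar z0 + κ • X).1 - u2 0) * (p2.1 - (bar z0 + κ • X).1) +
      ((bar z0 + κ • X).2 - u2 1) * (p2.2 - (bar z0 + κ • X).2)) /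
      (gz z0 u1 (bar z0 + κ • X) - u2 2) by
    conv_lhs => unfold gz
    rw [gpt_two, gpt_zero, gpt_one], h]
  have h1 : z0 2 - κ * mm z0 u1 X - u2 2 = z0 2 - u2 2 - κ * mm z0 u1 X := by ring
  rw [h1]
  congr 2
  unfold dot2 bar
  simp only [Prod.fst_sub, Prod.snd_sub, Prod.fst_add, Prod.snd_add, Prod.smul_fst,
    Prod.smul_snd, smul_eq_mul]
  ring

theorem AA_eq_60 (z0 a1 a2 : R3) (X : P2) (κ : ℝ) :
    AA z0 a1 a2 (bar z0 + κ • X) = z0 2 - a2 2 - κ * mm z0 a1 X := by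
  unfold AA
  rw [gz_eq]; ring

/-- `JJ` is the `τ`-slope of `zF`, `κ = 1/τ` -/
theorem JJ_eq (z0 a1 a2 : R3) (X p2 : P2) {τ : ℝ} (hτ : τ ≠ 0) (hb : z0 2 - a1 2 ≠ 0)
    (hA : AA z0 a1 a2 (bar z0 + τ⁻¹ • X) ≠ 0) :
    τ ^ 2 * JJ z0 a1 a2 (τ, bar z0 + τ⁻¹ • X, p2) =
      -zD (z0 2 - a2 2) (mm z0 a1 X) (p2 - bar z0) (bar z0 - bar a2) X τ⁻¹ := by
  unfold JJ zD
  simp only
  rw [← AA_eq_60]
  generalize hAA : AA z0 a1 a2 (bar z0 + τ⁻¹ • X) = A at *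
  unfold mm
  have e1 : bar z0 + τ⁻¹ • X - bar z0 = τ⁻¹ • X := by abel
  rw [e1]
  generalize hb' : z0 2 - a1 2 = b at *
  unfold dot2
  simp only [Prod.fst_sub, Prod.snd_sub, Prod.fst_add, Prod.snd_add, Prod.smul_fst,
    Prod.smul_snd, smul_eq_mul]
  field_simp
  ring

theorem mm_sub_le {z0 u u' : R3} {X : P2} {β Q B : ℝ} (hβ : 0 < β) (hb : β ≤ |z0 2 - u 2|)
    (hb' : β ≤ |z0 2 - u' 2|) (hQ : ‖bar z0 - bar u'‖ ≤ Q) (hX : ‖X‖ ≤ B) :
    |mm z0 u X - mm z0 u' X| ≤ (2 * B / β + 2 * B * Q / β ^ 2) * ‖u - u'‖ := by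
  have hB0 : 0 ≤ B := (norm_nonneg _).trans hX
  have hQ0 : 0 ≤ Q := (norm_nonneg _).trans hQ
  have h1 : z0 2 - u 2 ≠ 0 := by
    intro h0; rw [h0, abs_zero] at hb; linarith
  have h2 : z0 2 - u' 2 ≠ 0 := by
    intro h0; rw [h0, abs_zero] at hb'; linarith
  have key : mm z0 u X - mm z0 u' X = -dot2 X (bar (u - u')) / (z0 2 - u 2) +
      dot2 X (bar z0 - bar u') * (u - u') 2 / ((z0 2 - u 2) * (z0 2 - u' 2)) := by
    unfold mm
    have e1 : (u - u') 2 = (z0 2 - u' 2) - (z0 2 - u 2) := by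
      simp
    rw [e1]
    generalize z0 2 - u 2 = b at *
    generalize z0 2 - u' 2 = b' at *
    unfold dot2 bar
    simp only [Prod.fst_sub, Prod.snd_sub, PiLp.sub_apply]
    field_simp
    ring
  rw [key]
  have t1 : |-dot2 X (bar (u - u')) / (z0 2 - u 2)| ≤ 2 * B * ‖u - u'‖ / β := by
    rw [abs_div, abs_neg]
    have := abs_dot2_le hX (norm_bar_le (u - u'))
    gcongr
  have t2 : |dot2 X (bar z0 - bar u') * (u - u') 2 / ((z0 2 - u 2) * (z0 2 - u' 2))| ≤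
      2 * B * Q * ‖u - u'‖ / (β * β) := by
    rw [abs_div, abs_mul, abs_mul]
    have h3 := abs_dot2_le hX hQ
    have h4 := abs_coord_le (u - u') 2
    gcongr
  calc _ ≤ _ := abs_add_le _ _
    _ ≤ 2 * B * ‖u - u'‖ / β + 2 * B * Q * ‖u - u'‖ / (β * β) := add_le_add t1 t2
    _ = (2 * B / β + 2 * B * Q / β ^ 2) * ‖u - u'‖ := by ring

theorem mm_le {z0 u : R3} {X : P2} {β Q B : ℝ} (hβ : 0 < β) (hb : β ≤ |z0 2 - u 2|)
    (hQ : ‖bar z0 - bar u‖ ≤ Q) (hX : ‖X‖ ≤ B) : |mm z0 u X| ≤ 2 * B * Q / β := by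
  have hB0 : 0 ≤ B := (norm_nonneg _).trans hX
  have hQ0 : 0 ≤ Q := (norm_nonneg _).trans hQ
  unfold mm
  rw [abs_div]
  have := abs_dot2_le hX hQ
  gcongr

theorem exists_small {c t : ℝ} (hc : 0 ≤ c) (ht : 0 < t) :
    ∃ e : ℝ, 0 < e ∧ ∀ e', 0 ≤ e' → e' ≤ e → c * e' ≤ t := by
  refine ⟨t / (1 + c), by positivity, fun e' h0 h => ?_⟩
  calc c * e' ≤ c * (t / (1 + c)) := by gcongr
    _ = t * (c / (1 + c)) := by ring
    _ ≤ t * 1 := by
        gcongr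
        rw [div_le_one (by positivity)]
        linarith
    _ = t := mul_one t

theorem norm_bar_sub_le {z0 u a : R3} {R0 U e : ℝ} (hz : ‖z0‖ ≤ R0) (ha : ‖a‖ ≤ U)
    (hu : ‖u - a‖ ≤ e) (he : e ≤ 1) : ‖bar z0 - bar u‖ ≤ R0 + U + 1 := by
  have h1 : bar z0 - bar u = bar z0 - bar a - bar (u - a) := by
    rw [bar_sub]; abel
  rw [h1]
  calc ‖bar z0 - bar a - bar (u - a)‖ ≤ ‖bar z0‖ + ‖bar a‖ + ‖bar (u - a)‖ :=
        (norm_sub_le _ _).trans (by gcongr; exact norm_sub_le _ _)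
    _ ≤ R0 + U + 1 := by
        gcongr
        · exact (norm_bar_le _).trans hz
        · exact (norm_bar_le _).trans ha
        · exact (norm_bar_le _).trans (hu.trans he)

theorem abs_height_ge {z0 u a : R3} {b0 e : ℝ} (hb : b0 ≤ |z0 2 - a 2|)
    (hu : ‖u - a‖ ≤ e) (he : e ≤ b0 / 2) : b0 / 2 ≤ |z0 2 - u 2| := by
  have h1 : |z0 2 - a 2| ≤ |z0 2 - u 2| + |(u - a) 2| := by
    have : z0 2 - a 2 = (z0 2 - u 2) + (u - a) 2 := by simp
    rw [this]; exact abs_add_le _ _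
  have h2 := abs_coord_le (u - a) 2
  linarith

theorem abs_height_le {z0 u a : R3} {R0 U e : ℝ} (hz : ‖z0‖ ≤ R0) (ha : ‖a‖ ≤ U)
    (hu : ‖u - a‖ ≤ e) (he : e ≤ 1) : |z0 2 - u 2| ≤ R0 + U + 1 := by
  have h1 : z0 2 - u 2 = z0 2 - a 2 - (u - a) 2 := by simp
  rw [h1]
  calc |z0 2 - a 2 - (u - a) 2| ≤ |z0 2| + |a 2| + |(u - a) 2| :=
        (abs_sub _ _).trans (by gcongr; exact abs_sub _ _)
    _ ≤ R0 + U + 1 := by
        gcongr
        · exact (abs_coord_le _ _).trans hz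
        · exact (abs_coord_le _ _).trans ha
        · exact (abs_coord_le _ _).trans (hu.trans he)

set_option maxHeartbeats 2000000 in
/-- (M1): along `τ ↦ (τ, X/τ, p₂)` the third component is antilipschitz on short cells of `Good`,
for slowly varying fields. -/
theorem antiLoc {U R0 R L d d' b0 : ℝ} (hU : 0 < U) (hR0 : 0 < R0) (hR : 0 < R) (hL : 0 < L)
    (hd : 0 < d) (hd' : 0 < d') (hb0 : 0 < b0) :
    ∃ l e : ℝ, 0 < l ∧ 0 < e ∧ ∀ (z0 a1 a2 : R3), ‖z0‖ ≤ R0 → ‖a1‖ ≤ U → ‖a2‖ ≤ U →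
      b0 ≤ |z0 2 - a1 2| → ∀ (X p2 : P2) (τ τ' : ℝ),
      (τ, bar z0 + τ⁻¹ • X, p2) ∈ Good d d' L R z0 a1 a2 →
      (τ', bar z0 + τ'⁻¹ • X, p2) ∈ Good d d' L R z0 a1 a2 → |τ - τ'| ≤ l →
      ∀ (u1 u1' u2 : R3), ‖u1 - a1‖ ≤ e → ‖u1' - a1‖ ≤ e → ‖u2 - a2‖ ≤ e →
      ‖u1 - u1'‖ ≤ e * |τ - τ'| →
      d' / 4 * |τ - τ'| ≤ |gz (gpt z0 u1 (bar z0 + τ⁻¹ • X)) u2 p2 -
        gz (gpt z0 u1' (bar z0 + τ'⁻¹ • X)) u2 p2| := by
  set Q : ℝ := R0 + U + 1 with hQ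
  have hQ0 : 0 < Q := by positivity
  set Cm : ℝ := 2 * (L * R) / (b0 / 2) + 2 * (L * R) * Q / (b0 / 2) ^ 2 with hCm
  have hCm0 : 0 < Cm := by positivity
  set Rb : ℝ := 1 + L + d⁻¹ + L * R + 2 * R + Q + 2 * (L * R) * Q / (b0 / 2) with hRb
  have hRb1 : 1 ≤ Rb := by
    have : 0 < L + d⁻¹ + L * R + 2 * R + Q + 2 * (L * R) * Q / (b0 / 2) := by positivity
    linarith
  have hRbL : L ≤ Rb := by
    have : 0 < 1 + d⁻¹ + L * R + 2 * R + Q + 2 * (L * R) * Q / (b0 / 2) := by positivity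
    linarith
  have hRbd : d⁻¹ ≤ Rb := by
    have : 0 < 1 + L + L * R + 2 * R + Q + 2 * (L * R) * Q / (b0 / 2) := by positivity
    linarith
  have hRbLR : L * R ≤ Rb := by
    have : 0 < 1 + L + d⁻¹ + 2 * R + Q + 2 * (L * R) * Q / (b0 / 2) := by positivity
    linarith
  have hRb2R : 2 * R ≤ Rb := by
    have : 0 < 1 + L + d⁻¹ + L * R + Q + 2 * (L * R) * Q / (b0 / 2) := by positivity
    linarith
  have hRbQ : Q ≤ Rb := by
    have : 0 < 1 + L + d⁻¹ + L * R + 2 * R + 2 * (L * R) * Q / (b0 / 2) := by positivity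
    linarith
  have hRbm : 2 * (L * R) * Q / (b0 / 2) ≤ Rb := by
    have : 0 < 1 + L + d⁻¹ + L * R + 2 * R + Q := by positivity
    linarith
  have hRb0 : 0 < Rb := by linarith
  set δ : ℝ := min (d / 2) 1 with hδdef
  have hδ : 0 < δ := by positivity
  have hδ1 : δ ≤ 1 := min_le_right _ _
  have hδd : δ ≤ d / 2 := min_le_left _ _
  clear_value δ Rb Cm
  obtain ⟨e1, he10, he1⟩ := exists_small (c := 1 + d⁻¹ * Cm) (t := d / 2) (by positivity)
    (by positivity)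
  obtain ⟨e2, he20, he2⟩ := exists_small (c := 225 * Rb ^ 8 / δ ^ 4 * (1 + Cm))
    (t := d ^ 2 * d' / 2) (by positivity) (by positivity)
  obtain ⟨e3, he30, he3⟩ := exists_small (c := 136 * Rb ^ 5 * Cm)
    (t := δ ^ 2 * (d' / 2)) (by positivity) (by positivity)
  obtain ⟨l1, hl10, hl1⟩ := exists_small (c := 4 * Rb) (t := 1) (by positivity)
    (by positivity)
  obtain ⟨l2, hl20, hl2⟩ := exists_small (c := 2 * Rb * Cm) (t := δ) (by positivity)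
    (by positivity)
  obtain ⟨l3, hl30, hl3⟩ := exists_small (c := 416 * Rb ^ 10) (t := δ ^ 3 * (d' / 2))
    (by positivity) (by positivity)
  set e : ℝ := min 1 (min (b0 / 2) (min e1 (min e2 e3))) with he
  have he0 : 0 < e := by positivity
  have hee1 : e ≤ 1 := min_le_left _ _
  have heb : e ≤ b0 / 2 := (min_le_right _ _).trans (min_le_left _ _)
  have hE1 : e ≤ e1 := (min_le_right _ _).trans ((min_le_right _ _).trans (min_le_left _ _))
  have hE2 : e ≤ e2 := (min_le_right _ _).trans ((min_le_right _ _).trans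
    ((min_le_right _ _).trans (min_le_left _ _)))
  have hE3 : e ≤ e3 := (min_le_right _ _).trans ((min_le_right _ _).trans
    ((min_le_right _ _).trans (min_le_right _ _)))
  have hl0 : 0 < min l1 (min l2 l3) := by positivity
  have hll1 := hl1 _ hl0.le (min_le_left _ _)
  have hll2 := hl2 _ hl0.le ((min_le_right _ _).trans (min_le_left _ _))
  have hll3 := hl3 _ hl0.le ((min_le_right _ _).trans (min_le_right _ _))
  generalize min l1 (min l2 l3) = ll at hl0 hll1 hll2 hll3 ⊢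
  clear_value e
  refine ⟨ll, e, hl0, he0, ?_⟩
  intro z0 a1 a2 hz0 ha1 ha2 hb X p2 τ τ' hG hG' hττ u1 u1' u2 hu1 hu1' hu2 huu
  obtain ⟨hdτ, hτL, hdX, hXR, hdA, hpR, hJ⟩ := hG
  obtain ⟨hdτ', hτL', hdX', hXR', hdA', hpR', hJ'⟩ := hG'
  simp only [add_sub_cancel_left] at hdτ hτL hdX hXR hdA hpR hJ hdτ' hτL' hdX' hXR' hdA' hpR' hJ'
  have hτ0 : 0 < τ := lt_of_lt_of_le hd hdτ
  have hτ0' : 0 < τ' := lt_of_lt_of_le hd hdτ'
  have hκ0 : 0 < τ⁻¹ := by positivity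
  have hκ0' : 0 < τ'⁻¹ := by positivity
  have hκd : τ⁻¹ ≤ d⁻¹ := by gcongr
  have hκd' : τ'⁻¹ ≤ d⁻¹ := by gcongr
  have hX : ‖X‖ ≤ L * R := by
    have : X = τ • (τ⁻¹ • X) := by rw [smul_smul, mul_inv_cancel₀ hτ0.ne', one_smul]
    rw [this, norm_smul, Real.norm_eq_abs, abs_of_pos hτ0]
    gcongr
  -- heights
  have hbu1 := abs_height_ge hb hu1 heb
  have hbu1' := abs_height_ge hb hu1' heb
  have hba : b0 / 2 ≤ |z0 2 - a1 2| := by linarith
  have hqa : ‖bar z0 - bar a1‖ ≤ Q := norm_bar_sub_le hz0 ha1 (u := a1) (by simp) zero_le_one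
  have hqu1 : ‖bar z0 - bar u1‖ ≤ Q := norm_bar_sub_le hz0 ha1 hu1 hee1
  have hqu1' : ‖bar z0 - bar u1'‖ ≤ Q := norm_bar_sub_le hz0 ha1 hu1' hee1
  have hp0a : ‖bar z0 - bar a2‖ ≤ Q := norm_bar_sub_le hz0 ha2 (u := a2) (by simp) zero_le_one
  have hp0u : ‖bar z0 - bar u2‖ ≤ Q := norm_bar_sub_le hz0 ha2 hu2 hee1
  have hb2 : 0 < b0 / 2 := by positivity
  have hm := mm_le hb2 hbu1 hqu1 hX
  have hma := mm_le hb2 hba hqa hX
  have hmd0 := mm_sub_le hb2 hbu1 hba hqa hX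
  have hmd0' := mm_sub_le hb2 hbu1' hba hqa hX
  have hmm0' := mm_sub_le hb2 hbu1' hbu1 hqu1 hX
  rw [← hCm] at hmd0 hmd0' hmm0'
  rw [gz_gpt_eq, gz_gpt_eq]
  rw [AA_eq_60] at hdA hdA'
  have hz1 : z0 2 - a1 2 ≠ 0 := by
    intro h0; rw [h0, abs_zero] at hba; linarith
  have hAA0 : AA z0 a1 a2 (bar z0 + τ⁻¹ • X) ≠ 0 := by
    rw [AA_eq_60]; intro h0
    rw [h0, abs_zero] at hdA; linarith
  have hJeq := JJ_eq z0 a1 a2 X p2 hτ0.ne' hz1 hAA0
  generalize mm z0 u1 X = m at *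
  generalize mm z0 u1' X = m' at *
  generalize mm z0 a1 X = ma at *
  have hmle : |m| ≤ Rb := hm.trans hRbm
  have hmale : |ma| ≤ Rb := hma.trans hRbm
  have hmd : |m - ma| ≤ Cm * e := hmd0.trans (by gcongr)
  have hmd' : |m' - ma| ≤ Cm * e := hmd0'.trans (by gcongr)
  have hmm' : |m' - m| ≤ Cm * e * |τ - τ'| := by
    refine hmm0'.trans ?_
    rw [norm_sub_rev]
    calc Cm * ‖u1 - u1'‖ ≤ Cm * (e * |τ - τ'|) := by gcongr
      _ = Cm * e * |τ - τ'| := by ring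
  have ha2u : |(z0 2 - u2 2) - (z0 2 - a2 2)| ≤ e := by
    have : (z0 2 - u2 2) - (z0 2 - a2 2) = -(u2 - a2) 2 := by simp
    rw [this, abs_neg]
    exact (abs_coord_le _ _).trans hu2
  have hau : |z0 2 - u2 2| ≤ Rb := (abs_height_le hz0 ha2 hu2 hee1).trans hRbQ
  have haa : |z0 2 - a2 2| ≤ Rb :=
    (abs_height_le hz0 ha2 (u := a2) (by simp) zero_le_one).trans hRbQ
  -- denominators
  have hden : ∀ (σ : ℝ) (n : ℝ), 0 < σ → σ ≤ d⁻¹ → |n - ma| ≤ Cm * e →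
      d ≤ |z0 2 - a2 2 - σ * ma| → d / 2 ≤ |z0 2 - u2 2 - σ * n| := by
    intro σ n hσ hσd hn hA
    have h1 : z0 2 - a2 2 - σ * ma = (z0 2 - u2 2 - σ * n) -
        ((z0 2 - u2 2) - (z0 2 - a2 2)) + σ * (n - ma) := by ring
    have h2 : |z0 2 - a2 2 - σ * ma| ≤ |z0 2 - u2 2 - σ * n| +
        |(z0 2 - u2 2) - (z0 2 - a2 2)| + |σ * (n - ma)| := by
      conv_lhs => rw [h1]
      exact (abs_add_le _ _).trans (by gcongr; exact abs_sub _ _)
    have h3 : |σ * (n - ma)| ≤ d⁻¹ * (Cm * e) := by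
      rw [abs_mul, abs_of_pos hσ]; gcongr
    have h4 := he1 e he0.le hE1
    have h5 : (1 + d⁻¹ * Cm) * e = e + d⁻¹ * (Cm * e) := by ring
    linarith
  have hA1 : d / 2 ≤ |z0 2 - u2 2 - τ⁻¹ * m| := hden _ _ hκ0 hκd hmd hdA
  have hA2 : d / 2 ≤ |z0 2 - u2 2 - τ'⁻¹ * m'| := hden _ _ hκ0' hκd' hmd' hdA'
  -- slope
  have hrle : ‖p2 - bar z0‖ ≤ Rb := by
    have : p2 - bar z0 = (p2 - (bar z0 + τ⁻¹ • X)) + τ⁻¹ • X := by abel
    rw [this]
    calc _ ≤ _ := norm_add_le _ _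
      _ ≤ R + R := by gcongr
      _ = 2 * R := by ring
      _ ≤ Rb := hRb2R
  have hzDa : d' * τ ^ 2 ≤ |zD (z0 2 - a2 2) ma (p2 - bar z0) (bar z0 - bar a2) X τ⁻¹| := by
    have h1 : |zD (z0 2 - a2 2) ma (p2 - bar z0) (bar z0 - bar a2) X τ⁻¹| =
        τ ^ 2 * |JJ z0 a1 a2 (τ, bar z0 + τ⁻¹ • X, p2)| := by
      rw [← abs_neg, ← hJeq, abs_mul, abs_of_pos (by positivity)]
    rw [h1, mul_comm]
    gcongr
  have hzDd : |zD (z0 2 - u2 2) m (p2 - bar z0) (bar z0 - bar u2) X τ⁻¹ -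
      zD (z0 2 - a2 2) ma (p2 - bar z0) (bar z0 - bar a2) X τ⁻¹| ≤ d ^ 2 * d' / 2 := by
    have hCe : 0 ≤ Cm * e := by positivity
    have hEE0 : (1 + Cm) * e = e + Cm * e := by ring
    have hEE : e ≤ (1 + Cm) * e := by rw [hEE0]; linarith
    have hEE2 : Cm * e ≤ (1 + Cm) * e := by rw [hEE0]; linarith
    have h1 := abs_zD_sub_le (a := z0 2 - u2 2) (a' := z0 2 - a2 2) (m := m) (m' := ma)
      (κ := τ⁻¹) (R := Rb) (δ := δ) (E := (1 + Cm) * e) (r := p2 - bar z0)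
      (p0 := bar z0 - bar u2) (p0' := bar z0 - bar a2) (X := X) hRb1 hδ hδ1 hκ0
      (hκd.trans hRbd) (hX.trans hRbLR) hrle (hp0u.trans hRbQ) (hp0a.trans hRbQ) hau haa
      hmle hmale (hδd.trans hA1) (by linarith) (ha2u.trans hEE) (hmd.trans hEE2)
      (by
        have : bar z0 - bar u2 - (bar z0 - bar a2) = -bar (u2 - a2) := by rw [bar_sub]; abel
        rw [this, norm_neg]
        exact (norm_bar_le _).trans (hu2.trans hEE))
    refine h1.trans ?_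
    have h2 := he2 e he0.le hE2
    linarith [show 225 * Rb ^ 8 / δ ^ 4 * ((1 + Cm) * e) =
      225 * Rb ^ 8 / δ ^ 4 * (1 + Cm) * e by ring]
  have hzDu : d' / 2 * τ ^ 2 ≤ |zD (z0 2 - u2 2) m (p2 - bar z0) (bar z0 - bar u2) X τ⁻¹| := by
    have h1 : |zD (z0 2 - a2 2) ma (p2 - bar z0) (bar z0 - bar a2) X τ⁻¹| ≤
        |zD (z0 2 - u2 2) m (p2 - bar z0) (bar z0 - bar u2) X τ⁻¹| +
        |zD (z0 2 - u2 2) m (p2 - bar z0) (bar z0 - bar u2) X τ⁻¹ -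
      zD (z0 2 - a2 2) ma (p2 - bar z0) (bar z0 - bar a2) X τ⁻¹| := by
      have h3 : zD (z0 2 - a2 2) ma (p2 - bar z0) (bar z0 - bar a2) X τ⁻¹ =
          zD (z0 2 - u2 2) m (p2 - bar z0) (bar z0 - bar u2) X τ⁻¹ -
          (zD (z0 2 - u2 2) m (p2 - bar z0) (bar z0 - bar u2) X τ⁻¹ -
      zD (z0 2 - a2 2) ma (p2 - bar z0) (bar z0 - bar a2) X τ⁻¹) := by ring
      conv_lhs => rw [h3]
      exact abs_sub _ _
    have h2 : d ^ 2 * d' / 2 ≤ d' / 2 * τ ^ 2 := by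
      calc d ^ 2 * d' / 2 = d' / 2 * d ^ 2 := by ring
        _ ≤ d' / 2 * τ ^ 2 := by gcongr
    have h9 : d' * τ ^ 2 = d' / 2 * τ ^ 2 + d' / 2 * τ ^ 2 := by ring
    linarith
  -- conclusion
  have hτRb : Rb⁻¹ ≤ τ := by
    rw [inv_le_comm₀ hRb0 hτ0]; exact hκd.trans hRbd
  have hτRb' : Rb⁻¹ ≤ τ' := by
    rw [inv_le_comm₀ hRb0 hτ0']; exact hκd'.trans hRbd
  have hfin := zF_anti (z3 := z0 2) (a := z0 2 - u2 2) (m := m) (m' := m')
    (r := p2 - bar z0) (p0 := bar z0 - bar u2) (X := X) (τ := τ) (τ' := τ') (R := Rb)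
    (d2 := δ) (J0 := d' / 2) (e1 := Cm * e) (ℓ := ll) hRb1 hδ hδ1
    (by positivity) hτRb hτRb' (hτL.trans hRbL) (hτL'.trans hRbL) (hX.trans hRbLR) hrle
    (hp0u.trans hRbQ) hau hmle (hδd.trans hA1) (hδd.trans hA2) hmm' hzDu hττ hll1
    (by
      have : e ≤ 1 := hee1
      calc 2 * Rb * (Cm * e) * ll ≤ 2 * Rb * (Cm * 1) * ll := by
            gcongr
        _ = 2 * Rb * Cm * ll := by ring
        _ ≤ δ := hll2)
    hll3
    (by
      have := he3 e he0.le hE3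
      linarith [show 136 * Rb ^ 5 * (Cm * e) = 136 * Rb ^ 5 * Cm * e by ring])
  linarith [show d' / 2 / 2 * |τ - τ'| = d' / 4 * |τ - τ'| by ring]

theorem gz_eq1 (z0 u1 : R3) (p1 : P2) : gz z0 u1 p1 = z0 2 - mm z0 u1 (p1 - bar z0) := by
  have h := gz_eq z0 u1 (p1 - bar z0) 1
  rw [one_smul, add_sub_cancel, one_mul] at h
  exact h

/-- (M2): bounds for the two-step map near constant fields -/
theorem gz_bounds {U R0 R d b0 : ℝ} (hU : 0 < U) (hR0 : 0 < R0) (hR : 0 < R)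
    (hd : 0 < d) (hb0 : 0 < b0) :
    ∃ e C : ℝ, 0 < e ∧ 0 < C ∧ ∀ (z0 a1 a2 : R3), ‖z0‖ ≤ R0 → ‖a1‖ ≤ U → ‖a2‖ ≤ U →
      b0 ≤ |z0 2 - a1 2| → ∀ (u1 u2 : R3) (p1 : P2), ‖u1 - a1‖ ≤ e → ‖u2 - a2‖ ≤ e →
      ‖p1 - bar z0‖ ≤ R →
      |gz z0 u1 p1| ≤ C ∧ b0 / 2 ≤ |z0 2 - u1 2| ∧
      (d ≤ |AA z0 a1 a2 p1| → d / 2 ≤ |gz z0 u1 p1 - u2 2| ∧
        ∀ p2 : P2, ‖p2 - p1‖ ≤ R → |gz (gpt z0 u1 p1) u2 p2| ≤ C) := by
  set Q : ℝ := R0 + U + 1 with hQ
  have hQ0 : 0 < Q := by positivity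
  set Cm : ℝ := 2 * R / (b0 / 2) + 2 * R * Q / (b0 / 2) ^ 2 with hCm
  have hCm0 : 0 < Cm := by positivity
  set C1 : ℝ := R0 + 2 * R * Q / (b0 / 2) with hC1
  have hC10 : 0 < C1 := by positivity
  obtain ⟨e1, he10, he1⟩ := exists_small (c := 1 + Cm) (t := d / 2) (by positivity)
    (by positivity)
  refine ⟨min 1 (min (b0 / 2) e1), C1 + 2 * (R + Q) * R / (d / 2), by positivity,
    by positivity, ?_⟩
  intro z0 a1 a2 hz0 ha1 ha2 hb u1 u2 p1 hu1 hu2 hp1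
  have he0 : 0 < min 1 (min (b0 / 2) e1) := by positivity
  have hee1 : min 1 (min (b0 / 2) e1) ≤ 1 := min_le_left _ _
  have heb : min 1 (min (b0 / 2) e1) ≤ b0 / 2 := (min_le_right _ _).trans (min_le_left _ _)
  have hE1 := he1 _ he0.le ((min_le_right _ _).trans (min_le_right _ _))
  generalize min 1 (min (b0 / 2) e1) = e at he0 hee1 heb hE1 hu1 hu2
  have hb2 : 0 < b0 / 2 := by positivity
  have hbu1 := abs_height_ge hb hu1 heb
  have hba : b0 / 2 ≤ |z0 2 - a1 2| := by linarith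
  have hqa : ‖bar z0 - bar a1‖ ≤ Q := norm_bar_sub_le hz0 ha1 (u := a1) (by simp) zero_le_one
  have hqu1 : ‖bar z0 - bar u1‖ ≤ Q := norm_bar_sub_le hz0 ha1 hu1 hee1
  have hp0u : ‖bar z0 - bar u2‖ ≤ Q := norm_bar_sub_le hz0 ha2 hu2 hee1
  have hgz : |gz z0 u1 p1| ≤ C1 := by
    rw [gz_eq1]
    calc |z0 2 - mm z0 u1 (p1 - bar z0)| ≤ |z0 2| + |mm z0 u1 (p1 - bar z0)| := abs_sub _ _
      _ ≤ R0 + 2 * R * Q / (b0 / 2) := by
          gcongr
          · exact (abs_coord_le _ _).trans hz0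
          · exact mm_le hb2 hbu1 hqu1 hp1
  have hrest : 0 < 2 * (R + Q) * R / (d / 2) := by positivity
  refine ⟨hgz.trans (by linarith), hbu1, fun hA => ?_⟩
  have hA2 : d / 2 ≤ |gz z0 u1 p1 - u2 2| := by
    unfold AA at hA
    rw [gz_eq1] at hA ⊢
    have hmd := mm_sub_le (u := u1) (u' := a1) hb2 hbu1 hba hqa hp1
    rw [← hCm] at hmd
    have h1 : z0 2 - mm z0 a1 (p1 - bar z0) - a2 2 =
        (z0 2 - mm z0 u1 (p1 - bar z0) - u2 2) +
          (mm z0 u1 (p1 - bar z0) - mm z0 a1 (p1 - bar z0)) + (u2 - a2) 2 := by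
      simp only [PiLp.sub_apply]; ring
    rw [h1] at hA
    have h2 : |(u2 - a2) 2| ≤ e := (abs_coord_le _ _).trans hu2
    have h3 : |mm z0 u1 (p1 - bar z0) - mm z0 a1 (p1 - bar z0)| ≤ Cm * e :=
      hmd.trans (by gcongr)
    have h4 := abs_add_le ((z0 2 - mm z0 u1 (p1 - bar z0) - u2 2) +
          (mm z0 u1 (p1 - bar z0) - mm z0 a1 (p1 - bar z0))) ((u2 - a2) 2)
    have h5 := abs_add_le (z0 2 - mm z0 u1 (p1 - bar z0) - u2 2)
          (mm z0 u1 (p1 - bar z0) - mm z0 a1 (p1 - bar z0))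
    have h6 : (1 + Cm) * e = e + Cm * e := by ring
    linarith
  refine ⟨hA2, fun p2 hp2 => ?_⟩
  rw [gz_eq1, gpt_two, bar_gpt_60]
  have h7 : |mm (gpt z0 u1 p1) u2 (p2 - p1)| ≤ 2 * R * (R + Q) / (d / 2) := by
    apply mm_le (by positivity) _ _ hp2
    · rw [gpt_two]; exact hA2
    · rw [bar_gpt_60]
      have : p1 - bar u2 = (p1 - bar z0) + (bar z0 - bar u2) := by abel
      rw [this]
      exact (norm_add_le _ _).trans (by gcongr)
  calc |gz z0 u1 p1 - mm (gpt z0 u1 p1) u2 (p2 - p1)| ≤ |gz z0 u1 p1| +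
        |mm (gpt z0 u1 p1) u2 (p2 - p1)| := abs_sub _ _
    _ ≤ C1 + 2 * R * (R + Q) / (d / 2) := by gcongr
    _ = C1 + 2 * (R + Q) * R / (d / 2) := by ring

/-! ### (M3) measurability -/

section meas

variable {α : Type*} [MeasurableSpace α]

@[fun_prop]
theorem meas_bar {f : α → R3} (hf : Measurable f) : Measurable fun x => bar (f x) := by
  unfold bar; fun_prop

@[fun_prop]
theorem meas_dot2 {a b : α → P2} (ha : Measurable a) (hb : Measurable b) :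
    Measurable fun x => dot2 (a x) (b x) := by
  unfold dot2; fun_prop

@[fun_prop]
theorem meas_gz {f g : α → R3} {h : α → P2} (hf : Measurable f) (hg : Measurable g)
    (hh : Measurable h) : Measurable fun x => gz (f x) (g x) (h x) := by
  unfold gz; fun_prop

@[fun_prop]
theorem meas_gpt {f g : α → R3} {h : α → P2} (hf : Measurable f) (hg : Measurable g)
    (hh : Measurable h) : Measurable fun x => gpt (f x) (g x) (h x) := by
  unfold gpt; fun_prop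

@[fun_prop]
theorem meas_AA {f g k : α → R3} {h : α → P2} (hf : Measurable f) (hg : Measurable g)
    (hk : Measurable k) (hh : Measurable h) : Measurable fun x => AA (f x) (g x) (k x) (h x) := by
  unfold AA; fun_prop

@[fun_prop]
theorem meas_JJ {f g k : α → R3} {h : α → ℝ × P2 × P2} (hf : Measurable f) (hg : Measurable g)
    (hk : Measurable k) (hh : Measurable h) : Measurable fun x => JJ (f x) (g x) (k x) (h x) := by
  unfold JJ; fun_prop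

end meas

theorem measurableSet_Good (d d' L R : ℝ) :
    MeasurableSet {q : (R3 × R3 × R3) × (ℝ × P2 × P2) |
      q.2 ∈ Good d d' L R q.1.1 q.1.2.1 q.1.2.2} := by
  have e : {q : (R3 × R3 × R3) × (ℝ × P2 × P2) | q.2 ∈ Good d d' L R q.1.1 q.1.2.1 q.1.2.2} =
    {q | d ≤ q.2.1} ∩ ({q | q.2.1 ≤ L} ∩ ({q | d ≤ ‖q.2.2.1 - bar q.1.1‖} ∩
      ({q | ‖q.2.2.1 - bar q.1.1‖ ≤ R} ∩ ({q | d ≤ |AA q.1.1 q.1.2.1 q.1.2.2 q.2.2.1|} ∩
      ({q | ‖q.2.2.2 - q.2.2.1‖ ≤ R} ∩ {q | d' ≤ |JJ q.1.1 q.1.2.1 q.1.2.2 q.2|}))))) := rfl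
  rw [e]
  refine MeasurableSet.inter (measurableSet_le (by fun_prop) (by fun_prop)) ?_
  refine MeasurableSet.inter (measurableSet_le (by fun_prop) (by fun_prop)) ?_
  refine MeasurableSet.inter (measurableSet_le (by fun_prop) (by fun_prop)) ?_
  refine MeasurableSet.inter (measurableSet_le (by fun_prop) (by fun_prop)) ?_
  refine MeasurableSet.inter (measurableSet_le (by fun_prop) (by fun_prop)) ?_
  refine MeasurableSet.inter (measurableSet_le (by fun_prop) (by fun_prop)) ?_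
  exact measurableSet_le (by fun_prop) (by fun_prop)

theorem measurableSet_Good' (d d' L R : ℝ) (z0 a1 a2 : R3) :
    MeasurableSet (Good d d' L R z0 a1 a2) := by
  have h : Measurable fun θ : ℝ × P2 × P2 => ((z0, a1, a2), θ) := by fun_prop
  exact h (measurableSet_Good d d' L R)

/-- Lebesgue integral of `R3` with the horizontal variables outside -/
theorem lintegral_R3_bar {F : R3 → ℝ≥0∞} (hF : Measurable F) :
    ∫⁻ x, F x = ∫⁻ p : P2, ∫⁻ c : ℝ, F (vec3 p.1 p.2 c) := by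
  rw [lintegral_R3' hF, lintegral_lintegral_swap]
  have : Measurable fun q : ℝ × P2 => F (vec3 q.2.1 q.2.2 q.1) := hF.comp (by fun_prop)
  exact this.aemeasurable

end Crest.Agent.R68.S
end
end

-- ▼ part R68/SMapB
section
set_option autoImplicit false
open MeasureTheory Set Metric
open scoped ENNReal NNReal
open Crest.AnalysisR.VecCalc3 Crest.AnalysisR.PDE.Boltzmann

noncomputable section

namespace Crest.Agent.R68.S

/-- (M4): the two-step block in the frozen variables -/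
theorem block_le {U R0 R L d d' b0 : ℝ} (hU : 0 < U) (hR0 : 0 < R0) (hR : 0 < R) (hL : 0 < L)
    (hd : 0 < d) (hd' : 0 < d') (hb0 : 0 < b0) :
    ∃ e C : ℝ, 0 < e ∧ 0 < C ∧ ∀ (z0 a1 a2 : R3), ‖z0‖ ≤ R0 → ‖a1‖ ≤ U → ‖a2‖ ≤ U →
      b0 ≤ |z0 2 - a1 2| → ∀ G : Set (ℝ × P2 × P2), MeasurableSet G →
      G ⊆ Good d d' L R z0 a1 a2 → ∀ (x0 : P2) (u1 : ℝ → R3) (u2 : P2 → R3),
      Measurable u1 → Measurable u2 →
      (∀ θ ∈ G, ‖u1 θ.1 - a1‖ ≤ e) →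
      (∀ θ ∈ G, ‖u2 (x0 - θ.1 • (θ.2.1 - bar z0)) - a2‖ ≤ e) →
      (∀ θ ∈ G, ∀ θ' ∈ G, ‖u1 θ.1 - u1 θ'.1‖ ≤ e * |θ.1 - θ'.1|) →
      ∀ f : P2 → R3 → ℝ≥0∞, (Measurable fun q : P2 × R3 => f q.1 q.2) →
      ∫⁻ τ, ∫⁻ p1, ∫⁻ p2, G.indicator (fun θ => f (x0 - θ.1 • (θ.2.1 - bar z0))
          (gpt (gpt z0 (u1 θ.1) θ.2.1) (u2 (x0 - θ.1 • (θ.2.1 - bar z0))) θ.2.2)) (τ, p1, p2) ≤
        ENNReal.ofReal C * ∫⁻ ξ, ∫⁻ z, f ξ z := by
  obtain ⟨l, e, hl, he, h⟩ := antiLoc hU hR0 hR hL hd hd' hb0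
  refine ⟨e, (d ^ 2)⁻¹ * (ncell L l * (1 / (d' / 4))), he, by unfold ncell; positivity, ?_⟩
  intro z0 a1 a2 hz0 ha1 ha2 hb G hG hGood x0 u1 u2 hu1 hu2 hc1 hc2 hlip f hf
  -- translated good set
  have hanti : ∀ (X p : P2) (τ τ' : ℝ), (τ, bar z0 + τ⁻¹ • X, p) ∈ G →
      (τ', bar z0 + τ'⁻¹ • X, p) ∈ G → |τ - τ'| ≤ l →
      d' / 4 * |τ - τ'| ≤
        |gz (gpt z0 (u1 τ) (bar z0 + τ⁻¹ • X)) (u2 (x0 - τ • τ⁻¹ • X)) p -
          gz (gpt z0 (u1 τ') (bar z0 + τ'⁻¹ • X)) (u2 (x0 - τ' • τ'⁻¹ • X)) p| := by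
    intro X p τ τ' hq hq' hττ
    have hτ0 : 0 < τ := lt_of_lt_of_le hd (hGood hq).1
    have hτ0' : 0 < τ' := lt_of_lt_of_le hd (hGood hq').1
    have e1 : τ • τ⁻¹ • X = X := by rw [smul_smul, mul_inv_cancel₀ hτ0.ne', one_smul]
    have e2 : τ' • τ'⁻¹ • X = X := by rw [smul_smul, mul_inv_cancel₀ hτ0'.ne', one_smul]
    have c2 := hc2 (τ, bar z0 + τ⁻¹ • X, p) hq
    simp only [add_sub_cancel_left] at c2
    rw [e1] at c2
    rw [e1, e2]
    have g1 : (τ, bar z0 + τ⁻¹ • X, p) ∈ Good d d' L R z0 a1 a2 := hGood hq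
    have g2 : (τ', bar z0 + τ'⁻¹ • X, p) ∈ Good d d' L R z0 a1 a2 := hGood hq'
    have c1 : ‖u1 τ - a1‖ ≤ e := hc1 (τ, bar z0 + τ⁻¹ • X, p) hq
    have c1' : ‖u1 τ' - a1‖ ≤ e := hc1 (τ', bar z0 + τ'⁻¹ • X, p) hq'
    have c3 : ‖u1 τ - u1 τ'‖ ≤ e * |τ - τ'| :=
      hlip (τ, bar z0 + τ⁻¹ • X, p) hq (τ', bar z0 + τ'⁻¹ • X, p) hq'
    exact h z0 a1 a2 hz0 ha1 ha2 hb X p τ τ' g1 g2 hττ (u1 τ) (u1 τ') (u2 (x0 - X)) c1 c1' c2 c3
  have hG'm : MeasurableSet {q : ℝ × P2 × P2 | (q.1, bar z0 + q.2.1, q.2.2) ∈ G} := by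
    have : Measurable fun q : ℝ × P2 × P2 => (q.1, bar z0 + q.2.1, q.2.2) := by fun_prop
    exact this hG
  have hτG : ∀ q ∈ {q : ℝ × P2 × P2 | (q.1, bar z0 + q.2.1, q.2.2) ∈ G},
      q.1 ∈ Icc d (d + L) := by
    intro q hq
    have hq1 : (q.1, bar z0 + q.2.1, q.2.2) ∈ G := hq
    have := hGood hq1
    exact ⟨this.1, by linarith [this.2.1]⟩
  have hζm : Measurable fun q : ℝ × P2 × P2 =>
      gz (gpt z0 (u1 q.1) (bar z0 + q.2.1)) (u2 (x0 - q.1 • q.2.1)) q.2.2 := by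
    fun_prop
  have hfm : Measurable fun q : P2 × P2 × ℝ => f q.1 (vec3 q.2.1.1 q.2.1.2 q.2.2) :=
    hf.comp (by fun_prop : Measurable fun q : P2 × P2 × ℝ => (q.1, vec3 q.2.1.1 q.2.1.2 q.2.2))
  have hblock := lintegral_block_le (G := {q : ℝ × P2 × P2 | (q.1, bar z0 + q.2.1, q.2.2) ∈ G})
    hG'm (τ₀ := d) (L := L) (ℓ := l) (d := d' / 4)
    hd hl (by positivity) hτG
    (ζ := fun τ Z p => gz (gpt z0 (u1 τ) (bar z0 + Z)) (u2 (x0 - τ • Z)) p) hζm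
    (fun X p τ τ' hq hq' hττ => hanti X p τ τ' hq hq' hττ)
    (f := fun X p z => f X (vec3 p.1 p.2 z)) hfm x0
  have hfz : ∀ ξ, ∫⁻ z, f ξ z = ∫⁻ p : P2, ∫⁻ c : ℝ, f ξ (vec3 p.1 p.2 c) := fun ξ =>
    lintegral_R3_bar (hf.comp (by fun_prop : Measurable fun z : R3 => (ξ, z)))
  simp_rw [hfz]
  have hC : ENNReal.ofReal ((d ^ 2)⁻¹ * (ncell L l * (1 / (d' / 4)))) =
      ENNReal.ofReal (d ^ 2)⁻¹ * (ncell L l * ENNReal.ofReal (1 / (d' / 4))) := by
    rw [ENNReal.ofReal_mul (by positivity), ENNReal.ofReal_mul (by positivity),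
      ENNReal.ofReal_natCast]
  rw [hC]
  refine le_trans (le_of_eq ?_) hblock
  refine lintegral_congr fun τ => ?_
  rw [← lintegral_add_left_eq_self (μ := (volume : Measure P2)) _ (bar z0)]
  refine lintegral_congr fun Z => ?_
  refine lintegral_congr fun p => ?_
  by_cases hq : (τ, bar z0 + Z, p) ∈ G
  · have hq' : (τ, Z, p) ∈ {q : ℝ × P2 × P2 | (q.1, bar z0 + q.2.1, q.2.2) ∈ G} := hq
    rw [indicator_of_mem hq, indicator_of_mem hq']
    simp only [add_sub_cancel_left]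
    rfl
  · have hq' : (τ, Z, p) ∉ {q : ℝ × P2 × P2 | (q.1, bar z0 + q.2.1, q.2.2) ∈ G} := hq
    rw [indicator_of_notMem hq, indicator_of_notMem hq']

end Crest.Agent.R68.S
end
end

-- ▼ part R68/SSwap
section

/-! Row 68, Part S: reordering of a sixfold integral (helper262) -/

set_option autoImplicit false
open MeasureTheory Set
open scoped ENNReal

namespace Crest.Agent.R68.S

theorem swap6 {A B C D E G : Type*} [MeasurableSpace A] [MeasurableSpace B] [MeasurableSpace C]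
    [MeasurableSpace D] [MeasurableSpace E] [MeasurableSpace G]
    (α : Measure A) (β : Measure B) (γ : Measure C) (δ : Measure D) (η : Measure E) (θ : Measure G)
    [SFinite α] [SFinite β] [SFinite γ] [SFinite δ] [SFinite η] [SFinite θ]
    (F : A → B → C → D → E → G → ℝ≥0∞)
    (hF : Measurable fun q : A × B × C × D × E × G =>
      F q.1 q.2.1 q.2.2.1 q.2.2.2.1 q.2.2.2.2.1 q.2.2.2.2.2) :
    ∫⁻ a, ∫⁻ b, ∫⁻ c, ∫⁻ d, ∫⁻ e, ∫⁻ g, F a b c d e g ∂θ ∂η ∂δ ∂γ ∂β ∂α =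
      ∫⁻ d, ∫⁻ b, ∫⁻ e, ∫⁻ a, ∫⁻ c, ∫⁻ g, F a b c d e g ∂θ ∂γ ∂α ∂η ∂β ∂δ := by
  -- innermost integral
  set I : A → B → C → D → E → ℝ≥0∞ := fun a b c d e => ∫⁻ g, F a b c d e g ∂θ with hI
  have mI : Measurable fun q : A × B × C × D × E => I q.1 q.2.1 q.2.2.1 q.2.2.2.1 q.2.2.2.2 := by
    have h : Measurable fun q : (A × B × C × D × E) × G =>
        F q.1.1 q.1.2.1 q.1.2.2.1 q.1.2.2.2.1 q.1.2.2.2.2 q.2 :=
      hF.comp (f := fun q : (A × B × C × D × E) × G =>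
        (q.1.1, q.1.2.1, q.1.2.2.1, q.1.2.2.2.1, q.1.2.2.2.2, q.2)) (by fun_prop)
    exact h.lintegral_prod_right' (ν := θ)
  have hIF : ∀ a b c d e, I a b c d e = ∫⁻ g, F a b c d e g ∂θ := fun _ _ _ _ _ => rfl
  simp_rw [← hIF]
  clear_value I
  -- integral over `e`
  set J : A → B → C → D → ℝ≥0∞ := fun a b c d => ∫⁻ e, I a b c d e ∂η with hJ
  have mJ : Measurable fun q : A × B × C × D => J q.1 q.2.1 q.2.2.1 q.2.2.2 := by
    have h : Measurable fun q : (A × B × C × D) × E =>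
        I q.1.1 q.1.2.1 q.1.2.2.1 q.1.2.2.2 q.2 :=
      mI.comp (f := fun q : (A × B × C × D) × E =>
        (q.1.1, q.1.2.1, q.1.2.2.1, q.1.2.2.2, q.2)) (by fun_prop)
    exact h.lintegral_prod_right' (ν := η)
  have s1 : ∀ a b, ∫⁻ c, ∫⁻ d, J a b c d ∂δ ∂γ = ∫⁻ d, ∫⁻ c, J a b c d ∂γ ∂δ := by
    intro a b
    apply lintegral_lintegral_swap
    have h : Measurable fun q : C × D => J a b q.1 q.2 :=
      mJ.comp (f := fun q : C × D => (a, b, q.1, q.2)) (by fun_prop)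
    exact h.aemeasurable
  have mJ2 : Measurable fun q : A × B × D => ∫⁻ c, J q.1 q.2.1 c q.2.2 ∂γ := by
    have h : Measurable fun q : (A × B × D) × C => J q.1.1 q.1.2.1 q.2 q.1.2.2 :=
      mJ.comp (f := fun q : (A × B × D) × C => (q.1.1, q.1.2.1, q.2, q.1.2.2)) (by fun_prop)
    exact h.lintegral_prod_right' (ν := γ)
  have s2 : ∀ a, ∫⁻ b, ∫⁻ d, ∫⁻ c, J a b c d ∂γ ∂δ ∂β = ∫⁻ d, ∫⁻ b, ∫⁻ c, J a b c d ∂γ ∂β ∂δ := by
    intro a
    apply lintegral_lintegral_swap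
    have h : Measurable fun q : B × D => ∫⁻ c, J a q.1 c q.2 ∂γ :=
      mJ2.comp (f := fun q : B × D => (a, q.1, q.2)) (by fun_prop)
    exact h.aemeasurable
  have s3 : ∫⁻ a, ∫⁻ d, ∫⁻ b, ∫⁻ c, J a b c d ∂γ ∂β ∂δ ∂α =
      ∫⁻ d, ∫⁻ a, ∫⁻ b, ∫⁻ c, J a b c d ∂γ ∂β ∂α ∂δ := by
    apply lintegral_lintegral_swap
    have h : Measurable fun q : (A × D) × B => ∫⁻ c, J q.1.1 q.2 c q.1.2 ∂γ :=
      mJ2.comp (f := fun q : (A × D) × B => (q.1.1, q.2, q.1.2)) (by fun_prop)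
    have h2 := h.lintegral_prod_right' (ν := β)
    exact h2.aemeasurable
  have s4 : ∀ d, ∫⁻ a, ∫⁻ b, ∫⁻ c, J a b c d ∂γ ∂β ∂α = ∫⁻ b, ∫⁻ a, ∫⁻ c, J a b c d ∂γ ∂α ∂β := by
    intro d
    apply lintegral_lintegral_swap
    have h : Measurable fun q : A × B => ∫⁻ c, J q.1 q.2 c d ∂γ :=
      mJ2.comp (f := fun q : A × B => (q.1, q.2, d)) (by fun_prop)
    exact h.aemeasurable
  have s5 : ∀ a b d, ∫⁻ c, J a b c d ∂γ = ∫⁻ e, ∫⁻ c, I a b c d e ∂γ ∂η := by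
    intro a b d
    rw [hJ]
    apply lintegral_lintegral_swap
    have h : Measurable fun q : C × E => I a b q.1 d q.2 :=
      mI.comp (f := fun q : C × E => (a, b, q.1, d, q.2)) (by fun_prop)
    exact h.aemeasurable
  have s6 : ∀ b d, ∫⁻ a, ∫⁻ e, ∫⁻ c, I a b c d e ∂γ ∂η ∂α =
      ∫⁻ e, ∫⁻ a, ∫⁻ c, I a b c d e ∂γ ∂α ∂η := by
    intro b d
    apply lintegral_lintegral_swap
    have h : Measurable fun q : (A × E) × C => I q.1.1 b q.2 d q.1.2 :=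
      mI.comp (f := fun q : (A × E) × C => (q.1.1, b, q.2, d, q.1.2)) (by fun_prop)
    have h2 := h.lintegral_prod_right' (ν := γ)
    exact h2.aemeasurable
  calc ∫⁻ a, ∫⁻ b, ∫⁻ c, ∫⁻ d, J a b c d ∂δ ∂γ ∂β ∂α
      = ∫⁻ a, ∫⁻ b, ∫⁻ d, ∫⁻ c, J a b c d ∂γ ∂δ ∂β ∂α := by simp_rw [s1]
    _ = ∫⁻ a, ∫⁻ d, ∫⁻ b, ∫⁻ c, J a b c d ∂γ ∂β ∂δ ∂α := by simp_rw [s2]
    _ = ∫⁻ d, ∫⁻ a, ∫⁻ b, ∫⁻ c, J a b c d ∂γ ∂β ∂α ∂δ := s3
    _ = ∫⁻ d, ∫⁻ b, ∫⁻ a, ∫⁻ c, J a b c d ∂γ ∂α ∂β ∂δ := by simp_rw [s4]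
    _ = ∫⁻ d, ∫⁻ b, ∫⁻ a, ∫⁻ e, ∫⁻ c, I a b c d e ∂γ ∂η ∂α ∂β ∂δ := by simp_rw [s5]
    _ = ∫⁻ d, ∫⁻ b, ∫⁻ e, ∫⁻ a, ∫⁻ c, I a b c d e ∂γ ∂α ∂η ∂β ∂δ := by simp_rw [s6]

end Crest.Agent.R68.S
end

-- ▼ part R68/SBlockA
section

/-! Row 68, Part S: the two-step block, definitions and main term (helper262) -/

set_option autoImplicit false
open MeasureTheory Set Metric
open scoped ENNReal NNReal
open Crest.AnalysisR.VecCalc3 Crest.AnalysisR.PDE.Boltzmann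

noncomputable section

namespace Crest.Agent.R68.S

attribute [local irreducible] rot vec3

section

variable {Ω : Type} [MeasurableSpace Ω]

/-- joint measurability of `Top` -/
theorem measurable_Top {π : Measure Ω} [SFinite π] (κ L : ℝ) {χ : Ω → ℝ → P2 → ℝ≥0∞}
    {u : Ω → ℝ → P2 → R3} (hχ : Measurable fun q : Ω × ℝ × P2 => χ q.1 q.2.1 q.2.2)
    (hu : Measurable fun q : Ω × ℝ × P2 => u q.1 q.2.1 q.2.2) {f : ℝ → P2 → R3 → ℝ≥0∞}
    (hf : Measurable fun q : ℝ × P2 × R3 => f q.1 q.2.1 q.2.2) :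
    Measurable fun q : ℝ × P2 × R3 => Top π κ L χ u f q.1 q.2.1 q.2.2 := by
  have h1 := measurable_Aop_flight κ hu hf
  have hbar : Measurable bar := by unfold bar; fun_prop
  have h2 : Measurable fun q : (ℝ × P2 × R3) × ℝ × Ω =>
      χ q.2.2 q.2.1 (q.1.2.1 - (q.2.1 - q.1.1) • bar q.1.2.2) :=
    hχ.comp (f := fun q : (ℝ × P2 × R3) × ℝ × Ω =>
      (q.2.2, q.2.1, q.1.2.1 - (q.2.1 - q.1.1) • bar q.1.2.2)) (by fun_prop)
  have h3 := h2.mul h1
  have h4 : Measurable fun q : (ℝ × P2 × R3) × ℝ => ∫⁻ ω, χ ω q.2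
      (q.1.2.1 - (q.2 - q.1.1) • bar q.1.2.2) *
      Aop κ (u ω q.2 (q.1.2.1 - (q.2 - q.1.1) • bar q.1.2.2)) q.1.2.2
        (f q.2 (q.1.2.1 - (q.2 - q.1.1) • bar q.1.2.2)) ∂π := by
    have h5 := h3.comp (f := fun q : ((ℝ × P2 × R3) × ℝ) × Ω => (q.1.1, q.1.2, q.2))
      (by fun_prop)
    exact h5.lintegral_prod_right' (ν := π)
  have hS : MeasurableSet {q : (ℝ × P2 × R3) × ℝ | q.2 ∈ Ioo q.1.1 L} :=
    (measurableSet_lt (f := fun q : (ℝ × P2 × R3) × ℝ => q.1.1) (g := fun q => q.2)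
      (by fun_prop) (by fun_prop)).inter
      (measurableSet_lt (f := fun q : (ℝ × P2 × R3) × ℝ => q.2) (g := fun _ => L)
      (by fun_prop) (by fun_prop))
  have h7 := (h4.indicator hS).lintegral_prod_right' (ν := (volume : Measure ℝ))
  convert h7 using 1
  funext q
  unfold Top
  rw [← lintegral_indicator measurableSet_Ioo]
  refine lintegral_congr fun c1 => ?_
  by_cases hc : c1 ∈ Ioo q.1 L
  · rw [indicator_of_mem hc, indicator_of_mem (show (q, c1) ∈ _ from hc)]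
  · rw [indicator_of_notMem hc, indicator_of_notMem (show (q, c1) ∉ _ from hc)]

/-- domain of the main term, `θ = (τ, p₁, p₂)` -/
def GG (d d' L R : ℝ) (χ : Ω → ℝ → P2 → ℝ≥0∞) (z0 : R3) (ub : P2) (s : Ω → ℝ) (c' : ℝ) (ξ' : P2)
    (ω1 ω2 : Ω) (c2 : ℝ) : Set (ℝ × P2 × P2) :=
  {θ | θ ∈ Good d d' L R z0 (vec3 ub.1 ub.2 (s ω1)) (vec3 ub.1 ub.2 (s ω2)) ∧ c' ≤ c2 - θ.1 ∧
    χ ω1 (c2 - θ.1) (ξ' - (c2 - θ.1 - c') • bar z0) ≠ 0 ∧
    χ ω2 c2 (ξ' - (c2 - c') • bar z0 - θ.1 • (θ.2.1 - bar z0)) ≠ 0}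

/-- integrand of the main term -/
def FF (d d' L R : ℝ) (χ : Ω → ℝ → P2 → ℝ≥0∞) (u : Ω → ℝ → P2 → R3)
    (f : ℝ → P2 → R3 → ℝ≥0∞) (z0 : R3) (ub : P2) (s : Ω → ℝ) (c' : ℝ) (ξ' : P2)
    (c1 : ℝ) (ω1 : Ω) (p1 : P2) (c2 : ℝ) (ω2 : Ω) (p2 : P2) : ℝ≥0∞ :=
  (GG d d' L R χ z0 ub s c' ξ' ω1 ω2 c2).indicator
    (fun θ => f c2 (ξ' - (c2 - c') • bar z0 - θ.1 • (θ.2.1 - bar z0))
      (gpt (gpt z0 (u ω1 (c2 - θ.1) (ξ' - (c2 - θ.1 - c') • bar z0)) θ.2.1)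
        (u ω2 c2 (ξ' - (c2 - c') • bar z0 - θ.1 • (θ.2.1 - bar z0))) θ.2.2)) (c2 - c1, p1, p2)

theorem measurable_FF {d d' L R : ℝ} {χ : Ω → ℝ → P2 → ℝ≥0∞} {u : Ω → ℝ → P2 → R3}
    {f : ℝ → P2 → R3 → ℝ≥0∞} {z0 : R3} {ub : P2} {s : Ω → ℝ} {c' : ℝ} {ξ' : P2}
    (hχ : Measurable fun q : Ω × ℝ × P2 => χ q.1 q.2.1 q.2.2)
    (hu : Measurable fun q : Ω × ℝ × P2 => u q.1 q.2.1 q.2.2)
    (hf : Measurable fun q : ℝ × P2 × R3 => f q.1 q.2.1 q.2.2) (hs : Measurable s) :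
    Measurable fun q : ℝ × Ω × P2 × ℝ × Ω × P2 =>
      FF d d' L R χ u f z0 ub s c' ξ' q.1 q.2.1 q.2.2.1 q.2.2.2.1 q.2.2.2.2.1 q.2.2.2.2.2 := by
  set Q := ℝ × Ω × P2 × ℝ × Ω × P2 with hQ
  -- the parameters as functions of `q`
  have mθ : Measurable fun q : Q => (q.2.2.2.1 - q.1, q.2.2.1, q.2.2.2.2.2) := by fun_prop
  have ma1 : Measurable fun q : Q => vec3 ub.1 ub.2 (s q.2.1) := by fun_prop
  have ma2 : Measurable fun q : Q => vec3 ub.1 ub.2 (s q.2.2.2.2.1) := by fun_prop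
  have mx2 : Measurable fun q : Q => ξ' - (q.2.2.2.1 - c') • bar z0 -
      (q.2.2.2.1 - q.1) • (q.2.2.1 - bar z0) := by fun_prop
  have mx1 : Measurable fun q : Q => ξ' - (q.2.2.2.1 - (q.2.2.2.1 - q.1) - c') • bar z0 := by
    fun_prop
  have mχ1 : Measurable fun q : Q => χ q.2.1 (q.2.2.2.1 - (q.2.2.2.1 - q.1))
      (ξ' - (q.2.2.2.1 - (q.2.2.2.1 - q.1) - c') • bar z0) :=
    hχ.comp (f := fun q : Q => (q.2.1, q.2.2.2.1 - (q.2.2.2.1 - q.1),
      ξ' - (q.2.2.2.1 - (q.2.2.2.1 - q.1) - c') • bar z0)) (by fun_prop)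
  have mu1 : Measurable fun q : Q => u q.2.1 (q.2.2.2.1 - (q.2.2.2.1 - q.1))
      (ξ' - (q.2.2.2.1 - (q.2.2.2.1 - q.1) - c') • bar z0) :=
    hu.comp (f := fun q : Q => (q.2.1, q.2.2.2.1 - (q.2.2.2.1 - q.1),
      ξ' - (q.2.2.2.1 - (q.2.2.2.1 - q.1) - c') • bar z0)) (by fun_prop)
  have mχ2 : Measurable fun q : Q => χ q.2.2.2.2.1 q.2.2.2.1 (ξ' - (q.2.2.2.1 - c') • bar z0 -
      (q.2.2.2.1 - q.1) • (q.2.2.1 - bar z0)) :=
    hχ.comp (f := fun q : Q => (q.2.2.2.2.1, q.2.2.2.1, ξ' - (q.2.2.2.1 - c') • bar z0 -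
      (q.2.2.2.1 - q.1) • (q.2.2.1 - bar z0))) (by fun_prop)
  have mu2 : Measurable fun q : Q => u q.2.2.2.2.1 q.2.2.2.1 (ξ' - (q.2.2.2.1 - c') • bar z0 -
      (q.2.2.2.1 - q.1) • (q.2.2.1 - bar z0)) :=
    hu.comp (f := fun q : Q => (q.2.2.2.2.1, q.2.2.2.1, ξ' - (q.2.2.2.1 - c') • bar z0 -
      (q.2.2.2.1 - q.1) • (q.2.2.1 - bar z0))) (by fun_prop)
  have mF : Measurable fun q : Q => f q.2.2.2.1 (ξ' - (q.2.2.2.1 - c') • bar z0 -
      (q.2.2.2.1 - q.1) • (q.2.2.1 - bar z0))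
      (gpt (gpt z0 (u q.2.1 (q.2.2.2.1 - (q.2.2.2.1 - q.1))
      (ξ' - (q.2.2.2.1 - (q.2.2.2.1 - q.1) - c') • bar z0)) q.2.2.1)
        (u q.2.2.2.2.1 q.2.2.2.1 (ξ' - (q.2.2.2.1 - c') • bar z0 -
      (q.2.2.2.1 - q.1) • (q.2.2.1 - bar z0))) q.2.2.2.2.2) := by
    have hz : Measurable fun q : Q => gpt (gpt z0 (u q.2.1 (q.2.2.2.1 - (q.2.2.2.1 - q.1))
      (ξ' - (q.2.2.2.1 - (q.2.2.2.1 - q.1) - c') • bar z0)) q.2.2.1)
        (u q.2.2.2.2.1 q.2.2.2.1 (ξ' - (q.2.2.2.1 - c') • bar z0 -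
      (q.2.2.2.1 - q.1) • (q.2.2.1 - bar z0))) q.2.2.2.2.2 :=
      meas_gpt (meas_gpt measurable_const mu1 (by fun_prop)) mu2 (by fun_prop)
    exact hf.comp (f := fun q : Q => (q.2.2.2.1, ξ' - (q.2.2.2.1 - c') • bar z0 -
      (q.2.2.2.1 - q.1) • (q.2.2.1 - bar z0), gpt (gpt z0 (u q.2.1 (q.2.2.2.1 - (q.2.2.2.1 - q.1))
      (ξ' - (q.2.2.2.1 - (q.2.2.2.1 - q.1) - c') • bar z0)) q.2.2.1)
        (u q.2.2.2.2.1 q.2.2.2.1 (ξ' - (q.2.2.2.1 - c') • bar z0 -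
      (q.2.2.2.1 - q.1) • (q.2.2.1 - bar z0))) q.2.2.2.2.2))
      ((by fun_prop : Measurable fun q : Q => q.2.2.2.1).prodMk (mx2.prodMk hz))
  have hS1 : MeasurableSet {q : Q | (q.2.2.2.1 - q.1, q.2.2.1, q.2.2.2.2.2) ∈
      Good d d' L R z0 (vec3 ub.1 ub.2 (s q.2.1)) (vec3 ub.1 ub.2 (s q.2.2.2.2.1))} := by
    have h := measurableSet_Good d d' L R
    have h2 : Measurable fun q : Q => ((z0, vec3 ub.1 ub.2 (s q.2.1),
      vec3 ub.1 ub.2 (s q.2.2.2.2.1)), (q.2.2.2.1 - q.1, q.2.2.1, q.2.2.2.2.2)) :=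
      (measurable_const.prodMk (ma1.prodMk ma2)).prodMk mθ
    exact h2 h
  have hS2 : MeasurableSet {q : Q | c' ≤ q.2.2.2.1 - (q.2.2.2.1 - q.1)} :=
    measurableSet_le measurable_const (by fun_prop)
  have hS3 : MeasurableSet {q : Q | χ q.2.1 (q.2.2.2.1 - (q.2.2.2.1 - q.1))
      (ξ' - (q.2.2.2.1 - (q.2.2.2.1 - q.1) - c') • bar z0) ≠ 0} :=
    mχ1 (measurableSet_singleton (0 : ℝ≥0∞)).compl
  have hS4 : MeasurableSet {q : Q | χ q.2.2.2.2.1 q.2.2.2.1 (ξ' - (q.2.2.2.1 - c') • bar z0 -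
      (q.2.2.2.1 - q.1) • (q.2.2.1 - bar z0)) ≠ 0} :=
    mχ2 (measurableSet_singleton (0 : ℝ≥0∞)).compl
  have hS := hS1.inter (hS2.inter (hS3.inter hS4))
  have h := mF.indicator hS
  convert h using 1
  funext q
  unfold FF
  by_cases hq : (q.2.2.2.1 - q.1, q.2.2.1, q.2.2.2.2.2) ∈
      GG d d' L R χ z0 ub s c' ξ' q.2.1 q.2.2.2.2.1 q.2.2.2.1
  · rw [indicator_of_mem hq, indicator_of_mem]
    exact hq
  · rw [indicator_of_notMem hq, indicator_of_notMem]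
    exact hq

theorem measurableSet_GG {d d' L R : ℝ} {χ : Ω → ℝ → P2 → ℝ≥0∞}
    {z0 : R3} {ub : P2} {s : Ω → ℝ} {c' : ℝ} {ξ' : P2}
    (hχ : Measurable fun q : Ω × ℝ × P2 => χ q.1 q.2.1 q.2.2) (ω1 ω2 : Ω) (c2 : ℝ) :
    MeasurableSet (GG d d' L R χ z0 ub s c' ξ' ω1 ω2 c2) := by
  have mχ1 : Measurable fun θ : ℝ × P2 × P2 => χ ω1 (c2 - θ.1)
      (ξ' - (c2 - θ.1 - c') • bar z0) :=
    hχ.comp (f := fun θ : ℝ × P2 × P2 => (ω1, c2 - θ.1, ξ' - (c2 - θ.1 - c') • bar z0))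
      (by fun_prop)
  have mχ2 : Measurable fun θ : ℝ × P2 × P2 => χ ω2 c2 (ξ' - (c2 - c') • bar z0 -
      θ.1 • (θ.2.1 - bar z0)) :=
    hχ.comp (f := fun θ : ℝ × P2 × P2 => (ω2, c2, ξ' - (c2 - c') • bar z0 -
      θ.1 • (θ.2.1 - bar z0))) (by fun_prop)
  have hS2 : MeasurableSet {θ : ℝ × P2 × P2 | c' ≤ c2 - θ.1} :=
    measurableSet_le measurable_const (by fun_prop)
  exact (measurableSet_Good' d d' L R z0 _ _).inter
    (hS2.inter ((mχ1 (measurableSet_singleton (0 : ℝ≥0∞)).compl).inter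
      (mχ2 (measurableSet_singleton (0 : ℝ≥0∞)).compl)))

end

theorem norm_vec3_le (a b c : ℝ) : ‖vec3 a b c‖ ≤ |a| + |b| + |c| := by
  rw [norm_vec3]
  apply Real.sqrt_le_iff.2
  refine ⟨by positivity, ?_⟩
  nlinarith [sq_abs a, sq_abs b, sq_abs c, abs_nonneg a, abs_nonneg b, abs_nonneg c,
    mul_nonneg (abs_nonneg a) (abs_nonneg b), mul_nonneg (abs_nonneg a) (abs_nonneg c),
    mul_nonneg (abs_nonneg b) (abs_nonneg c)]

theorem norm_center_le {U : ℝ} {ub : P2} (h : ‖ub‖ ≤ U) {s : ℝ} (hs : s = 1 ∨ s = -1) :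
    ‖vec3 ub.1 ub.2 s‖ ≤ 2 * U + 1 := by
  have h1 : |ub.1| ≤ U := (norm_fst_le ub).trans h
  have h2 : |ub.2| ≤ U := (norm_snd_le ub).trans h
  have h3 : |s| = 1 := by rcases hs with rfl | rfl <;> simp
  have := norm_vec3_le ub.1 ub.2 s
  linarith

/-- the main term, for fixed labels and fixed `c₂` -/
theorem main_le {U R0 R L d d' b0 : ℝ} (hU : 0 < U) (hR0 : 0 < R0) (hR : 0 < R) (hL : 0 < L)
    (hd : 0 < d) (hd' : 0 < d') (hb0 : 0 < b0) :
    ∃ e ρ C : ℝ, 0 < e ∧ 0 < ρ ∧ 0 < C ∧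
    ∀ (Ω : Type) [MeasurableSpace Ω] (χ : Ω → ℝ → P2 → ℝ≥0∞)
    (u : Ω → ℝ → P2 → R3) (ub : P2) (s : Ω → ℝ), Near L U e ρ χ u ub s →
    Measurable (fun q : Ω × ℝ × P2 => χ q.1 q.2.1 q.2.2) →
    Measurable (fun q : Ω × ℝ × P2 => u q.1 q.2.1 q.2.2) →
    ∀ f : ℝ → P2 → R3 → ℝ≥0∞, Measurable (fun q : ℝ × P2 × R3 => f q.1 q.2.1 q.2.2) →
    ∀ (c' : ℝ) (ξ' : P2) (z0 : R3), 0 ≤ c' → c' ≤ L → ‖ξ'‖ ≤ R0 → ‖z0‖ ≤ R0 →
      b0 ≤ |z0 2 - 1| → b0 ≤ |z0 2 + 1| →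
    ∀ (ω1 ω2 : Ω) (c2 : ℝ), 0 ≤ c2 → c2 ≤ L →
    ∫⁻ c1, ∫⁻ p1, ∫⁻ p2, FF d d' L R χ u f z0 ub s c' ξ' c1 ω1 p1 c2 ω2 p2 ≤
      ENNReal.ofReal C * ∫⁻ ξ in closedBall (0 : P2) ρ, ∫⁻ z in closedBall (0 : R3) ρ, f c2 ξ z := by
  obtain ⟨e1, C1, he1, hC1, hblk⟩ := block_le (U := 2 * U + 1) (by positivity) hR0 hR hL hd hd' hb0
  obtain ⟨e2, C2, he2, hC2, hbd⟩ :=
    gz_bounds (U := 2 * U + 1) (R0 := R0) (R := R) (d := d) (b0 := b0) (by positivity) hR0 hR hd hb0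
  set e : ℝ := min (e1 / (1 + R0)) (min e1 e2) with he
  set ρ : ℝ := (R0 + L * R0 + L * R) + (2 * (R0 + 2 * R) + C2) with hρ
  have hρ0 : 0 < ρ := by positivity
  refine ⟨e, ρ, C1, by positivity, hρ0, hC1, ?_⟩
  intro Ω _ χ u ub s hN hχ hu f hf c' ξ' z0 hc' hc'L hξ' hz0 hb1 hb2 ω1 ω2 c2 hc2 hc2L
  set a1 : R3 := vec3 ub.1 ub.2 (s ω1) with ha1
  set a2 : R3 := vec3 ub.1 ub.2 (s ω2) with ha2
  have ha1n : ‖a1‖ ≤ 2 * U + 1 := norm_center_le hN.ubd (hN.s1 ω1)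
  have ha2n : ‖a2‖ ≤ 2 * U + 1 := norm_center_le hN.ubd (hN.s1 ω2)
  have hh : ∀ t : ℝ, (t = 1 ∨ t = -1) → b0 ≤ |z0 2 - t| := by
    rintro t (rfl | rfl)
    · exact hb1
    · rw [sub_neg_eq_add]; exact hb2
  have hb : b0 ≤ |z0 2 - a1 2| := by
    rw [ha1, vec3_two]; exact hh _ (hN.s1 ω1)
  have hzb : ‖bar z0‖ ≤ R0 := (nbar_le z0).trans hz0
  set x0 : P2 := ξ' - (c2 - c') • bar z0 with hx0
  set G : Set (ℝ × P2 × P2) := GG d d' L R χ z0 ub s c' ξ' ω1 ω2 c2 with hG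
  set u1 : ℝ → R3 := fun τ => u ω1 (c2 - τ) (ξ' - (c2 - τ - c') • bar z0) with hu1
  set u2 : P2 → R3 := fun y => u ω2 c2 y with hu2
  have mu1 : Measurable u1 := hu.comp
    (f := fun τ : ℝ => (ω1, c2 - τ, ξ' - (c2 - τ - c') • bar z0)) (by fun_prop)
  have mu2 : Measurable u2 := hu.comp (f := fun y : P2 => (ω2, c2, y)) (by fun_prop)
  -- positions
  have hpos1 : ∀ θ ∈ G, 0 ≤ c2 - θ.1 ∧ c2 - θ.1 ≤ L ∧
      ‖ξ' - (c2 - θ.1 - c') • bar z0‖ ≤ ρ := by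
    intro θ hθ
    obtain ⟨hg, h1, -, -⟩ := hθ
    obtain ⟨g1, g2, -⟩ := hg
    refine ⟨hc'.trans h1, by linarith, ?_⟩
    calc ‖ξ' - (c2 - θ.1 - c') • bar z0‖ ≤ ‖ξ'‖ + ‖(c2 - θ.1 - c') • bar z0‖ := norm_sub_le _ _
      _ ≤ R0 + L * R0 := by
          rw [norm_smul, Real.norm_eq_abs, abs_of_nonneg (by linarith)]
          gcongr
          linarith
      _ ≤ ρ := by
          rw [hρ]
          have : 0 < L * R := by positivity
          linarith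
  have hpos2 : ∀ θ ∈ G, ‖x0 - θ.1 • (θ.2.1 - bar z0)‖ ≤ ρ := by
    intro θ hθ
    obtain ⟨hg, h1, -, -⟩ := hθ
    obtain ⟨g1, g2, g3, g4, -⟩ := hg
    have hθ0 : 0 < θ.1 := lt_of_lt_of_le hd g1
    calc ‖x0 - θ.1 • (θ.2.1 - bar z0)‖ ≤ ‖x0‖ + ‖θ.1 • (θ.2.1 - bar z0)‖ := norm_sub_le _ _
      _ ≤ (‖ξ'‖ + ‖(c2 - c') • bar z0‖) + ‖θ.1 • (θ.2.1 - bar z0)‖ := by
          gcongr
          exact norm_sub_le _ _
      _ ≤ (R0 + L * R0) + L * R := by
          rw [norm_smul, norm_smul, Real.norm_eq_abs, Real.norm_eq_abs,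
            abs_of_nonneg (show 0 ≤ c2 - c' by linarith), abs_of_pos hθ0]
          gcongr
          linarith
      _ ≤ ρ := by rw [hρ]; linarith
  have hcl1 : ∀ θ ∈ G, ‖u1 θ.1 - a1‖ ≤ e := fun θ hθ =>
    hN.close ω1 _ _ (hpos1 θ hθ).1 (hpos1 θ hθ).2.1 (hpos1 θ hθ).2.2 hθ.2.2.1
  have hcl2 : ∀ θ ∈ G, ‖u2 (x0 - θ.1 • (θ.2.1 - bar z0)) - a2‖ ≤ e := fun θ hθ =>
    hN.close ω2 _ _ hc2 hc2L (hpos2 θ hθ) hθ.2.2.2
  have hee1 : e ≤ e1 := (min_le_right _ _).trans (min_le_left _ _)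
  have hee2 : e ≤ e2 := (min_le_right _ _).trans (min_le_right _ _)
  have hlip : ∀ θ ∈ G, ∀ θ' ∈ G, ‖u1 θ.1 - u1 θ'.1‖ ≤ e1 * |θ.1 - θ'.1| := by
    intro θ hθ θ' hθ'
    have h := hN.lip ω1 _ _ _ _ (hpos1 θ hθ).1 (hpos1 θ hθ).2.1 (hpos1 θ hθ).2.2 hθ.2.2.1
      (hpos1 θ' hθ').1 (hpos1 θ' hθ').2.1 (hpos1 θ' hθ').2.2 hθ'.2.2.1
    refine h.trans ?_
    have h1 : |c2 - θ.1 - (c2 - θ'.1)| = |θ.1 - θ'.1| := by
      rw [show c2 - θ.1 - (c2 - θ'.1) = -(θ.1 - θ'.1) by ring, abs_neg]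
    have h2 : ‖ξ' - (c2 - θ.1 - c') • bar z0 - (ξ' - (c2 - θ'.1 - c') • bar z0)‖ ≤
        |θ.1 - θ'.1| * R0 := by
      have h3 : ξ' - (c2 - θ.1 - c') • bar z0 - (ξ' - (c2 - θ'.1 - c') • bar z0) =
          (θ.1 - θ'.1) • bar z0 := by module
      rw [h3, norm_smul, Real.norm_eq_abs]
      gcongr
    rw [h1]
    have h4 : e * (1 + R0) ≤ e1 := by
      have : e ≤ e1 / (1 + R0) := min_le_left _ _
      rwa [le_div_iff₀ (by positivity)] at this
    have h5 : 0 ≤ e := by positivity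
    calc e * (|θ.1 - θ'.1| + ‖ξ' - (c2 - θ.1 - c') • bar z0 - (ξ' - (c2 - θ'.1 - c') • bar z0)‖)
        ≤ e * (|θ.1 - θ'.1| + |θ.1 - θ'.1| * R0) := by gcongr
      _ = (e * (1 + R0)) * |θ.1 - θ'.1| := by ring
      _ ≤ e1 * |θ.1 - θ'.1| := by gcongr
  -- the truncated density
  set ft : P2 → R3 → ℝ≥0∞ := fun ξ z => (closedBall (0 : P2) ρ).indicator
    (fun ξ => (closedBall (0 : R3) ρ).indicator (f c2 ξ) z) ξ with hft
  have mft : Measurable fun q : P2 × R3 => ft q.1 q.2 := by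
    have h1 : Measurable fun q : P2 × R3 => f c2 q.1 q.2 :=
      hf.comp (f := fun q : P2 × R3 => (c2, q.1, q.2)) (by fun_prop)
    have h2 : MeasurableSet ((closedBall (0 : P2) ρ) ×ˢ (closedBall (0 : R3) ρ)) :=
      measurableSet_closedBall.prod measurableSet_closedBall
    have h3 := h1.indicator h2
    convert h3 using 1
    funext q
    simp only [hft, indicator_apply, mem_prod]
    by_cases h1 : q.1 ∈ closedBall (0 : P2) ρ <;> by_cases h2 : q.2 ∈ closedBall (0 : R3) ρ <;>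
      simp [h1, h2]
  have hkey := hblk z0 a1 a2 hz0 ha1n ha2n hb G (measurableSet_GG hχ ω1 ω2 c2)
    (fun θ hθ => hθ.1) x0 u1 u2 mu1 mu2 (fun θ hθ => (hcl1 θ hθ).trans hee1)
    (fun θ hθ => (hcl2 θ hθ).trans hee1) hlip ft mft
  have hrhs : ∫⁻ ξ, ∫⁻ z, ft ξ z =
      ∫⁻ ξ in closedBall (0 : P2) ρ, ∫⁻ z in closedBall (0 : R3) ρ, f c2 ξ z := by
    rw [← lintegral_indicator measurableSet_closedBall]
    refine lintegral_congr fun ξ => ?_
    simp only [hft]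
    by_cases h1 : ξ ∈ closedBall (0 : P2) ρ
    · simp only [indicator_of_mem h1]
      rw [lintegral_indicator measurableSet_closedBall]
    · simp only [indicator_of_notMem h1, lintegral_zero]
  rw [hrhs] at hkey
  refine le_trans ?_ hkey
  -- change of variables `τ = c₂ - c₁`
  set Ψ : ℝ → ℝ≥0∞ := fun τ => ∫⁻ p1, ∫⁻ p2, G.indicator
    (fun θ => ft (x0 - θ.1 • (θ.2.1 - bar z0))
      (gpt (gpt z0 (u1 θ.1) θ.2.1) (u2 (x0 - θ.1 • (θ.2.1 - bar z0))) θ.2.2)) (τ, p1, p2) with hΨ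
  rw [← lintegral_sub_left_eq_self Ψ c2]
  refine lintegral_mono fun c1 => lintegral_mono fun p1 => lintegral_mono fun p2 => ?_
  unfold FF
  by_cases hmem : (c2 - c1, p1, p2) ∈ G
  · rw [indicator_of_mem hmem, indicator_of_mem hmem]
    have h1 := hpos2 _ hmem
    have h2 := hcl1 _ hmem
    have h3 := hcl2 _ hmem
    simp only at h1 h2 h3
    obtain ⟨g1, g2, g3, g4, g5, g6, g7⟩ := hmem.1
    simp only at g1 g2 g3 g4 g5 g6 g7
    have hz := hbd z0 a1 a2 hz0 ha1n ha2n hb (u1 (c2 - c1))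
      (u2 (x0 - (c2 - c1) • (p1 - bar z0))) p1 (h2.trans hee2) (h3.trans hee2) g4
    have hz2 := (hz.2.2 g5).2 p2 g6
    have hp2 : ‖p2‖ ≤ R0 + 2 * R := by
      calc ‖p2‖ = ‖(p2 - p1) + (p1 - bar z0) + bar z0‖ := by congr 1; abel
        _ ≤ ‖p2 - p1‖ + ‖p1 - bar z0‖ + ‖bar z0‖ := norm_add₃_le
        _ ≤ R0 + 2 * R := by linarith
    have hn : ‖gpt (gpt z0 (u1 (c2 - c1)) p1)
        (u2 (x0 - (c2 - c1) • (p1 - bar z0))) p2‖ ≤ ρ := by
      unfold gpt at hz2 ⊢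
      refine (norm_vec3_le _ _ _).trans ?_
      have k1 : |p2.1| ≤ ‖p2‖ := norm_fst_le p2
      have k2 : |p2.2| ≤ ‖p2‖ := norm_snd_le p2
      have k3 : 0 < R0 + L * R0 + L * R := by positivity
      rw [hρ]
      linarith
    simp only [hft]
    rw [indicator_of_mem (mem_closedBall_zero_iff.2 h1),
      indicator_of_mem (mem_closedBall_zero_iff.2 hn)]
  · rw [indicator_of_notMem hmem]
    exact zero_le

end Crest.Agent.R68.S
end
end

-- ▼ part R68/SBad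
section

/-!
# Row 68, Part S: the complement of the good set costs `eps` (helper60)
-/

set_option autoImplicit false
open MeasureTheory Set Metric
open scoped ENNReal Real
open Crest.AnalysisR.VecCalc3 Crest.AnalysisR.PDE.Boltzmann

namespace Crest.Agent.R68.S

theorem small2_ker {M : ℕ} {κ eps δ : ℝ} (hκ : 0 ≤ κ)
    (h : ∀ (q : Fin M → P2) (S : Set P2), volume S ≤ ENNReal.ofReal δ →
      ∫⁻ p in S, Sg2 q p ≤ ENNReal.ofReal eps)
    (q : Fin M → P2) (y : P2) (S : Set P2) (hS : volume S ≤ ENNReal.ofReal δ) :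
    ∫⁻ p in S, ker2 κ y p * Sg2 q p ≤ ENNReal.ofReal eps := by
  refine (lintegral_mono fun p => ?_).trans (h q S hS)
  calc ker2 κ y p * Sg2 q p ≤ 1 * Sg2 q p := mul_le_mul' (ker2_le_one hκ y p) le_rfl
    _ = Sg2 q p := one_mul _

/-- (B1) first step: the complement of the good `p₁`. -/
theorem ZG_small (M : ℕ) {κ eps b0 : ℝ} (hκ : 0 < κ) (heps : 0 < eps) (hb0 : 0 < b0) :
    ∃ R : ℝ, 0 < R ∧ ∀ dmax : ℝ, 0 < dmax → ∃ d : ℝ, 0 < d ∧ d ≤ dmax ∧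
      ∀ (z0 a1 ap am : R3) (q : Fin M → P2),
        b0 ≤ |z0 2 - a1 2| → b0 ≤ |z0 2 - ap 2| → b0 ≤ |z0 2 - am 2| →
        ∫⁻ p in {p : P2 | ¬ (d ≤ ‖p - bar z0‖ ∧ ‖p - bar z0‖ ≤ R ∧
            d ≤ |AA z0 a1 ap p| ∧ d ≤ |AA z0 a1 am p|)},
          ker2 κ (bar z0) p * Sg2 q p ≤ ENNReal.ofReal eps := by
  obtain ⟨R, hR, hT⟩ := tail2 M hκ (eps := eps / 4) (by positivity)
  obtain ⟨δ, hδ, hS⟩ := small2 M (eps := eps / 4) (by positivity)
  obtain ⟨C, hC, hA⟩ := volume_AA_strip R b0 hR hb0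
  refine ⟨R, hR, fun dmax hdmax => ?_⟩
  refine ⟨min dmax (min (√δ / 2) (δ / C)), by positivity, min_le_left _ _, ?_⟩
  set d : ℝ := min dmax (min (√δ / 2) (δ / C)) with hd
  have hd0 : 0 < d := by positivity
  have hd1 : d ≤ √δ / 2 := (min_le_right _ _).trans (min_le_left _ _)
  have hd2 : d ≤ δ / C := (min_le_right _ _).trans (min_le_right _ _)
  have h4d : 4 * d ^ 2 ≤ δ := by
    have h1 : d ^ 2 ≤ (√δ / 2) ^ 2 := pow_le_pow_left₀ hd0.le hd1 2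
    have h2 := Real.sq_sqrt hδ.le
    nlinarith
  have hCd : C * d ≤ δ := by
    have := (le_div_iff₀ hC).1 hd2
    linarith
  intro z0 a1 ap am q h1 hp hm
  have hsub : {p : P2 | ¬ (d ≤ ‖p - bar z0‖ ∧ ‖p - bar z0‖ ≤ R ∧
            d ≤ |AA z0 a1 ap p| ∧ d ≤ |AA z0 a1 am p|)}
      ⊆ ({p : P2 | R ≤ ‖p - bar z0‖} ∪ {p : P2 | ‖p - bar z0‖ < d}) ∪
        ({p : P2 | ‖p - bar z0‖ ≤ R ∧ |AA z0 a1 ap p| < d} ∪
          {p : P2 | ‖p - bar z0‖ ≤ R ∧ |AA z0 a1 am p| < d}) := by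
    intro p hp'
    rw [mem_ofPred_eq] at hp'
    by_cases hR1 : R ≤ ‖p - bar z0‖
    · exact Or.inl (Or.inl hR1)
    push Not at hR1
    by_cases hR2 : ‖p - bar z0‖ < d
    · exact Or.inl (Or.inr hR2)
    push Not at hR2
    by_cases hR3 : |AA z0 a1 ap p| < d
    · exact Or.inr (Or.inl ⟨hR1.le, hR3⟩)
    push Not at hR3
    by_cases hR4 : |AA z0 a1 am p| < d
    · exact Or.inr (Or.inr ⟨hR1.le, hR4⟩)
    push Not at hR4
    exact absurd ⟨hR2, hR1.le, hR3, hR4⟩ hp'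
  refine (lintegral_mono_set hsub).trans ?_
  refine (lintegral_union_le _ _ _).trans ?_
  refine (add_le_add (lintegral_union_le _ _ _) (lintegral_union_le _ _ _)).trans ?_
  have e1 := hT q (bar z0)
  have e2 := small2_ker hκ.le hS q (bar z0) {p : P2 | ‖p - bar z0‖ < d}
    ((volume_ball2_le (bar z0) hd0.le).trans (ENNReal.ofReal_le_ofReal h4d))
  have e3 := small2_ker hκ.le hS q (bar z0) {p : P2 | ‖p - bar z0‖ ≤ R ∧ |AA z0 a1 ap p| < d}
    ((hA z0 a1 ap h1 hp d hd0).trans (ENNReal.ofReal_le_ofReal hCd))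
  have e4 := small2_ker hκ.le hS q (bar z0) {p : P2 | ‖p - bar z0‖ ≤ R ∧ |AA z0 a1 am p| < d}
    ((hA z0 a1 am h1 hm d hd0).trans (ENNReal.ofReal_le_ofReal hCd))
  refine (add_le_add (add_le_add e1 e2) (add_le_add e3 e4)).trans ?_
  rw [← ENNReal.ofReal_add (by positivity) (by positivity),
    ← ENNReal.ofReal_add (by positivity) (by positivity)]
  apply le_of_eq
  congr 1; ring

/-- (B2) second step: the complement of the good `p₂`. -/
theorem bad2_small (M : ℕ) {κ eps U R0 L d b0 d1 R : ℝ} (hκ : 0 < κ) (heps : 0 < eps)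
    (hU : 0 < U) (hR0 : 0 < R0) (hR : 0 < R) (hL : 0 < L) (hd : 0 < d) (hb0 : 0 < b0)
    (hd1 : 0 < d1) :
    ∃ R' d' : ℝ, R ≤ R' ∧ 0 < R' ∧ 0 < d' ∧ ∀ (z0 : R3) (ub : P2) (s1 s2 : ℝ),
      (s1 = 1 ∨ s1 = -1) → (s2 = 1 ∨ s2 = -1) →
      ‖z0‖ ≤ R0 → ‖ub‖ ≤ U → b0 ≤ |z0 2 - 1| → b0 ≤ |z0 2 + 1| →
      d1 ≤ |(inner ℝ (z0 - vec3 ub.1 ub.2 1) (z0 - vec3 ub.1 ub.2 (-1)) : ℝ)| →
      ∀ (τ : ℝ) (p1 : P2), d ≤ τ → τ ≤ L → d ≤ ‖p1 - bar z0‖ → ‖p1 - bar z0‖ ≤ R' →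
        d ≤ |AA z0 (vec3 ub.1 ub.2 s1) (vec3 ub.1 ub.2 s2) p1| →
        ∀ q : Fin M → P2,
        ∫⁻ p2 in {p2 : P2 | ¬ (‖p2 - p1‖ ≤ R' ∧
            d' ≤ |JJ z0 (vec3 ub.1 ub.2 s1) (vec3 ub.1 ub.2 s2) (τ, p1, p2)|)},
          ker2 κ p1 p2 * Sg2 q p2 ≤ ENNReal.ofReal eps := by
  obtain ⟨Rt, hRt, hT⟩ := tail2 M hκ (eps := eps / 2) (by positivity)
  obtain ⟨δ, hδ, hS⟩ := small2 M (eps := eps / 2) (by positivity)
  set R' : ℝ := max R Rt with hR'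
  have hR'0 : 0 < R' := lt_of_lt_of_le hR (le_max_left _ _)
  obtain ⟨C, hC, hJ⟩ := volume_JJ_strip U R0 R' L d b0 d1 hU hR0 hR'0 hL hd hb0 hd1
  refine ⟨R', δ / C, le_max_left _ _, hR'0, by positivity, ?_⟩
  intro z0 ub s1 s2 hs1 hs2 hz0 hub hbp hbm hin τ p1 hτ hτL hZ hZR hA q
  have hsub : {p2 : P2 | ¬ (‖p2 - p1‖ ≤ R' ∧
            δ / C ≤ |JJ z0 (vec3 ub.1 ub.2 s1) (vec3 ub.1 ub.2 s2) (τ, p1, p2)|)}
      ⊆ {p2 : P2 | Rt ≤ ‖p2 - p1‖} ∪ {p2 : P2 | ‖p2 - p1‖ ≤ R' ∧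
        |JJ z0 (vec3 ub.1 ub.2 s1) (vec3 ub.1 ub.2 s2) (τ, p1, p2)| < δ / C} := by
    intro p hp
    rw [mem_ofPred_eq] at hp
    by_cases hR1 : ‖p - p1‖ ≤ R'
    · right
      refine ⟨hR1, ?_⟩
      by_contra hcon
      push Not at hcon
      exact hp ⟨hR1, hcon⟩
    · left
      push Not at hR1
      exact (le_max_right R Rt).trans hR1.le
  refine (lintegral_mono_set hsub).trans ?_
  refine (lintegral_union_le _ _ _).trans ?_
  have e1 := hT q p1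
  have e2 := small2_ker hκ.le hS q p1 _
    ((hJ z0 ub s1 s2 hs1 hs2 hz0 hub hbp hbm hin τ p1 hτ hτL hZ hZR hA (δ / C)
      (by positivity)).trans (ENNReal.ofReal_le_ofReal (by
        apply le_of_eq; field_simp)))
  refine (add_le_add e1 e2).trans ?_
  rw [← ENNReal.ofReal_add (by positivity) (by positivity)]
  apply le_of_eq
  congr 1; ring

end Crest.Agent.R68.S
end

-- ▼ part R68/SBlockB
section

/-! Row 68, Part S: the two-step block, second step (helper262) -/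

set_option autoImplicit false
open MeasureTheory Set Metric
open scoped ENNReal NNReal
open Crest.AnalysisR.VecCalc3 Crest.AnalysisR.PDE.Boltzmann

noncomputable section

namespace Crest.Agent.R68.S

attribute [local irreducible] rot vec3

section

variable {Ω : Type} [MeasurableSpace Ω] {π : Measure Ω} {κ L U CN CD : ℝ} {M : ℕ}
  {χ : Ω → ℝ → P2 → ℝ≥0∞} {u : Ω → ℝ → P2 → R3} {W : ℝ → P2 → R3 → ℝ≥0∞}

/-- the second collision, at fixed `(c₁, ω₁, p₁)` and `(c₂, ω₂)` -/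
theorem second_le (H : Hyp π L U CN CD M χ u W) (hκ : 0 < κ) {d d' R ρ e eps5 : ℝ} (hd : 0 < d)
    {ub : P2} {s : Ω → ℝ} (hN : Near L U e ρ χ u ub s)
    {f : ℝ → P2 → R3 → ℝ≥0∞} (hf : Measurable fun q : ℝ × P2 × R3 => f q.1 q.2.1 q.2.2)
    {N : ℝ≥0∞} (hfN : ∀ (c : ℝ) (ξ : P2) (v : R3), 0 ≤ c → c ≤ L → f c ξ v ≤ N * W c ξ v)
    {c' : ℝ} {ξ' : P2} {z0 : R3}
    {ω1 ω2 : Ω} {c1 c2 : ℝ} {p1 : P2} {z1 : R3} (hc' : 0 ≤ c')
    (hz1 : z1 = gpt z0 (u ω1 c1 (ξ' - (c1 - c') • bar z0)) p1)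
    (hc1 : c' ≤ c1) (hc12 : c1 + d ≤ c2) (hc2 : c2 ≤ L)
    (hχ1 : χ ω1 c1 (ξ' - (c1 - c') • bar z0) ≠ 0)
    (hρ2 : ‖ξ' - (c1 - c') • bar z0 - (c2 - c1) • bar z1‖ ≤ ρ)
    (hA1 : d ≤ |AA z0 (vec3 ub.1 ub.2 (s ω1)) (vec3 ub.1 ub.2 (s ω2)) p1|)
    (hZ1 : d ≤ ‖p1 - bar z0‖) (hZ2 : ‖p1 - bar z0‖ ≤ R)
    (hgap : ∀ u2 : R3, ‖u2 - vec3 ub.1 ub.2 (s ω2)‖ ≤ e → d / 2 ≤ |z1 2 - u2 2|)
    (hbad : ∀ q : Fin M → P2,
      ∫⁻ p2 in {p2 : P2 | ¬ (‖p2 - p1‖ ≤ R ∧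
          d' ≤ |JJ z0 (vec3 ub.1 ub.2 (s ω1)) (vec3 ub.1 ub.2 (s ω2)) (c2 - c1, p1, p2)|)},
        ker2 κ p1 p2 * Sg2 q p2 ≤ ENNReal.ofReal eps5) :
    χ ω2 c2 (ξ' - (c1 - c') • bar z0 - (c2 - c1) • bar z1) *
      Aop κ (u ω2 c2 (ξ' - (c1 - c') • bar z0 - (c2 - c1) • bar z1)) z1
        (f c2 (ξ' - (c1 - c') • bar z0 - (c2 - c1) • bar z1)) ≤
      ENNReal.ofReal (2 / d) * (N * ENNReal.ofReal CD * ENNReal.ofReal eps5) +
      ENNReal.ofReal (2 / d) * ∫⁻ p2, FF d d' L R χ u f z0 ub s c' ξ' c1 ω1 p1 c2 ω2 p2 := by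
  set ξ2 : P2 := ξ' - (c1 - c') • bar z0 - (c2 - c1) • bar z1 with hξ2
  by_cases hχ2 : χ ω2 c2 ξ2 = 0
  · rw [hχ2, zero_mul]; exact zero_le
  have hc20 : 0 ≤ c2 := by linarith
  have hbz1 : bar z1 = p1 := by rw [hz1]; exact bar_gpt _ _ _
  have hcl := hN.close ω2 c2 ξ2 hc20 hc2 hρ2 hχ2
  have hg := hgap _ hcl
  set u2 : R3 := u ω2 c2 ξ2 with hu2
  have hne : z1 2 ≠ u2 2 := by
    intro h
    rw [h, sub_self, abs_zero] at hg
    linarith
  have mf : Measurable (f c2 ξ2) := hf.comp (f := fun z : R3 => (c2, ξ2, z)) (by fun_prop)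
  have hx0 : ξ' - (c2 - c') • bar z0 - (c2 - c1) • (p1 - bar z0) = ξ2 := by
    rw [hξ2, hbz1]; module
  have hFF : ∀ p2, FF d d' L R χ u f z0 ub s c' ξ' c1 ω1 p1 c2 ω2 p2 =
      (GG d d' L R χ z0 ub s c' ξ' ω1 ω2 c2).indicator
        (fun _ => f c2 ξ2 (gpt z1 u2 p2)) (c2 - c1, p1, p2) := by
    intro p2
    unfold FF
    by_cases hm : (c2 - c1, p1, p2) ∈ GG d d' L R χ z0 ub s c' ξ' ω1 ω2 c2
    · rw [indicator_of_mem hm, indicator_of_mem hm]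
      simp only [sub_sub_cancel]
      rw [hx0, hz1]
    · rw [indicator_of_notMem hm, indicator_of_notMem hm]
  set B : Set P2 := {p2 : P2 | ¬ (‖p2 - p1‖ ≤ R ∧
          d' ≤ |JJ z0 (vec3 ub.1 ub.2 (s ω1)) (vec3 ub.1 ub.2 (s ω2)) (c2 - c1, p1, p2)|)} with hB
  have hBm : MeasurableSet B := by
    have h1 : Measurable fun p2 : P2 =>
        |JJ z0 (vec3 ub.1 ub.2 (s ω1)) (vec3 ub.1 ub.2 (s ω2)) (c2 - c1, p1, p2)| := by fun_prop
    exact ((measurableSet_le (f := fun p2 : P2 => ‖p2 - p1‖) (g := fun _ => R) (by fun_prop)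
      measurable_const).inter (measurableSet_le measurable_const h1)).compl
  obtain ⟨q, hq⟩ := H.Wsg c2 ξ2 hc20 hc2
  have hpt : ∀ p2 : P2, ker κ z1 (gpt z1 u2 p2) * f c2 ξ2 (gpt z1 u2 p2) ≤
      (N * ENNReal.ofReal CD) * B.indicator (fun p2 => ker2 κ p1 p2 *
        Sg2 (fun i => bar (q i)) p2) p2 + FF d d' L R χ u f z0 ub s c' ξ' c1 ω1 p1 c2 ω2 p2 := by
    intro p2
    by_cases hp : p2 ∈ B
    · rw [indicator_of_mem hp]
      refine le_add_right ?_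
      calc ker κ z1 (gpt z1 u2 p2) * f c2 ξ2 (gpt z1 u2 p2)
          ≤ ker2 κ (bar z1) p2 * (N * (ENNReal.ofReal CD * Sg2 (fun i => bar (q i)) p2)) := by
            apply mul_le_mul' (ker_gpt hκ.le _ _ _)
            refine (hfN c2 ξ2 _ hc20 hc2).trans (mul_le_mul' le_rfl ?_)
            exact (hq _).trans (mul_le_mul' le_rfl (Sg_gpt _ _ _ _))
        _ = _ := by rw [hbz1]; ring
    · rw [indicator_of_notMem hp, mul_zero, zero_add]
      have hp' : ‖p2 - p1‖ ≤ R ∧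
          d' ≤ |JJ z0 (vec3 ub.1 ub.2 (s ω1)) (vec3 ub.1 ub.2 (s ω2)) (c2 - c1, p1, p2)| := by
        by_contra h
        exact hp h
      have hm : (c2 - c1, p1, p2) ∈ GG d d' L R χ z0 ub s c' ξ' ω1 ω2 c2 := by
        refine ⟨⟨by simp only; linarith, by simp only; linarith, hZ1, hZ2, hA1, hp'.1, hp'.2⟩,
          ?_, ?_, ?_⟩
        · simp only [sub_sub_cancel]; exact hc1
        · simp only [sub_sub_cancel]; exact hχ1
        · simp only
          rw [hx0]; exact hχ2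
      rw [hFF, indicator_of_mem hm]
      calc ker κ z1 (gpt z1 u2 p2) * f c2 ξ2 (gpt z1 u2 p2) ≤ 1 * f c2 ξ2 (gpt z1 u2 p2) := by
            apply mul_le_mul' _ le_rfl
            exact (ker_gpt hκ.le _ _ _).trans (ker2_le_one hκ.le _ _)
        _ = _ := one_mul _
  calc χ ω2 c2 ξ2 * Aop κ u2 z1 (f c2 ξ2) ≤ 1 * Aop κ u2 z1 (f c2 ξ2) :=
        mul_le_mul' (H.χ1 _ _ _) le_rfl
    _ = ENNReal.ofReal |z1 2 - u2 2|⁻¹ *
          ∫⁻ p2, ker κ z1 (gpt z1 u2 p2) * f c2 ξ2 (gpt z1 u2 p2) := by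
        rw [one_mul, Aop_graph hne mf]
    _ ≤ ENNReal.ofReal (2 / d) * ∫⁻ p2, ((N * ENNReal.ofReal CD) *
          B.indicator (fun p2 => ker2 κ p1 p2 * Sg2 (fun i => bar (q i)) p2) p2 +
          FF d d' L R χ u f z0 ub s c' ξ' c1 ω1 p1 c2 ω2 p2) := by
        apply mul_le_mul' _ (lintegral_mono hpt)
        apply ENNReal.ofReal_le_ofReal
        rw [show (2 / d : ℝ) = (d / 2)⁻¹ by field_simp]
        gcongr
    _ = ENNReal.ofReal (2 / d) * ((N * ENNReal.ofReal CD) *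
          ∫⁻ p2 in B, ker2 κ p1 p2 * Sg2 (fun i => bar (q i)) p2) +
          ENNReal.ofReal (2 / d) *
            ∫⁻ p2, FF d d' L R χ u f z0 ub s c' ξ' c1 ω1 p1 c2 ω2 p2 := by
        have m1 : Measurable (B.indicator (fun p2 => ker2 κ p1 p2 *
            Sg2 (fun i => bar (q i)) p2)) :=
          ((measurable_ker2 κ p1).mul (measurable_Sg2 _)).indicator hBm
        rw [lintegral_add_left (m1.const_mul _), lintegral_const_mul _ m1,
          lintegral_indicator hBm, mul_add]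
    _ ≤ _ := by
        gcongr
        exact hbad _

end

end Crest.Agent.R68.S
end
end

-- ▼ part R68/SBlockC
section

/-! Row 68, Part S: the two-step block, first step (helper262) -/

set_option autoImplicit false
open MeasureTheory Set Metric
open scoped ENNReal NNReal
open Crest.AnalysisR.VecCalc3 Crest.AnalysisR.PDE.Boltzmann

noncomputable section

namespace Crest.Agent.R68.S

attribute [local irreducible] rot vec3

section

variable {Ω : Type} [MeasurableSpace Ω] {π : Measure Ω} {κ L U CN CD : ℝ} {M : ℕ}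
  {χ : Ω → ℝ → P2 → ℝ≥0∞} {u : Ω → ℝ → P2 → R3} {W : ℝ → P2 → R3 → ℝ≥0∞}

set_option maxHeartbeats 1000000 in
/-- the first collision, at fixed `(c₁, ω₁)` -/
theorem first_le (H : Hyp π L U CN CD M χ u W) (hκ : 0 < κ)
    {d d' Rz R ρ e eps5 eps7 b0 : ℝ} (hd : 0 < d) (hRz : Rz ≤ R) (hb0 : 0 < b0)
    {ub : P2} {s : Ω → ℝ} (hN : Near L U e ρ χ u ub s)
    {f : ℝ → P2 → R3 → ℝ≥0∞} (hf : Measurable fun q : ℝ × P2 × R3 => f q.1 q.2.1 q.2.2)
    {N : ℝ≥0∞} (hfN : ∀ (c : ℝ) (ξ : P2) (v : R3), 0 ≤ c → c ≤ L → f c ξ v ≤ N * W c ξ v)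
    {c' : ℝ} {ξ' : P2} {z0 : R3} {ω1 : Ω} {c1 : ℝ}
    (hc' : 0 ≤ c') (hc1 : c' ≤ c1) (hc1L : c1 ≤ L)
    (hχ1 : χ ω1 c1 (ξ' - (c1 - c') • bar z0) ≠ 0)
    (hb : b0 / 2 ≤ |z0 2 - u ω1 c1 (ξ' - (c1 - c') • bar z0) 2|)
    (hgap : ∀ (ω2 : Ω) (p1 : P2), ‖p1 - bar z0‖ ≤ Rz →
      d ≤ |AA z0 (vec3 ub.1 ub.2 (s ω1)) (vec3 ub.1 ub.2 (s ω2)) p1| →
      ∀ u2 : R3, ‖u2 - vec3 ub.1 ub.2 (s ω2)‖ ≤ e →
      d / 2 ≤ |gz z0 (u ω1 c1 (ξ' - (c1 - c') • bar z0)) p1 - u2 2|)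
    (hZ : ∀ q : Fin M → P2, ∫⁻ p in {p : P2 | ¬ (d ≤ ‖p - bar z0‖ ∧ ‖p - bar z0‖ ≤ Rz ∧
        d ≤ |AA z0 (vec3 ub.1 ub.2 (s ω1)) (vec3 ub.1 ub.2 1) p| ∧
        d ≤ |AA z0 (vec3 ub.1 ub.2 (s ω1)) (vec3 ub.1 ub.2 (-1)) p|)},
      ker2 κ (bar z0) p * Sg2 q p ≤ ENNReal.ofReal eps7)
    (hbad : ∀ (ω2 : Ω) (τ : ℝ) (p1 : P2), d ≤ τ → τ ≤ L → d ≤ ‖p1 - bar z0‖ →
      ‖p1 - bar z0‖ ≤ R → d ≤ |AA z0 (vec3 ub.1 ub.2 (s ω1)) (vec3 ub.1 ub.2 (s ω2)) p1| →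
      ∀ q : Fin M → P2, ∫⁻ p2 in {p2 : P2 | ¬ (‖p2 - p1‖ ≤ R ∧
          d' ≤ |JJ z0 (vec3 ub.1 ub.2 (s ω1)) (vec3 ub.1 ub.2 (s ω2)) (τ, p1, p2)|)},
        ker2 κ p1 p2 * Sg2 q p2 ≤ ENNReal.ofReal eps5)
    (hρ2 : ∀ (c2 : ℝ) (p1 : P2), c1 ≤ c2 → c2 ≤ L → ‖p1 - bar z0‖ ≤ Rz →
      ‖ξ' - (c1 - c') • bar z0 - (c2 - c1) • p1‖ ≤ ρ) :
    Aop κ (u ω1 c1 (ξ' - (c1 - c') • bar z0)) z0
        (Top π κ L χ u f c1 (ξ' - (c1 - c') • bar z0)) ≤
      ENNReal.ofReal (2 / b0) *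
        ((ENNReal.ofReal CN * ENNReal.ofReal L * ENNReal.ofReal CD * ENNReal.ofReal (gC M κ) * N *
          ENNReal.ofReal CD) * ENNReal.ofReal eps7 +
        ((ENNReal.ofReal CN * ENNReal.ofReal d * (N * ENNReal.ofReal CD * ENNReal.ofReal (gC M κ)) *
          ENNReal.ofReal CD) * ENNReal.ofReal (gC M κ) +
        ((ENNReal.ofReal (2 / d) * (N * ENNReal.ofReal CD * ENNReal.ofReal eps5) *
          ENNReal.ofReal L) * ENNReal.ofReal (gC M κ) +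
        ENNReal.ofReal (2 / d) * ∫⁻ p1, ∫⁻ c2 in Ioo c' L, ∫⁻ ω2, ∫⁻ p2,
          FF d d' L R χ u f z0 ub s c' ξ' c1 ω1 p1 c2 ω2 p2 ∂volume ∂π))) := by
  have : IsFiniteMeasure π := ⟨lt_of_le_of_lt H.fin ENNReal.one_lt_top⟩
  set ξ1 : P2 := ξ' - (c1 - c') • bar z0 with hξ1
  set u1 : R3 := u ω1 c1 ξ1 with hu1
  have hc10 : 0 ≤ c1 := hc'.trans hc1
  have hne : z0 2 ≠ u1 2 := by
    intro h
    rw [h, sub_self, abs_zero] at hb
    linarith
  have mT : Measurable (Top π κ L χ u f c1 ξ1) :=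
    (measurable_Top (π := π) κ L H.mχ H.mu hf).comp (f := fun v : R3 => (c1, ξ1, v)) (by fun_prop)
  obtain ⟨q, hq⟩ := H.Wsg c1 ξ1 hc10 hc1L
  set q' : Fin M → P2 := fun i => bar (q i) with hq'
  set A1 : ℝ≥0∞ := ENNReal.ofReal CN * ENNReal.ofReal L * ENNReal.ofReal CD *
    ENNReal.ofReal (gC M κ) * N * ENNReal.ofReal CD with hA1
  set A2 : ℝ≥0∞ := ENNReal.ofReal CN * ENNReal.ofReal d *
    (N * ENNReal.ofReal CD * ENNReal.ofReal (gC M κ)) * ENNReal.ofReal CD with hA2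
  set A3 : ℝ≥0∞ := ENNReal.ofReal (2 / d) * (N * ENNReal.ofReal CD * ENNReal.ofReal eps5) *
    ENNReal.ofReal L with hA3
  set Z : Set P2 := {p : P2 | ¬ (d ≤ ‖p - bar z0‖ ∧ ‖p - bar z0‖ ≤ Rz ∧
        d ≤ |AA z0 (vec3 ub.1 ub.2 (s ω1)) (vec3 ub.1 ub.2 1) p| ∧
        d ≤ |AA z0 (vec3 ub.1 ub.2 (s ω1)) (vec3 ub.1 ub.2 (-1)) p|)} with hZdef
  have hZm : MeasurableSet Z := by
    have h1 : ∀ t : ℝ, Measurable fun p : P2 =>
        |AA z0 (vec3 ub.1 ub.2 (s ω1)) (vec3 ub.1 ub.2 t) p| := fun t => by fun_prop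
    have h2 : Measurable fun p : P2 => ‖p - bar z0‖ := by fun_prop
    exact ((measurableSet_le measurable_const h2).inter ((measurableSet_le h2
      measurable_const).inter ((measurableSet_le measurable_const (h1 1)).inter
      (measurableSet_le measurable_const (h1 (-1)))))).compl
  have hTle : ∀ z : R3, Top π κ L χ u f c1 ξ1 z ≤ A1 * Sg q z := by
    intro z
    have h := Top_le H (CG := gC M κ) (fun q u v => PA_Sg_le M hκ q u v) hfN c1 ξ1 z hc10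
    refine h.trans ?_
    rw [hA1, mul_assoc _ (ENNReal.ofReal CD) (Sg q z)]
    exact mul_le_mul' le_rfl (hq z)
  have hpt : ∀ p1 : P2, ker κ z0 (gpt z0 u1 p1) * Top π κ L χ u f c1 ξ1 (gpt z0 u1 p1) ≤
      A1 * Z.indicator (fun p => ker2 κ (bar z0) p * Sg2 q' p) p1 +
      (A2 * (ker2 κ (bar z0) p1 * Sg2 q' p1) + (A3 * ker2 κ (bar z0) p1 +
        ENNReal.ofReal (2 / d) * ∫⁻ c2 in Ioo c' L, ∫⁻ ω2, ∫⁻ p2,
          FF d d' L R χ u f z0 ub s c' ξ' c1 ω1 p1 c2 ω2 p2 ∂volume ∂π)) := by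
    intro p1
    have hk2 : ker κ z0 (gpt z0 u1 p1) ≤ ker2 κ (bar z0) p1 := ker_gpt hκ.le _ _ _
    by_cases hp : p1 ∈ Z
    · rw [indicator_of_mem hp]
      refine le_add_right ?_
      calc ker κ z0 (gpt z0 u1 p1) * Top π κ L χ u f c1 ξ1 (gpt z0 u1 p1)
          ≤ ker2 κ (bar z0) p1 * (A1 * Sg2 q' p1) :=
            mul_le_mul' hk2 ((hTle _).trans (mul_le_mul' le_rfl (Sg_gpt _ _ _ _)))
        _ = _ := by ring
    · rw [indicator_of_notMem hp, mul_zero, zero_add]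
      have hp' : d ≤ ‖p1 - bar z0‖ ∧ ‖p1 - bar z0‖ ≤ Rz ∧
          d ≤ |AA z0 (vec3 ub.1 ub.2 (s ω1)) (vec3 ub.1 ub.2 1) p1| ∧
          d ≤ |AA z0 (vec3 ub.1 ub.2 (s ω1)) (vec3 ub.1 ub.2 (-1)) p1| := by
        by_contra h; exact hp h
      obtain ⟨hz1, hz2, hz3, hz4⟩ := hp'
      have hAAs : ∀ ω2, d ≤ |AA z0 (vec3 ub.1 ub.2 (s ω1)) (vec3 ub.1 ub.2 (s ω2)) p1| := by
        intro ω2
        rcases hN.s1 ω2 with h | h <;> rw [h] <;> assumption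
      set z1 : R3 := gpt z0 u1 p1 with hz1def
      have hbz1 : bar z1 = p1 := bar_gpt _ _ _
      -- short times
      have hshort : ∫⁻ c2 in Ioo c1 (min (c1 + d) L), ∫⁻ ω, χ ω c2 (ξ1 - (c2 - c1) • bar z1) *
          Aop κ (u ω c2 (ξ1 - (c2 - c1) • bar z1)) z1 (f c2 (ξ1 - (c2 - c1) • bar z1)) ∂π
          ≤ A2 * Sg2 q' p1 := by
        have h := Top_le' H (CG := gC M κ) (fun q u v => PA_Sg_le M hκ q u v) (f := f) (N := N)
          (c := c1) (d := min (c1 + d) L) hc10 (min_le_right _ _)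
          (fun c2 ξ v h1 h2 => hfN c2 ξ v (hc10.trans h1.le) (h2.le.trans (min_le_right _ _)))
          ξ1 z1
        refine h.trans ?_
        calc ENNReal.ofReal CN * ENNReal.ofReal (min (c1 + d) L - c1) *
              (N * ENNReal.ofReal CD * ENNReal.ofReal (gC M κ)) * W c1 ξ1 z1
            ≤ ENNReal.ofReal CN * ENNReal.ofReal d *
              (N * ENNReal.ofReal CD * ENNReal.ofReal (gC M κ)) *
              (ENNReal.ofReal CD * Sg2 q' p1) := by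
              gcongr
              · have := min_le_left (c1 + d) L
                linarith
              · exact (hq z1).trans (mul_le_mul' le_rfl (Sg_gpt _ _ _ _))
          _ = A2 * Sg2 q' p1 := by rw [hA2]; ring
      -- long times
      have hlong : ∫⁻ c2 in Ioo c1 L ∩ Ici (c1 + d), ∫⁻ ω, χ ω c2 (ξ1 - (c2 - c1) • bar z1) *
          Aop κ (u ω c2 (ξ1 - (c2 - c1) • bar z1)) z1 (f c2 (ξ1 - (c2 - c1) • bar z1)) ∂π
          ≤ A3 + ENNReal.ofReal (2 / d) * ∫⁻ c2 in Ioo c' L, ∫⁻ ω2, ∫⁻ p2,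
          FF d d' L R χ u f z0 ub s c' ξ' c1 ω1 p1 c2 ω2 p2 ∂volume ∂π := by
        have hms : MeasurableSet (Ioo c1 L ∩ Ici (c1 + d)) :=
          measurableSet_Ioo.inter measurableSet_Ici
        calc ∫⁻ c2 in Ioo c1 L ∩ Ici (c1 + d), ∫⁻ ω, χ ω c2 (ξ1 - (c2 - c1) • bar z1) *
              Aop κ (u ω c2 (ξ1 - (c2 - c1) • bar z1)) z1 (f c2 (ξ1 - (c2 - c1) • bar z1)) ∂π
            ≤ ∫⁻ c2 in Ioo c1 L ∩ Ici (c1 + d),
                (ENNReal.ofReal (2 / d) * (N * ENNReal.ofReal CD * ENNReal.ofReal eps5) +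
                ENNReal.ofReal (2 / d) * ∫⁻ ω2, ∫⁻ p2,
                  FF d d' L R χ u f z0 ub s c' ξ' c1 ω1 p1 c2 ω2 p2 ∂volume ∂π) := by
              apply setLIntegral_mono' hms
              intro c2 hc2
              have h1 : ∀ ω2, χ ω2 c2 (ξ1 - (c2 - c1) • bar z1) *
                  Aop κ (u ω2 c2 (ξ1 - (c2 - c1) • bar z1)) z1
                    (f c2 (ξ1 - (c2 - c1) • bar z1)) ≤
                  ENNReal.ofReal (2 / d) * (N * ENNReal.ofReal CD * ENNReal.ofReal eps5) +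
                  ENNReal.ofReal (2 / d) *
                    ∫⁻ p2, FF d d' L R χ u f z0 ub s c' ξ' c1 ω1 p1 c2 ω2 p2 := by
                intro ω2
                have hc12 : c1 + d ≤ c2 := hc2.2
                have hc2L : c2 ≤ L := hc2.1.2.le
                apply second_le H hκ hd hN hf hfN hc' hz1def hc1 hc12 hc2L hχ1 ?_ (hAAs ω2) hz1
                  (hz2.trans hRz) ?_ ?_
                · rw [hbz1]
                  exact hρ2 c2 p1 (by linarith) hc2L hz2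
                · intro u2 hu2
                  have hz12 : z1 2 = gz z0 u1 p1 := gpt_two _ _ _
                  rw [hz12]
                  exact hgap ω2 p1 hz2 (hAAs ω2) u2 hu2
                · exact hbad ω2 (c2 - c1) p1 (by linarith) (by linarith) hz1 (hz2.trans hRz)
                    (hAAs ω2)
              calc ∫⁻ ω, χ ω c2 (ξ1 - (c2 - c1) • bar z1) *
                    Aop κ (u ω c2 (ξ1 - (c2 - c1) • bar z1)) z1
                      (f c2 (ξ1 - (c2 - c1) • bar z1)) ∂π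
                  ≤ ∫⁻ ω2, (ENNReal.ofReal (2 / d) * (N * ENNReal.ofReal CD *
                    ENNReal.ofReal eps5) + ENNReal.ofReal (2 / d) *
                    ∫⁻ p2, FF d d' L R χ u f z0 ub s c' ξ' c1 ω1 p1 c2 ω2 p2) ∂π :=
                    lintegral_mono h1
                _ = ENNReal.ofReal (2 / d) * (N * ENNReal.ofReal CD *
                    ENNReal.ofReal eps5) * π univ + ENNReal.ofReal (2 / d) * ∫⁻ ω2,
                    ∫⁻ p2, FF d d' L R χ u f z0 ub s c' ξ' c1 ω1 p1 c2 ω2 p2 ∂volume ∂π := by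
                    rw [lintegral_add_left measurable_const, lintegral_const,
                      lintegral_const_mul' _ _ ENNReal.ofReal_ne_top]
                _ ≤ ENNReal.ofReal (2 / d) * (N * ENNReal.ofReal CD *
                    ENNReal.ofReal eps5) * 1 + ENNReal.ofReal (2 / d) * ∫⁻ ω2,
                    ∫⁻ p2, FF d d' L R χ u f z0 ub s c' ξ' c1 ω1 p1 c2 ω2 p2 ∂volume ∂π := by
                    gcongr
                    exact H.fin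
                _ = _ := by rw [mul_one]
          _ = ENNReal.ofReal (2 / d) * (N * ENNReal.ofReal CD * ENNReal.ofReal eps5) *
                volume (Ioo c1 L ∩ Ici (c1 + d)) +
              ENNReal.ofReal (2 / d) * ∫⁻ c2 in Ioo c1 L ∩ Ici (c1 + d), ∫⁻ ω2, ∫⁻ p2,
                  FF d d' L R χ u f z0 ub s c' ξ' c1 ω1 p1 c2 ω2 p2 ∂volume ∂π := by
              rw [lintegral_add_left measurable_const, setLIntegral_const,
                lintegral_const_mul' _ _ ENNReal.ofReal_ne_top]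
          _ ≤ ENNReal.ofReal (2 / d) * (N * ENNReal.ofReal CD * ENNReal.ofReal eps5) *
                ENNReal.ofReal L +
              ENNReal.ofReal (2 / d) * ∫⁻ c2 in Ioo c' L, ∫⁻ ω2, ∫⁻ p2,
                  FF d d' L R χ u f z0 ub s c' ξ' c1 ω1 p1 c2 ω2 p2 ∂volume ∂π := by
              gcongr
              · calc volume (Ioo c1 L ∩ Ici (c1 + d)) ≤ volume (Ioo 0 L) :=
                      measure_mono fun x hx => ⟨lt_of_le_of_lt hc10 hx.1.1, hx.1.2⟩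
                  _ = ENNReal.ofReal L := by rw [Real.volume_Ioo, sub_zero]
              · intro x hx
                exact ⟨lt_of_le_of_lt hc1 hx.1.1, hx.1.2⟩
      have hTop : Top π κ L χ u f c1 ξ1 z1 ≤ A2 * Sg2 q' p1 + (A3 + ENNReal.ofReal (2 / d) *
          ∫⁻ c2 in Ioo c' L, ∫⁻ ω2, ∫⁻ p2,
          FF d d' L R χ u f z0 ub s c' ξ' c1 ω1 p1 c2 ω2 p2 ∂volume ∂π) := by
        unfold Top
        refine le_trans ?_ (add_le_add hshort hlong)
        refine (lintegral_mono_set (t := Ioo c1 (min (c1 + d) L) ∪ (Ioo c1 L ∩ Ici (c1 + d)))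
          ?_).trans (lintegral_union_le _ _ _)
        intro x hx
        rcases lt_or_ge x (c1 + d) with h | h
        · exact Or.inl ⟨hx.1, lt_min h hx.2⟩
        · exact Or.inr ⟨hx, h⟩
      calc ker κ z0 z1 * Top π κ L χ u f c1 ξ1 z1
          ≤ ker κ z0 z1 * (A2 * Sg2 q' p1 + (A3 + ENNReal.ofReal (2 / d) *
          ∫⁻ c2 in Ioo c' L, ∫⁻ ω2, ∫⁻ p2,
          FF d d' L R χ u f z0 ub s c' ξ' c1 ω1 p1 c2 ω2 p2 ∂volume ∂π)) := mul_le_mul' le_rfl hTop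
        _ = A2 * (ker κ z0 z1 * Sg2 q' p1) + (A3 * ker κ z0 z1 + ker κ z0 z1 *
            (ENNReal.ofReal (2 / d) * ∫⁻ c2 in Ioo c' L, ∫⁻ ω2, ∫⁻ p2,
          FF d d' L R χ u f z0 ub s c' ξ' c1 ω1 p1 c2 ω2 p2 ∂volume ∂π)) := by ring
        _ ≤ A2 * (ker2 κ (bar z0) p1 * Sg2 q' p1) + (A3 * ker2 κ (bar z0) p1 + 1 *
            (ENNReal.ofReal (2 / d) * ∫⁻ c2 in Ioo c' L, ∫⁻ ω2, ∫⁻ p2,
          FF d d' L R χ u f z0 ub s c' ξ' c1 ω1 p1 c2 ω2 p2 ∂volume ∂π)) := by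
            gcongr
            exact hk2.trans (ker2_le_one hκ.le _ _)
        _ = _ := by rw [one_mul]
  rw [Aop_graph hne mT]
  apply mul_le_mul'
  · apply ENNReal.ofReal_le_ofReal
    rw [show (2 / b0 : ℝ) = (b0 / 2)⁻¹ by field_simp]
    gcongr
  have mk2 : Measurable fun p1 : P2 => ker2 κ (bar z0) p1 := measurable_ker2 κ (bar z0)
  have mkS : Measurable fun p1 : P2 => ker2 κ (bar z0) p1 * Sg2 q' p1 :=
    mk2.mul (measurable_Sg2 q')
  have hgauss := gauss2_le M hκ q' (bar z0)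
  have hker : ∫⁻ p1, ker2 κ (bar z0) p1 ≤ ENNReal.ofReal (gC M κ) := by
    refine le_trans (lintegral_mono fun p => ?_) hgauss
    calc ker2 κ (bar z0) p = ker2 κ (bar z0) p * 1 := (mul_one _).symm
      _ ≤ ker2 κ (bar z0) p * Sg2 q' p := mul_le_mul' le_rfl (by unfold Sg2; exact le_self_add)
  refine (lintegral_mono hpt).trans ?_
  rw [lintegral_add_left ((mkS.indicator hZm).const_mul A1), lintegral_const_mul _
    (mkS.indicator hZm), lintegral_indicator hZm, lintegral_add_left (mkS.const_mul A2),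
    lintegral_const_mul _ mkS, lintegral_add_left (mk2.const_mul A3), lintegral_const_mul _ mk2,
    lintegral_const_mul' _ _ ENNReal.ofReal_ne_top]
  gcongr
  exact hZ q'

end

end Crest.Agent.R68.S
end
end

-- ▼ part R68/SBlock

/-! Row 68, Part S: the two-step block and the smoothing lemma `smoothing` (helper262) -/

set_option autoImplicit false
open MeasureTheory Set Metric
open scoped ENNReal NNReal
open Crest.AnalysisR.VecCalc3 Crest.AnalysisR.PDE.Boltzmann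

noncomputable section

namespace Crest.Agent.R68.S

attribute [local irreducible] rot vec3

set_option maxHeartbeats 1000000 in
theorem block (κ L U CN CD : ℝ) (M : ℕ) (hκ : 0 < κ) (hL : 0 < L) (hU : 0 < U) (hCN : 0 < CN)
    (hCD : 0 < CD) {R0 d1 ε : ℝ} (hR0 : 0 < R0) (hd1 : 0 < d1) (hε : 0 < ε) :
    ∃ ρ e C : ℝ, 0 < ρ ∧ 0 < e ∧ 0 < C ∧ BlockStmt κ L U CN CD M R0 d1 ε ρ e C := by
  set G : ℝ := gC M κ with hG
  have hG0 : 0 < G := gC_pos M hκ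
  set eps7 : ℝ := ε / 3 / ((2 / d1) * L * (CN * L * CD * G * CD)) with heps7
  have heps70 : 0 < eps7 := by positivity
  obtain ⟨Rz, hRz, hZG⟩ := ZG_small M hκ heps70 hd1
  set dmax : ℝ := ε / 3 / ((2 / d1) * L * (CN * CD * G * CD * G)) with hdmax
  have hdmax0 : 0 < dmax := by positivity
  obtain ⟨d, hd, hddmax, hZ⟩ := hZG dmax hdmax0
  set eps5 : ℝ := ε / 3 / ((2 / d1) * L * ((2 / d) * CD * L * G)) with heps5
  have heps50 : 0 < eps5 := by positivity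
  obtain ⟨R, d', hRzR, hR, hd', hbad⟩ := bad2_small M hκ heps50 hU hR0 hRz hL hd hd1 hd1
  obtain ⟨e1, ρ1, C1, he1, hρ1, hC1, hmain⟩ := main_le hU hR0 hR hL hd hd' hd1
  obtain ⟨e2, C2, he2, hC2, hgz⟩ :=
    gz_bounds (U := 2 * U + 1) (R0 := R0) (R := R) (d := d) (b0 := d1) (by positivity) hR0 hR hd hd1
  set C : ℝ := (2 / d1) * (2 / d) * C1 * L with hC
  have hC0 : 0 < C := by positivity
  refine ⟨max ρ1 (R0 + L * R0 + L * (R0 + Rz)), min e1 e2, C,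
    lt_of_lt_of_le hρ1 (le_max_left _ _), by positivity, hC0, ?_⟩
  set ρ : ℝ := max ρ1 (R0 + L * R0 + L * (R0 + Rz)) with hρ
  set e : ℝ := min e1 e2 with he
  intro Ω _ π χ u W ub s H hN hs f hf N m hfN hfm c' ξ' z0 hc' hc'L hξ' hz0
  have : IsFiniteMeasure π := ⟨lt_of_le_of_lt H.fin ENNReal.one_lt_top⟩
  have hN1 : Near L U e1 ρ1 χ u ub s := hN.mono (min_le_left _ _) (le_max_left _ _)
  simp only [bad2, mem_ofPred_eq, not_or, not_lt] at hz0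
  obtain ⟨hz0R, hb1, hb2, hin⟩ := hz0
  have hzb : ‖bar z0‖ ≤ R0 := (nbar_le z0).trans hz0R
  have hh : ∀ t : ℝ, (t = 1 ∨ t = -1) → d1 ≤ |z0 2 - t| := by
    rintro t (rfl | rfl)
    · exact hb1
    · rw [sub_neg_eq_add]; exact hb2
  set I : ℝ → Ω → ℝ≥0∞ := fun c1 ω1 => ∫⁻ p1, ∫⁻ c2 in Ioo c' L, ∫⁻ ω2, ∫⁻ p2,
    FF d d' L R χ u f z0 ub s c' ξ' c1 ω1 p1 c2 ω2 p2 ∂volume ∂π with hI
  set E : ℝ≥0∞ := (ENNReal.ofReal CN * ENNReal.ofReal L * ENNReal.ofReal CD * ENNReal.ofReal G * N *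
          ENNReal.ofReal CD) * ENNReal.ofReal eps7 +
        ((ENNReal.ofReal CN * ENNReal.ofReal d * (N * ENNReal.ofReal CD * ENNReal.ofReal G) *
          ENNReal.ofReal CD) * ENNReal.ofReal G +
        (ENNReal.ofReal (2 / d) * (N * ENNReal.ofReal CD * ENNReal.ofReal eps5) *
          ENNReal.ofReal L) * ENNReal.ofReal G) with hE
  -- pointwise bound
  have hpt : ∀ c1 ∈ Ioo c' L, ∀ ω1 : Ω, χ ω1 c1 (ξ' - (c1 - c') • bar z0) *
      Aop κ (u ω1 c1 (ξ' - (c1 - c') • bar z0)) z0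
        (Top π κ L χ u f c1 (ξ' - (c1 - c') • bar z0)) ≤
      ENNReal.ofReal (2 / d1) * E + ENNReal.ofReal (2 / d1) * ENNReal.ofReal (2 / d) * I c1 ω1 := by
    intro c1 hc1 ω1
    by_cases hχ : χ ω1 c1 (ξ' - (c1 - c') • bar z0) = 0
    · rw [hχ, zero_mul]; exact zero_le
    have hc10 : 0 ≤ c1 := hc'.trans hc1.1.le
    have hξ1 : ‖ξ' - (c1 - c') • bar z0‖ ≤ R0 + L * R0 := by
      calc ‖ξ' - (c1 - c') • bar z0‖ ≤ ‖ξ'‖ + ‖(c1 - c') • bar z0‖ := norm_sub_le _ _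
        _ ≤ R0 + L * R0 := by
            rw [norm_smul, Real.norm_eq_abs, abs_of_pos (by linarith [hc1.1])]
            gcongr
            linarith [hc1.2]
    have hLz : 0 < L * (R0 + Rz) := by positivity
    have hξρ : ‖ξ' - (c1 - c') • bar z0‖ ≤ ρ :=
      hξ1.trans (le_trans (by linarith) (le_max_right _ _))
    have hcl := hN.close ω1 c1 _ hc10 hc1.2.le hξρ hχ
    set a1 : R3 := vec3 ub.1 ub.2 (s ω1) with ha1
    have ha1n : ‖a1‖ ≤ 2 * U + 1 := norm_center_le hN.ubd (hN.s1 ω1)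
    have hb : d1 ≤ |z0 2 - a1 2| := by
      rw [ha1, vec3_two]; exact hh _ (hN.s1 ω1)
    have hgz1 := fun (ω2 : Ω) (p1 : P2) (u2 : R3)
        (h2 : ‖u2 - vec3 ub.1 ub.2 (s ω2)‖ ≤ e) (hp : ‖p1 - bar z0‖ ≤ R) =>
      hgz z0 a1 (vec3 ub.1 ub.2 (s ω2)) hz0R ha1n (norm_center_le hN.ubd (hN.s1 ω2)) hb
        (u ω1 c1 (ξ' - (c1 - c') • bar z0)) u2 p1 (hcl.trans (min_le_right _ _))
        (h2.trans (min_le_right _ _)) hp
    have hf1 := first_le (d := d) (d' := d') (Rz := Rz) (R := R) (ρ := ρ) (e := e)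
      (eps5 := eps5) (eps7 := eps7) (b0 := d1) H hκ hd hRzR hd1 hN hf hfN (c' := c') (ξ' := ξ')
      (z0 := z0) (ω1 := ω1) (c1 := c1) hc' hc1.1.le hc1.2.le hχ ?_ ?_ ?_ ?_ ?_
    · calc χ ω1 c1 (ξ' - (c1 - c') • bar z0) *
            Aop κ (u ω1 c1 (ξ' - (c1 - c') • bar z0)) z0
            (Top π κ L χ u f c1 (ξ' - (c1 - c') • bar z0))
          ≤ 1 * Aop κ (u ω1 c1 (ξ' - (c1 - c') • bar z0)) z0
            (Top π κ L χ u f c1 (ξ' - (c1 - c') • bar z0)) := mul_le_mul' (H.χ1 _ _ _) le_rfl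
        _ ≤ _ := by
            rw [one_mul]
            refine hf1.trans (le_of_eq ?_)
            rw [hE, hI, hG]
            ring
    · -- `b0/2`
      have := hgz1 ω1 (bar z0) a1 (by rw [ha1, sub_self, norm_zero]; positivity)
        (by rw [sub_self, norm_zero]; exact hR.le)
      exact this.2.1
    · intro ω2 p1 hp hA u2 hu2
      exact ((hgz1 ω2 p1 u2 hu2 (hp.trans hRzR)).2.2 hA).1
    · intro q
      apply hZ z0 a1 (vec3 ub.1 ub.2 1) (vec3 ub.1 ub.2 (-1)) q hb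
      · rw [vec3_two]; exact hb1
      · rw [vec3_two, sub_neg_eq_add]; exact hb2
    · intro ω2 τ p1 h1 h2 h3 h4 h5 q
      exact hbad z0 ub (s ω1) (s ω2) (hN.s1 ω1) (hN.s1 ω2) hz0R hN.ubd hb1 hb2 hin τ p1 h1 h2 h3
        h4 h5 q
    · intro c2 p1 h1 h2 h3
      refine le_trans ?_ (le_max_right _ _)
      calc ‖ξ' - (c1 - c') • bar z0 - (c2 - c1) • p1‖
          ≤ ‖ξ' - (c1 - c') • bar z0‖ + ‖(c2 - c1) • p1‖ := norm_sub_le _ _
        _ ≤ (R0 + L * R0) + L * (R0 + Rz) := by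
            have hp1 : ‖p1‖ ≤ R0 + Rz := by
              calc ‖p1‖ = ‖bar z0 + (p1 - bar z0)‖ := by congr 1; abel
                _ ≤ ‖bar z0‖ + ‖p1 - bar z0‖ := norm_add_le _ _
                _ ≤ R0 + Rz := by linarith
            rw [norm_smul, Real.norm_eq_abs, abs_of_nonneg (by linarith)]
            gcongr
            linarith
  -- the main term
  have hFm := measurable_FF (d := d) (d' := d') (L := L) (R := R) (χ := χ) (u := u) (f := f)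
    (z0 := z0) (ub := ub) (s := s) (c' := c') (ξ' := ξ') H.mχ H.mu hf hs
  have hswap := swap6 (volume.restrict (Ioo c' L)) π (volume : Measure P2)
    (volume.restrict (Ioo c' L)) π (volume : Measure P2)
    (fun c1 ω1 p1 c2 ω2 p2 => FF d d' L R χ u f z0 ub s c' ξ' c1 ω1 p1 c2 ω2 p2) hFm
  have hvol : (volume.restrict (Ioo c' L)) univ ≤ ENNReal.ofReal L := by
    rw [Measure.restrict_apply_univ, Real.volume_Ioo]
    apply ENNReal.ofReal_le_ofReal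
    linarith
  have hmainI : ∫⁻ c1 in Ioo c' L, ∫⁻ ω1, I c1 ω1 ∂π ≤
      ENNReal.ofReal C1 * m * ENNReal.ofReal L := by
    rw [hI, hswap]
    calc ∫⁻ c2 in Ioo c' L, ∫⁻ ω1, ∫⁻ ω2, ∫⁻ c1 in Ioo c' L, ∫⁻ p1, ∫⁻ p2,
          FF d d' L R χ u f z0 ub s c' ξ' c1 ω1 p1 c2 ω2 p2 ∂volume ∂volume ∂volume ∂π ∂π
        ≤ ∫⁻ _ in Ioo c' L, ∫⁻ _, ∫⁻ _, ENNReal.ofReal C1 * m ∂π ∂π := by
          apply setLIntegral_mono' measurableSet_Ioo
          intro c2 hc2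
          refine lintegral_mono fun ω1 => lintegral_mono fun ω2 => ?_
          refine (setLIntegral_le_lintegral _ _).trans ?_
          have h := hmain Ω χ u ub s hN1 H.mχ H.mu f hf c' ξ' z0 hc' hc'L hξ' hz0R hb1 hb2 ω1 ω2 c2
            (hc'.trans hc2.1.le) hc2.2.le
          refine h.trans (mul_le_mul' le_rfl ?_)
          refine le_trans ?_ (hfm c2 (hc'.trans hc2.1.le) hc2.2.le)
          have hρ' : ρ1 ≤ ρ := le_max_left _ _
          calc ∫⁻ ξ in closedBall (0 : P2) ρ1, ∫⁻ z in closedBall (0 : R3) ρ1, f c2 ξ z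
              ≤ ∫⁻ ξ in closedBall (0 : P2) ρ, ∫⁻ z in closedBall (0 : R3) ρ1, f c2 ξ z :=
                lintegral_mono_set (closedBall_subset_closedBall hρ')
            _ ≤ _ := lintegral_mono fun ξ =>
                lintegral_mono_set (closedBall_subset_closedBall hρ')
      _ ≤ ENNReal.ofReal C1 * m * 1 * 1 * ENNReal.ofReal L := by
          rw [lintegral_const, lintegral_const, lintegral_const]
          gcongr
          · exact H.fin
          · exact H.fin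
      _ = _ := by rw [mul_one, mul_one]
  -- assembly
  have hfin : ∫⁻ c1 in Ioo c' L, ∫⁻ ω1, (ENNReal.ofReal (2 / d1) * E +
      ENNReal.ofReal (2 / d1) * ENNReal.ofReal (2 / d) * I c1 ω1) ∂π ≤
      ENNReal.ofReal (2 / d1) * E * ENNReal.ofReal L +
      ENNReal.ofReal (2 / d1) * ENNReal.ofReal (2 / d) *
        (ENNReal.ofReal C1 * m * ENNReal.ofReal L) := by
    have hne : ENNReal.ofReal (2 / d1) * ENNReal.ofReal (2 / d) ≠ ⊤ :=
      ENNReal.mul_ne_top ENNReal.ofReal_ne_top ENNReal.ofReal_ne_top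
    calc ∫⁻ c1 in Ioo c' L, ∫⁻ ω1, (ENNReal.ofReal (2 / d1) * E +
          ENNReal.ofReal (2 / d1) * ENNReal.ofReal (2 / d) * I c1 ω1) ∂π
        = ∫⁻ c1 in Ioo c' L, (ENNReal.ofReal (2 / d1) * E * π univ +
          ENNReal.ofReal (2 / d1) * ENNReal.ofReal (2 / d) * ∫⁻ ω1, I c1 ω1 ∂π) := by
          refine lintegral_congr fun c1 => ?_
          rw [lintegral_add_left measurable_const, lintegral_const, lintegral_const_mul' _ _ hne]
      _ ≤ ∫⁻ c1 in Ioo c' L, (ENNReal.ofReal (2 / d1) * E * 1 +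
          ENNReal.ofReal (2 / d1) * ENNReal.ofReal (2 / d) * ∫⁻ ω1, I c1 ω1 ∂π) := by
          gcongr
          exact H.fin
      _ = ENNReal.ofReal (2 / d1) * E * (volume.restrict (Ioo c' L)) univ +
          ENNReal.ofReal (2 / d1) * ENNReal.ofReal (2 / d) *
            ∫⁻ c1 in Ioo c' L, ∫⁻ ω1, I c1 ω1 ∂π := by
          rw [mul_one, lintegral_add_left measurable_const, lintegral_const,
            lintegral_const_mul' _ _ hne]
      _ ≤ _ := by gcongr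
  unfold Top
  refine le_trans (setLIntegral_mono' measurableSet_Ioo fun c1 hc1 =>
    lintegral_mono (hpt c1 hc1)) (hfin.trans ?_)
  have e1' : ENNReal.ofReal (2 / d1) * ENNReal.ofReal L * (ENNReal.ofReal CN * ENNReal.ofReal L *
      ENNReal.ofReal CD * ENNReal.ofReal G * ENNReal.ofReal CD) * ENNReal.ofReal eps7 =
      ENNReal.ofReal (ε / 3) := by
    have h : (2 / d1) * L * (CN * L * CD * G * CD) * eps7 = ε / 3 := by
      rw [heps7]; field_simp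
    rw [← h]
    simp only [ENNReal.ofReal_mul', heps70.le, hG0.le, hL.le, hCD.le,
      (by positivity : 0 ≤ CN * L * CD * G * CD)]
  have e2' : ENNReal.ofReal (2 / d1) * ENNReal.ofReal L * (ENNReal.ofReal CN * ENNReal.ofReal CD *
      ENNReal.ofReal G * ENNReal.ofReal CD * ENNReal.ofReal G) * ENNReal.ofReal d ≤
      ENNReal.ofReal (ε / 3) := by
    have h : (2 / d1) * L * (CN * CD * G * CD * G) * d ≤ ε / 3 := by
      have h1 : (2 / d1) * L * (CN * CD * G * CD * G) * dmax = ε / 3 := by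
        rw [hdmax]; field_simp
      rw [← h1]
      gcongr
    refine le_trans (le_of_eq ?_) (ENNReal.ofReal_le_ofReal h)
    simp only [ENNReal.ofReal_mul', hd.le, hG0.le, hL.le, hCD.le,
      (by positivity : 0 ≤ CN * CD * G * CD * G)]
  have e3' : ENNReal.ofReal (2 / d1) * ENNReal.ofReal L * (ENNReal.ofReal (2 / d) *
      ENNReal.ofReal CD * ENNReal.ofReal L * ENNReal.ofReal G) * ENNReal.ofReal eps5 =
      ENNReal.ofReal (ε / 3) := by
    have h : (2 / d1) * L * ((2 / d) * CD * L * G) * eps5 = ε / 3 := by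
      rw [heps5]; field_simp
    rw [← h]
    simp only [ENNReal.ofReal_mul', heps50.le, hG0.le, hL.le, hCD.le,
      (by positivity : 0 ≤ (2 / d) * CD * L * G)]
  have e4' : ENNReal.ofReal (2 / d1) * ENNReal.ofReal (2 / d) * ENNReal.ofReal C1 *
      ENNReal.ofReal L = ENNReal.ofReal C := by
    rw [hC]
    simp only [ENNReal.ofReal_mul', hC1.le, hL.le, (by positivity : 0 ≤ 2 / d)]
  have e5 : ENNReal.ofReal ε = ENNReal.ofReal (ε / 3) + ENNReal.ofReal (ε / 3) +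
      ENNReal.ofReal (ε / 3) := by
    rw [← ENNReal.ofReal_add (by positivity) (by positivity),
      ← ENNReal.ofReal_add (by positivity) (by positivity)]
    congr 1; ring
  calc ENNReal.ofReal (2 / d1) * E * ENNReal.ofReal L +
      ENNReal.ofReal (2 / d1) * ENNReal.ofReal (2 / d) *
        (ENNReal.ofReal C1 * m * ENNReal.ofReal L)
      = (ENNReal.ofReal (2 / d1) * ENNReal.ofReal L * (ENNReal.ofReal CN * ENNReal.ofReal L *
      ENNReal.ofReal CD * ENNReal.ofReal G * ENNReal.ofReal CD) * ENNReal.ofReal eps7 +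
        ENNReal.ofReal (2 / d1) * ENNReal.ofReal L * (ENNReal.ofReal CN * ENNReal.ofReal CD *
      ENNReal.ofReal G * ENNReal.ofReal CD * ENNReal.ofReal G) * ENNReal.ofReal d +
        ENNReal.ofReal (2 / d1) * ENNReal.ofReal L * (ENNReal.ofReal (2 / d) *
      ENNReal.ofReal CD * ENNReal.ofReal L * ENNReal.ofReal G) * ENNReal.ofReal eps5) * N +
        (ENNReal.ofReal (2 / d1) * ENNReal.ofReal (2 / d) * ENNReal.ofReal C1 *
      ENNReal.ofReal L) * m := by rw [hE]; ring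
    _ ≤ (ENNReal.ofReal (ε / 3) + ENNReal.ofReal (ε / 3) + ENNReal.ofReal (ε / 3)) * N +
        ENNReal.ofReal C * m := by
        rw [e1', e3', e4']
        gcongr
    _ = _ := by rw [e5]

/-- **SMOOTHING LEMMA** -/
theorem smoothing (κ L U CN CD : ℝ) (M : ℕ) (hκ : 0 < κ) (hL : 0 < L) (hU : 0 < U) (hCN : 0 < CN)
    (hCD : 0 < CD) {ε : ℝ} (hε : 0 < ε) :
    ∃ ρ e C : ℝ, 0 < ρ ∧ 0 < e ∧ 0 < C ∧
    ∀ (Ω : Type) [MeasurableSpace Ω] (π : Measure Ω) (χ : Ω → ℝ → P2 → ℝ≥0∞)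
      (u : Ω → ℝ → P2 → R3) (W : ℝ → P2 → R3 → ℝ≥0∞) (ub : P2) (s : Ω → ℝ),
      Hyp π L U CN CD M χ u W → Near L U e ρ χ u ub s → Measurable s →
      ∀ f : ℝ → P2 → R3 → ℝ≥0∞, Measurable (fun q : ℝ × P2 × R3 => f q.1 q.2.1 q.2.2) →
      ∀ N m : ℝ≥0∞, (∀ (c : ℝ) (ξ : P2) (v : R3), 0 ≤ c → c ≤ L → f c ξ v ≤ N * W c ξ v) →
      (∀ c : ℝ, 0 ≤ c → c ≤ L →
        ∫⁻ ξ in closedBall (0 : P2) ρ, ∫⁻ z in closedBall (0 : R3) ρ, f c ξ z ≤ m) →
      ∀ v : R3, (Top π κ L χ u)^[4] f 0 0 v ≤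
        (ENNReal.ofReal ε * N + ENNReal.ofReal C * m) * W 0 0 v :=
  core κ L U CN CD M hκ hL hU hCN hCD
    (fun _ _ _ h1 h2 h3 => block κ L U CN CD M hκ hL hU hCN hCD h1 h2 h3) hε

end Crest.Agent.R68.S
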