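import Mathlib
import Crest.Agent.R68.SWin3
import Crest.Agent.R68.FSum
import Crest.Agent.R68.SDefs
import Crest.Agent.R68.LSol4
import Crest.Agent.R68.LK
import Crest.Agent.R68.Carl4

-- ▼ part R68/SGauW
section

/-!
R68 / SGau: the window theorem with pure Gaussian velocity weights (input (S) of Part L;
helper653).
-/

set_option autoImplicit false
open MeasureTheory Set Metric
open scoped ENNReal NNReal
open Crest.AnalysisR.VecCalc3 Crest.AnalysisR.PDE.Boltzmann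

namespace Crest.Agent.R68.S

/-- the Gaussian weight -/
noncomputable def mG (g : ℝ) : Dn := fun _ _ v => ENNReal.ofReal (Real.exp (-g * ‖v‖ ^ 2))

/-- Gaussians satisfy the hypotheses of the window theorem -/
theorem MHyp_mG {g gmin gmax U : ℝ} (τ t : ℝ) (hg0 : 0 ≤ gmin) (h1 : gmin ≤ g) (h2 : g ≤ gmax) :
    MHyp (gmin / 2) (Real.exp (2 * gmax * U ^ 2)) U τ t (mG g) := by
  have hexp : ∀ v : R3, 0 < Real.exp (-g * ‖v‖ ^ 2) := fun v => Real.exp_pos _
  refine ⟨?_, ?_, ?_, ?_, ?_⟩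
  · unfold MD mG; fun_prop
  · intro s y v _ _
    exact (ENNReal.ofReal_pos.2 (hexp v)).ne'
  · intro s y v _ _
    exact ENNReal.ofReal_ne_top
  · intro s' s y v _ _ _
    exact le_rfl
  · intro s y u v z _ _ hu hin
    have horth : (inner ℝ (z - v) (v - u) : ℝ) = 0 := by
      have : v - u = -(u - v) := by abel
      rw [this, inner_neg_right, hin, neg_zero]
    have hgp : 0 ≤ g := hg0.trans h1
    have h3 := gauss_plane hgp hu horth
    show ENNReal.ofReal (Real.exp (-g * ‖z‖ ^ 2)) ≤ ENNReal.ofReal (Real.exp (2 * gmax * U ^ 2)) *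
      ENNReal.ofReal (Real.exp (-(gmin / 2) * ‖z - v‖ ^ 2)) *
      ENNReal.ofReal (Real.exp (-g * ‖v‖ ^ 2))
    rw [← ENNReal.ofReal_mul (Real.exp_pos _).le, ← ENNReal.ofReal_mul (by positivity)]
    apply ENNReal.ofReal_le_ofReal
    refine h3.trans ?_
    rw [← Real.exp_add, ← Real.exp_add, ← Real.exp_add]
    apply Real.exp_le_exp.2
    have e1 : g * U ^ 2 ≤ gmax * U ^ 2 := mul_le_mul_of_nonneg_right h2 (sq_nonneg U)
    have e2 : gmin / 2 * ‖z - v‖ ^ 2 ≤ g / 2 * ‖z - v‖ ^ 2 :=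
      mul_le_mul_of_nonneg_right (by linarith) (sq_nonneg _)
    linarith

/-- **window theorem, Gaussian form** -/
theorem win_gau {U CN CD Cg L : ℝ} {M : ℕ} {gmin gmax : ℝ} (hg0 : 0 ≤ gmin)
    (hcore : CoreProp (gmin / 2) L U CN CD M) (hL : 0 < L) (hCg : 0 < Cg)
    {ε : ℝ} (hε : 0 < ε) :
    ∃ ρ e C : ℝ, 0 < ρ ∧ 0 < e ∧ 0 < C ∧
      ∀ (K t : ℝ), 2 * L ≤ K → 0 < t →
      ∀ (Ω : Type) [MeasurableSpace Ω] (π : Measure Ω) (χ : Ω → ℝ → P2 → ℝ≥0∞)
        (u : Ω → ℝ → P2 → R3) (W : Dn) (G : Dn → Dn),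
        UHyp π (t * (1 - L / K)) t U CN CD M χ u W →
        GHyp π (t * (1 - L / K)) t Cg K χ u G →
      ∀ (x : P2) (ub : P2) (sg : Ω → ℝ),
        Near L U e ρ (scX t (t / K) L x χ) (scU t (t / K) x u) ub sg → Measurable sg →
      ∀ g : ℝ, gmin ≤ g → g ≤ gmax →
      ∀ h : Dn, MD h → ∀ b1 b2 : ℝ≥0∞,
        (∀ s y w, t * (1 - L / K) ≤ s → s ≤ t →
          h s y w ≤ b1 * (W s y w * ENNReal.ofReal (Real.exp (-g * ‖w‖ ^ 2)))) →
        (∀ s, t * (1 - L / K) ≤ s → s ≤ t →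
          ∫⁻ y in closedBall x (ρ * (t / K)), ∫⁻ w in closedBall (0 : R3) ρ, h s y w ≤ b2) →
      ∀ v, (fun h => DuhT (t * (1 - L / K)) (G h))^[4] h t x v
        ≤ W t x v * ENNReal.ofReal (Real.exp (-g * ‖v‖ ^ 2)) *
          (ENNReal.ofReal ε * b1 + ENNReal.ofReal (C * (K / t) ^ 2) * b2) := by
  obtain ⟨ρ, e, C, hρ, he, hC, H⟩ :=
    win hcore hL hCg (Cm := Real.exp (2 * gmax * U ^ 2)) (Real.exp_pos _) hε
  refine ⟨ρ, e, C * Real.exp (gmax * ρ ^ 2), hρ, he, by positivity, ?_⟩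
  intro K t hKL ht Ω _ π χ u W G hU hG x ub sg hN hsg g hg1 hg2 h hh b1 b2 hle hmass v
  have hg : 0 ≤ g := hg0.trans hg1
  have hM := MHyp_mG (U := U) (t * (1 - L / K)) t hg0 hg1 hg2
  have hmass' : ∀ s, t * (1 - L / K) ≤ s → s ≤ t →
      ∫⁻ y in closedBall x (ρ * (t / K)), ∫⁻ z in closedBall (0 : R3) ρ,
        h s y z / mG g s y z ≤ ENNReal.ofReal (Real.exp (gmax * ρ ^ 2)) * b2 := by
    intro s hs hs'
    refine le_trans ?_ (mul_le_mul' le_rfl (hmass s hs hs'))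
    rw [← lintegral_const_mul' _ _ ENNReal.ofReal_ne_top]
    refine lintegral_mono fun y => ?_
    rw [← lintegral_const_mul' _ _ ENNReal.ofReal_ne_top]
    refine setLIntegral_mono' measurableSet_closedBall fun z hz => ?_
    rw [ENNReal.div_eq_inv_mul]
    refine mul_le_mul' ?_ le_rfl
    show (ENNReal.ofReal (Real.exp (-g * ‖z‖ ^ 2)))⁻¹ ≤ _
    rw [← ENNReal.ofReal_inv_of_pos (Real.exp_pos _), ← Real.exp_neg]
    apply ENNReal.ofReal_le_ofReal
    apply Real.exp_le_exp.2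
    have hz' : ‖z‖ ≤ ρ := by simpa using hz
    have hz2 : ‖z‖ ^ 2 ≤ ρ ^ 2 := pow_le_pow_left₀ (norm_nonneg _) hz' 2
    nlinarith [sq_nonneg ρ, sq_nonneg ‖z‖]
  have hfin := H K t hKL ht Ω π χ u W (mG g) G hU hM hG x ub sg hN hsg h hh b1
    (ENNReal.ofReal (Real.exp (gmax * ρ ^ 2)) * b2) hle hmass' v
  refine hfin.trans (le_of_eq ?_)
  have e1 : ENNReal.ofReal (C * (K / t) ^ 2) * ENNReal.ofReal (Real.exp (gmax * ρ ^ 2))
      = ENNReal.ofReal (C * Real.exp (gmax * ρ ^ 2) * (K / t) ^ 2) := by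
    rw [← ENNReal.ofReal_mul (by positivity)]
    congr 1; ring
  rw [← e1]
  unfold mG
  ring

end Crest.Agent.R68.S
end

-- ▼ part R68/SLab1
section

/-!
# Row 68, Part S (helper312): label representation of the fuel

`Om` = thermal labels (sign, thermal coordinates), `piL` the normalised label measure (total mass 1);
for `0 < t` small: `∫ φ(t,x,u) G(u) du = (2K/t) ∫ chP ω t x · G (uP ω t x) dω`  (theorem `rep`).
-/

set_option autoImplicit false
open MeasureTheory Set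
open scoped ENNReal
open Crest.AnalysisR.VecCalc3 Crest.AnalysisR.PDE.Boltzmann

noncomputable section

namespace Crest.Agent.R68.SL

open Crest.Agent.R68.Fuel

/-- thermal labels: sign and thermal coordinates -/
abbrev Om : Type := Bool × ℝ × ℝ × ℝ

/-- third velocity component of the lanes of label `ω` -/
def sg (ω : Om) : ℝ := if ω.1 then 1 else -1

theorem sg_or (ω : Om) : sg ω = 1 ∨ sg ω = -1 := by
  unfold sg; split_ifs <;> simp

theorem measurable_sg : Measurable sg := by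
  unfold sg
  refine Measurable.ite ?_ measurable_const measurable_const
  exact measurable_fst (measurableSet_singleton true)

/-- normalised label measure -/
def piL : Measure Om := (16 : ℝ≥0∞)⁻¹ • (Measure.count.prod ((volume.restrict (Ioo (-1 : ℝ) 1)).prod
  ((volume.restrict (Ioo (-1 : ℝ) 1)).prod (volume.restrict (Ioo (-1 : ℝ) 1)))))

theorem lint_piL {F : Om → ℝ≥0∞} (hF : Measurable F) : ∫⁻ ω, F ω ∂piL = (16 : ℝ≥0∞)⁻¹ *
    ((∫⁻ s1 in Ioo (-1 : ℝ) 1, ∫⁻ s2 in Ioo (-1 : ℝ) 1, ∫⁻ s3 in Ioo (-1 : ℝ) 1, F (true, s1, s2, s3)) +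
      ∫⁻ s1 in Ioo (-1 : ℝ) 1, ∫⁻ s2 in Ioo (-1 : ℝ) 1, ∫⁻ s3 in Ioo (-1 : ℝ) 1,
        F (false, s1, s2, s3)) := by
  unfold piL
  rw [lintegral_smul_measure, lintegral_prod _ hF.aemeasurable, lintegral_count, tsum_fintype,
    Fintype.sum_bool, smul_eq_mul]
  have key : ∀ b : Bool, ∫⁻ q : ℝ × ℝ × ℝ, F (b, q) ∂((volume.restrict (Ioo (-1 : ℝ) 1)).prod
      ((volume.restrict (Ioo (-1 : ℝ) 1)).prod (volume.restrict (Ioo (-1 : ℝ) 1)))) =
      ∫⁻ s1 in Ioo (-1 : ℝ) 1, ∫⁻ s2 in Ioo (-1 : ℝ) 1, ∫⁻ s3 in Ioo (-1 : ℝ) 1,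
        F (b, s1, s2, s3) := by
    intro b
    have h1 : Measurable fun q : ℝ × ℝ × ℝ => F (b, q) := hF.comp measurable_prodMk_left
    rw [lintegral_prod _ h1.aemeasurable]
    refine lintegral_congr fun s1 => ?_
    have h2 : Measurable fun q : ℝ × ℝ => F (b, s1, q) := h1.comp measurable_prodMk_left
    rw [lintegral_prod _ h2.aemeasurable]
  rw [key, key]

theorem piL_univ : piL univ = 1 := by
  have h := lint_piL (F := fun _ => 1) measurable_const
  rw [lintegral_const, one_mul] at h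
  rw [h]
  simp only [lintegral_const, Measure.restrict_apply_univ, Real.volume_Ioo, one_mul]
  rw [show ((1 : ℝ) - -1) = 2 by norm_num, show ENNReal.ofReal 2 = 2 by norm_num]
  rw [show (2 * 2 * 2 + 2 * 2 * 2 : ℝ≥0∞) = 16 by norm_num]
  exact ENNReal.inv_mul_cancel (by norm_num) (by norm_num)

instance : IsFiniteMeasure piL := ⟨by rw [piL_univ]; exact ENNReal.one_lt_top⟩

/-! ### lane index -/

/-- index of the lane in which `(t,x)` lies (or would lie) -/
def lix (P : Par) (t : ℝ) (x : P2) : ℕ := ⌊1 / (2 * lab P t x ^ 2)⌋₊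

theorem measurable_lab (P : Par) : Measurable fun q : ℝ × P2 => lab P q.1 q.2 := by
  unfold lab; fun_prop

theorem measurable_lix (P : Par) : Measurable fun q : ℝ × P2 => lix P q.1 q.2 := by
  unfold lix
  refine Nat.measurable_floor.comp ?_
  exact measurable_const.div (((measurable_lab P).pow_const 2).const_mul 2)

theorem lab_eq {P : Par} (h : 0 < P.dl) (t : ℝ) (x : P2) : lab P t x = x.1 / (1 + P.kap * t) := by
  unfold lab Par.kap
  rw [show P.dl + P.c * t = P.dl * (1 + P.c / P.dl * t) by field_simp]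
  rw [mul_div_mul_left _ _ h.ne']

theorem lA_eq (P : Par) (j : ℕ) (t : ℝ) (x : P2) (s : ℝ) :
    lA P j t x s = (x.1 - t * (etaj P.p j * s)) / (1 + P.kap * t) := rfl

theorem lZ_eq (P : Par) (j : ℕ) (t : ℝ) (x : P2) (s s' : ℝ) :
    lZ P j t x s s' = rr (lA P j t x s) * (x.2 - t * (etaj P.p j * s')) /
      (t + rr (lA P j t x s)) := rfl

theorem lU_0 (P : Par) (j : ℕ) (t : ℝ) (x : P2) (s1 s2 s3 : ℝ) :
    lU P j t x s1 s2 s3 0 = (P.kap * x.1 + etaj P.p j * s1) / (1 + P.kap * t) := rfl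

theorem lU_1 (P : Par) (j : ℕ) (t : ℝ) (x : P2) (s1 s2 s3 : ℝ) :
    lU P j t x s1 s2 s3 1 = (x.2 + rr (lA P j t x s1) * (etaj P.p j * s2)) /
      (t + rr (lA P j t x s1)) := rfl

theorem lU_2 (P : Par) (j : ℕ) (t : ℝ) (x : P2) (s1 s2 s3 : ℝ) :
    lU P j t x s1 s2 s3 2 = wj j + etaj P.p j * s3 := rfl

/-- label against centre -/
theorem lab_sub_lA {P : Par} (h : P.Ok) (j : ℕ) {t : ℝ} (ht : 0 ≤ t) (x : P2) {s : ℝ}
    (hs : |s| ≤ 1) : |lab P t x - lA P j t x s| ≤ etaj P.p j * (t / (1 + P.kap * t)) := by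
  have h1 := Ok.kap0 h
  have h2 : 0 < 1 + P.kap * t := by positivity
  have h3 := etaj_pos P.p j
  rw [lab_eq (Ok.dlp h), lA_eq, ← sub_div, abs_div, abs_of_pos h2, sub_sub_cancel, abs_mul, abs_mul,
    abs_of_pos h3, abs_of_nonneg ht]
  rw [← mul_div_assoc]
  refine div_le_div_of_nonneg_right ?_ h2.le
  have h4 : etaj P.p j * |s| ≤ etaj P.p j * 1 := by gcongr
  calc t * (etaj P.p j * |s|) ≤ t * (etaj P.p j * 1) := by gcongr
    _ = etaj P.p j * t := by ring

theorem lab_sub_lA' {P : Par} (h : P.Ok) (j : ℕ) {t : ℝ} (ht : 0 ≤ t) (x : P2) {s : ℝ}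
    (hs : |s| ≤ 1) : |lab P t x - lA P j t x s| ≤ etaj P.p j := by
  refine (lab_sub_lA h j ht x hs).trans ?_
  have h1 := h.kap1
  have h2 : 0 < 1 + P.kap * t := by positivity
  have h3 := etaj_pos P.p j
  have h4 : t / (1 + P.kap * t) ≤ 1 := by
    rw [div_le_one h2]; nlinarith
  nlinarith

theorem etaj_cube {P : Par} (h : P.Ok) (j : ℕ) : etaj P.p j ≤ (1 / (2 * (j : ℝ) + 1)) ^ 3 :=
  pow_le_pow_of_le_one (by positivity) (inv_le_one' j) h.p3

/-- a visible label determines the lane index of the point -/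
theorem lix_eq {P : Par} (h : P.Ok) {j : ℕ} (hj : P.j0 ≤ j) {t : ℝ} (ht : 0 ≤ t) {x : P2} {s : ℝ}
    (hs : |s| ≤ 1) (hA : lA P j t x s ∈ lane j) : lix P t x = j := by
  set A := lA P j t x s with hAdef
  set B := lab P t x with hBdef
  have hBA := lab_sub_lA' h j ht x hs
  rw [← hAdef, ← hBdef] at hBA
  have h1 := lane_upper hA
  have h2 := lane_lower hA
  have h3 := lane_lt_dl (Ok.j1 h) hj hA
  have h4 := Ok.dl20 h
  have h5 : (400 : ℝ) ≤ 2 * j := by
    have h6 : (200 : ℝ) ≤ P.j0 := by exact_mod_cast h.j0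
    have h7 : (P.j0 : ℝ) ≤ j := by exact_mod_cast hj
    linarith
  set η := etaj P.p j with hη
  have hη0 : 0 < η := etaj_pos P.p j
  set n : ℝ := 2 * (j : ℝ) + 1 with hn
  have hη1 : η * n ^ 3 ≤ 1 := by
    have h6 := etaj_cube h j
    rw [← hη, ← hn] at h6
    calc η * n ^ 3 ≤ (1 / n) ^ 3 * n ^ 3 := by gcongr
      _ = 1 := by rw [← mul_pow, one_div, inv_mul_cancel₀ (by linarith), one_pow]
  have hη2 : η ≤ 1 / 2 := by
    have : (2 : ℝ) ≤ n ^ 3 := by nlinarith [sq_nonneg n]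
    nlinarith
  have hBB : |B ^ 2 - A ^ 2| ≤ η := by
    have h6 : |B + A| ≤ 1 := by
      have : |B| ≤ |A| + η := by
        have := abs_sub_abs_le_abs_sub B A
        linarith
      calc |B + A| ≤ |B| + |A| := abs_add_le _ _
        _ ≤ 1 := by linarith
    calc |B ^ 2 - A ^ 2| = |B - A| * |B + A| := by rw [← abs_mul]; ring_nf
      _ ≤ η * 1 := by gcongr
      _ = η := mul_one _
  obtain ⟨hb1, hb2⟩ := abs_le.1 hBB
  have hA2 : 0 < A ^ 2 := by have := hA.1; positivity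
  have hn3 : 100 * (n + 1) ^ 2 * η ≤ 1 := by
    have : 100 * (n + 1) ^ 2 ≤ n ^ 3 := by nlinarith [sq_nonneg n]
    nlinarith
  have hA3 : 1 < A ^ 2 * (n + 1) := by nlinarith
  have hj2 : 2 * (j : ℝ) = n - 1 := by rw [hn]; ring
  have hB2 : 0 < B ^ 2 := by nlinarith
  have e1 : (j : ℝ) * (2 * B ^ 2) ≤ 1 := by
    have : (n - 1) * B ^ 2 ≤ 1 := by
      have e2 : (n - 1) * B ^ 2 ≤ (n - 1) * (A ^ 2 + η) :=
        mul_le_mul_of_nonneg_left (by linarith) (by linarith)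
      have e3 : A ^ 2 * (n - 1 + 1 / 100) < 1 := by
        rw [← hj2]; exact h1
      have e4 : (n - 1) * η ≤ 1 / 100 * A ^ 2 := by
        have e5 : (n - 1) * η * (n + 1) * 100 ≤ 1 := by nlinarith
        have e6 : (n - 1) * η * 100 * (n + 1) ≤ A ^ 2 * (n + 1) := by nlinarith
        have e7 := le_of_mul_le_mul_right e6 (by linarith : (0 : ℝ) < n + 1)
        linarith
      nlinarith
    nlinarith
  have e2 : 1 < ((j : ℝ) + 1) * (2 * B ^ 2) := by
    have : 1 < (n + 1) * B ^ 2 := by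
      have e2 : (n + 1) * (A ^ 2 - η) ≤ (n + 1) * B ^ 2 :=
        mul_le_mul_of_nonneg_left (by linarith) (by linarith)
      have e3 : 1 < A ^ 2 * (n - 1 + 199 / 100) := by
        rw [← hj2]; exact h2
      have e4 : (n + 1) * η ≤ 1 / 100 * A ^ 2 := by
        have e6 : (n + 1) * η * 100 * (n + 1) ≤ A ^ 2 * (n + 1) := by nlinarith
        have e7 := le_of_mul_le_mul_right e6 (by linarith : (0 : ℝ) < n + 1)
        linarith
      nlinarith
    nlinarith
  unfold lix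
  rw [← hBdef, Nat.floor_eq_iff (by positivity)]
  constructor
  · rw [le_div_iff₀ (by positivity)]; exact e1
  · rw [div_lt_iff₀ (by positivity)]; exact e2

theorem wj_or (j : ℕ) : wj j = 1 ∨ wj j = -1 := by
  unfold wj
  exact neg_one_pow_eq_or ℝ j

/-! ### one image -/

/-- conditions on the label -/
def okL (P : Par) (j : ℕ) (ω : Om) (t : ℝ) : Prop :=
  P.j0 ≤ j ∧ 0 < t ∧ wj j = sg ω ∧ ω.2.1 ∈ Ioo (-1 : ℝ) 1 ∧ ω.2.2.1 ∈ Ioo (-1 : ℝ) 1 ∧
    ω.2.2.2 ∈ Ioo (-1 : ℝ) 1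

open scoped Classical in
/-- normalised density of lane `j` -/
def chj (P : Par) (j : ℕ) (ω : Om) (t : ℝ) (x : P2) : ℝ≥0∞ :=
  if okL P j ω t then ENNReal.ofReal
    (t * qj P j (lA P j t x ω.2.1) (lZ P j t x ω.2.1 ω.2.2.1) /
      (P.K * (t + rr (lA P j t x ω.2.1)) * (1 + P.kap * t))) else 0

/-- velocity of lane `j` -/
def ujL (P : Par) (j : ℕ) (ω : Om) (t : ℝ) (x : P2) : R3 :=
  lU P j t x ω.2.1 ω.2.2.1 ω.2.2.2

theorem measurable_chj (P : Par) (j : ℕ) :
    Measurable fun q : Om × ℝ × P2 => chj P j q.1 q.2.1 q.2.2 := by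
  unfold chj
  have hA : Measurable fun q : Om × ℝ × P2 => lA P j q.2.1 q.2.2 q.1.2.1 := by
    simp only [lA_eq]
    fun_prop
  have hr : Measurable fun q : Om × ℝ × P2 => rr (lA P j q.2.1 q.2.2 q.1.2.1) :=
    measurable_rr.comp hA
  have hZ : Measurable fun q : Om × ℝ × P2 => lZ P j q.2.1 q.2.2 q.1.2.1 q.1.2.2.1 := by
    simp only [lZ_eq]
    refine (hr.mul ?_).div ((measurable_fst.comp measurable_snd).add hr)
    fun_prop
  have hq : Measurable fun q : Om × ℝ × P2 =>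
      qj P j (lA P j q.2.1 q.2.2 q.1.2.1) (lZ P j q.2.1 q.2.2 q.1.2.1 q.1.2.2.1) :=
    (measurable_qj P j).comp (hA.prodMk hZ)
  have ht : Measurable fun q : Om × ℝ × P2 => q.2.1 := by fun_prop
  refine Measurable.ite ?_ ?_ measurable_const
  · have e1 : MeasurableSet {q : Om × ℝ × P2 | P.j0 ≤ j} := MeasurableSet.const _
    have e2 : MeasurableSet {q : Om × ℝ × P2 | 0 < q.2.1} := measurableSet_lt measurable_const ht
    have e3 : MeasurableSet {q : Om × ℝ × P2 | wj j = sg q.1} :=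
      measurableSet_eq_fun measurable_const (measurable_sg.comp measurable_fst)
    have e4 : MeasurableSet {q : Om × ℝ × P2 | q.1.2.1 ∈ Ioo (-1 : ℝ) 1} :=
      measurableSet_Ioo.preimage (by fun_prop)
    have e5 : MeasurableSet {q : Om × ℝ × P2 | q.1.2.2.1 ∈ Ioo (-1 : ℝ) 1} :=
      measurableSet_Ioo.preimage (by fun_prop)
    have e6 : MeasurableSet {q : Om × ℝ × P2 | q.1.2.2.2 ∈ Ioo (-1 : ℝ) 1} :=
      measurableSet_Ioo.preimage (by fun_prop)
    exact e1.inter (e2.inter (e3.inter (e4.inter (e5.inter e6))))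
  · refine ENNReal.measurable_ofReal.comp ?_
    refine (ht.mul hq).div (((ht.add hr).const_mul _).mul ?_)
    exact (ht.const_mul _).const_add _

theorem measurable_ujL (P : Par) (j : ℕ) :
    Measurable fun q : Om × ℝ × P2 => ujL P j q.1 q.2.1 q.2.2 := by
  unfold ujL
  have hA : Measurable fun q : Om × ℝ × P2 => lA P j q.2.1 q.2.2 q.1.2.1 := by
    simp only [lA_eq]
    fun_prop
  have hr : Measurable fun q : Om × ℝ × P2 => rr (lA P j q.2.1 q.2.2 q.1.2.1) :=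
    measurable_rr.comp hA
  have ht : Measurable fun q : Om × ℝ × P2 => q.2.1 := by fun_prop
  refine measurable_vec ?_ ?_ ?_
  · fun_prop
  · refine Measurable.div (Measurable.add (by fun_prop) (hr.mul (by fun_prop))) (ht.add hr)
  · fun_prop

attribute [local irreducible] lix

/-- normalised density at `(t,x)`, one image -/
def chL (P : Par) (ω : Om) (t : ℝ) (x : P2) : ℝ≥0∞ := chj P (lix P t x) ω t x

/-- velocity of label `ω` at `(t,x)`, one image -/
def uL (P : Par) (ω : Om) (t : ℝ) (x : P2) : R3 := ujL P (lix P t x) ω t x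

theorem measurable_chL (P : Par) : Measurable fun q : Om × ℝ × P2 => chL P q.1 q.2.1 q.2.2 := by
  have h1 : Measurable fun q : ℕ × Om × ℝ × P2 => chj P q.1 q.2.1 q.2.2.1 q.2.2.2 :=
    measurable_from_prod_countable_right fun j => measurable_chj P j
  have h2 : Measurable fun q : Om × ℝ × P2 => (lix P q.2.1 q.2.2, q) :=
    ((measurable_lix P).comp measurable_snd).prodMk measurable_id
  unfold chL
  exact Measurable.comp (g := fun q : ℕ × Om × ℝ × P2 => chj P q.1 q.2.1 q.2.2.1 q.2.2.2)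
    (f := fun q : Om × ℝ × P2 => (lix P q.2.1 q.2.2, q)) h1 h2

theorem measurable_uL (P : Par) : Measurable fun q : Om × ℝ × P2 => uL P q.1 q.2.1 q.2.2 := by
  have h1 : Measurable fun q : ℕ × Om × ℝ × P2 => ujL P q.1 q.2.1 q.2.2.1 q.2.2.2 :=
    measurable_from_prod_countable_right fun j => measurable_ujL P j
  have h2 : Measurable fun q : Om × ℝ × P2 => (lix P q.2.1 q.2.2, q) :=
    ((measurable_lix P).comp measurable_snd).prodMk measurable_id
  unfold uL
  exact Measurable.comp (g := fun q : ℕ × Om × ℝ × P2 => ujL P q.1 q.2.1 q.2.2.1 q.2.2.2)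
    (f := fun q : Om × ℝ × P2 => (lix P q.2.1 q.2.2, q)) h1 h2

/-- representation, one lane -/
theorem rep_lane {P : Par} (h : P.Ok) (hK : 0 < P.K) {t : ℝ} (ht : 0 < t) (z : P2) (j : ℕ)
    (hj : P.j0 ≤ j) {g : R3 → ℝ≥0∞} (hg : Measurable g) :
    ∫⁻ v, ENNReal.ofReal (phij P j t z v) * g v =
      ENNReal.ofReal (2 * P.K / t) * ∫⁻ ω, chj P j ω t z * g (ujL P j ω t z) ∂piL := by
  have hm : Measurable fun ω : Om => chj P j ω t z * g (ujL P j ω t z) := by
    have h1 : Measurable fun ω : Om => (ω, t, z) := by fun_prop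
    exact ((measurable_chj P j).comp h1).mul (hg.comp ((measurable_ujL P j).comp h1))
  rw [lint_phij h j ht.le z hg, lint_piL hm]
  -- the correct sign
  obtain ⟨b, hb, hb'⟩ : ∃ b : Bool, (wj j = if b then 1 else -1) ∧
      ¬ (wj j = if !b then 1 else -1) := by
    rcases wj_or j with h1 | h1
    · exact ⟨true, by simp [h1], by simp [h1]; norm_num⟩
    · exact ⟨false, by simp [h1], by simp [h1]; norm_num⟩
  have hz : ∫⁻ s1 in Ioo (-1 : ℝ) 1, ∫⁻ s2 in Ioo (-1 : ℝ) 1, ∫⁻ s3 in Ioo (-1 : ℝ) 1,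
      chj P j (!b, s1, s2, s3) t z * g (ujL P j (!b, s1, s2, s3) t z) = 0 := by
    have : ∀ s1 s2 s3 : ℝ, chj P j (!b, s1, s2, s3) t z = 0 := by
      intro s1 s2 s3
      unfold chj
      rw [if_neg]
      intro h1
      exact hb' h1.2.2.1
    simp [this]
  have hsum : ((∫⁻ s1 in Ioo (-1 : ℝ) 1, ∫⁻ s2 in Ioo (-1 : ℝ) 1, ∫⁻ s3 in Ioo (-1 : ℝ) 1,
        chj P j (true, s1, s2, s3) t z * g (ujL P j (true, s1, s2, s3) t z)) +
      ∫⁻ s1 in Ioo (-1 : ℝ) 1, ∫⁻ s2 in Ioo (-1 : ℝ) 1, ∫⁻ s3 in Ioo (-1 : ℝ) 1,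
        chj P j (false, s1, s2, s3) t z * g (ujL P j (false, s1, s2, s3) t z)) =
      ∫⁻ s1 in Ioo (-1 : ℝ) 1, ∫⁻ s2 in Ioo (-1 : ℝ) 1, ∫⁻ s3 in Ioo (-1 : ℝ) 1,
        chj P j (b, s1, s2, s3) t z * g (ujL P j (b, s1, s2, s3) t z) := by
    cases b
    · rw [Bool.not_false] at hz
      rw [hz, zero_add]
    · rw [Bool.not_true] at hz
      rw [hz, add_zero]
  rw [hsum, ← mul_assoc, ← lintegral_const_mul' _ _ (by finiteness)]
  refine setLIntegral_congr_fun measurableSet_Ioo fun s1 hs1 => ?_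
  rw [← lintegral_const_mul' _ _ (by finiteness)]
  refine setLIntegral_congr_fun measurableSet_Ioo fun s2 hs2 => ?_
  rw [← lintegral_const_mul' _ _ (by finiteness)]
  refine setLIntegral_congr_fun measurableSet_Ioo fun s3 hs3 => ?_
  have hok : okL P j (b, s1, s2, s3) t := ⟨hj, ht, hb, hs1, hs2, hs3⟩
  show _ = ENNReal.ofReal (2 * P.K / t) * 16⁻¹ *
    (chj P j (b, s1, s2, s3) t z * g (ujL P j (b, s1, s2, s3) t z))
  rw [← mul_assoc]
  congr 1
  unfold chj
  rw [if_pos hok]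
  have h1 : 0 < 1 + P.kap * t := by have := Ok.kap0 h; positivity
  have h2 : 0 < t + rr (lA P j t z s1) := by have := rr_nonneg (lA P j t z s1); positivity
  rw [show (16 : ℝ≥0∞)⁻¹ = ENNReal.ofReal (1 / 16) by
    rw [one_div, ENNReal.ofReal_inv_of_pos (by norm_num)]; norm_num]
  rw [← ENNReal.ofReal_mul (by positivity), ← ENNReal.ofReal_mul (by positivity)]
  congr 1
  field_simp
  ring

/-- representation, one image -/
theorem rep_one {P : Par} (h : P.Ok) (hK : 0 < P.K) {t : ℝ} (ht : 0 < t) (z : P2)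
    {g : R3 → ℝ≥0∞} (hg : Measurable g) :
    ∑' j : ℕ, ∫⁻ v, ENNReal.ofReal (phs P j t z v) * g v =
      ENNReal.ofReal (2 * P.K / t) * ∫⁻ ω, chL P ω t z * g (uL P ω t z) ∂piL := by
  have h0 : ∀ j, j ≠ lix P t z → ∫⁻ v, ENNReal.ofReal (phs P j t z v) * g v = 0 := by
    intro j hj
    by_cases hj0 : P.j0 ≤ j
    · simp_rw [phs_of_le hj0]
      rw [lint_phij h j ht.le z hg]
      have : ∀ s1 ∈ Ioo (-1 : ℝ) 1, ∫⁻ s2 in Ioo (-1 : ℝ) 1, ∫⁻ s3 in Ioo (-1 : ℝ) 1,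
        ENNReal.ofReal (qj P j (lA P j t z s1) (lZ P j t z s1 s2) /
          (8 * (t + rr (lA P j t z s1)) * (1 + P.kap * t))) * g (lU P j t z s1 s2 s3) = 0 := by
        intro s1 hs1
        have h2 : lA P j t z s1 ∉ lane j := by
          intro h3
          exact hj (lix_eq h hj0 ht.le (abs_le.2 ⟨hs1.1.le, hs1.2.le⟩) h3).symm
        have h3 : ∀ s2, qj P j (lA P j t z s1) (lZ P j t z s1 s2) = 0 := by
          intro s2
          by_contra h4
          exact h2 (qj_ne h4).1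
        simp [h3]
      rw [setLIntegral_congr_fun measurableSet_Ioo this]
      simp
    · have : ∀ v, phs P j t z v = 0 := fun v => by unfold phs; rw [if_neg hj0]
      simp [this]
  rw [tsum_eq_single _ h0]
  by_cases hj0 : P.j0 ≤ lix P t z
  · simp_rw [phs_of_le hj0]
    exact rep_lane h hK ht z _ hj0 hg
  · have h1 : ∀ v, phs P (lix P t z) t z v = 0 := fun v => by unfold phs; rw [if_neg hj0]
    have h2 : ∀ ω, chL P ω t z = 0 := by
      intro ω
      unfold chL chj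
      rw [if_neg]
      exact fun h3 => hj0 h3.1
    simp [h1, h2]

/-! ### images -/

open scoped Classical in
/-- representative near the origin (the origin if there is none) -/
def red (x : P2) : P2 := if h : ∃ k : ℤ × ℤ, ‖x + latt k‖ < 7 / 20 then x + latt h.choose else 0

theorem red_of {x : P2} {k : ℤ × ℤ} (hk : ‖x + latt k‖ < 7 / 20) : red x = x + latt k := by
  have h : ∃ k : ℤ × ℤ, ‖x + latt k‖ < 7 / 20 := ⟨k, hk⟩
  unfold red
  rw [dif_pos h, latt_unique h.choose_spec hk]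

theorem red_zero {x : P2} (h : ∀ k : ℤ × ℤ, ¬ ‖x + latt k‖ < 7 / 20) : red x = 0 := by
  unfold red
  rw [dif_neg]
  push Not
  exact fun k => not_lt.1 (h k)


theorem measurable_red : Measurable red := by
  intro A hA
  have h1 : ∀ k : ℤ × ℤ, MeasurableSet {x : P2 | ‖x + latt k‖ < 7 / 20} := fun k =>
    measurableSet_lt (measurable_id.add_const _).norm measurable_const
  have h2 : red ⁻¹' A = (⋃ k : ℤ × ℤ, ({x : P2 | ‖x + latt k‖ < 7 / 20} ∩
      (fun x => x + latt k) ⁻¹' A)) ∪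
      ((⋃ k : ℤ × ℤ, {x : P2 | ‖x + latt k‖ < 7 / 20})ᶜ ∩ {x : P2 | (0 : P2) ∈ A}) := by
    ext x
    simp only [mem_preimage, mem_union, mem_iUnion, mem_inter_iff, mem_ofPred_eq, mem_compl_iff,
      not_exists]
    constructor
    · intro h
      by_cases h3 : ∃ k : ℤ × ℤ, ‖x + latt k‖ < 7 / 20
      · obtain ⟨k, hk⟩ := h3
        rw [red_of hk] at h
        exact Or.inl ⟨k, hk, h⟩
      · push Not at h3
        rw [red_zero fun k => not_lt.2 (h3 k)] at h
        exact Or.inr ⟨fun k => not_lt.2 (h3 k), h⟩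
    · rintro (⟨k, hk, h⟩ | ⟨h3, h⟩)
      · rw [red_of hk]; exact h
      · rw [red_zero h3]; exact h
  rw [h2]
  refine (MeasurableSet.iUnion fun k => (h1 k).inter ?_).union
    ((MeasurableSet.iUnion h1).compl.inter (MeasurableSet.const _))
  exact (measurable_id.add_const _) hA

/-- normalised density at `(t,x)`, periodic -/
def chP (P : Par) (ω : Om) (t : ℝ) (x : P2) : ℝ≥0∞ := chL P ω t (red x)

/-- velocity of label `ω` at `(t,x)`, periodic -/
def uP (P : Par) (ω : Om) (t : ℝ) (x : P2) : R3 := uL P ω t (red x)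

theorem measurable_chP (P : Par) : Measurable fun q : Om × ℝ × P2 => chP P q.1 q.2.1 q.2.2 := by
  have h1 : Measurable fun q : Om × ℝ × P2 => (q.1, q.2.1, red q.2.2) :=
    measurable_fst.prodMk ((measurable_fst.comp measurable_snd).prodMk
      (measurable_red.comp (measurable_snd.comp measurable_snd)))
  unfold chP
  exact Measurable.comp (g := fun q : Om × ℝ × P2 => chL P q.1 q.2.1 q.2.2)
    (f := fun q : Om × ℝ × P2 => (q.1, q.2.1, red q.2.2)) (measurable_chL P) h1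

theorem measurable_uP (P : Par) : Measurable fun q : Om × ℝ × P2 => uP P q.1 q.2.1 q.2.2 := by
  have h1 : Measurable fun q : Om × ℝ × P2 => (q.1, q.2.1, red q.2.2) :=
    measurable_fst.prodMk ((measurable_fst.comp measurable_snd).prodMk
      (measurable_red.comp (measurable_snd.comp measurable_snd)))
  unfold uP
  exact Measurable.comp (g := fun q : Om × ℝ × P2 => uL P q.1 q.2.1 q.2.2)
    (f := fun q : Om × ℝ × P2 => (q.1, q.2.1, red q.2.2)) (measurable_uL P) h1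

theorem chL_zero {P : Par} (h : P.Ok) (ω : Om) (t : ℝ) : chL P ω t 0 = 0 := by
  unfold chL
  have h1 : lix P t 0 = 0 := by
    unfold lix lab
    simp
  rw [h1]
  unfold chj
  rw [if_neg]
  intro h2
  have := h2.1
  have := h.j0
  omega

/-- **Label representation of the fuel** -/
theorem rep {P : Par} (h : P.Ok) (hK : 0 < P.K) {t : ℝ} (ht : 0 < t)
    (hT : (1 + P.Y) * P.dl + (P.c + P.Y + etaj P.p P.j0) * t < 7 / 20) (x : P2)
    {g : R3 → ℝ≥0∞} (hg : Measurable g) :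
    ∫⁻ v, ENNReal.ofReal (phi P t x v) * g v =
      ENNReal.ofReal (2 * P.K / t) * ∫⁻ ω, chP P ω t x * g (uP P ω t x) ∂piL := by
  rw [lint_phi h t x hg]
  have h0 : ∀ k : ℤ × ℤ, ¬ ‖x + latt k‖ < 7 / 20 →
      ∑' j : ℕ, ∫⁻ v, ENNReal.ofReal (phs P j t (x + latt k) v) * g v = 0 := by
    intro k hk
    have h1 : k ∉ vis P t x := fun h2 => hk ((norm_of_vis h ht.le h2).trans_lt hT)
    have h2 : ∀ j v, phs P j t (x + latt k) v = 0 := by
      intro j v
      by_contra h3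
      have h4 := mem_of_phs_ne h3
      exact h1 ⟨j, h4.1, v, h4.2⟩
    simp [h2]
  by_cases hx : ∃ k : ℤ × ℤ, ‖x + latt k‖ < 7 / 20
  · obtain ⟨k, hk⟩ := hx
    rw [tsum_eq_single k]
    · rw [rep_one h hK ht _ hg]
      unfold chP uP
      rw [red_of hk]
    · intro l hl
      exact h0 l fun h1 => hl (latt_unique h1 hk)
  · push Not at hx
    have h1 : ∀ ω, chP P ω t x = 0 := by
      intro ω
      unfold chP
      rw [red_zero fun k => not_lt.2 (hx k)]
      exact chL_zero h ω t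
    have h2 : ∀ k : ℤ × ℤ, ∑' j : ℕ, ∫⁻ v, ENNReal.ofReal (phs P j t (x + latt k) v) * g v = 0 :=
      fun k => h0 k (not_lt.2 (hx k))
    simp only [h1, h2, tsum_zero, zero_mul, lintegral_zero, mul_zero]

end Crest.Agent.R68.SL
end
end

-- ▼ part R68/SLab2
section

/-!
# Row 68, Part S (helper312): bounds for the label representation, scaled `Near` property
-/

set_option autoImplicit false
open MeasureTheory Set
open scoped ENNReal
open Crest.AnalysisR.VecCalc3 Crest.AnalysisR.PDE.Boltzmann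

noncomputable section

namespace Crest.Agent.R68.SL

open Crest.Agent.R68.Fuel

theorem chj_ne {P : Par} {j : ℕ} {ω : Om} {t : ℝ} {x : P2} (h : chj P j ω t x ≠ 0) :
    okL P j ω t ∧ lA P j t x ω.2.1 ∈ lane j ∧
      |lZ P j t x ω.2.1 ω.2.2.1| < P.Y * rr (lA P j t x ω.2.1) := by
  unfold chj at h
  split_ifs at h with h1
  · refine ⟨h1, qj_ne (P := P) (j := j) ?_⟩
    intro h2; rw [h2] at h; simp at h
  · exact absurd rfl h

theorem chj_le_one {P : Par} (h : P.Ok) (hK : 0 < P.K) (j : ℕ) (ω : Om) (t : ℝ) (x : P2) :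
    chj P j ω t x ≤ 1 := by
  unfold chj
  split_ifs with h1
  · have ht := h1.2.1
    rw [← ENNReal.ofReal_one]
    refine ENNReal.ofReal_le_ofReal ?_
    have h2 := rr_nonneg (lA P j t x ω.2.1)
    have h3 := Ok.kap0 h
    have h4 := qj_le h.K0 j (lA P j t x ω.2.1) (lZ P j t x ω.2.1 ω.2.2.1)
    have h5 := qj_nonneg h.K0 j (lA P j t x ω.2.1) (lZ P j t x ω.2.1 ω.2.2.1)
    rw [div_le_one (by positivity)]
    have h6 : t * qj P j (lA P j t x ω.2.1) (lZ P j t x ω.2.1 ω.2.2.1) ≤ t * P.K := by gcongr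
    have h7 : P.K * t * 1 ≤ P.K * (t + rr (lA P j t x ω.2.1)) * (1 + P.kap * t) := by
      gcongr
      · linarith
      · have : 0 ≤ P.kap * t := by positivity
        linarith
    linarith
  · exact zero_le_one


theorem chP_le_one {P : Par} (h : P.Ok) (hK : 0 < P.K) (ω : Om) (t : ℝ) (x : P2) :
    chP P ω t x ≤ 1 := chj_le_one h hK _ ω t _

/-- labels of a visible fuel point -/
theorem fuel_pt {P : Par} (h : P.Ok) {ω : Om} {t : ℝ} {z : P2} (hne : chL P ω t z ≠ 0) :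
    ∃ (j : ℕ) (A y : ℝ), P.j0 ≤ j ∧ 0 < t ∧ wj j = sg ω ∧ |ω.2.1| < 1 ∧ |ω.2.2.1| < 1 ∧
      |ω.2.2.2| < 1 ∧ A ∈ lane j ∧ |y| < P.Y ∧
      z.1 = A * (1 + P.kap * t) + t * (etaj P.p j * ω.2.1) ∧
      z.2 = y * (t + rr A) + t * (etaj P.p j * ω.2.2.1) ∧
      uL P ω t z 0 = P.kap * A + etaj P.p j * ω.2.1 ∧
      uL P ω t z 1 = y + etaj P.p j * ω.2.2.1 ∧
      uL P ω t z 2 = wj j + etaj P.p j * ω.2.2.2 := by
  unfold chL at hne
  unfold uL ujL
  set j := lix P t z with hj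
  obtain ⟨⟨h1, h2, h3, h4, h5, h6⟩, hA, hZ⟩ := chj_ne hne
  set A := lA P j t z ω.2.1 with hAd
  have hr := rr_pos hA.1
  have hk := Ok.kap0 h
  have hden : 0 < 1 + P.kap * t := by positivity
  have htr : 0 < t + rr A := by positivity
  refine ⟨j, A, (z.2 - t * (etaj P.p j * ω.2.2.1)) / (t + rr A), h1, h2, h3, abs_lt.2 h4,
    abs_lt.2 h5, abs_lt.2 h6, hA, ?_, ?_, ?_, ?_, ?_, lU_2 _ _ _ _ _ _ _⟩
  · rw [lZ_eq, ← hAd, mul_div_assoc, abs_mul, abs_of_pos hr, mul_comm] at hZ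
    exact lt_of_mul_lt_mul_right hZ hr.le
  · rw [hAd, lA_eq]; field_simp; ring
  · field_simp; ring
  · rw [lU_0, hAd, lA_eq]; field_simp; ring
  · rw [lU_1, ← hAd]; field_simp; ring

/-- velocity bounds -/
theorem uL_bounds {P : Par} (h : P.Ok) {ω : Om} {t : ℝ} {z : P2} (hne : chL P ω t z ≠ 0) :
    |uL P ω t z 0| ≤ P.c + etaj P.p P.j0 ∧ |uL P ω t z 1| ≤ P.Y + etaj P.p P.j0 ∧
      |uL P ω t z 2 - sg ω| ≤ etaj P.p P.j0 := by
  obtain ⟨j, A, y, hj, ht, hw, hs1, hs2, hs3, hA, hy, hz1, hz2, h0, h1, h2⟩ := fuel_pt h hne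
  have hη := etaj_pos P.p j
  have hη2 := etaj_anti P.p hj
  have hd := Ok.dlp h
  have hAd := lane_lt_dl (Ok.j1 h) hj hA
  have hkA : |P.kap * A| ≤ P.c := by
    rw [abs_mul, abs_of_nonneg (Ok.kap0 h)]
    calc P.kap * |A| ≤ P.kap * P.dl := mul_le_mul_of_nonneg_left hAd.le (Ok.kap0 h)
      _ = P.c := by unfold Par.kap; field_simp
  have key : ∀ s : ℝ, |s| < 1 → |etaj P.p j * s| ≤ etaj P.p P.j0 := by
    intro s hs
    rw [abs_mul, abs_of_pos hη]
    nlinarith [abs_nonneg s]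
  rw [h0, h1, h2, hw]
  refine ⟨?_, ?_, ?_⟩
  · exact (abs_add_le _ _).trans (add_le_add hkA (key _ hs1))
  · exact (abs_add_le _ _).trans (add_le_add hy.le (key _ hs2))
  · rw [add_sub_cancel_left]; exact key _ hs3

theorem norm_le_of_abs {v : R3} {a b c : ℝ} (h0 : |v 0| ≤ a) (h1 : |v 1| ≤ b) (h2 : |v 2| ≤ c) :
    ‖v‖ ≤ a + b + c := by
  have ha := (abs_nonneg _).trans h0
  have hb := (abs_nonneg _).trans h1
  have hc := (abs_nonneg _).trans h2
  rw [EuclideanSpace.norm_eq, Fin.sum_univ_three]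
  refine Real.sqrt_le_iff.2 ⟨by positivity, ?_⟩
  simp only [Real.norm_eq_abs]
  have e0 : |v 0| ^ 2 ≤ a ^ 2 := by gcongr
  have e1 : |v 1| ^ 2 ≤ b ^ 2 := by gcongr
  have e2 : |v 2| ^ 2 ≤ c ^ 2 := by gcongr
  nlinarith [mul_nonneg ha hb, mul_nonneg ha hc, mul_nonneg hb hc]

theorem norm_uL_le {P : Par} (h : P.Ok) {ω : Om} {t : ℝ} {z : P2} (hne : chL P ω t z ≠ 0) :
    ‖uL P ω t z‖ ≤ P.Y + 3 := by
  obtain ⟨h0, h1, h2⟩ := uL_bounds h hne
  have hc := h.c1
  have hη : etaj P.p P.j0 ≤ 1 / 3 := by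
    refine (etaj_cube h P.j0).trans ?_
    have : (200 : ℝ) ≤ P.j0 := by exact_mod_cast h.j0
    calc (1 / (2 * (P.j0 : ℝ) + 1)) ^ 3 ≤ (1 / 3) ^ 3 := by
          apply pow_le_pow_left₀ (by positivity)
          apply one_div_le_one_div_of_le (by norm_num); linarith
      _ ≤ 1 / 3 := by norm_num
  have h3 : |uL P ω t z 2| ≤ 1 + etaj P.p P.j0 := by
    have : |sg ω| = 1 := by rcases sg_or ω with h | h <;> rw [h] <;> simp
    calc |uL P ω t z 2| = |sg ω + (uL P ω t z 2 - sg ω)| := by ring_nf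
      _ ≤ |sg ω| + |uL P ω t z 2 - sg ω| := abs_add_le _ _
      _ ≤ _ := by linarith
  have := norm_le_of_abs h0 h1 h3
  linarith

theorem norm_uP_le {P : Par} (h : P.Ok) {ω : Om} {t : ℝ} {x : P2} (hne : chP P ω t x ≠ 0) :
    ‖uP P ω t x‖ ≤ P.Y + 3 := norm_uL_le h hne

/-- positions of fuel points -/
theorem norm_of_chL {P : Par} (h : P.Ok) {ω : Om} {t : ℝ} {z : P2} (hne : chL P ω t z ≠ 0) :
    ‖z‖ ≤ (1 + P.Y) * P.dl + (P.c + P.Y + etaj P.p P.j0) * t := by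
  obtain ⟨j, A, y, hj, ht, hw, hs1, hs2, hs3, hA, hy, hz1, hz2, h0, h1, h2⟩ := fuel_pt h hne
  have hη := etaj_pos P.p j
  have hη2 := etaj_anti P.p hj
  have hd := Ok.dlp h
  have hAd := lane_lt_dl (Ok.j1 h) hj hA
  have hY := h.Y0
  have hc := h.c0
  have hkA : P.kap * |A| ≤ P.c := by
    calc P.kap * |A| ≤ P.kap * P.dl := mul_le_mul_of_nonneg_left hAd.le (Ok.kap0 h)
      _ = P.c := by unfold Par.kap; field_simp
  have key : ∀ s : ℝ, |s| < 1 → |t * (etaj P.p j * s)| ≤ t * etaj P.p P.j0 := by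
    intro s hs
    rw [abs_mul, abs_mul, abs_of_pos hη, abs_of_pos ht]
    refine mul_le_mul_of_nonneg_left ?_ ht.le
    nlinarith [abs_nonneg s]
  have hr := rr_nonneg A
  have hr2 : rr A ≤ P.dl := by
    have := Ok.dl20 h
    unfold rr
    rw [← sq_abs]
    nlinarith [abs_nonneg A]
  rw [Prod.norm_def, Real.norm_eq_abs, Real.norm_eq_abs, hz1, hz2]
  refine max_le ?_ ?_
  · refine (abs_add_le _ _).trans ?_
    have e1 : |A * (1 + P.kap * t)| ≤ P.dl + P.c * t := by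
      have hk := Ok.kap0 h
      rw [abs_mul, abs_of_nonneg (show 0 ≤ 1 + P.kap * t by positivity)]
      nlinarith
    have e2 := key _ hs1
    have e3 : 0 ≤ P.Y * P.dl := by positivity
    have e4 : 0 ≤ P.Y * t := by positivity
    nlinarith
  · refine (abs_add_le _ _).trans ?_
    have e1 : |y * (t + rr A)| ≤ P.Y * (t + P.dl) := by
      rw [abs_mul, abs_of_nonneg (show 0 ≤ t + rr A by positivity)]
      gcongr
    have e2 := key _ hs2
    have e4 : 0 ≤ P.c * t := by positivity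
    nlinarith

/-! ### lanes of the same sign -/

theorem pow_sub_pow_le {a b : ℝ} (hb : 0 ≤ b) (hba : b ≤ a) (ha : a ≤ 1 / 2) {p : ℕ} (hp : 3 ≤ p) :
    a ^ p - b ^ p ≤ a ^ 3 - b ^ 3 := by
  induction p, hp using Nat.le_induction with
  | base => exact le_rfl
  | succ n hn ih =>
    refine le_trans ?_ ih
    obtain ⟨m, rfl⟩ : ∃ m, n = m + 1 := ⟨n - 1, by omega⟩
    have h1 : b ^ m ≤ a ^ m := pow_le_pow_left₀ hb hba m
    have h2 : 0 ≤ b ^ m := by positivity
    have h3 : b * (1 - b) ≤ a * (1 - a) := by nlinarith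
    have h4 : 0 ≤ b * (1 - b) := mul_nonneg hb (by linarith)
    have h5 : b ^ m * (b * (1 - b)) ≤ a ^ m * (a * (1 - a)) :=
      mul_le_mul h1 h3 h4 (h2.trans h1)
    have e1 : a ^ (m + 1 + 1) = a ^ m * a * a := by ring
    have e2 : b ^ (m + 1 + 1) = b ^ m * b * b := by ring
    have e3 : a ^ (m + 1) = a ^ m * a := by ring
    have e4 : b ^ (m + 1) = b ^ m * b := by ring
    rw [e1, e2, e3, e4]
    nlinarith

theorem lane_sep {i j : ℕ} (hi : 1 ≤ i) (hij : i < j) (hw : wj i = wj j) {A B : ℝ}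
    (hA : A ∈ lane i) (hB : B ∈ lane j) :
    1 / (2 * (i : ℝ) + 1) - 1 / (2 * (j : ℝ) + 1) ≤ 4 * (A ^ 2 - B ^ 2) := by
  have hij2 : i + 2 ≤ j := by
    by_contra h
    have : j = i + 1 := by omega
    subst this
    unfold wj at hw
    rw [pow_succ] at hw
    rcases neg_one_pow_eq_or ℝ i with h1 | h1 <;> rw [h1] at hw <;> norm_num at hw
  have h1 := lane_lower hA
  have h2 := lane_upper hB
  have hI : (1 : ℝ) ≤ i := by exact_mod_cast hi
  have hJ : (i : ℝ) + 2 ≤ j := by exact_mod_cast hij2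
  have h3 : 1 / (2 * (i : ℝ) + 199 / 100) < A ^ 2 := by
    rw [div_lt_iff₀ (by positivity)]; exact h1
  have h4 : B ^ 2 < 1 / (2 * (j : ℝ) + 1 / 100) := by
    rw [lt_div_iff₀ (by positivity)]; exact h2
  have h5 : 1 / (2 * (i : ℝ) + 1) - 1 / (2 * (j : ℝ) + 1) ≤
      4 * (1 / (2 * (i : ℝ) + 199 / 100) - 1 / (2 * (j : ℝ) + 1 / 100)) := by
    set I := (i : ℝ)
    set J := (j : ℝ)
    have g1 : (0 : ℝ) < 2 * I + 1 := by linarith
    have g2 : (0 : ℝ) < 2 * J + 1 := by linarith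
    have g3 : (0 : ℝ) < 2 * I + 199 / 100 := by linarith
    have g4 : (0 : ℝ) < 2 * J + 1 / 100 := by linarith
    have e1 : 1 / (2 * I + 1) - 1 / (2 * J + 1) = 2 * (J - I) / ((2 * I + 1) * (2 * J + 1)) := by
      rw [div_sub_div _ _ g1.ne' g2.ne']
      congr 1
      ring
    have e2 : 1 / (2 * I + 199 / 100) - 1 / (2 * J + 1 / 100) =
        (2 * (J - I) - 198 / 100) / ((2 * I + 199 / 100) * (2 * J + 1 / 100)) := by
      rw [div_sub_div _ _ g3.ne' g4.ne']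
      congr 1
      ring
    have e3 : (J - I) / ((2 * I + 199 / 100) * (2 * J + 1 / 100)) ≤
        (2 * (J - I) - 198 / 100) / ((2 * I + 199 / 100) * (2 * J + 1 / 100)) :=
      div_le_div_of_nonneg_right (by linarith) (by positivity)
    have e4 : 2 * (J - I) / ((2 * I + 1) * (2 * J + 1)) ≤
        4 * ((J - I) / ((2 * I + 199 / 100) * (2 * J + 1 / 100))) := by
      rw [← mul_div_assoc, div_le_div_iff₀ (by positivity) (by positivity)]
      have e5 : (2 * I + 199 / 100) * (2 * J + 1 / 100) ≤ 2 * ((2 * I + 1) * (2 * J + 1)) := by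
        nlinarith
      nlinarith
    rw [e1, e2]
    linarith
  linarith

theorem eta_lip {P : Par} (h : P.Ok) {i j : ℕ} (hi : P.j0 ≤ i) (hj : P.j0 ≤ j)
    (hw : wj i = wj j) {A B : ℝ} (hA : A ∈ lane i) (hB : B ∈ lane j) :
    |etaj P.p i - etaj P.p j| ≤ |A - B| / 1000 := by
  have key : ∀ {i j : ℕ} {A B : ℝ}, P.j0 ≤ i → i < j → wj i = wj j → A ∈ lane i → B ∈ lane j →
      |etaj P.p i - etaj P.p j| ≤ |A - B| / 1000 := by
    intro i j A B hi hij hw hA hB
    have h1 := lane_sep ((Ok.j1 h).trans hi) hij hw hA hB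
    have h2 := etaj_anti P.p hij.le
    have hI : (200 : ℝ) ≤ i := by exact_mod_cast h.j0.trans hi
    have hJ : (i : ℝ) + 1 ≤ j := by exact_mod_cast hij
    have h3 := lane_lt_dl (Ok.j1 h) hi hA
    have h4 := lane_lt_dl (Ok.j1 h) (hi.trans hij.le) hB
    have h5 := Ok.dl20 h
    set a := 1 / (2 * (i : ℝ) + 1) with ha
    set b := 1 / (2 * (j : ℝ) + 1) with hb
    have hb0 : 0 ≤ b := by positivity
    have hba : b ≤ a := by
      apply one_div_le_one_div_of_le (by positivity); linarith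
    have ha1 : a ≤ 1 / 400 := by
      apply one_div_le_one_div_of_le (by norm_num); linarith
    have h6 : etaj P.p i - etaj P.p j ≤ a ^ 3 - b ^ 3 := by
      unfold etaj
      exact pow_sub_pow_le hb0 hba (by linarith) h.p3
    have h7 : a ^ 3 - b ^ 3 ≤ (a - b) * (1 / 400) := by
      have e1 : a ^ 3 - b ^ 3 = (a - b) * (a ^ 2 + a * b + b ^ 2) := by ring
      rw [e1]
      refine mul_le_mul_of_nonneg_left ?_ (by linarith)
      have : a ^ 2 ≤ (1 / 400) ^ 2 := by gcongr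
      have : a * b ≤ (1 / 400) * (1 / 400) := by gcongr; linarith
      have : b ^ 2 ≤ (1 / 400) ^ 2 := by gcongr; linarith
      norm_num at *
      linarith
    have h8 : A ^ 2 - B ^ 2 ≤ |A - B| * (1 / 10) := by
      calc A ^ 2 - B ^ 2 ≤ |A ^ 2 - B ^ 2| := le_abs_self _
        _ = |A - B| * |A + B| := by rw [← abs_mul]; ring_nf
        _ ≤ |A - B| * (1 / 10) := by
          gcongr
          calc |A + B| ≤ |A| + |B| := abs_add_le _ _
            _ ≤ 1 / 10 := by linarith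
    rw [abs_of_nonneg (by linarith)]
    have h9 : (a - b) * (1 / 400) ≤ |A - B| / 1000 := by nlinarith
    linarith
  rcases lt_trichotomy i j with hij | hij | hij
  · exact key hi hij hw hA hB
  · subst hij
    rw [sub_self, abs_zero]; positivity
  · rw [abs_sub_comm, abs_sub_comm A B]
    exact key hj hij hw.symm hB hA

set_option maxHeartbeats 2000000 in
/-- comparison of two fuel points with the same thermal coordinates -/
theorem pair {P : Par} (h : P.Ok) {i j : ℕ} (hi : P.j0 ≤ i) (hj : P.j0 ≤ j) (hw : wj i = wj j)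
    {A B y z t r s s' x1 x2 x1' x2' dx dt : ℝ} (hA : A ∈ lane i) (hB : B ∈ lane j)
    (hz : |z| < P.Y) (ht : 0 < t) (ht1 : t ≤ 1)
    (hs : |s| < 1) (hs' : |s'| < 1)
    (e1 : x1 = A * (1 + P.kap * t) + t * (etaj P.p i * s))
    (e2 : x2 = y * (t + rr A) + t * (etaj P.p i * s'))
    (e1' : x1' = B * (1 + P.kap * r) + r * (etaj P.p j * s))
    (e2' : x2' = z * (r + rr B) + r * (etaj P.p j * s'))
    (hx1 : |x1 - x1'| ≤ dx) (hx2 : |x2 - x2'| ≤ dx) (hdt : |t - r| ≤ dt) :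
    |A - B| ≤ 3 * (dx + dt) ∧ |etaj P.p i - etaj P.p j| ≤ (dx + dt) / 100 ∧
      |y - z| * (t + rr A) ≤ 2 * (1 + P.Y) * (dx + dt) := by
  have hη := eta_lip h hi hj hw hA hB
  have hη1 := etaj_le_one P.p j
  have hη0 := etaj_pos P.p j
  have hk := Ok.kap0 h
  have hY := h.Y0
  have hdx0 := (abs_nonneg _).trans hx1
  have hdt0 := (abs_nonneg _).trans hdt
  have hAd := lane_lt_dl (Ok.j1 h) hi hA
  have hBd := lane_lt_dl (Ok.j1 h) hj hB
  have hd := Ok.dlp h
  have hd20 := Ok.dl20 h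
  have hkB : |P.kap * B| ≤ 1 := by
    rw [abs_mul, abs_of_nonneg hk]
    calc P.kap * |B| ≤ P.kap * P.dl := mul_le_mul_of_nonneg_left hBd.le hk
      _ = P.c := by unfold Par.kap; field_simp
      _ ≤ 1 := h.c1
  have hte : |t * etaj P.p i - r * etaj P.p j| ≤ |A - B| / 1000 + dt := by
    have : t * etaj P.p i - r * etaj P.p j =
        t * (etaj P.p i - etaj P.p j) + (t - r) * etaj P.p j := by ring
    rw [this]
    refine (abs_add_le _ _).trans (add_le_add ?_ ?_)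
    · rw [abs_mul, abs_of_pos ht]
      nlinarith [abs_nonneg (etaj P.p i - etaj P.p j)]
    · rw [abs_mul, abs_of_pos hη0]
      nlinarith [abs_nonneg (t - r)]
  have hmul : ∀ u : ℝ, |u| < 1 → |(t * etaj P.p i - r * etaj P.p j) * u| ≤ |A - B| / 1000 + dt := by
    intro u hu
    rw [abs_mul]
    nlinarith [abs_nonneg (t * etaj P.p i - r * etaj P.p j), abs_nonneg u]
  have hAB : |A - B| ≤ 3 * (dx + dt) := by
    have f1 : (A - B) * (1 + P.kap * t) = (x1 - x1') - (P.kap * B) * (t - r) -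
        (t * etaj P.p i - r * etaj P.p j) * s := by
      rw [e1, e1']; ring
    have f2 : |A - B| ≤ |(A - B) * (1 + P.kap * t)| := by
      rw [abs_mul, abs_of_nonneg (show 0 ≤ 1 + P.kap * t by positivity)]
      have : 0 ≤ P.kap * t := by positivity
      nlinarith [abs_nonneg (A - B)]
    have f3 : |(A - B) * (1 + P.kap * t)| ≤ dx + dt + (|A - B| / 1000 + dt) := by
      rw [f1]
      refine (abs_sub _ _).trans (add_le_add ((abs_sub _ _).trans (add_le_add hx1 ?_)) (hmul s hs))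
      rw [abs_mul]
      nlinarith [abs_nonneg (t - r), abs_nonneg (P.kap * B)]
    linarith
  refine ⟨hAB, by linarith, ?_⟩
  have hrr : |rr A - rr B| ≤ 3 / 10 * (dx + dt) := by
    have f1 : rr A - rr B = (A - B) * (A + B) := by unfold rr; ring
    rw [f1, abs_mul]
    have f2 : |A + B| ≤ 1 / 10 := by
      calc |A + B| ≤ |A| + |B| := abs_add_le _ _
        _ ≤ 1 / 10 := by linarith
    calc |A - B| * |A + B| ≤ (3 * (dx + dt)) * (1 / 10) := by gcongr
      _ = 3 / 10 * (dx + dt) := by ring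
  have f1 : (y - z) * (t + rr A) = (x2 - x2') - z * ((t - r) + (rr A - rr B)) -
      (t * etaj P.p i - r * etaj P.p j) * s' := by
    rw [e2, e2']; ring
  have f2 : |(y - z) * (t + rr A)| ≤ dx + P.Y * (dt + 3 / 10 * (dx + dt)) +
      (|A - B| / 1000 + dt) := by
    rw [f1]
    refine (abs_sub _ _).trans (add_le_add ((abs_sub _ _).trans (add_le_add hx2 ?_)) (hmul s' hs'))
    rw [abs_mul]
    have f3 : |(t - r) + (rr A - rr B)| ≤ dt + 3 / 10 * (dx + dt) :=
      (abs_add_le _ _).trans (add_le_add hdt hrr)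
    gcongr
  have hr0 := rr_nonneg A
  rw [abs_mul, abs_of_nonneg (show 0 ≤ t + rr A by positivity)] at f2
  nlinarith [mul_nonneg hY.le hdx0, mul_nonneg hY.le hdt0]

end Crest.Agent.R68.SL
end
end

-- ▼ part R68/SLab3
section

/-!
# Row 68, Part S (helper312): scaled label fields, standing hypotheses, `Near` property
-/

set_option autoImplicit false
open MeasureTheory Set
open scoped ENNReal
open Crest.AnalysisR.VecCalc3 Crest.AnalysisR.PDE.Boltzmann

noncomputable section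

namespace Crest.Agent.R68.SL

open Crest.Agent.R68.Fuel

/-- scaled density: backward time `c`, position `ξ`, base point `(T, x0)`, scale `σ` -/
def chS (P : Par) (T σ : ℝ) (x0 : P2) (ω : Om) (c : ℝ) (ξ : P2) : ℝ≥0∞ :=
  chP P ω (T - σ * c) (x0 + σ • ξ)

/-- scaled velocity field -/
def uS (P : Par) (T σ : ℝ) (x0 : P2) (ω : Om) (c : ℝ) (ξ : P2) : R3 :=
  uP P ω (T - σ * c) (x0 + σ • ξ)






/-- a fuel point has a representative near the origin -/
theorem exists_image {P : Par} (h : P.Ok) {ω : Om} {t : ℝ} {x : P2} (hne : chP P ω t x ≠ 0) :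
    ∃ k : ℤ × ℤ, ‖x + latt k‖ < 7 / 20 ∧
      ‖x + latt k‖ ≤ (1 + P.Y) * P.dl + (P.c + P.Y + etaj P.p P.j0) * t := by
  by_cases hx : ∃ k : ℤ × ℤ, ‖x + latt k‖ < 7 / 20
  · obtain ⟨k, hk⟩ := hx
    refine ⟨k, hk, ?_⟩
    unfold chP at hne
    rw [red_of hk] at hne
    exact norm_of_chL h hne
  · push Not at hx
    unfold chP at hne
    rw [red_zero fun k => not_lt.2 (hx k)] at hne
    exact absurd (chL_zero h ω t) hne

set_option maxHeartbeats 2000000 in
/-- comparison of a fuel point with the centre of the window; `m` = size of the window -/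
theorem center {P : Par} (h : P.Ok) {j : ℕ} (hj : P.j0 ≤ j)
    {A y t T s s' x1 x2 z1 z2 a0 y0 m η0 : ℝ} (hA : A ∈ lane j) (hy : |y| < P.Y) (ht : 0 < t)
    (htT : t ≤ T) (hT1 : T ≤ 1 / 10) (hTk : T * P.kap ≤ 1) (hs : |s| < 1) (hs' : |s'| < 1)
    (hη : etaj P.p P.j0 ≤ η0) (hη1 : η0 ≤ 1) (hm0 : 0 ≤ m) (hm : m ≤ 1)
    (e1 : x1 = A * (1 + P.kap * t) + t * (etaj P.p j * s))
    (e2 : x2 = y * (t + rr A) + t * (etaj P.p j * s'))
    (e1' : z1 = a0 * (1 + P.kap * T)) (e2' : z2 = y0 * (T + rr a0))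
    {dx dt : ℝ} (hx1 : |x1 - z1| ≤ dx) (hx2 : |x2 - z2| ≤ dx) (hdt : |t - T| ≤ dt)
    (hd : dx + dt ≤ T * m) :
    |P.kap * A + etaj P.p j * s - P.kap * a0| ≤ m + 2 * η0 ∧
      |y + etaj P.p j * s' - y0| ≤ (1 + 2 * P.Y) * m + (2 + P.Y) * η0 := by
  have hηj := etaj_anti P.p hj
  have hηj0 := etaj_pos P.p j
  have hk := Ok.kap0 h
  have hY := h.Y0
  have hT0 : 0 < T := ht.trans_le htT
  have hdx0 := (abs_nonneg _).trans hx1
  have hdt0 := (abs_nonneg _).trans hdt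
  have hη0 : 0 ≤ η0 := (etaj_pos P.p P.j0).le.trans hη
  have hAd := lane_lt_dl (Ok.j1 h) hj hA
  have hdl := Ok.dlp h
  have hd20 := Ok.dl20 h
  have hkA : |P.kap * A| ≤ 1 := by
    rw [abs_mul, abs_of_nonneg hk]
    calc P.kap * |A| ≤ P.kap * P.dl := mul_le_mul_of_nonneg_left hAd.le hk
      _ = P.c := by unfold Par.kap; field_simp
      _ ≤ 1 := h.c1
  have hes : ∀ u : ℝ, |u| < 1 → |etaj P.p j * u| ≤ η0 := by
    intro u hu
    rw [abs_mul, abs_of_pos hηj0]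
    nlinarith [abs_nonneg u]
  have htes : ∀ u : ℝ, |u| < 1 → |t * (etaj P.p j * u)| ≤ T * η0 := by
    intro u hu
    rw [abs_mul, abs_of_pos ht]
    have := hes u hu
    have := abs_nonneg (etaj P.p j * u)
    nlinarith
  have hAa : |A - a0| ≤ T * (m + η0) := by
    have f1 : (A - a0) * (1 + P.kap * T) = (x1 - z1) - (P.kap * A) * (t - T) -
        t * (etaj P.p j * s) := by
      rw [e1, e1']; ring
    have f2 : |A - a0| ≤ |(A - a0) * (1 + P.kap * T)| := by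
      rw [abs_mul, abs_of_nonneg (show 0 ≤ 1 + P.kap * T by positivity)]
      have : 0 ≤ P.kap * T := by positivity
      nlinarith [abs_nonneg (A - a0)]
    have f3 : |(A - a0) * (1 + P.kap * T)| ≤ dx + dt + T * η0 := by
      rw [f1]
      refine (abs_sub _ _).trans (add_le_add ((abs_sub _ _).trans (add_le_add hx1 ?_)) (htes s hs))
      rw [abs_mul]
      nlinarith [abs_nonneg (t - T), abs_nonneg (P.kap * A)]
    linarith
  have hAa1 : |A - a0| ≤ 1 / 5 := by nlinarith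
  constructor
  · have f1 : P.kap * A + etaj P.p j * s - P.kap * a0 = P.kap * (A - a0) + etaj P.p j * s := by ring
    rw [f1]
    refine (abs_add_le _ _).trans ?_
    rw [abs_mul, abs_of_nonneg hk]
    have f2 : P.kap * |A - a0| ≤ m + η0 := by
      calc P.kap * |A - a0| ≤ P.kap * (T * (m + η0)) := by gcongr
        _ = (T * P.kap) * (m + η0) := by ring
        _ ≤ 1 * (m + η0) := by gcongr
        _ = m + η0 := one_mul _
    have := hes s hs
    linarith
  · have hrr : |rr A - rr a0| ≤ T * (m + η0) := by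
      have f1 : rr A - rr a0 = (A - a0) * (A + a0) := by unfold rr; ring
      rw [f1, abs_mul]
      have f2 : |A + a0| ≤ 1 := by
        have f3 : |a0| ≤ |A| + 1 / 5 := by
          have := abs_sub_abs_le_abs_sub a0 A
          rw [abs_sub_comm] at this
          linarith
        calc |A + a0| ≤ |A| + |a0| := abs_add_le _ _
          _ ≤ 1 := by linarith
      calc |A - a0| * |A + a0| ≤ (T * (m + η0)) * 1 := by gcongr
        _ = T * (m + η0) := mul_one _
    have hr0 := rr_nonneg a0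
    have f1 : (y - y0) * (T + rr a0) = (x2 - z2) - y * ((t - T) + (rr A - rr a0)) -
        t * (etaj P.p j * s') := by
      rw [e2, e2']; ring
    have f2 : |(y - y0) * (T + rr a0)| ≤ dx + P.Y * (dt + T * (m + η0)) + T * η0 := by
      rw [f1]
      refine (abs_sub _ _).trans (add_le_add ((abs_sub _ _).trans (add_le_add hx2 ?_))
        (htes s' hs'))
      rw [abs_mul]
      have f3 : |(t - T) + (rr A - rr a0)| ≤ dt + T * (m + η0) :=
        (abs_add_le _ _).trans (add_le_add hdt hrr)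
      gcongr
    rw [abs_mul, abs_of_nonneg (show 0 ≤ T + rr a0 by positivity)] at f2
    have f3 : dx + P.Y * (dt + T * (m + η0)) + T * η0 ≤ T * ((1 + 2 * P.Y) * m + (1 + P.Y) * η0) := by
      have g1 : dx + P.Y * dt ≤ (1 + P.Y) * (T * m) := by nlinarith
      nlinarith
    have f4 : |y - y0| ≤ (1 + 2 * P.Y) * m + (1 + P.Y) * η0 := by
      have g1 : |y - y0| * T ≤ ((1 + 2 * P.Y) * m + (1 + P.Y) * η0) * T := by
        have g2 : |y - y0| * T ≤ |y - y0| * (T + rr a0) :=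
          mul_le_mul_of_nonneg_left (by linarith) (abs_nonneg _)
        linarith
      exact le_of_mul_le_mul_right g1 hT0
    have f5 : y + etaj P.p j * s' - y0 = (y - y0) + etaj P.p j * s' := by ring
    rw [f5]
    refine (abs_add_le _ _).trans ?_
    have := hes s' hs'
    linarith

set_option maxHeartbeats 1000000 in
/-- Lipschitz estimate for two fuel points of the same label; `T q` = distance -/
theorem lip_aux {P : Par} (h : P.Ok) {ω : Om} {t t' T dx dt q : ℝ} {z z' : P2} (hT : 0 < T)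
    (hT1 : T ≤ 1) (hTk : T * P.kap ≤ 1) (ht2 : T / 2 ≤ t) (ht1 : t ≤ 1)
    (hne : chL P ω t z ≠ 0) (hne' : chL P ω t' z' ≠ 0) (hx1 : |z.1 - z'.1| ≤ dx)
    (hx2 : |z.2 - z'.2| ≤ dx) (hdt : |t - t'| ≤ dt) (hq : dx + dt = T * q) :
    ‖uL P ω t z - uL P ω t' z'‖ ≤ 8 * (1 + P.Y) * q := by
  obtain ⟨i, A, y, hi, ht, hw, hs1, hs2, hs3, hA, hy, e1, e2, g0, g1, g2⟩ := fuel_pt h hne
  obtain ⟨j, B, w, hj, ht', hw', -, -, -, hB, hz, e1', e2', g0', g1', g2'⟩ := fuel_pt h hne'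
  have hww : wj i = wj j := by rw [hw, hw']
  obtain ⟨p1, p2, p3⟩ := pair h hi hj hww hA hB hz ht ht1 hs1 hs2 e1 e2 e1' e2' hx1 hx2 hdt
  rw [hq] at p1 p2 p3
  have hY := h.Y0
  have hk0 := Ok.kap0 h
  have hrA := rr_nonneg A
  have hq0 : 0 ≤ q := by
    have h1 := (abs_nonneg _).trans hx1
    have h2 := (abs_nonneg _).trans hdt
    by_contra h3
    push Not at h3
    have : T * q < 0 := mul_neg_of_pos_of_neg hT h3
    linarith
  have hYq : 0 ≤ P.Y * q := by positivity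
  have r3 : |y - w| ≤ 4 * (1 + P.Y) * q := by
    have h1 : |y - w| * (T / 2) ≤ (4 * (1 + P.Y) * q) * (T / 2) := by
      have h2 : |y - w| * (T / 2) ≤ |y - w| * (t + rr A) :=
        mul_le_mul_of_nonneg_left (by linarith) (abs_nonneg _)
      have h3 : (4 * (1 + P.Y) * q) * (T / 2) = 2 * (1 + P.Y) * (T * q) := by ring
      rw [h3]
      exact h2.trans p3
    exact le_of_mul_le_mul_right h1 (by positivity)
  have r2 : |etaj P.p i - etaj P.p j| ≤ q / 100 := by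
    refine p2.trans ?_
    have : T * q ≤ 1 * q := mul_le_mul_of_nonneg_right hT1 hq0
    linarith
  have r1 : P.kap * |A - B| ≤ 3 * q := by
    calc P.kap * |A - B| ≤ P.kap * (3 * (T * q)) := mul_le_mul_of_nonneg_left p1 hk0
      _ = 3 * (T * P.kap) * q := by ring
      _ ≤ 3 * 1 * q := by gcongr
      _ = 3 * q := by ring
  have hes : ∀ u : ℝ, |u| < 1 → |(etaj P.p i - etaj P.p j) * u| ≤ q / 100 := by
    intro u hu
    rw [abs_mul]
    calc |etaj P.p i - etaj P.p j| * |u| ≤ (q / 100) * 1 :=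
          mul_le_mul r2 hu.le (abs_nonneg _) (by positivity)
      _ = q / 100 := mul_one _
  have h1 : ‖uL P ω t z - uL P ω t' z'‖ ≤
      (3 * q + q / 100) + (4 * (1 + P.Y) * q + q / 100) + q / 100 := by
    refine norm_le_of_abs ?_ ?_ ?_
    · rw [PiLp.sub_apply, g0, g0']
      have f1 : P.kap * A + etaj P.p i * ω.2.1 - (P.kap * B + etaj P.p j * ω.2.1) =
        P.kap * (A - B) + (etaj P.p i - etaj P.p j) * ω.2.1 := by ring
      rw [f1]
      refine (abs_add_le _ _).trans (add_le_add ?_ (hes _ hs1))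
      rw [abs_mul, abs_of_nonneg hk0]
      exact r1
    · rw [PiLp.sub_apply, g1, g1']
      have f1 : y + etaj P.p i * ω.2.2.1 - (w + etaj P.p j * ω.2.2.1) =
        (y - w) + (etaj P.p i - etaj P.p j) * ω.2.2.1 := by ring
      rw [f1]
      exact (abs_add_le _ _).trans (add_le_add r3 (hes _ hs2))
    · rw [PiLp.sub_apply, g2, g2', hww]
      have f1 : wj j + etaj P.p i * ω.2.2.2 - (wj j + etaj P.p j * ω.2.2.2) =
        (etaj P.p i - etaj P.p j) * ω.2.2.2 := by ring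
      rw [f1]
      exact hes _ hs3
  linarith

set_option maxHeartbeats 2000000 in
/-- **the scaled label fields are nearly constant** on the window `[0,L] × {‖ξ‖ ≤ ρ}`, at every
centre `x0` -/
theorem near {P : Par} (h : P.Ok) {T σ L ρ e U : ℝ} (hT : 0 < T) (hT1 : T ≤ 1 / 10)
    (hTk : T * P.kap ≤ 1) (hσ : 0 < σ) (hL : 0 ≤ L) (hρ : 0 ≤ ρ) (he1 : e ≤ 1)
    (hσ1 : 8 * (1 + P.Y) * (1 + ρ + L) * σ ≤ e * T)
    (hη : 12 * (1 + P.Y) * etaj P.p P.j0 ≤ e) (hU : P.Y + 4 ≤ U)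
    (hR : (1 + P.Y) * P.dl + (P.c + P.Y + etaj P.p P.j0) * T ≤ 3 / 10) (x0 : P2) :
    ∃ ub : P2, S.Near L U e ρ (chS P T σ x0) (uS P T σ x0) ub sg := by
  have hY := h.Y0
  have hη0 := etaj_pos P.p P.j0
  have he0 : 0 < e := lt_of_lt_of_le (by positivity) hη
  by_cases hex : ∃ (ω : Om) (c : ℝ) (ξ : P2), 0 ≤ c ∧ c ≤ L ∧ ‖ξ‖ ≤ ρ ∧ chS P T σ x0 ω c ξ ≠ 0
  swap
  · push Not at hex
    refine ⟨0, ⟨sg_or, by rw [norm_zero]; linarith, ?_, ?_⟩⟩
    · intro ω c ξ hc0 hcL hξ hne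
      exact absurd (hex ω c ξ hc0 hcL hξ) hne
    · intro ω c c' ξ ξ' hc0 hcL hξ hne
      exact absurd (hex ω c ξ hc0 hcL hξ) hne
  -- the size of the window
  have hσY : 0 ≤ P.Y * ((1 + ρ + L) * σ) := by positivity
  have hσρ : 0 ≤ σ * ρ := by positivity
  have hσL : 0 ≤ σ * L := by positivity
  have heT : e * T ≤ T := by
    calc e * T ≤ 1 * T := mul_le_mul_of_nonneg_right he1 hT.le
      _ = T := one_mul _
  have hσ2 : 8 * (σ * ρ) + 8 * (σ * L) + 8 * σ ≤ T := by linarith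
  have htime : ∀ {c : ℝ}, 0 ≤ c → c ≤ L → T / 2 ≤ T - σ * c ∧ T - σ * c ≤ T := by
    intro c hc0 hcL
    have h1 : σ * c ≤ σ * L := by gcongr
    have h2 : 0 ≤ σ * c := by positivity
    constructor <;> linarith
  -- the image
  obtain ⟨ω₁, c₁, ξ₁, hc10, hc1L, hξ1, hne1⟩ := hex
  obtain ⟨k, hk, hk2⟩ := exists_image h hne1
  have hk3 : ‖x0 + σ • ξ₁ + latt k‖ ≤ 3 / 10 := by
    refine hk2.trans ?_
    have h1 := (htime hc10 hc1L).2
    have h2 : 0 ≤ P.c + P.Y + etaj P.p P.j0 := by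
      have := h.c0; positivity
    have h3 := mul_le_mul_of_nonneg_left h1 h2
    linarith
  set z0 : P2 := x0 + latt k with hz0
  have hred : ∀ {ξ : P2}, ‖ξ‖ ≤ ρ → red (x0 + σ • ξ) = z0 + σ • ξ := by
    intro ξ hξ
    have h1 : ‖x0 + σ • ξ + latt k‖ < 7 / 20 := by
      have h2 : x0 + σ • ξ + latt k = (x0 + σ • ξ₁ + latt k) + σ • (ξ - ξ₁) := by
        rw [smul_sub]; abel
      rw [h2]
      refine (norm_add_le _ _).trans_lt ?_
      rw [norm_smul, Real.norm_eq_abs, abs_of_pos hσ]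
      have h3 : ‖ξ - ξ₁‖ ≤ 2 * ρ := by
        refine (norm_sub_le _ _).trans ?_; linarith
      have h4 : σ * ‖ξ - ξ₁‖ ≤ σ * (2 * ρ) := by gcongr
      linarith
    rw [red_of h1, hz0]
    abel
  -- centre
  set a0 : ℝ := z0.1 / (1 + P.kap * T) with ha0
  set y0 : ℝ := z0.2 / (T + rr a0) with hy0
  have hk0 := Ok.kap0 h
  have hden : 0 < 1 + P.kap * T := by positivity
  have hz1 : z0.1 = a0 * (1 + P.kap * T) := by rw [ha0]; field_simp
  have hz2 : z0.2 = y0 * (T + rr a0) := by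
    have := rr_nonneg a0
    rw [hy0]; field_simp
  have hYη : 0 ≤ P.Y * etaj P.p P.j0 := by positivity
  have hη1 : etaj P.p P.j0 ≤ 1 / 12 := by linarith
  obtain ⟨m, hTm⟩ : ∃ m, T * m = σ * (ρ + L) := ⟨σ * (ρ + L) / T, by field_simp⟩
  have hm0 : 0 ≤ m := by
    by_contra h3
    push Not at h3
    have : T * m < 0 := mul_neg_of_pos_of_neg hT h3
    linarith
  have hYm : 0 ≤ P.Y * m := by positivity
  have hm1 : 8 * (1 + P.Y) * m ≤ e := by
    have h1 : 8 * (1 + P.Y) * m * T ≤ e * T := by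
      have h2 : 0 ≤ (1 + P.Y) * σ := by positivity
      calc 8 * (1 + P.Y) * m * T = 8 * (1 + P.Y) * (T * m) := by ring
        _ = 8 * (1 + P.Y) * (σ * (ρ + L)) := by rw [hTm]
        _ ≤ e * T := by linarith
    exact le_of_mul_le_mul_right h1 hT
  have hm2 : m ≤ 1 := by linarith
  have hkey : ∀ {ω : Om} {c : ℝ} {ξ : P2}, 0 ≤ c → c ≤ L → ‖ξ‖ ≤ ρ → chS P T σ x0 ω c ξ ≠ 0 →
      |uS P T σ x0 ω c ξ 0 - P.kap * a0| ≤ m + 2 * etaj P.p P.j0 ∧
      |uS P T σ x0 ω c ξ 1 - y0| ≤ (1 + 2 * P.Y) * m + (2 + P.Y) * etaj P.p P.j0 := by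
    intro ω c ξ hc0 hcL hξ hne
    unfold chS chP at hne
    unfold uS uP
    rw [hred hξ] at hne ⊢
    obtain ⟨j, A, y, hj, ht, hw, hs1, hs2, hs3, hA, hy, e1, e2, g0, g1, g2⟩ := fuel_pt h hne
    have hξ1 : |ξ.1| ≤ ρ := (norm_fst_le ξ).trans hξ
    have hξ2 : |ξ.2| ≤ ρ := (norm_snd_le ξ).trans hξ
    have hc := center h hj (x1 := (z0 + σ • ξ).1) (x2 := (z0 + σ • ξ).2) (z1 := z0.1) (z2 := z0.2)
      (dx := σ * ρ) (dt := σ * L) hA hy ht (htime hc0 hcL).2 hT1 hTk hs1 hs2 le_rfl (by linarith)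
      hm0 hm2 e1 e2 hz1 hz2 ?_ ?_ ?_ ?_
    · rw [g0, g1]
      exact hc
    · simp only [Prod.fst_add, Prod.smul_fst, smul_eq_mul, add_sub_cancel_left, abs_mul,
        abs_of_pos hσ]
      gcongr
    · simp only [Prod.snd_add, Prod.smul_snd, smul_eq_mul, add_sub_cancel_left, abs_mul,
        abs_of_pos hσ]
      gcongr
    · rw [sub_sub_cancel_left, abs_neg, abs_of_nonneg (by positivity)]
      gcongr
    · rw [hTm]; linarith
  have hu2 : ∀ {ω : Om} {c : ℝ} {ξ : P2}, chS P T σ x0 ω c ξ ≠ 0 →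
      |uS P T σ x0 ω c ξ 2 - sg ω| ≤ etaj P.p P.j0 := fun hne => (uL_bounds h hne).2.2
  refine ⟨(P.kap * a0, y0), ⟨sg_or, ?_, ?_, ?_⟩⟩
  · obtain ⟨b0, b1, -⟩ := uL_bounds h hne1
    obtain ⟨k0, k1⟩ := hkey hc10 hc1L hξ1 hne1
    have hc := h.c1
    rw [Prod.norm_def, Real.norm_eq_abs, Real.norm_eq_abs]
    have k0' : |P.kap * a0| ≤ |uS P T σ x0 ω₁ c₁ ξ₁ 0| + (m + 2 * etaj P.p P.j0) := by
      have h1 := abs_sub_abs_le_abs_sub (P.kap * a0) (uS P T σ x0 ω₁ c₁ ξ₁ 0)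
      rw [abs_sub_comm] at h1
      linarith
    have k1' : |y0| ≤ |uS P T σ x0 ω₁ c₁ ξ₁ 1| +
        ((1 + 2 * P.Y) * m + (2 + P.Y) * etaj P.p P.j0) := by
      have h1 := abs_sub_abs_le_abs_sub y0 (uS P T σ x0 ω₁ c₁ ξ₁ 1)
      rw [abs_sub_comm] at h1
      linarith
    have b0' : |uS P T σ x0 ω₁ c₁ ξ₁ 0| ≤ P.c + etaj P.p P.j0 := b0
    have b1' : |uS P T σ x0 ω₁ c₁ ξ₁ 1| ≤ P.Y + etaj P.p P.j0 := b1
    refine max_le ?_ ?_
    · show |P.kap * a0| ≤ U
      linarith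
    · show |y0| ≤ U
      linarith
  · intro ω c ξ hc0 hcL hξ hne
    obtain ⟨k0, k1⟩ := hkey hc0 hcL hξ hne
    have k2 := hu2 hne
    have h1 : ‖uS P T σ x0 ω c ξ - vec3 (P.kap * a0) y0 (sg ω)‖ ≤ (m + 2 * etaj P.p P.j0) +
        ((1 + 2 * P.Y) * m + (2 + P.Y) * etaj P.p P.j0) + etaj P.p P.j0 := by
      refine norm_le_of_abs ?_ ?_ ?_
      · exact k0
      · exact k1
      · exact k2
    refine h1.trans ?_
    linarith
  · intro ω c c' ξ ξ' hc0 hcL hξ hne hc0' hcL' hξ' hne'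
    unfold chS chP at hne hne'
    unfold uS uP
    rw [hred hξ] at hne ⊢
    rw [hred hξ'] at hne' ⊢
    obtain ⟨q, hTq⟩ : ∃ q, σ * ‖ξ - ξ'‖ + σ * |c - c'| = T * q :=
      ⟨(σ * ‖ξ - ξ'‖ + σ * |c - c'|) / T, by field_simp⟩
    have hp := lip_aux h (t' := T - σ * c') (z' := z0 + σ • ξ') hT (by linarith) hTk
      (htime hc0 hcL).1 ((htime hc0 hcL).2.trans (by linarith)) hne hne' ?_ ?_ ?_ hTq
    · refine hp.trans ?_
      set d : ℝ := |c - c'| + ‖ξ - ξ'‖ with hd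
      have hd0 : 0 ≤ d := by positivity
      have h3 : 8 * (1 + P.Y) * q * T ≤ e * d * T := by
        have h4 : 8 * (1 + P.Y) * σ ≤ e * T := by
          have : 0 ≤ (1 + P.Y) * σ * (ρ + L) := by positivity
          linarith
        calc 8 * (1 + P.Y) * q * T = 8 * (1 + P.Y) * (T * q) := by ring
          _ = (8 * (1 + P.Y) * σ) * d := by rw [← hTq, hd]; ring
          _ ≤ (e * T) * d := by gcongr
          _ = e * d * T := by ring
      exact le_of_mul_le_mul_right h3 hT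
    · have : (z0 + σ • ξ).1 - (z0 + σ • ξ').1 = σ * (ξ - ξ').1 := by
        simp only [Prod.fst_add, Prod.smul_fst, smul_eq_mul, Prod.fst_sub]; ring
      rw [this, abs_mul, abs_of_pos hσ]
      exact mul_le_mul_of_nonneg_left (norm_fst_le (ξ - ξ')) hσ.le
    · have : (z0 + σ • ξ).2 - (z0 + σ • ξ').2 = σ * (ξ - ξ').2 := by
        simp only [Prod.snd_add, Prod.smul_snd, smul_eq_mul, Prod.snd_sub]; ring
      rw [this, abs_mul, abs_of_pos hσ]
      exact mul_le_mul_of_nonneg_left (norm_snd_le (ξ - ξ')) hσ.le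
    · have : T - σ * c - (T - σ * c') = σ * (c' - c) := by ring
      rw [this, abs_mul, abs_of_pos hσ, abs_sub_comm]

end Crest.Agent.R68.SL
end
end

-- ▼ part R68/SInst

/-!
# Row 68, Part S → Part L (helper813): the window theorem for the actual fuel

`uhyp`, `ghyp`: the hypotheses of helper653's window theorem for `W = Dm P`, the labels of
helper312 and `G = Gf (phiE P)`.  `fieldS`: the field `S` of `L.SlaveHyp` / `L.SInput`, from
`CoreProp` and the property `Near` of the scaled fields.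
-/

set_option autoImplicit false
open MeasureTheory Set Metric
open scoped ENNReal
open Crest.AnalysisR.VecCalc3 Crest.AnalysisR.PDE.Boltzmann

noncomputable section

namespace Crest.Agent.R68.SI

open Crest.Agent.R68.A (Meas3)
open Crest.Agent.R68.Fuel (etaj_pos etaj_le_one)
open Crest.Agent.R68.L (Den phiE Gf DG Du CNw VV SWindow)
open Crest.Agent.R68.S (Aop PA ker Top Sg Near UHyp GHyp MD DuhT scX scU CoreProp)

/-! ### one collision at a fixed point -/

theorem Gf_phi_eq {P : Par} (hP : P.Ok) (hK : 0 < P.K) {s : ℝ} (hs : 0 < s)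
    (hT : (1 + P.Y) * P.dl + (P.c + P.Y + etaj P.p P.j0) * s < 7 / 20) (y : P2)
    {h : Den} (hh : Meas3 h) (v : R3) :
    Gf (phiE P) h s y v = ENNReal.ofReal (8 * P.K / s) *
      ∫⁻ ω, SL.chP P ω s y * (ENNReal.ofReal ‖SL.uP P ω s y - v‖⁻¹ *
        planeInt (h s y) v (‖SL.uP P ω s y - v‖⁻¹ • (SL.uP P ω s y - v))) ∂SL.piL := by
  have hφ : Measurable (phiE P s y) := L.measurable_phiE hP s y
  have hhs : Measurable (h s y) := hh.slice s y
  unfold L.Gf
  rw [Qp_carleman' hφ hhs]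
  have hG : Measurable fun u : R3 => ENNReal.ofReal ‖u - v‖⁻¹ *
      planeInt (h s y) v (‖u - v‖⁻¹ • (u - v)) := by
    refine Measurable.mul (by fun_prop) ?_
    exact (measurable_planeInt hhs).comp (by fun_prop :
      Measurable fun u : R3 => ((v, ‖u - v‖⁻¹ • (u - v)) : R3 × R3))
  have h2 := SL.rep hP hK hs hT y hG
  have h3 : ∫⁻ u, ENNReal.ofReal ‖u - v‖⁻¹ * phiE P s y u *
      planeInt (h s y) v (‖u - v‖⁻¹ • (u - v)) =
      ∫⁻ u, ENNReal.ofReal (phi P s y u) * (ENNReal.ofReal ‖u - v‖⁻¹ *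
        planeInt (h s y) v (‖u - v‖⁻¹ • (u - v))) :=
    lintegral_congr fun u => by unfold L.phiE; ring
  rw [h3, h2, ← mul_assoc, ← mul_assoc]
  congr 1
  rw [show (8 * P.K / s : ℝ) = 2 * (2 * (2 * P.K / s)) by ring, ENNReal.ofReal_mul (by norm_num),
    ENNReal.ofReal_mul (by norm_num)]
  norm_num
  ring

theorem meas_DuhT {φ : Den} (hφ : Meas3 φ) {h : Den} (hh : Meas3 h) (τ : ℝ) :
    MD (DuhT τ (Gf φ h)) := by
  have hq : Meas3 (Gf φ h) := L.meas3_Gf hφ hh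
  unfold S.MD S.DuhT
  refine A.measurable_lintegral_Ioo (α := ℝ × P2 × R3) (q := fun z : (ℝ × P2 × R3) × ℝ =>
      Gf φ h z.2 (z.1.2.1 - (z.1.1 - z.2) • bar z.1.2.2) z.1.2.2) ?_ measurable_const (by fun_prop)
  exact hq.comp (by fun_prop) (by fun_prop) (by fun_prop)

theorem T_small {P : Par} (hP : P.Ok) {t : ℝ} (ht : t ≤ 1 / (10 * (P.Y + 2))) :
    (1 + P.Y) * P.dl + (P.c + P.Y + etaj P.p P.j0) * t < 7 / 20 ∧
      (P.Y + 2) * (t + P.dl) < 7 / 20 := by
  have hY := hP.Y0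
  have h1 := hP.Ysm
  have h2 := Fuel.Ok.dl20 hP
  have h3 := hP.c1
  have h4 : etaj P.p P.j0 ≤ 1 := etaj_le_one _ _
  have h5 := Fuel.Ok.dlp hP
  have h0 : 0 < 10 * (P.Y + 2) := by linarith
  have h6 : (P.Y + 2) * t ≤ 1 / 10 := by
    calc (P.Y + 2) * t ≤ (P.Y + 2) * (1 / (10 * (P.Y + 2))) := by gcongr
      _ = 1 / 10 := by field_simp
  have h7 := hP.c0
  have h8 : 0 < etaj P.p P.j0 := etaj_pos _ _
  have h9 : (1 + P.Y) * P.dl = P.dl + P.Y * P.dl := by ring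
  constructor
  · rcases le_or_gt t 0 with h | h
    · have : (P.c + P.Y + etaj P.p P.j0) * t ≤ 0 :=
        mul_nonpos_of_nonneg_of_nonpos (by positivity) h
      linarith
    · have : (P.c + P.Y + etaj P.p P.j0) * t ≤ (P.Y + 2) * t :=
        mul_le_mul_of_nonneg_right (by linarith) h.le
      linarith
  · nlinarith

/-- Newton potential of the labels -/
theorem newton {P : Par} (hP : P.Ok) (hK : 0 < P.K) {s : ℝ} (hs : 0 < s) (hs1 : s ≤ 1)
    (hT : (1 + P.Y) * P.dl + (P.c + P.Y + etaj P.p P.j0) * s < 7 / 20) (y : P2) (v : R3) :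
    ∫⁻ ω, SL.chP P ω s y * ENNReal.ofReal ‖SL.uP P ω s y - v‖⁻¹ ∂SL.piL ≤
      ENNReal.ofReal (CNw P.Y / 2) * Dm P s y v := by
  have hg : Measurable fun u : R3 => ENNReal.ofReal ‖u - v‖⁻¹ := by fun_prop
  have h1 := SL.rep hP hK hs hT y hg
  have h2 : ∫⁻ u, ENNReal.ofReal (phi P s y u) * ENNReal.ofReal ‖u - v‖⁻¹ ≤
      ENNReal.ofReal (CNw P.Y * P.K / s) * Dm P s y v := by
    have h3 := L.newt_phi_le' hP hs hs1 y v
    unfold C.newt at h3
    have h4 : ∫⁻ u, ENNReal.ofReal (phi P s y u) * ENNReal.ofReal ‖u - v‖⁻¹ =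
        ∫⁻ u, ENNReal.ofReal (phi P s y u) * ENNReal.ofReal ‖v - u‖⁻¹ :=
      lintegral_congr fun u => by rw [norm_sub_rev]
    rw [h4]
    refine h3.trans ?_
    gcongr
    have hV : 0 < VV P.Y := by have := hP.Y0; unfold L.VV; positivity
    have h5 : VV P.Y / max (VV P.Y) ‖v‖ ≤ 1 := by
      rw [div_le_one (lt_max_of_lt_left hV)]; exact le_max_left _ _
    have h6 : 0 ≤ CNw P.Y * P.K / s := by
      have := L.CNw_nonneg P.Y
      positivity
    calc CNw P.Y * P.K / s * (VV P.Y / max (VV P.Y) ‖v‖) ≤ CNw P.Y * P.K / s * 1 := by gcongr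
      _ = _ := mul_one _
  rw [h1] at h2
  have h7 : ENNReal.ofReal (CNw P.Y * P.K / s) =
      ENNReal.ofReal (2 * P.K / s) * ENNReal.ofReal (CNw P.Y / 2) := by
    rw [← ENNReal.ofReal_mul (by positivity)]
    congr 1; ring
  rw [h7, mul_assoc] at h2
  have h8 : ENNReal.ofReal (2 * P.K / s) ≠ 0 := by
    have : 0 < 2 * P.K / s := by positivity
    simpa using this
  exact (ENNReal.mul_le_mul_iff_right h8 ENNReal.ofReal_ne_top).1 h2

/-- the two poles -/
theorem exists_Sg {P : Par} (hP : P.Ok) {s : ℝ} (hs : 0 ≤ s)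
    (hsm : (P.Y + 2) * (s + P.dl) < 7 / 20) (y : P2) :
    ∃ q : Fin 2 → R3, ∀ v, Dm P s y v ≤ ENNReal.ofReal ((8 + 6 * P.Y) ^ 2) * Sg q v := by
  have hD := L.parD_of_ok hP
  have hc := DPole.card_KKf_le_one hsm y
  rcases Finset.card_le_one_iff_subset_singleton.1 hc with ⟨k, hk⟩
  refine ⟨![uvec P 1 s (y + latt k), uvec P (-1) s (y + latt k)], fun v => ?_⟩
  refine (DPole.Dm_le_Spole hD hs y v).trans ?_
  gcongr
  unfold DPole.Spole S.Sg
  rw [Fin.sum_univ_two]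
  gcongr
  refine (Finset.sum_le_sum_of_subset hk).trans ?_
  rw [Finset.sum_singleton]
  rfl

theorem uhyp {P : Par} (hP : P.Ok) (hK : 0 < P.K) {U τ t : ℝ} (hτ : 0 < τ) (ht1 : t ≤ 1)
    (ht : t ≤ 1 / (10 * (P.Y + 2))) (hU : P.Y + 3 ≤ U) :
    UHyp SL.piL τ t U (CNw P.Y / 2) ((8 + 6 * P.Y) ^ 2) 2 (SL.chP P) (SL.uP P) (Dm P) where
  fin := SL.piL_univ.le
  mχ := SL.measurable_chP P
  mu := SL.measurable_uP P
  χ1 := fun ω s y _ _ => SL.chP_le_one hP hK ω s y
  bd := fun _ _ _ _ _ h3 => (SL.norm_uP_le hP h3).trans hU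
  W1 := fun s y v _ _ => DPole.one_le_Dm P s y v
  Wmono := fun _ _ y v h1 h2 _ => DPole.Dm_flight hP.Y0 (hτ.le.trans h1) h2 y v
  Wsg := fun s y h1 h2 =>
    exists_Sg hP (hτ.le.trans h1) (T_small hP (h2.trans ht)).2 y
  newton := fun s y v h1 h2 =>
    newton hP hK (hτ.trans_le h1) (h2.trans ht1) (T_small hP (h2.trans ht)).1 y v

theorem ghyp {P : Par} (hP : P.Ok) (hK : 0 < P.K) {τ t : ℝ} (hτ : 0 < τ)
    (ht : t ≤ 1 / (10 * (P.Y + 2))) :
    GHyp SL.piL τ t 8 P.K (SL.chP P) (SL.uP P) (Gf (phiE P)) where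
  bound := fun h hh s h1 h2 y v =>
    (Gf_phi_eq hP hK (hτ.trans h1) (T_small hP (h2.le.trans ht)).1 y (h := h) hh v).le
  meas := fun _ hh => meas_DuhT (L.meas3_phiE hP) hh τ

/-- `Near` for helper653's scaled fields -/
theorem near_sc {P : Par} (hP : P.Ok) {t L ρ e : ℝ} (hK : 0 < P.K) (ht : 0 < t) (ht1 : t ≤ 1 / 10)
    (htY : t ≤ 1 / (10 * (P.Y + 2))) (hkap : t * P.kap ≤ 1) (hL : 0 ≤ L) (hρ : 0 ≤ ρ)
    (he : 0 < e) (he1 : e ≤ 1) (hKe : 8 * (1 + P.Y) * (1 + ρ + L) ≤ e * P.K)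
    (hη : 12 * (1 + P.Y) * etaj P.p P.j0 ≤ e) (x : P2) :
    ∃ ub : P2, Near L (P.Y + 4) e ρ (scX t (t / P.K) L x (SL.chP P)) (scU t (t / P.K) x (SL.uP P))
      ub SL.sg := by
  have hY := hP.Y0
  have hT := T_small hP htY
  have hR : (1 + P.Y) * P.dl + (P.c + P.Y + etaj P.p P.j0) * t ≤ 3 / 10 := by
    have h1 := hP.Ysm
    have h2 := Fuel.Ok.dl20 hP
    have h3 := hP.c1
    have h4 : etaj P.p P.j0 ≤ 1 := etaj_le_one _ _
    have h6 : (P.Y + 2) * t ≤ 1 / 10 := by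
      calc (P.Y + 2) * t ≤ (P.Y + 2) * (1 / (10 * (P.Y + 2))) := by gcongr
        _ = 1 / 10 := by field_simp
    have h7 : (P.c + P.Y + etaj P.p P.j0) * t ≤ (P.Y + 2) * t :=
      mul_le_mul_of_nonneg_right (by linarith) ht.le
    have h8 : (1 + P.Y) * P.dl = P.dl + P.Y * P.dl := by ring
    linarith
  have hσ1 : 8 * (1 + P.Y) * (1 + ρ + L) * (t / P.K) ≤ e * t := by
    rw [← mul_div_assoc, div_le_iff₀ hK]
    nlinarith [mul_le_mul_of_nonneg_right hKe ht.le]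
  obtain ⟨ub, h⟩ := SL.near hP ht ht1 hkap (σ := t / P.K) (L := L) (ρ := ρ) (e := e)
    (U := P.Y + 4) (by positivity) hL hρ he1 hσ1 hη le_rfl hR x
  refine ⟨ub, ⟨h.s1, h.ubd, ?_, ?_⟩⟩
  · intro ω c ξ h0 h1 h2 h3
    have hc : c ∈ Icc 0 L := ⟨h0, h1⟩
    rw [S.scX_of_mem hc] at h3
    exact h.close ω c ξ h0 h1 h2 h3
  · intro ω c c' ξ ξ' h0 h1 h2 h3 h4 h5 h6 h7
    have hc : c ∈ Icc 0 L := ⟨h0, h1⟩
    have hc' : c' ∈ Icc 0 L := ⟨h4, h5⟩
    rw [S.scX_of_mem hc] at h3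
    rw [S.scX_of_mem hc'] at h7
    exact h.lip ω c c' ξ ξ' h0 h1 h2 h3 h4 h5 h6 h7

/-- **the smoothing input of Part L** -/
theorem fieldS {Y g1 L ε : ℝ} (hY : 0 < Y) (hg1 : 0 < g1) (hL : 0 < L) (hε : 0 < ε)
    (hcore : CoreProp (g1 / 2 / 2) L (Y + 4) (CNw Y / 2) ((8 + 6 * Y) ^ 2) 2) :
    ∃ K0 R C e : ℝ, 1 ≤ K0 ∧ 2 * L ≤ K0 ∧ 0 < R ∧ 0 < C ∧ 0 < e ∧
      ∀ P : Par, P.Ok → P.Y = Y → K0 ≤ P.K → 12 * (1 + P.Y) * etaj P.p P.j0 ≤ e →
      ∀ V0 t0 : ℝ, t0 ≤ 1 / 10 → t0 ≤ 1 / (10 * (P.Y + 2)) → t0 * P.kap ≤ 1 →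
        √t0 / 100 ≤ g1 / 2 →
        SWindow P (phiE P) g1 t0 V0 (L / P.K) R (ENNReal.ofReal ε)
          (ENNReal.ofReal (C * P.K ^ 2)) := by
  obtain ⟨ρ, e, C, hρ, he, hC, H⟩ := S.win_gau (gmin := g1 / 2) (gmax := g1) (Cg := 8)
    (by positivity) hcore hL (by norm_num) hε
  have he' : 0 < min e 1 := lt_min he one_pos
  refine ⟨max (max 1 (2 * L)) (8 * (1 + Y) * (1 + ρ + L) / min e 1), ρ, C, min e 1,
    (le_max_left _ _).trans (le_max_left _ _), (le_max_right _ _).trans (le_max_left _ _), hρ, hC,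
    he', ?_⟩
  intro P hP hPY hK hη V0 t0 h1 h2 h3 h4 h hh t x v b1 b2 ht htt0 _ _ hle hmass
  have hK1 : 1 ≤ P.K := ((le_max_left _ _).trans (le_max_left _ _)).trans hK
  have hK2 : 2 * L ≤ P.K := ((le_max_right _ _).trans (le_max_left _ _)).trans hK
  have hK3 : 8 * (1 + P.Y) * (1 + ρ + L) ≤ min e 1 * P.K := by
    have h5 := (le_max_right (max 1 (2 * L)) (8 * (1 + Y) * (1 + ρ + L) / min e 1)).trans hK
    rw [div_le_iff₀ he'] at h5
    rw [hPY]; linarith
  have hK0 : 0 < P.K := by linarith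
  have hY0 := hP.Y0
  have hkap0 := Fuel.Ok.kap0 hP
  have hτ : 0 < t * (1 - L / P.K) := by
    apply mul_pos ht
    have : L / P.K ≤ 1 / 2 := by rw [div_le_iff₀ hK0]; linarith
    linarith
  have ht1 : t ≤ 1 / 10 := htt0.trans h1
  have htY : t ≤ 1 / (10 * (P.Y + 2)) := htt0.trans h2
  have htk : t * P.kap ≤ 1 := (mul_le_mul_of_nonneg_right htt0 hkap0).trans h3
  obtain ⟨ub, hnear⟩ := near_sc hP (ρ := ρ) hK0 ht ht1 htY htk hL.le hρ.le he' (min_le_right _ _)
    hK3 hη x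
  have hnear' : Near L (Y + 4) e ρ (scX t (t / P.K) L x (SL.chP P))
      (scU t (t / P.K) x (SL.uP P)) ub SL.sg := by
    rw [← hPY]
    have he3 : min e 1 ≤ e := min_le_left _ _
    exact ⟨hnear.s1, hnear.ubd,
      fun ω c ξ q0 q1 q2 q3 => (hnear.close ω c ξ q0 q1 q2 q3).trans he3,
      fun ω c c' ξ ξ' q0 q1 q2 q3 q4 q5 q6 q7 =>
        (hnear.lip ω c c' ξ ξ' q0 q1 q2 q3 q4 q5 q6 q7).trans (by gcongr)⟩
  have hU := uhyp (U := Y + 4) hP hK0 hτ (by linarith) htY (by linarith)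
  rw [hPY] at hU
  have hG := ghyp hP hK0 hτ htY
  have hsq : √t / 100 ≤ g1 / 2 := (div_le_div_of_nonneg_right (Real.sqrt_le_sqrt htt0)
    (by norm_num)).trans h4
  have hsq0 : 0 ≤ √t / 100 := by positivity
  have hfin := H P.K t hK2 ht SL.Om SL.piL (SL.chP P) (SL.uP P) (Dm P) (Gf (phiE P)) hU hG x ub
    SL.sg hnear' SL.measurable_sg (g1 - √t / 100) (by linarith) (by linarith) h hh b1 b2
    (fun s y w h5 h6 => hle s ⟨h5, h6⟩ y w)
    (fun s h5 h6 => by
      refine le_trans ?_ (hmass s ⟨h5, h6⟩)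
      apply lintegral_mono_set
      apply closedBall_subset_closedBall
      have : t / P.K ≤ t := div_le_self ht.le hK1
      gcongr) v
  refine hfin.trans (le_of_eq ?_)
  have e1 : ENNReal.ofReal (C * (P.K / t) ^ 2) =
      ENNReal.ofReal (C * P.K ^ 2) * ENNReal.ofReal (t ^ (-2 : ℝ)) := by
    rw [← ENNReal.ofReal_mul (by positivity)]
    congr 1
    rw [Real.rpow_neg ht.le, show (2 : ℝ) = ((2 : ℕ) : ℝ) by norm_num, Real.rpow_natCast]
    field_simp
  rw [e1]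

end Crest.Agent.R68.SI
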