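import Crest.Agent.R68.EHyp
import Crest.Agent.R68.EWk6
import Mathlib
import Crest.Agent.R68.EChar
import Crest.Agent.R68.EChain
import Crest.Agent.R68.EEnt3
import Crest.Agent.R68.EEnt9
import Crest.Agent.R68.WEnt
import Crest.Agent.R68.ZMain

-- ▼ part R68/EHypOn
section

/-!
R68 / EHypOn: local-in-time version of MildSol (helper485, for Part W).
-/

set_option autoImplicit false
open MeasureTheory
open scoped ENNReal
open Crest.AnalysisR.VecCalc3 Crest.AnalysisR.PDE.Boltzmann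

namespace Crest.Agent.R68

/-- A nonnegative periodic function which is a mild solution on [0,TT] with integrable weighted
gain and loss on [0,TT]. -/
structure MildSolOn (F : ℝ → R3 → R3 → ℝ) (F0 : R3 → R3 → ℝ) (R TT : ℝ) : Prop where
  datum : IsAdmissibleDatum F0 R
  meas : MeasF F
  nonneg : ∀ t x v, 0 ≤ t → 0 ≤ F t x v
  per : ∀ t v, IsPeriodic3 (fun x => F t x v)
  init : ∀ x v, F 0 x v = F0 x v
  mild : ∀ t, 0 ≤ t → t ≤ TT → ∀ᵐ q ∂(volume : Measure (R3 × R3)),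
    F t (q.1 + t • q.2) q.2 = F0 q.1 q.2 + ∫ s in (0)..t, Qr F s (shift s q)
  int : ∀ (T : ℝ) (k : ℕ), T ≤ TT → (∫⁻ p in Set.Ioo 0 T ×ˢ (cell ×ˢ Set.univ),
      ENNReal.ofReal ((1 + ‖p.2.2‖ ^ 2) ^ (k / 2 : ℝ) + Real.log (1 + F p.1 p.2.1 p.2.2)) *
        (collGain F p.1 p.2.1 p.2.2 + collLoss F p.1 p.2.1 p.2.2)
      ∂(volume : Measure (ℝ × R3 × R3))) < ⊤

variable {F : ℝ → R3 → R3 → ℝ} {F0 : R3 → R3 → ℝ} {R TT : ℝ}



theorem MildSolOn.mono (h : MildSolOn F F0 R TT) {T : ℝ} (hT : T ≤ TT) : MildSolOn F F0 R T :=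
  ⟨h.datum, h.meas, h.nonneg, h.per, h.init, fun t ht htT => h.mild t ht (htT.trans hT),
    fun T' k hT' => h.int T' k (hT'.trans hT)⟩

/-- the integrability is only needed up to the final time -/
theorem MildSolOn.mk' (hd : IsAdmissibleDatum F0 R) (hm : MeasF F)
    (hn : ∀ t x v, 0 ≤ t → 0 ≤ F t x v) (hp : ∀ t v, IsPeriodic3 (fun x => F t x v))
    (hi : ∀ x v, F 0 x v = F0 x v)
    (hmild : ∀ t, 0 ≤ t → t ≤ TT → ∀ᵐ q ∂(volume : Measure (R3 × R3)),
      F t (q.1 + t • q.2) q.2 = F0 q.1 q.2 + ∫ s in (0)..t, Qr F s (shift s q))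
    (hint : ∀ (k : ℕ), (∫⁻ p in Set.Ioo 0 TT ×ˢ (cell ×ˢ Set.univ),
      ENNReal.ofReal ((1 + ‖p.2.2‖ ^ 2) ^ (k / 2 : ℝ) + Real.log (1 + F p.1 p.2.1 p.2.2)) *
        (collGain F p.1 p.2.1 p.2.2 + collLoss F p.1 p.2.1 p.2.2)
      ∂(volume : Measure (ℝ × R3 × R3))) < ⊤) : MildSolOn F F0 R TT :=
  ⟨hd, hm, hn, hp, hi, hmild, fun _ k hT => lt_of_le_of_lt (lintegral_mono_set
    (Set.prod_mono (Set.Ioo_subset_Ioo_right hT) le_rfl)) (hint k)⟩

end Crest.Agent.R68
end

-- ▼ part R68/EOn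
section

/-!
R68 / EOn: local-in-time version of EWk1-6 (helper485, Part E for Part W).
-/

set_option autoImplicit false
open MeasureTheory
open scoped ENNReal ContDiff
open Crest.AnalysisR.VecCalc3 Crest.AnalysisR.PDE.Boltzmann

namespace Crest.Agent.R68

namespace MildSolOn

open MildSol (momB C_nonneg_of_bd abs_inv_bounds)

variable {F : ℝ → R3 → R3 → ℝ} {F0 : R3 → R3 → ℝ} {R TT : ℝ}

theorem F_per (h : MildSolOn F F0 R TT) (t : ℝ) (x : R3) (i : Fin 3) :
    F t (x + EuclideanSpace.single i 1) = F t x := funext fun v => h.per t v x i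

theorem perX_gain (h : MildSolOn F F0 R TT) (t : ℝ) : PerX (fun q => collGain F t q.1 q.2) := by
  intro v x i
  simp only [collGain, h.F_per]

theorem perX_loss (h : MildSolOn F F0 R TT) (t : ℝ) : PerX (fun q => collLoss F t q.1 q.2) := by
  intro v x i
  simp only [collLoss, h.F_per]

theorem perX_gl (h : MildSolOn F F0 R TT) (t : ℝ) : PerX (gl F t) :=
  (h.perX_gain t).comp₂ (h.perX_loss t) (fun a b => a + b)

theorem perX_Qr (h : MildSolOn F F0 R TT) (t : ℝ) : PerX (Qr F t) :=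
  (h.perX_gain t).comp₂ (h.perX_loss t) (fun a b => a.toReal - b.toReal)

theorem perX_F (h : MildSolOn F F0 R TT) (t : ℝ) : PerX (fun q => F t q.1 q.2) :=
  fun v x i => h.per t v x i


theorem meas_gl (h : MildSolOn F F0 R TT) : Measurable (fun p : ℝ × R3 × R3 => gl F p.1 p.2) :=
  (h.meas.collGain).add (h.meas.collLoss)

theorem meas_Qr (h : MildSolOn F F0 R TT) : Measurable (fun p : ℝ × R3 × R3 => Qr F p.1 p.2) :=
  (h.meas.collGain.ennreal_toReal).sub (h.meas.collLoss.ennreal_toReal)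

theorem meas_F0 (h : MildSolOn F F0 R TT) : Measurable (fun q : R3 × R3 => F0 q.1 q.2) := h.datum.1

theorem F0_nonneg (h : MildSolOn F F0 R TT) (x v : R3) : 0 ≤ F0 x v := h.datum.2.1 x v

/-- weighted collision rate is integrable -/
theorem gl_lt_top (h : MildSolOn F F0 R TT) (T : ℝ) (k : ℕ) (hTT : T ≤ TT := by assumption) :
    ∫⁻ p, ENNReal.ofReal (wt k p.2.2) * gl F p.1 p.2 ∂nuA (Set.Ioc 0 T) < ⊤ := by
  refine lt_of_le_of_lt ?_ (h.int T k hTT)
  rw [nuA_eq, nuA_Ioo_Ioc]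
  refine lintegral_mono_ae ?_
  have : ∀ᵐ p ∂nuA (Set.Ioc 0 T), p.1 ∈ Set.Ioc 0 T := by
    unfold nuA
    rw [Measure.ae_prod_iff_ae_ae]
    · filter_upwards [ae_restrict_mem measurableSet_Ioc] with t ht
      exact Filter.Eventually.of_forall fun _ => ht
    · exact measurable_fst measurableSet_Ioc
  filter_upwards [this] with p hp
  refine mul_le_mul' (ENNReal.ofReal_le_ofReal ?_) le_rfl
  have : 0 ≤ Real.log (1 + F p.1 p.2.1 p.2.2) :=
    Real.log_nonneg (by linarith [h.nonneg p.1 p.2.1 p.2.2 hp.1.le])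
  unfold wt
  linarith

theorem gl_shift (h : MildSolOn F F0 R TT) (A : Set ℝ) (k : ℕ) :
    ∫⁻ p, ENNReal.ofReal (wt k p.2.2) * gl F p.1 (shift p.1 p.2) ∂nuA A =
      ∫⁻ p, ENNReal.ofReal (wt k p.2.2) * gl F p.1 p.2 ∂nuA A := by
  refine lintegral_nuA_shift (G := fun p => ENNReal.ofReal (wt k p.2.2) * gl F p.1 p.2) ?_ ?_
  · exact (by fun_prop : Measurable fun p : ℝ × R3 × R3 => ENNReal.ofReal (wt k p.2.2)).mul
      h.meas_gl
  · intro t
    exact (perX_snd (fun v => ENNReal.ofReal (wt k v))).comp₂ (h.perX_gl t) (fun a b => a * b)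

theorem meas_gl_shift (h : MildSolOn F F0 R TT) :
    Measurable (fun p : ℝ × R3 × R3 => gl F p.1 (shift p.1 p.2)) :=
  Measurable.comp (g := fun p : ℝ × R3 × R3 => gl F p.1 p.2)
    (f := fun p : ℝ × R3 × R3 => (p.1, shift p.1 p.2)) h.meas_gl measurable_shiftT






theorem F0_mass (h : MildSolOn F F0 R TT) : ∫⁻ q, ENNReal.ofReal (F0 q.1 q.2) ∂muC < ⊤ := by
  refine lt_of_le_of_lt ?_ h.datum.2.2.2.2
  unfold muC
  refine lintegral_mono fun q => ENNReal.ofReal_le_ofReal ?_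
  have h0 := h.F0_nonneg q.1 q.2
  have : 1 ≤ 1 + ‖q.2‖ ^ 2 + |Real.log (F0 q.1 q.2)| := by
    have := sq_nonneg ‖q.2‖
    have := abs_nonneg (Real.log (F0 q.1 q.2))
    linarith
  nlinarith

/-- bound of the moments of the datum -/
theorem F0_moment (h : MildSolOn F F0 R TT) (k : ℕ) :
    ∫⁻ q, ENNReal.ofReal (wt k q.2) * ENNReal.ofReal (F0 q.1 q.2) ∂muC < ⊤ := by
  have : ∫⁻ q, ENNReal.ofReal (wt k q.2) * ENNReal.ofReal (F0 q.1 q.2) ∂muC ≤
      ∫⁻ q, ENNReal.ofReal ((1 + R ^ 2) ^ (k / 2 : ℝ)) * ENNReal.ofReal (F0 q.1 q.2) ∂muC := by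
    refine lintegral_mono fun q => ?_
    by_cases hq : R ≤ ‖q.2‖
    · rw [h.datum.2.2.2.1 q.1 q.2 hq]
      simp
    · exact mul_le_mul' (ENNReal.ofReal_le_ofReal (wt_mono k (le_of_not_ge hq))) le_rfl
  refine lt_of_le_of_lt this ?_
  rw [lintegral_const_mul _ h.meas_F0.ennreal_ofReal]
  exact ENNReal.mul_lt_top ENNReal.ofReal_lt_top h.F0_mass

theorem measurable_F (h : MildSolOn F F0 R TT) (t : ℝ) :
    Measurable (fun q : R3 × R3 => F t q.1 q.2) :=
  h.meas.comp (f := fun _ : R3 × R3 => t) measurable_const measurable_fst measurable_snd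

/-- pointwise bound along characteristics -/
theorem enorm_F_shift_le (h : MildSolOn F F0 R TT) {t : ℝ} (ht : 0 ≤ t) (htT : t ≤ TT) :
    ∀ᵐ q ∂muC, ENNReal.ofReal (F t (shift t q).1 (shift t q).2) ≤
      ENNReal.ofReal (F0 q.1 q.2) + ∫⁻ s in Set.Ioc 0 t, gl F s (shift s q) := by
  filter_upwards [ae_muC_of_ae (h.mild t ht htT)] with q hq
  have e : F t (shift t q).1 (shift t q).2 = F t (q.1 + t • q.2) q.2 := rfl
  rw [e, hq, intervalIntegral.integral_of_le ht]
  refine ENNReal.ofReal_add_le.trans (add_le_add le_rfl ?_)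
  refine (Real.ofReal_le_enorm _).trans ?_
  refine (enorm_integral_le_lintegral_enorm _).trans ?_
  exact lintegral_mono fun s => enorm_Qr_le F s _

theorem momB_lt_top (h : MildSolOn F F0 R TT) (T : ℝ) (k : ℕ) (hTT : T ≤ TT := by assumption) : momB F F0 T k < ⊤ :=
  ENNReal.add_lt_top.2 ⟨h.F0_moment k, h.gl_lt_top T k⟩

theorem moment_le (h : MildSolOn F F0 R TT) {t T : ℝ} (ht : 0 ≤ t) (htT : t ≤ T) (k : ℕ)
    (hTT : T ≤ TT := by assumption) :
    ∫⁻ q, ENNReal.ofReal (wt k q.2) * ENNReal.ofReal (F t q.1 q.2) ∂muC ≤ momB F F0 T k := by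
  have hG : Measurable (fun q : R3 × R3 =>
      ENNReal.ofReal (wt k q.2) * ENNReal.ofReal (F t q.1 q.2)) :=
    (by fun_prop : Measurable fun q : R3 × R3 => ENNReal.ofReal (wt k q.2)).mul
      (h.measurable_F t).ennreal_ofReal
  have hP : PerX (fun q : R3 × R3 => ENNReal.ofReal (wt k q.2) * ENNReal.ofReal (F t q.1 q.2)) :=
    (perX_snd (fun v => ENNReal.ofReal (wt k v))).comp₂ (h.perX_F t)
      (fun a b => a * ENNReal.ofReal b)
  rw [← lintegral_shift hG hP t]
  have h1 : ∫⁻ q, ENNReal.ofReal (wt k (shift t q).2) *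
      ENNReal.ofReal (F t (shift t q).1 (shift t q).2) ∂muC ≤
      ∫⁻ q, (ENNReal.ofReal (wt k q.2) * ENNReal.ofReal (F0 q.1 q.2) +
        ∫⁻ s in Set.Ioc 0 t, ENNReal.ofReal (wt k q.2) * gl F s (shift s q)) ∂muC := by
    refine lintegral_mono_ae ?_
    filter_upwards [h.enorm_F_shift_le ht (htT.trans hTT)] with q hq
    have hm : Measurable (fun s => gl F s (shift s q)) :=
      Measurable.comp (g := fun p : ℝ × R3 × R3 => gl F p.1 p.2) (f := fun s : ℝ => (s, shift s q))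
        h.meas_gl (measurable_id.prodMk (Measurable.shift measurable_id measurable_const))
    rw [lintegral_const_mul _ hm, ← mul_add]
    exact mul_le_mul' le_rfl hq
  refine h1.trans ?_
  have hm1 : Measurable (fun q : R3 × R3 => ENNReal.ofReal (wt k q.2) *
      ENNReal.ofReal (F0 q.1 q.2)) :=
    (by fun_prop : Measurable fun q : R3 × R3 => ENNReal.ofReal (wt k q.2)).mul
      h.meas_F0.ennreal_ofReal
  rw [lintegral_add_left hm1]
  unfold momB
  refine add_le_add le_rfl ?_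
  have hm2 : Measurable (fun p : ℝ × R3 × R3 =>
      ENNReal.ofReal (wt k p.2.2) * gl F p.1 (shift p.1 p.2)) :=
    (by fun_prop : Measurable fun p : ℝ × R3 × R3 => ENNReal.ofReal (wt k p.2.2)).mul
      h.meas_gl_shift
  rw [← h.gl_shift, lintegral_nuA' hm2]
  refine lintegral_mono fun q => ?_
  exact lintegral_mono_set (Set.Ioc_subset_Ioc_right htT)

/-- integrability of F(t) against polynomial weights -/
theorem integrable_F (h : MildSolOn F F0 R TT) {t : ℝ} (ht : 0 ≤ t) (htT : t ≤ TT) {g : R3 → ℝ} (hg : Measurable g)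
    {C : ℝ} {k : ℕ} (hgb : ∀ v, |g v| ≤ C * wt k v) :
    Integrable (fun q : R3 × R3 => g q.2 * F t q.1 q.2) muC := by
  refine ⟨((hg.comp measurable_snd).mul (h.measurable_F t)).aestronglyMeasurable, ?_⟩
  rw [hasFiniteIntegral_iff_enorm]
  have h1 : ∫⁻ q, ‖g q.2 * F t q.1 q.2‖ₑ ∂muC ≤
      ∫⁻ q, ENNReal.ofReal C * (ENNReal.ofReal (wt k q.2) * ENNReal.ofReal (F t q.1 q.2)) ∂muC := by
    refine lintegral_mono fun q => ?_
    rw [enorm_mul, ← mul_assoc]
    have hC : 0 ≤ C := by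
      have := hgb 0
      have h2 := wt_pos k 0
      by_contra hc
      push Not at hc
      have h3 := abs_nonneg (g 0)
      nlinarith
    refine mul_le_mul' ?_ ?_
    · rw [← ENNReal.ofReal_mul hC, Real.enorm_eq_ofReal_abs]
      exact ENNReal.ofReal_le_ofReal (hgb q.2)
    · rw [Real.enorm_eq_ofReal (h.nonneg t _ _ ht)]
  refine lt_of_le_of_lt h1 ?_
  have hG : Measurable (fun q : R3 × R3 =>
      ENNReal.ofReal (wt k q.2) * ENNReal.ofReal (F t q.1 q.2)) :=
    (by fun_prop : Measurable fun q : R3 × R3 => ENNReal.ofReal (wt k q.2)).mul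
      (h.measurable_F t).ennreal_ofReal
  rw [lintegral_const_mul _ hG]
  exact ENNReal.mul_lt_top ENNReal.ofReal_lt_top
    (lt_of_le_of_lt (h.moment_le ht le_rfl k) (h.momB_lt_top t k))

/-- the time-integrated moments -/
theorem moment_time (h : MildSolOn F F0 R TT) (T : ℝ) (k : ℕ) (hTT : T ≤ TT := by assumption) :
    ∫⁻ p, ENNReal.ofReal (wt k p.2.2) * ENNReal.ofReal (F p.1 p.2.1 p.2.2)
      ∂nuA (Set.Ioc 0 T) < ⊤ := by
  have hG : Measurable (fun p : ℝ × R3 × R3 =>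
      ENNReal.ofReal (wt k p.2.2) * ENNReal.ofReal (F p.1 p.2.1 p.2.2)) :=
    (by fun_prop : Measurable fun p : ℝ × R3 × R3 => ENNReal.ofReal (wt k p.2.2)).mul
      (Measurable.ennreal_ofReal h.meas)
  rw [lintegral_nuA hG]
  have h1 : ∫⁻ t in Set.Ioc 0 T, (∫⁻ q, ENNReal.ofReal (wt k q.2) *
      ENNReal.ofReal (F t q.1 q.2) ∂muC) ≤ ∫⁻ _ in Set.Ioc 0 T, momB F F0 T k := by
    refine setLIntegral_mono measurable_const ?_
    intro t ht
    exact h.moment_le ht.1.le ht.2 k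
  refine lt_of_le_of_lt h1 ?_
  rw [setLIntegral_const]
  exact ENNReal.mul_lt_top (h.momB_lt_top T k) (by rw [Real.volume_Ioc]; exact ENNReal.ofReal_lt_top)


/-- Q·g integrable on (0,T] × cell × ℝ³ -/
theorem integrable_Q_time (h : MildSolOn F F0 R TT) (T : ℝ) {g : ℝ × R3 × R3 → ℝ} (hg : Measurable g)
    {C : ℝ} {k : ℕ} (hgb : ∀ᵐ p ∂nuA (Set.Ioc 0 T), |g p| ≤ C * wt k p.2.2)
    (hTT : T ≤ TT := by assumption) :
    Integrable (fun p : ℝ × R3 × R3 => Qr F p.1 p.2 * g p) (nuA (Set.Ioc 0 T)) := by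
  refine ⟨(Measurable.mul h.meas_Qr hg).aestronglyMeasurable, ?_⟩
  rw [hasFiniteIntegral_iff_enorm]
  have h1 : ∫⁻ p, ‖Qr F p.1 p.2 * g p‖ₑ ∂nuA (Set.Ioc 0 T) ≤
      ∫⁻ p, ENNReal.ofReal C * (ENNReal.ofReal (wt k p.2.2) * gl F p.1 p.2)
        ∂nuA (Set.Ioc 0 T) := by
    refine lintegral_mono_ae ?_
    filter_upwards [hgb] with p hp
    have hC : 0 ≤ C := C_nonneg_of_bd (g := fun _ => g p) p.2.2 hp
    rw [enorm_mul, mul_comm, ← mul_assoc]
    refine mul_le_mul' ?_ (enorm_Qr_le F _ _)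
    rw [← ENNReal.ofReal_mul hC, Real.enorm_eq_ofReal_abs]
    exact ENNReal.ofReal_le_ofReal hp
  refine lt_of_le_of_lt h1 ?_
  have hG : Measurable (fun p : ℝ × R3 × R3 => ENNReal.ofReal (wt k p.2.2) * gl F p.1 p.2) :=
    (by fun_prop : Measurable fun p : ℝ × R3 × R3 => ENNReal.ofReal (wt k p.2.2)).mul h.meas_gl
  rw [lintegral_const_mul _ hG]
  exact ENNReal.mul_lt_top ENNReal.ofReal_lt_top (h.gl_lt_top T k)

/-- F₀·g integrable on cell × ℝ³ -/
theorem integrable_F0 (h : MildSolOn F F0 R TT) {g : R3 × R3 → ℝ} (hg : Measurable g)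
    {C : ℝ} {k : ℕ} (hgb : ∀ᵐ q ∂muC, |g q| ≤ C * wt k q.2) :
    Integrable (fun q : R3 × R3 => F0 q.1 q.2 * g q) muC := by
  refine ⟨(Measurable.mul h.meas_F0 hg).aestronglyMeasurable, ?_⟩
  rw [hasFiniteIntegral_iff_enorm]
  have h1 : ∫⁻ q, ‖F0 q.1 q.2 * g q‖ₑ ∂muC ≤
      ∫⁻ q, ENNReal.ofReal C * (ENNReal.ofReal (wt k q.2) * ENNReal.ofReal (F0 q.1 q.2)) ∂muC := by
    refine lintegral_mono_ae ?_
    filter_upwards [hgb] with q hq
    have hC : 0 ≤ C := C_nonneg_of_bd (g := fun _ => g q) q.2 hq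
    rw [enorm_mul, mul_comm, ← mul_assoc]
    refine mul_le_mul' ?_ ?_
    · rw [← ENNReal.ofReal_mul hC, Real.enorm_eq_ofReal_abs]
      exact ENNReal.ofReal_le_ofReal hq
    · rw [Real.enorm_eq_ofReal (h.F0_nonneg _ _)]
  refine lt_of_le_of_lt h1 ?_
  have hG : Measurable (fun q : R3 × R3 =>
      ENNReal.ofReal (wt k q.2) * ENNReal.ofReal (F0 q.1 q.2)) :=
    (by fun_prop : Measurable fun q : R3 × R3 => ENNReal.ofReal (wt k q.2)).mul
      h.meas_F0.ennreal_ofReal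
  rw [lintegral_const_mul _ hG]
  exact ENNReal.mul_lt_top ENNReal.ofReal_lt_top (h.F0_moment k)



/-- for a.e. (t,x) the velocity integral of the weighted collision rate is finite -/
theorem ae_fin (h : MildSolOn F F0 R TT) (T : ℝ) (hTT : T ≤ TT := by assumption) : ∀ᵐ t ∂((volume : Measure ℝ).restrict (Set.Ioc 0 T)),
    ∀ᵐ x ∂((volume : Measure R3).restrict cell),
      ∫⁻ v, ENNReal.ofReal (wt 2 v) * gl F t (x, v) < ⊤ := by
  have hG : Measurable (fun p : ℝ × R3 × R3 => ENNReal.ofReal (wt 2 p.2.2) * gl F p.1 p.2) :=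
    (by fun_prop : Measurable fun p : ℝ × R3 × R3 => ENNReal.ofReal (wt 2 p.2.2)).mul h.meas_gl
  have h0 := h.gl_lt_top T 2
  rw [lintegral_nuA hG] at h0
  have hG1 : Measurable (fun t : ℝ => ∫⁻ q, ENNReal.ofReal (wt 2 q.2) * gl F t q ∂muC) :=
    Measurable.lintegral_prod_right' hG
  have h1 := ae_lt_top hG1 h0.ne
  filter_upwards [h1] with t ht
  have hGt : Measurable (fun q : R3 × R3 => ENNReal.ofReal (wt 2 q.2) * gl F t q) :=
    Measurable.comp (g := fun p : ℝ × R3 × R3 => ENNReal.ofReal (wt 2 p.2.2) * gl F p.1 p.2)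
      (f := fun q : R3 × R3 => (t, q)) hG measurable_prodMk_left
  rw [lintegral_muC' hGt] at ht
  exact ae_lt_top (Measurable.lintegral_prod_right' hGt) ht.ne

/-- orthogonality to invariants times functions of (t,x) -/
theorem integral_Q_inv (h : MildSolOn F F0 R TT) (T : ℝ) {ψ : R3 → ℝ} (hψ : Measurable ψ)
    (hb : ∀ v, |ψ v| ≤ wt 2 v) (hinv : IsInv ψ) {η : ℝ → R3 → ℝ}
    (hi : Integrable (fun p : ℝ × R3 × R3 => Qr F p.1 p.2 * (ψ p.2.2 * η p.1 p.2.1))
      (nuA (Set.Ioc 0 T)))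
    (hTT : T ≤ TT := by assumption) :
    ∫ p, Qr F p.1 p.2 * (ψ p.2.2 * η p.1 p.2.1) ∂nuA (Set.Ioc 0 T) = 0 := by
  have hi' := hi
  unfold nuA at hi ⊢
  rw [integral_prod _ hi]
  have h1 : ∀ᵐ t ∂((volume : Measure ℝ).restrict (Set.Ioc 0 T)),
      ∫ q, Qr F t q * (ψ q.2 * η t q.1) ∂muC = 0 := by
    filter_upwards [h.ae_fin T, hi.prod_right_ae] with t ht hit
    rw [muC_eq] at hit ⊢
    rw [integral_prod _ hit]
    have h2 : ∀ᵐ x ∂((volume : Measure R3).restrict cell),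
        ∫ v, Qr F t (x, v) * (ψ v * η t x) = 0 := by
      filter_upwards [ht] with x hx
      have e := invariant_real h.meas hx hψ hb hinv
      have e2 : ∀ v, Qr F t (x, v) * (ψ v * η t x) = (ψ v * Qr F t (x, v)) * η t x := by
        intro v; ring
      simp only [e2]
      rw [integral_mul_const, e, zero_mul]
    rw [integral_congr_ae h2]
    simp
  rw [integral_congr_ae h1]
  simp

/-- conservation of the total invariants -/
theorem total_conserved (h : MildSolOn F F0 R TT) {t : ℝ} (ht : 0 ≤ t) (htT : t ≤ TT) {ψ : R3 → ℝ}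
    (hψ : Measurable ψ) (hb : ∀ v, |ψ v| ≤ wt 2 v) (hinv : IsInv ψ) :
    Integrable (fun q : R3 × R3 => ψ q.2 * F t q.1 q.2) muC ∧
    ∫ q, ψ q.2 * F t q.1 q.2 ∂muC = ∫ q, ψ q.2 * F0 q.1 q.2 ∂muC := by
  have hi := h.integrable_F ht htT hψ (C := 1) (k := 2) (fun v => by rw [one_mul]; exact hb v)
  refine ⟨hi, ?_⟩
  have hi0 : Integrable (fun q : R3 × R3 => ψ q.2 * F0 q.1 q.2) muC := by
    have := h.integrable_F0 (g := fun q => ψ q.2) (hψ.comp measurable_snd) (C := 1) (k := 2)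
      (Filter.Eventually.of_forall fun q => by rw [one_mul]; exact hb q.2)
    refine this.congr (Filter.Eventually.of_forall fun q => ?_)
    simp only [mul_comm]
  have hG : Measurable (fun q : R3 × R3 => ψ q.2 * F t q.1 q.2) :=
    (hψ.comp measurable_snd).mul (h.measurable_F t)
  have hP : PerX (fun q : R3 × R3 => ψ q.2 * F t q.1 q.2) :=
    (perX_snd ψ).comp₂ (h.perX_F t) (fun a b => a * b)
  rw [← integral_shift hG hP t]
  -- the time integral
  have hQg : Measurable (fun p : ℝ × R3 × R3 => Qr F p.1 p.2 * (ψ p.2.2 * 1)) :=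
    h.meas_Qr.mul ((hψ.comp (by fun_prop : Measurable fun p : ℝ × R3 × R3 => p.2.2)).mul
      measurable_const)
  have hQi : Integrable (fun p : ℝ × R3 × R3 => Qr F p.1 p.2 * (ψ p.2.2 * 1))
      (nuA (Set.Ioc 0 t)) :=
    h.integrable_Q_time t (g := fun p : ℝ × R3 × R3 => ψ p.2.2 * 1) (C := 1) (k := 2)
      ((hψ.comp (by fun_prop : Measurable fun p : ℝ × R3 × R3 => p.2.2)).mul measurable_const)
      (Filter.Eventually.of_forall fun p => by rw [one_mul, mul_one]; exact hb _)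
  have hQp : ∀ s, PerX (fun q : R3 × R3 => Qr F s q * (ψ q.2 * 1)) := fun s =>
    (h.perX_Qr s).comp₂ (perX_snd ψ) (fun a b => a * (b * 1))
  have hQi2 : Integrable (fun p : ℝ × R3 × R3 => Qr F p.1 (shift p.1 p.2) * (ψ p.2.2 * 1))
      (nuA (Set.Ioc 0 t)) :=
    (integrable_nuA_shift (G := fun p : ℝ × R3 × R3 => Qr F p.1 p.2 * (ψ p.2.2 * 1))
      hQg hQp).2 hQi
  have hzero : ∫ p, Qr F p.1 (shift p.1 p.2) * (ψ p.2.2 * 1) ∂nuA (Set.Ioc 0 t) = 0 := by
    have z1 := h.integral_Q_inv t hψ hb hinv (η := fun _ _ => 1) hQi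
    have a1 : ∫ p, Qr F p.1 p.2 * (ψ p.2.2 * 1) ∂nuA (Set.Ioc 0 t) =
        ∫ s in Set.Ioc 0 t, (∫ q, Qr F s q * (ψ q.2 * 1) ∂muC) := by
      unfold nuA at hQi ⊢
      exact integral_prod _ hQi
    have a2 : ∫ p, Qr F p.1 (shift p.1 p.2) * (ψ p.2.2 * 1) ∂nuA (Set.Ioc 0 t) =
        ∫ s in Set.Ioc 0 t, (∫ q, Qr F s (shift s q) * (ψ q.2 * 1) ∂muC) := by
      unfold nuA at hQi2 ⊢
      exact integral_prod _ hQi2
    rw [a2]
    rw [a1] at z1
    refine Eq.trans ?_ z1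
    refine integral_congr_ae (Filter.Eventually.of_forall fun s => ?_)
    exact integral_shift (G := fun q : R3 × R3 => Qr F s q * (ψ q.2 * 1))
      (Measurable.comp (g := fun p : ℝ × R3 × R3 => Qr F p.1 p.2 * (ψ p.2.2 * 1))
        (f := fun q : R3 × R3 => (s, q)) hQg measurable_prodMk_left) (hQp s) s
  have hinner : Integrable (fun q : R3 × R3 =>
      ∫ s in Set.Ioc 0 t, Qr F s (shift s q) * (ψ q.2 * 1)) muC := by
    unfold nuA at hQi2
    exact Integrable.integral_prod_right hQi2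
  have hinner0 : ∫ q, (∫ s in Set.Ioc 0 t, Qr F s (shift s q) * (ψ q.2 * 1)) ∂muC = 0 := by
    refine Eq.trans ?_ hzero
    unfold nuA at hQi2 ⊢
    exact (integral_prod_symm _ hQi2).symm
  have hae : ∀ᵐ q ∂muC, ψ (shift t q).2 * F t (shift t q).1 (shift t q).2 =
      ψ q.2 * F0 q.1 q.2 + ∫ s in Set.Ioc 0 t, Qr F s (shift s q) * (ψ q.2 * 1) := by
    filter_upwards [ae_muC_of_ae (h.mild t ht htT)] with q hq
    have e : F t (shift t q).1 (shift t q).2 = F t (q.1 + t • q.2) q.2 := rfl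
    have e' : (shift t q).2 = q.2 := rfl
    rw [e, e', hq, intervalIntegral.integral_of_le ht, integral_mul_const]
    ring
  rw [integral_congr_ae hae, integral_add hi0 hinner, hinner0, add_zero]



end MildSolOn

end Crest.Agent.R68
end

-- ▼ part R68/EOnChar
section

/-!
Row 68, part E: the entropy identity along characteristics,
`∫ φ(F t) - ∫ φ(F 0) = ∫_0^t ∫ Q(F) log(F/M + δ)`, `φ_v(z) = M(v) h(z/M(v) + δ)`.
-/

set_option autoImplicit false
open MeasureTheory Set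
open scoped ENNReal NNReal Pointwise
open Crest.AnalysisR.VecCalc3 Crest.AnalysisR.PDE.Boltzmann

namespace Crest.Agent.R68EOn

open Crest.Agent.R68E hiding perX_Qr perX_logD integrable_Q_weight integrable_Q integrable_Q_logD measurable_F₀ measurable_yy ae_integrableOn_Q ae_ae_yy ae_yy_nonneg integrable_datum integrable_entD_datum entropy_char

open Crest.Agent.R68 (MildSolOn Qr shift MeasF PerX)

variable {F : ℝ → R3 → R3 → ℝ} {F₀ : R3 → R3 → ℝ} {R TT : ℝ}

lemma perX_Qr (S : MildSolOn F F₀ R TT) (s : ℝ) : PerX (Qr F s) := by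
  intro v x i
  have h : ∀ v', F s (x + EuclideanSpace.single i 1) v' = F s x v' := fun v' => S.per s v' x i
  have hF : F s (x + EuclideanSpace.single i 1) = F s x := funext h
  simp only [Qr, collGain, collLoss, hF]

lemma perX_logD (S : MildSolOn F F₀ R TT) (δ s : ℝ) : PerX (logD F δ s) := by
  intro v x i
  have h : F s (x + EuclideanSpace.single i 1) v = F s x v := S.per s v x i
  simp only [logD, h]

/-- `Q(F)` is integrable on `(0,T) × cell × R3`, with weight `C + |v|² + log(1+F)`. -/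
lemma integrable_Q_weight (S : MildSolOn F F₀ R TT) (T C : ℝ) (hC : 0 ≤ C)
    {w : ℝ × (R3 × R3) → ℝ} (hw : Measurable w)
    (hb : ∀ p : ℝ × (R3 × R3), 0 < p.1 →
      |w p| ≤ C * ((1 + ‖p.2.2‖ ^ 2) + Real.log (1 + F p.1 p.2.1 p.2.2)))
    (hTT : T ≤ TT := by assumption) :
    Integrable (fun p : ℝ × (R3 × R3) => Qr F p.1 p.2 * w p) (mu3 T) := by
  have hint := S.int T 2 hTT
  rw [mu3_eq T] at hint
  refine ⟨((measurable_Qr S.meas).mul hw).aestronglyMeasurable, ?_⟩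
  unfold HasFiniteIntegral
  have hle : ∀ᵐ p ∂(mu3 T), ‖Qr F p.1 p.2 * w p‖ₑ ≤ ENNReal.ofReal C *
      (ENNReal.ofReal ((1 + ‖p.2.2‖ ^ 2) ^ ((2 : ℕ) / 2 : ℝ) + Real.log (1 + F p.1 p.2.1 p.2.2)) *
        (collGain F p.1 p.2.1 p.2.2 + collLoss F p.1 p.2.1 p.2.2)) := by
    have hpos : ∀ᵐ p ∂(mu3 T), 0 < p.1 := by
      have h1 : ∀ᵐ s ∂(volume.restrict (Ioo (0 : ℝ) T)), 0 < s := by
        filter_upwards [ae_restrict_mem measurableSet_Ioo] with s hs using hs.1
      exact Measure.quasiMeasurePreserving_fst.ae h1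
    filter_upwards [hpos] with p hp
    have h1 : ‖Qr F p.1 p.2‖ₑ ≤ collGain F p.1 p.2.1 p.2.2 + collLoss F p.1 p.2.1 p.2.2 := by
      unfold Qr
      refine (enorm_sub_le).trans (add_le_add ?_ ?_)
      · rw [Real.enorm_of_nonneg ENNReal.toReal_nonneg]
        exact ENNReal.ofReal_toReal_le
      · rw [Real.enorm_of_nonneg ENNReal.toReal_nonneg]
        exact ENNReal.ofReal_toReal_le
    have h2 : ‖w p‖ₑ ≤ ENNReal.ofReal C *
        ENNReal.ofReal ((1 + ‖p.2.2‖ ^ 2) ^ ((2 : ℕ) / 2 : ℝ) +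
          Real.log (1 + F p.1 p.2.1 p.2.2)) := by
      rw [← ENNReal.ofReal_mul hC, ← ofReal_norm, Real.norm_eq_abs]
      refine ENNReal.ofReal_le_ofReal ?_
      have := hb p hp
      have h3 : ((1 + ‖p.2.2‖ ^ 2) ^ ((2 : ℕ) / 2 : ℝ) : ℝ) = 1 + ‖p.2.2‖ ^ 2 := by
        norm_num
      rw [h3]; exact this
    rw [enorm_mul]
    calc ‖Qr F p.1 p.2‖ₑ * ‖w p‖ₑ ≤ (collGain F p.1 p.2.1 p.2.2 + collLoss F p.1 p.2.1 p.2.2) *
        (ENNReal.ofReal C * ENNReal.ofReal ((1 + ‖p.2.2‖ ^ 2) ^ ((2 : ℕ) / 2 : ℝ) +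
          Real.log (1 + F p.1 p.2.1 p.2.2))) := mul_le_mul' h1 h2
      _ = _ := by ring
  refine lt_of_le_of_lt (lintegral_mono_ae hle) ?_
  rw [lintegral_const_mul']
  · exact ENNReal.mul_lt_top ENNReal.ofReal_lt_top hint
  · exact ENNReal.ofReal_ne_top

lemma integrable_Q (S : MildSolOn F F₀ R TT) (T : ℝ) (hTT : T ≤ TT := by assumption) :
    Integrable (fun p : ℝ × (R3 × R3) => Qr F p.1 p.2) (mu3 T) := by
  have := integrable_Q_weight S T 1 zero_le_one (w := fun _ => 1) measurable_const (by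
    intro p hp
    have h1 : 0 ≤ Real.log (1 + F p.1 p.2.1 p.2.2) :=
      Real.log_nonneg (by linarith [S.nonneg p.1 p.2.1 p.2.2 hp.le])
    rw [abs_one]
    nlinarith [sq_nonneg ‖p.2.2‖])
  simpa using this

lemma integrable_Q_logD (S : MildSolOn F F₀ R TT) {δ : ℝ} (hδ : 0 < δ) (hδ1 : δ ≤ 1) (T : ℝ)
    (hTT : T ≤ TT := by assumption) :
    Integrable (fun p : ℝ × (R3 × R3) => Qr F p.1 p.2 * logD F δ p.1 p.2) (mu3 T) := by
  refine integrable_Q_weight S T (|Real.log δ| + 5) (by positivity)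
    (measurable_logD S.meas δ) ?_
  intro p hp
  have h0 := S.nonneg p.1 p.2.1 p.2.2 hp.le
  have h1 := abs_logD_le hδ hδ1 p.2.2 h0
  have h2 : 0 ≤ Real.log (1 + F p.1 p.2.1 p.2.2) := Real.log_nonneg (by linarith)
  have h3 := abs_nonneg (Real.log δ)
  refine h1.trans ?_
  have h4 : 0 ≤ ‖p.2.2‖ ^ 2 := by positivity
  nlinarith

lemma measurable_F₀ (S : MildSolOn F F₀ R TT) : Measurable fun q : R3 × R3 => F₀ q.1 q.2 := S.datum.1

lemma measurable_yy (S : MildSolOn F F₀ R TT) :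
    Measurable fun p : (R3 × R3) × ℝ => yy F F₀ p.1 p.2 := by
  have h0 : Measurable fun p : (R3 × R3) × ℝ => F₀ p.1.1 p.1.2 :=
    (measurable_F₀ S).comp measurable_fst
  exact h0.add (measurable_primitive (measurable_Qshift S.meas))

/-- integrability along a.e. characteristic. -/
lemma ae_integrableOn_Q (S : MildSolOn F F₀ R TT) (T : ℝ) (hTT : T ≤ TT := by assumption) :
    ∀ᵐ q ∂mu2, IntegrableOn (fun s => Qr F s (shift s q)) (Ioo 0 T) := by
  have h1 := (mp_Fl T).integrable_comp_of_integrable (integrable_Q S T)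
  have h2 : Integrable (fun p : ℝ × (R3 × R3) => Qr F p.1 (shift p.1 p.2)) (mu3 T) := by
    refine h1.congr (Filter.Eventually.of_forall fun p => ?_)
    exact fl_eq_shift (perX_Qr S p.1) p.1 p.2
  exact h2.prod_left_ae

/-- a.e. characteristic: `F s (shift s q) = y(s)` for a.e. `s`. -/
lemma ae_ae_yy (S : MildSolOn F F₀ R TT) (T : ℝ) (hTT : T ≤ TT := by assumption) :
    ∀ᵐ q ∂mu2, ∀ᵐ s ∂(volume.restrict (Ioo 0 T)), F s (shift s q).1 (shift s q).2 = yy F F₀ q s := by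
  have hm : MeasurableSet {p : ℝ × (R3 × R3) |
      F p.1 (shift p.1 p.2).1 (shift p.1 p.2).2 = yy F F₀ p.2 p.1} := by
    refine measurableSet_eq_fun ?_ ?_
    · exact Crest.Agent.R68.MeasF.comp S.meas measurable_fst
        (Crest.Agent.R68.Measurable.shift measurable_fst measurable_snd).fst
        (Crest.Agent.R68.Measurable.shift measurable_fst measurable_snd).snd
    · exact (measurable_yy S).comp (measurable_snd.prodMk measurable_fst)
  have h1 : ∀ᵐ s ∂(volume.restrict (Ioo (0 : ℝ) T)), ∀ᵐ q ∂mu2,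
      F s (shift s q).1 (shift s q).2 = yy F F₀ q s := by
    filter_upwards [ae_restrict_mem measurableSet_Ioo] with s hs
    have h2 := S.mild s hs.1.le (hs.2.le.trans hTT)
    rw [← mu2_eq]
    filter_upwards [ae_restrict_of_ae h2] with q hq
    unfold yy
    rw [intervalIntegral.integral_of_le hs.1.le, integral_Ioc_eq_integral_Ioo] at hq
    exact hq
  have h3 : ∀ᵐ p ∂(mu3 T), F p.1 (shift p.1 p.2).1 (shift p.1 p.2).2 = yy F F₀ p.2 p.1 := by
    unfold mu3
    rw [Measure.ae_prod_iff_ae_ae hm]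
    exact h1
  have h4 : ∀ᵐ p ∂(mu2.prod (volume.restrict (Ioo (0 : ℝ) T))),
      F p.2 (shift p.2 p.1).1 (shift p.2 p.1).2 = yy F F₀ p.1 p.2 := by
    have hsw : MeasurePreserving Prod.swap (mu2.prod (volume.restrict (Ioo (0 : ℝ) T)))
      (mu3 T) := Measure.measurePreserving_swap
    exact hsw.quasiMeasurePreserving.ae h3
  exact Measure.ae_ae_of_ae_prod h4

/-- nonnegativity of `y` on `[0,T]` along a.e. characteristic. -/
lemma ae_yy_nonneg (S : MildSolOn F F₀ R TT) {T : ℝ} (hT : 0 < T)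
    (hTT : T ≤ TT := by assumption) :
    ∀ᵐ q ∂mu2, ∀ s ∈ Icc 0 T, 0 ≤ yy F F₀ q s := by
  filter_upwards [ae_integrableOn_Q S T, ae_ae_yy S T] with q hq1 hq2
  have hcont : ContinuousOn (yy F F₀ q) (Icc 0 T) := by
    have hi : IntervalIntegrable (fun s => Qr F s (shift s q)) volume 0 T := by
      rw [intervalIntegrable_iff_integrableOn_Ioo_of_le hT.le]; exact hq1
    have h1 : ContinuousOn (fun s => F₀ q.1 q.2 + ∫ r in (0 : ℝ)..s, Qr F r (shift r q))
        (Icc 0 T) := by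
      have h2 := intervalIntegral.continuousOn_primitive_interval' hi
        (show (0 : ℝ) ∈ uIcc 0 T by simp)
      rw [uIcc_of_le hT.le] at h2
      exact continuousOn_const.add h2
    refine h1.congr fun s hs => ?_
    unfold yy
    beta_reduce
    rw [intervalIntegral.integral_of_le hs.1, integral_Ioc_eq_integral_Ioo]
  have hae : yy F F₀ q =ᵐ[volume.restrict (Icc 0 T)] fun s => max (yy F F₀ q s) 0 := by
    rw [← restrict_Ioo_eq_restrict_Icc]
    filter_upwards [hq2, ae_restrict_mem measurableSet_Ioo] with s hs hs'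
    have := S.nonneg s (shift s q).1 (shift s q).2 hs'.1.le
    rw [hs] at this
    exact (max_eq_left this).symm
  have heq := Measure.eqOn_Icc_of_ae_eq volume hT.ne hae hcont (hcont.sup continuousOn_const)
  intro s hs
  have := heq hs
  simp only at this
  rw [this]
  exact le_max_right _ _

lemma integrable_datum (S : MildSolOn F F₀ R TT) (C : ℝ) (hC : 0 ≤ C) :
    Integrable (fun q : R3 × R3 => F₀ q.1 q.2 * (C + ‖q.2‖ ^ 2 / 2 +
      Real.log (1 + F₀ q.1 q.2))) mu2 := by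
  have hd := S.datum.2.2.2.2
  rw [mu2_eq] at hd
  have hm : Measurable (fun q : R3 × R3 => F₀ q.1 q.2) := S.datum.1
  refine ⟨?_, ?_⟩
  · refine Measurable.aestronglyMeasurable ?_
    exact hm.mul ((measurable_const.add (by fun_prop)).add
      (Real.measurable_log.comp (measurable_const.add hm)))
  · unfold HasFiniteIntegral
    have hle : ∀ q : R3 × R3, ‖F₀ q.1 q.2 * (C + ‖q.2‖ ^ 2 / 2 + Real.log (1 + F₀ q.1 q.2))‖ₑ ≤
        ENNReal.ofReal (C + 2) * ENNReal.ofReal (F₀ q.1 q.2 *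
          (1 + ‖q.2‖ ^ 2 + |Real.log (F₀ q.1 q.2)|)) := by
      intro q
      have h0 := S.datum.2.1 q.1 q.2
      set z := F₀ q.1 q.2 with hz
      have hl0 : 0 ≤ Real.log (1 + z) := Real.log_nonneg (by linarith)
      have hl1 : Real.log (1 + z) ≤ 1 + |Real.log z| := by
        rcases le_total z 1 with h1 | h1
        · have : Real.log (1 + z) ≤ Real.log 2 := Real.log_le_log (by linarith) (by linarith)
          have h2 := Real.log_two_lt_d9
          have h3 := abs_nonneg (Real.log z)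
          linarith
        · have : Real.log (1 + z) ≤ Real.log (2 * z) := Real.log_le_log (by linarith) (by linarith)
          rw [Real.log_mul (by norm_num) (by linarith)] at this
          have h2 := Real.log_two_lt_d9
          have h3 := le_abs_self (Real.log z)
          linarith
      rw [← ENNReal.ofReal_mul (by linarith), ← ofReal_norm, Real.norm_eq_abs]
      refine ENNReal.ofReal_le_ofReal ?_
      have hsq : 0 ≤ ‖q.2‖ ^ 2 := by positivity
      have habs := abs_nonneg (Real.log z)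
      rw [abs_of_nonneg (mul_nonneg h0 (by positivity))]
      have : z * (C + ‖q.2‖ ^ 2 / 2 + Real.log (1 + z)) ≤
          z * ((C + 2) * (1 + ‖q.2‖ ^ 2 + |Real.log z|)) := by
        refine mul_le_mul_of_nonneg_left ?_ h0
        nlinarith [mul_nonneg hC hsq, mul_nonneg hC habs]
      linarith
    refine lt_of_le_of_lt (lintegral_mono hle) ?_
    rw [lintegral_const_mul' _ _ ENNReal.ofReal_ne_top]
    exact ENNReal.mul_lt_top ENNReal.ofReal_lt_top hd

lemma integrable_entD_datum (S : MildSolOn F F₀ R TT) {δ : ℝ} (hδ : 0 ≤ δ) (hδ1 : δ ≤ 1) :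
    Integrable (fun q : R3 × R3 => Crest.Agent.R68.entD δ (F₀ q.1 q.2) (maxwellian q.2)) mu2 := by
  have hb := integrable_maxwellian_mu2.add
    (integrable_datum S (1 + Crest.Agent.R68.cM) (by linarith [Crest.Agent.R68.cM_nonneg]))
  refine hb.mono' (measurable_entD S.datum.1 δ).aestronglyMeasurable
    (Filter.Eventually.of_forall fun q => ?_)
  have h0 : ∀ v, 0 ≤ F₀ q.1 v := fun v => S.datum.2.1 q.1 v
  rw [Real.norm_eq_abs, abs_of_nonneg (Crest.Agent.R68.entD_nonneg hδ (h0 q.2)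
    (maxwellian_pos q.2))]
  have := Crest.Agent.R68.entD_bound' hδ hδ1 (f := F₀ q.1) h0 q.2
  simpa [add_assoc] using this

/-- **Entropy identity along characteristics.** -/
theorem entropy_char (S : MildSolOn F F₀ R TT) {δ : ℝ} (hδ : 0 < δ) (hδ1 : δ ≤ 1) {t : ℝ}
    (ht : 0 < t) (htT : t ≤ TT) :
    Integrable (fun q : R3 × R3 => Crest.Agent.R68.entD δ (F₀ q.1 q.2) (maxwellian q.2)) mu2 ∧
    Integrable (fun q : R3 × R3 => Crest.Agent.R68.entD δ (F t q.1 q.2) (maxwellian q.2)) mu2 ∧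
    Integrable (fun p : ℝ × (R3 × R3) => Qr F p.1 p.2 * logD F δ p.1 p.2) (mu3 t) ∧
    (∫ q, Crest.Agent.R68.entD δ (F t q.1 q.2) (maxwellian q.2) ∂mu2) -
      ∫ q, Crest.Agent.R68.entD δ (F₀ q.1 q.2) (maxwellian q.2) ∂mu2 =
      ∫ p, Qr F p.1 p.2 * logD F δ p.1 p.2 ∂(mu3 t) := by
  have hI0 := integrable_entD_datum S hδ.le hδ1
  have hP := integrable_Q_logD S hδ hδ1 t
  -- the integrand along characteristics
  have hPs : Integrable (fun p : ℝ × (R3 × R3) =>
      Qr F p.1 (shift p.1 p.2) * logD F δ p.1 (shift p.1 p.2)) (mu3 t) := by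
    refine ((mp_Fl t).integrable_comp_of_integrable hP).congr
      (Filter.Eventually.of_forall fun p => ?_)
    have h1 := fl_eq_shift (perX_Qr S p.1) p.1 p.2
    have h2 := fl_eq_shift (perX_logD S δ p.1) p.1 p.2
    simp only [Function.comp_apply, Fl, h1, h2]
  have hPe : ∫ p, Qr F p.1 (shift p.1 p.2) * logD F δ p.1 (shift p.1 p.2) ∂(mu3 t) =
      ∫ p, Qr F p.1 p.2 * logD F δ p.1 p.2 ∂(mu3 t) := by
    have h3 : ∀ p : ℝ × (R3 × R3),
        Qr F p.1 (shift p.1 p.2) * logD F δ p.1 (shift p.1 p.2) =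
        Qr F (Fl p).1 (Fl p).2 * logD F δ (Fl p).1 (Fl p).2 := by
      intro p
      have h1 := fl_eq_shift (perX_Qr S p.1) p.1 p.2
      have h2 := fl_eq_shift (perX_logD S δ p.1) p.1 p.2
      simp only [Fl, h1, h2]
    rw [integral_congr_ae (Filter.Eventually.of_forall h3)]
    conv_rhs => rw [← (mp_Fl t).map_eq]
    rw [integral_map (mp_Fl t).measurable.aemeasurable]
    rw [(mp_Fl t).map_eq]
    exact hP.aestronglyMeasurable
  -- swapped version
  have hsw : Integrable (fun p : (R3 × R3) × ℝ =>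
      Qr F p.2 (shift p.2 p.1) * logD F δ p.2 (shift p.2 p.1))
      (mu2.prod (volume.restrict (Ioo (0 : ℝ) t))) := hPs.swap
  -- pointwise chain rule
  have hpt : ∀ᵐ q ∂mu2, Crest.Agent.R68.entD δ (F t (shift t q).1 (shift t q).2)
        (maxwellian q.2) - Crest.Agent.R68.entD δ (F₀ q.1 q.2) (maxwellian q.2) =
      ∫ s in Ioo 0 t, Qr F s (shift s q) * logD F δ s (shift s q) := by
    have hmt : ∀ᵐ q ∂mu2, F t (shift t q).1 (shift t q).2 = yy F F₀ q t := by
      rw [← mu2_eq]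
      filter_upwards [ae_restrict_of_ae (S.mild t ht.le htT)] with q hq
      unfold yy
      rw [intervalIntegral.integral_of_le ht.le, integral_Ioc_eq_integral_Ioo] at hq
      exact hq
    filter_upwards [ae_integrableOn_Q S t, ae_ae_yy S t, ae_yy_nonneg S ht, hmt]
      with q h1 h2 h3 h4
    have hM := maxwellian_pos q.2
    have hc : -(δ * maxwellian q.2) < 0 := by
      have := mul_pos hδ hM
      linarith
    obtain ⟨-, hch⟩ := chain_rule ht.le h1 (F₀ q.1 q.2) (φ := phiD δ q.2)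
      (φ' := fun z => Real.log (z / maxwellian q.2 + δ)) (c := -(δ * maxwellian q.2))
      (fun z hz => hasDerivAt_phiD δ q.2 hz) (continuousOn_logD δ q.2)
      (fun s hs => lt_of_lt_of_le hc (h3 s hs))
    rw [h4, ← phiD_eq, ← phiD_eq]
    unfold yy
    rw [hch]
    refine setIntegral_congr_ae measurableSet_Ioo ?_
    have h2' : ∀ᵐ s : ℝ, s ∈ Ioo 0 t → F s (shift s q).1 (shift s q).2 = yy F F₀ q s :=
      (ae_restrict_iff' measurableSet_Ioo).1 h2
    filter_upwards [h2'] with s hs hst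
    have h5 := hs hst
    unfold yy at h5
    unfold logD
    rw [h5]
    have h6 : (shift s q).2 = q.2 := rfl
    rw [h6, mul_comm]
  have hint_s : Integrable (fun q => ∫ s in Ioo 0 t,
      Qr F s (shift s q) * logD F δ s (shift s q)) mu2 := hsw.integral_prod_left
  have hIt_shift : Integrable (fun q : R3 × R3 => Crest.Agent.R68.entD δ
      (F t (shift t q).1 (shift t q).2) (maxwellian q.2)) mu2 := by
    refine (hI0.add hint_s).congr ?_
    filter_upwards [hpt] with q hq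
    simp only [Pi.add_apply]
    linarith
  have hper : PerX (fun q : R3 × R3 => Crest.Agent.R68.entD δ (F t q.1 q.2) (maxwellian q.2)) := by
    intro v x i
    have h : F t (x + EuclideanSpace.single i 1) v = F t x v := S.per t v x i
    simp only [h]
  have hmeasFt : Measurable fun q : R3 × R3 => F t q.1 q.2 :=
    Crest.Agent.R68.MeasF.comp S.meas measurable_const measurable_fst measurable_snd
  have hmt := measurable_entD hmeasFt δ
  have hfl : ∀ q, Crest.Agent.R68.entD δ (F t (fl t q).1 (fl t q).2) (maxwellian (fl t q).2) =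
      Crest.Agent.R68.entD δ (F t (shift t q).1 (shift t q).2) (maxwellian q.2) :=
    fun q => fl_eq_shift hper t q
  have hIt : Integrable (fun q : R3 × R3 =>
      Crest.Agent.R68.entD δ (F t q.1 q.2) (maxwellian q.2)) mu2 := by
    rw [← (mp_fl t).integrable_comp hmt.aestronglyMeasurable]
    exact hIt_shift.congr (Filter.Eventually.of_forall fun q => (hfl q).symm)
  have hIte : ∫ q, Crest.Agent.R68.entD δ (F t q.1 q.2) (maxwellian q.2) ∂mu2 =
      ∫ q, Crest.Agent.R68.entD δ (F t (shift t q).1 (shift t q).2) (maxwellian q.2) ∂mu2 := by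
    rw [← integral_congr_ae (Filter.Eventually.of_forall hfl)]
    conv_lhs => rw [← (mp_fl t).map_eq]
    rw [integral_map (mp_fl t).measurable.aemeasurable]
    rw [(mp_fl t).map_eq]
    exact hmt.aestronglyMeasurable
  refine ⟨hI0, hIt, hP, ?_⟩
  rw [hIte, ← integral_sub hIt_shift hI0, integral_congr_ae hpt, ← hPe]
  rw [← integral_prod (μ := mu2) (ν := volume.restrict (Ioo (0 : ℝ) t))
    (fun p : (R3 × R3) × ℝ => Qr F p.2 (shift p.2 p.1) * logD F δ p.2 (shift p.2 p.1)) hsw]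
  unfold mu3
  rw [← integral_prod_swap]
  rfl

end Crest.Agent.R68EOn
end

-- ▼ part R68/EOnEnt
section

/-!
R68 / EOnEnt: local-in-time version of the entropy inequality (helper485; proof = helper211's EEnt6-9).
-/

set_option autoImplicit false
open MeasureTheory Filter Topology
open scoped ENNReal
open Crest.AnalysisR.VecCalc3 Crest.AnalysisR.PDE.Boltzmann

namespace Crest.Agent.R68

namespace MildSolOn

open MildSol (momB C_nonneg_of_bd abs_inv_bounds ofReal_int_entD)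

variable {F : ℝ → R3 → R3 → ℝ} {F0 : R3 → R3 → ℝ} {R TT : ℝ}

theorem meas_Phi (h : MildSolOn F F0 R TT) (d : ℝ) :
    Measurable (fun p : ℝ × R3 × R3 => Phi d (F p.1 p.2.1) p.2.2) := by
  unfold Phi
  have h1 : Measurable (fun p : ℝ × R3 × R3 => F p.1 p.2.1 p.2.2) := h.meas
  exact ((h1.div (by fun_prop)).add_const d).log

theorem meas_Pp (h : MildSolOn F F0 R TT) (d : ℝ) :
    Measurable (fun p : ℝ × R3 × R3 => Pp d (F p.1 p.2.1) p.2.2) :=
  (h.meas_Phi d).ennreal_ofReal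

theorem meas_Pm (h : MildSolOn F F0 R TT) (d : ℝ) :
    Measurable (fun p : ℝ × R3 × R3 => Pm d (F p.1 p.2.1) p.2.2) :=
  (h.meas_Phi d).neg.ennreal_ofReal

/-- `|Φ|` is integrable against the total collision rate -/
theorem Phi_gl_lt_top (h : MildSolOn F F0 R TT) (T : ℝ) {d : ℝ} (hd : 0 < d) (hd1 : d ≤ 1)
    (hTT : T ≤ TT := by assumption) :
    ∫⁻ p, ENNReal.ofReal |Phi d (F p.1 p.2.1) p.2.2| * gl F p.1 p.2 ∂nuA (Set.Ioc 0 T) < ⊤ := by
  set C : ℝ := |Real.log d| + cM + 1 with hC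
  have hC0 : 0 ≤ C := by have := cM_nonneg; have := abs_nonneg (Real.log d); positivity
  have hI := h.int T 2 hTT
  rw [nuA_eq, nuA_Ioo_Ioc] at hI
  have hb : ∫⁻ p, ENNReal.ofReal |Phi d (F p.1 p.2.1) p.2.2| * gl F p.1 p.2 ∂nuA (Set.Ioc 0 T) ≤
      ∫⁻ p, ENNReal.ofReal C * (ENNReal.ofReal ((1 + ‖p.2.2‖ ^ 2) ^ (((2 : ℕ) : ℝ) / 2 : ℝ) +
        Real.log (1 + F p.1 p.2.1 p.2.2)) *
        (collGain F p.1 p.2.1 p.2.2 + collLoss F p.1 p.2.1 p.2.2)) ∂nuA (Set.Ioc 0 T) := by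
    refine lintegral_mono_ae ?_
    filter_upwards [ae_nuA_mem (A := Set.Ioc 0 T) measurableSet_Ioc] with p hp
    have hn : ∀ v, 0 ≤ F p.1 p.2.1 v := fun v => h.nonneg _ _ _ hp.1.1.le
    have h1 := abs_Phi_le hd hd1 hn p.2.2
    have h2 : (1 + ‖p.2.2‖ ^ 2) ^ (((2 : ℕ) : ℝ) / 2 : ℝ) = 1 + ‖p.2.2‖ ^ 2 := by
      norm_num
    have hl : 0 ≤ Real.log (1 + F p.1 p.2.1 p.2.2) := Real.log_nonneg (by linarith [hn p.2.2])
    have h3 : |Phi d (F p.1 p.2.1) p.2.2| ≤ C * ((1 + ‖p.2.2‖ ^ 2) ^ (((2 : ℕ) : ℝ) / 2 : ℝ) +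
        Real.log (1 + F p.1 p.2.1 p.2.2)) := by
      rw [h2]
      have hc := cM_nonneg
      have ha := abs_nonneg (Real.log d)
      have hv := sq_nonneg ‖p.2.2‖
      rw [hC]
      nlinarith [mul_nonneg (add_nonneg ha hc) hv, mul_nonneg (add_nonneg ha hc) hl]
    rw [← mul_assoc, ← ENNReal.ofReal_mul hC0]
    exact mul_le_mul' (ENNReal.ofReal_le_ofReal h3) le_rfl
  refine lt_of_le_of_lt hb ?_
  rw [lintegral_const_mul' _ _ ENNReal.ofReal_ne_top]
  exact ENNReal.mul_lt_top ENNReal.ofReal_lt_top hI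

/-- the four ENNReal integrals -/
theorem X_lt_top (h : MildSolOn F F0 R TT) (T : ℝ) {d : ℝ} (hd : 0 < d) (hd1 : d ≤ 1)
    {A : ℝ × R3 × R3 → ℝ≥0∞} {B : ℝ × R3 × R3 → ℝ≥0∞}
    (hA : ∀ p, A p ≤ ENNReal.ofReal |Phi d (F p.1 p.2.1) p.2.2|) (hB : ∀ p, B p ≤ gl F p.1 p.2)
    (hTT : T ≤ TT := by assumption) :
    ∫⁻ p, A p * B p ∂nuA (Set.Ioc 0 T) < ⊤ :=
  lt_of_le_of_lt (lintegral_mono fun p => mul_le_mul' (hA p) (hB p)) (h.Phi_gl_lt_top T hd hd1)

/-- integrated entropy identity in `ℝ≥0∞` -/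
theorem integrated_ident (h : MildSolOn F F0 R TT) (T : ℝ) {d : ℝ} (hd : 0 < d) :
    (∫⁻ s in Set.Ioo 0 T, ∫⁻ x in cell, tri (kEN d (F s x))) +
      4 * ((∫⁻ p, Pp d (F p.1 p.2.1) p.2.2 * collGain F p.1 p.2.1 p.2.2 ∂nuA (Set.Ioc 0 T)) +
        ∫⁻ p, Pm d (F p.1 p.2.1) p.2.2 * collLoss F p.1 p.2.1 p.2.2 ∂nuA (Set.Ioc 0 T)) =
    (∫⁻ s in Set.Ioo 0 T, ∫⁻ x in cell, tri (kN d (F s x))) +
      4 * ((∫⁻ p, Pp d (F p.1 p.2.1) p.2.2 * collLoss F p.1 p.2.1 p.2.2 ∂nuA (Set.Ioc 0 T)) +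
        ∫⁻ p, Pm d (F p.1 p.2.1) p.2.2 * collGain F p.1 p.2.1 p.2.2 ∂nuA (Set.Ioc 0 T)) := by
  have hg := h.meas.collGain
  have hl := h.meas.collLoss
  have hp := h.meas_Pp d
  have hm := h.meas_Pm d
  have key : ∀ (G : ℝ × R3 × R3 → ℝ≥0∞), Measurable G →
      ∫⁻ p, G p ∂nuA (Set.Ioc 0 T) = ∫⁻ s in Set.Ioo 0 T, ∫⁻ x in cell, ∫⁻ v, G (s, x, v) := by
    intro G hG
    rw [← nuA_Ioo_Ioc, lintegral_nuA hG]
    refine lintegral_congr fun s => ?_
    exact lintegral_muC' (G := fun q => G (s, q)) (hG.comp (measurable_const.prodMk measurable_id))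
  have mK1 : Measurable (fun q : ℝ × R3 => tri (kEN d (F q.1 q.2))) :=
    measurable_tri (K := fun q : ℝ × R3 => kEN d (F q.1 q.2))
      (measurable_kEN_par (α := ℝ × R3) (g := fun q => F q.1 q.2) d h.meas.par)
  have mK2 : Measurable (fun q : ℝ × R3 => tri (kN d (F q.1 q.2))) :=
    measurable_tri (K := fun q : ℝ × R3 => kN d (F q.1 q.2))
      (measurable_kN_par (α := ℝ × R3) (g := fun q => F q.1 q.2) d h.meas.par)
  have mv : ∀ (G : ℝ × R3 × R3 → ℝ≥0∞), Measurable G →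
      Measurable (fun q : ℝ × R3 => ∫⁻ v, G (q.1, q.2, v)) := by
    intro G hG
    refine Measurable.lintegral_prod_right' (f := fun q : (ℝ × R3) × R3 => G (q.1.1, q.1.2, q.2)) ?_
    exact hG.comp (by fun_prop)
  rw [key (fun p => Pp d (F p.1 p.2.1) p.2.2 * collGain F p.1 p.2.1 p.2.2) (hp.mul hg),
    key (fun p => Pm d (F p.1 p.2.1) p.2.2 * collLoss F p.1 p.2.1 p.2.2) (hm.mul hl),
    key (fun p => Pp d (F p.1 p.2.1) p.2.2 * collLoss F p.1 p.2.1 p.2.2) (hp.mul hl),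
    key (fun p => Pm d (F p.1 p.2.1) p.2.2 * collGain F p.1 p.2.1 p.2.2) (hm.mul hg)]
  have a1 := mv (fun p => Pp d (F p.1 p.2.1) p.2.2 * collGain F p.1 p.2.1 p.2.2) (hp.mul hg)
  have a2 := mv (fun p => Pm d (F p.1 p.2.1) p.2.2 * collLoss F p.1 p.2.1 p.2.2) (hm.mul hl)
  have a3 := mv (fun p => Pp d (F p.1 p.2.1) p.2.2 * collLoss F p.1 p.2.1 p.2.2) (hp.mul hl)
  have a4 := mv (fun p => Pm d (F p.1 p.2.1) p.2.2 * collGain F p.1 p.2.1 p.2.2) (hm.mul hg)
  exact dbl_ident T mK1 mK2 a1 a2 a3 a4 fun s hs x =>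
    entropy_ident (F := F) (t := s) (x := x) (h.meas.slice2 s x)
      (fun v => h.nonneg s x v hs.1.le) hd

theorem charBal (h : MildSolOn F F0 R TT) {T : ℝ} (hT : 0 < T) {d : ℝ} (hd : 0 < d) (hd1 : d ≤ 1)
    (hTT : T ≤ TT := by assumption) :
    CharBal F F0 T d := by
  obtain ⟨h1, h2, _, h4⟩ := Crest.Agent.R68EOn.entropy_char h hd hd1 hT hTT
  rw [Crest.Agent.R68E.mu2_eq_muC] at h1 h2 h4
  refine ⟨h2, h1, ?_⟩
  rw [h4, ← Crest.Agent.R68E.mu3_eq, nuA_eq, nuA_Ioo_Ioc]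
  refine integral_congr_ae (Eventually.of_forall fun p => ?_)
  exact mul_comm _ _

/-- regularised entropy balance in `ℝ≥0∞`. -/
theorem balance (h : MildSolOn F F0 R TT) {T : ℝ} (hT : 0 < T) {d : ℝ} (hd : 0 < d) (hd1 : d ≤ 1)
    (hTT : T ≤ TT := by assumption) :
    HH d (F T) + 4⁻¹ * (∫⁻ s in Set.Ioo 0 T, ∫⁻ x in cell, tri (kEN d (F s x))) =
      4⁻¹ * (∫⁻ s in Set.Ioo 0 T, ∫⁻ x in cell, tri (kN d (F s x))) + HH d F0 := by
  obtain ⟨hiT, hi0, hbal⟩ := h.charBal hT hd hd1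
  have hident := h.integrated_ident T hd
  have hg := h.meas.collGain
  have hl := h.meas.collLoss
  have hp := h.meas_Pp d
  have hm := h.meas_Pm d
  have hPp : ∀ p : ℝ × R3 × R3, Pp d (F p.1 p.2.1) p.2.2 ≤
      ENNReal.ofReal |Phi d (F p.1 p.2.1) p.2.2| := fun p =>
    ENNReal.ofReal_le_ofReal (le_abs_self _)
  have hPm : ∀ p : ℝ × R3 × R3, Pm d (F p.1 p.2.1) p.2.2 ≤
      ENNReal.ofReal |Phi d (F p.1 p.2.1) p.2.2| := fun p =>
    ENNReal.ofReal_le_ofReal (neg_le_abs _)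
  have hG : ∀ p : ℝ × R3 × R3, collGain F p.1 p.2.1 p.2.2 ≤ gl F p.1 p.2 := fun p => le_self_add
  have hL : ∀ p : ℝ × R3 × R3, collLoss F p.1 p.2.1 p.2.2 ≤ gl F p.1 p.2 := fun p => le_add_self
  have f1 := h.X_lt_top T hd hd1 hPp hG
  have f2 := h.X_lt_top T hd hd1 hPm hL
  have f3 := h.X_lt_top T hd hd1 hPp hL
  have f4 := h.X_lt_top T hd hd1 hPm hG
  set X1 := ∫⁻ p, Pp d (F p.1 p.2.1) p.2.2 * collGain F p.1 p.2.1 p.2.2 ∂nuA (Set.Ioc 0 T)
  set X2 := ∫⁻ p, Pm d (F p.1 p.2.1) p.2.2 * collLoss F p.1 p.2.1 p.2.2 ∂nuA (Set.Ioc 0 T)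
  set X3 := ∫⁻ p, Pp d (F p.1 p.2.1) p.2.2 * collLoss F p.1 p.2.1 p.2.2 ∂nuA (Set.Ioc 0 T)
  set X4 := ∫⁻ p, Pm d (F p.1 p.2.1) p.2.2 * collGain F p.1 p.2.1 p.2.2 ∂nuA (Set.Ioc 0 T)
  set TK := ∫⁻ s in Set.Ioo 0 T, ∫⁻ x in cell, tri (kEN d (F s x))
  set NN := ∫⁻ s in Set.Ioo 0 T, ∫⁻ x in cell, tri (kN d (F s x))
  -- the real integral
  have hglfin : ∀ᵐ p ∂nuA (Set.Ioc 0 T), gl F p.1 p.2 < ⊤ := by
    have h0 := h.gl_lt_top T 0
    refine ae_lt_top h.meas_gl ?_
    refine ne_of_lt (lt_of_le_of_lt ?_ h0)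
    refine lintegral_mono fun p => ?_
    rw [wt_zero, ENNReal.ofReal_one, one_mul]
  have hreal : ∫ p, Phi d (F p.1 p.2.1) p.2.2 * Qr F p.1 p.2 ∂nuA (Set.Ioc 0 T) =
      X1.toReal + X2.toReal - X3.toReal - X4.toReal := by
    have q1 := integrable_toReal_of_lintegral_ne_top (hp.mul hg).aemeasurable f1.ne
    have q2 := integrable_toReal_of_lintegral_ne_top (hm.mul hl).aemeasurable f2.ne
    have q3 := integrable_toReal_of_lintegral_ne_top (hp.mul hl).aemeasurable f3.ne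
    have q4 := integrable_toReal_of_lintegral_ne_top (hm.mul hg).aemeasurable f4.ne
    have i1 := integral_toReal (hp.mul hg).aemeasurable (ae_lt_top (hp.mul hg) f1.ne)
    have i2 := integral_toReal (hm.mul hl).aemeasurable (ae_lt_top (hm.mul hl) f2.ne)
    have i3 := integral_toReal (hp.mul hl).aemeasurable (ae_lt_top (hp.mul hl) f3.ne)
    have i4 := integral_toReal (hm.mul hg).aemeasurable (ae_lt_top (hm.mul hg) f4.ne)
    simp only [Pi.mul_apply] at q1 q2 q3 q4 i1 i2 i3 i4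
    rw [← i1, ← i2, ← i3, ← i4, ← int4 q1 q2 q3 q4]
    refine integral_congr_ae ?_
    refine Eventually.of_forall fun p => ?_
    simp only [ENNReal.toReal_mul, Qr, Pp, Pm, ENNReal.toReal_ofReal']
    have e : Phi d (F p.1 p.2.1) p.2.2 =
        max (Phi d (F p.1 p.2.1) p.2.2) 0 - max (-Phi d (F p.1 p.2.1) p.2.2) 0 := by
      rcases le_total (Phi d (F p.1 p.2.1) p.2.2) 0 with hh | hh
      · rw [max_eq_right hh, max_eq_left (by linarith)]; ring
      · rw [max_eq_left hh, max_eq_right (by linarith)]; ring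
    conv_lhs => rw [e]
    ring
  rw [hreal] at hbal
  have hnT : ∀ x v, 0 ≤ F T x v := fun x v => h.nonneg T x v hT.le
  have eT := ofReal_int_entD hd.le hnT hiT
  have e0 := ofReal_int_entD hd.le (fun x v => h.F0_nonneg x v) hi0
  have pT : 0 ≤ ∫ q, entD d (F T q.1 q.2) (maxwellian q.2) ∂muC :=
    integral_nonneg fun q => entD_nonneg hd.le (hnT _ _) (maxwellian_pos _)
  have p0 : 0 ≤ ∫ q, entD d (F0 q.1 q.2) (maxwellian q.2) ∂muC :=
    integral_nonneg fun q => entD_nonneg hd.le (h.F0_nonneg _ _) (maxwellian_pos _)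
  have hE : HH d (F T) + (X3 + X4) = HH d F0 + (X1 + X2) := by
    rw [← eT, ← e0, ← ENNReal.ofReal_toReal f1.ne, ← ENNReal.ofReal_toReal f2.ne,
      ← ENNReal.ofReal_toReal f3.ne, ← ENNReal.ofReal_toReal f4.ne,
      ← ENNReal.ofReal_add ENNReal.toReal_nonneg ENNReal.toReal_nonneg,
      ← ENNReal.ofReal_add ENNReal.toReal_nonneg ENNReal.toReal_nonneg,
      ← ENNReal.ofReal_add pT (add_nonneg ENNReal.toReal_nonneg ENNReal.toReal_nonneg),
      ← ENNReal.ofReal_add p0 (add_nonneg ENNReal.toReal_nonneg ENNReal.toReal_nonneg)]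
    congr 1
    linarith
  have hfin : 4 * (X1 + X2) + 4 * (X3 + X4) ≠ ⊤ := by
    refine ENNReal.add_ne_top.2 ⟨?_, ?_⟩
    · exact ENNReal.mul_ne_top (by norm_num) (ENNReal.add_ne_top.2 ⟨f1.ne, f2.ne⟩)
    · exact ENNReal.mul_ne_top (by norm_num) (ENNReal.add_ne_top.2 ⟨f3.ne, f4.ne⟩)
  have hsum : (TK + 4 * HH d (F T)) + (4 * (X1 + X2) + 4 * (X3 + X4)) =
      (NN + 4 * HH d F0) + (4 * (X1 + X2) + 4 * (X3 + X4)) := by
    calc (TK + 4 * HH d (F T)) + (4 * (X1 + X2) + 4 * (X3 + X4))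
        = (TK + 4 * (X1 + X2)) + 4 * (HH d (F T) + (X3 + X4)) := by ring
      _ = (NN + 4 * (X3 + X4)) + 4 * (HH d F0 + (X1 + X2)) := by rw [hident, hE]
      _ = _ := by ring
  have hcancel : TK + 4 * HH d (F T) = NN + 4 * HH d F0 := (ENNReal.add_left_inj hfin).1 hsum
  have h44 : (4⁻¹ : ℝ≥0∞) * 4 = 1 := ENNReal.inv_mul_cancel (by norm_num) (by norm_num)
  have := congrArg (fun z => 4⁻¹ * z) hcancel
  simp only [mul_add, ← mul_assoc, h44, one_mul] at this
  rw [add_comm (HH d (F T))]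
  exact this

/-- dominated convergence for the datum -/
theorem HH_datum_tendsto (h : MildSolOn F F0 R TT) :
    Tendsto (fun n => HH (dn n) F0) atTop (𝓝 (relEntropy F0)) := by
  rw [relEntropy_eq]
  unfold HH
  have hb := Crest.Agent.R68E.integrable_maxwellian_mu2.add
    (Crest.Agent.R68EOn.integrable_datum h (1 + cM) (by linarith [cM_nonneg]))
  rw [Crest.Agent.R68E.mu2_eq_muC] at hb
  refine tendsto_lintegral_of_dominated_convergence _
    (fun n => (measurable_entD' h.datum.1).ennreal_ofReal) ?_ hb.lintegral_lt_top.ne ?_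
  · intro n
    refine Eventually.of_forall fun q => ENNReal.ofReal_le_ofReal ?_
    have h0 : ∀ v, 0 ≤ F0 q.1 v := fun v => h.datum.2.1 q.1 v
    have := entD_bound' (dn_pos n).le (dn_le_one n) (f := F0 q.1) h0 q.2
    simpa [add_assoc] using this
  · refine Eventually.of_forall fun q => ?_
    exact (ENNReal.continuous_ofReal.tendsto _).comp
      (tendsto_entD dn_tendsto (F0 q.1 q.2) (maxwellian q.2))

/-- the space-time first moment is finite -/
theorem mom1_time (h : MildSolOn F F0 R TT) (T : ℝ) (hTT : T ≤ TT := by assumption) :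
    ∫⁻ s in Set.Ioo 0 T, ∫⁻ x in cell, mom1 (F s x) < ⊤ := by
  have h1 := h.moment_time T 1
  have hm : Measurable (fun p : ℝ × R3 × R3 =>
      ENNReal.ofReal (wt 1 p.2.2) * ENNReal.ofReal (F p.1 p.2.1 p.2.2)) :=
    (by fun_prop : Measurable fun p : ℝ × R3 × R3 => ENNReal.ofReal (wt 1 p.2.2)).mul
      (Measurable.ennreal_ofReal h.meas)
  rw [nuA_iter hm] at h1
  have h3 : ∫⁻ s in Set.Ioo 0 T, ∫⁻ x in cell, mom1 (F s x) ≤
      ∫⁻ s in Set.Ioo 0 T, 2 * ∫⁻ x in cell, ∫⁻ v, ENNReal.ofReal (wt 1 v) *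
        ENNReal.ofReal (F s x v) := by
    refine setLIntegral_mono' measurableSet_Ioo fun s hs => ?_
    rw [← lintegral_const_mul' _ _ (by norm_num)]
    refine lintegral_mono fun x => ?_
    rw [← lintegral_const_mul' _ _ (by norm_num)]
    unfold mom1
    refine lintegral_mono fun v => ?_
    have hF := h.nonneg s x v hs.1.le
    have hw := one_le_wt 1 v
    have hn := norm_le_wt_one v
    have e3 : ENNReal.ofReal (2 * (wt 1 v * F s x v)) =
        2 * (ENNReal.ofReal (wt 1 v) * ENNReal.ofReal (F s x v)) := by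
      rw [ENNReal.ofReal_mul (by norm_num), ENNReal.ofReal_mul (by linarith)]
      congr 1
      norm_num
    rw [← e3]
    refine ENNReal.ofReal_le_ofReal ?_
    nlinarith
  refine lt_of_le_of_lt h3 ?_
  rw [lintegral_const_mul' _ _ (by norm_num)]
  exact ENNReal.mul_lt_top (by norm_num) h1

/-- bound of the error term -/
theorem error_le (h : MildSolOn F F0 R TT) (T : ℝ) {d : ℝ} (hd : 0 ≤ d) (hd1 : d ≤ 1) :
    ∫⁻ s in Set.Ioo 0 T, ∫⁻ x in cell, tri (kN d (F s x)) ≤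
      ENNReal.ofReal d * (4 * (sM * m1M) * (∫⁻ s in Set.Ioo 0 T, ∫⁻ x in cell, mom1 (F s x)) +
        ∫⁻ _ in Set.Ioo 0 T, ∫⁻ _ in cell, 2 * (sM * (m1M * m1M))) := by
  have hmom : Measurable (fun q : ℝ × R3 => mom1 (F q.1 q.2)) := by
    unfold mom1
    refine Measurable.lintegral_prod_right' (f := fun q : (ℝ × R3) × R3 =>
      ENNReal.ofReal ((1 + ‖q.2‖) * F q.1.1 q.1.2 q.2)) ?_
    exact ((by fun_prop : Measurable fun q : (ℝ × R3) × R3 => 1 + ‖q.2‖).mul
      h.meas.par).ennreal_ofReal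
  have hmomx : ∀ s, Measurable (fun x : R3 => mom1 (F s x)) := fun s =>
    hmom.comp (measurable_const.prodMk measurable_id)
  have hmoms : Measurable (fun s : ℝ => ∫⁻ x in cell, mom1 (F s x)) :=
    Measurable.lintegral_prod_right' (f := fun q : ℝ × R3 => mom1 (F q.1 q.2)) hmom
  have hc : (sM * m1M) ≠ ⊤ := ENNReal.mul_ne_top sM_lt_top.ne m1M_lt_top.ne
  calc ∫⁻ s in Set.Ioo 0 T, ∫⁻ x in cell, tri (kN d (F s x))
      ≤ ∫⁻ s in Set.Ioo 0 T, ∫⁻ x in cell, ENNReal.ofReal d *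
          (4 * (sM * m1M) * mom1 (F s x) + 2 * (sM * (m1M * m1M))) := by
        refine setLIntegral_mono' measurableSet_Ioo fun s hs => lintegral_mono fun x => ?_
        refine (tri_kN_le hd hd1 (h.meas.slice2 s x) (fun v => h.nonneg s x v hs.1.le)).trans ?_
        apply le_of_eq
        ring
    _ = _ := by
        have e1 : ∀ s, ∫⁻ x in cell, ENNReal.ofReal d *
            (4 * (sM * m1M) * mom1 (F s x) + 2 * (sM * (m1M * m1M))) =
            ENNReal.ofReal d * (4 * (sM * m1M) * (∫⁻ x in cell, mom1 (F s x)) +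
              ∫⁻ _ in cell, 2 * (sM * (m1M * m1M))) := by
          intro s
          rw [lintegral_const_mul' _ _ ENNReal.ofReal_ne_top,
            lintegral_add_left ((hmomx s).const_mul _), lintegral_const_mul _ (hmomx s)]
        simp_rw [e1]
        rw [lintegral_const_mul' _ _ ENNReal.ofReal_ne_top,
          lintegral_add_left (hmoms.const_mul _), lintegral_const_mul _ hmoms]

/-- the error term tends to zero -/
theorem error_tendsto (h : MildSolOn F F0 R TT) (T : ℝ) (hTT : T ≤ TT := by assumption) :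
    Tendsto (fun n => 4⁻¹ * ∫⁻ s in Set.Ioo 0 T, ∫⁻ x in cell, tri (kN (dn n) (F s x)))
      atTop (𝓝 0) := by
  set C : ℝ≥0∞ := 4 * (sM * m1M) * (∫⁻ s in Set.Ioo 0 T, ∫⁻ x in cell, mom1 (F s x)) +
        ∫⁻ _ in Set.Ioo 0 T, ∫⁻ _ in cell, 2 * (sM * (m1M * m1M)) with hC
  have hCfin : C ≠ ⊤ := by
    rw [hC]
    refine ENNReal.add_ne_top.2 ⟨?_, ?_⟩
    · refine ENNReal.mul_ne_top (ENNReal.mul_ne_top (by norm_num)
        (ENNReal.mul_ne_top sM_lt_top.ne m1M_lt_top.ne)) (h.mom1_time T).ne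
    · rw [lintegral_const, lintegral_const]
      refine ENNReal.mul_ne_top (ENNReal.mul_ne_top (ENNReal.mul_ne_top (by norm_num)
        (ENNReal.mul_ne_top sM_lt_top.ne (ENNReal.mul_ne_top m1M_lt_top.ne m1M_lt_top.ne))) ?_) ?_
      · have := Crest.Agent.R68E.finite_cell
        exact measure_ne_top _ _
      · simp
  have hlim : Tendsto (fun n => 4⁻¹ * (ENNReal.ofReal (dn n) * C)) atTop (𝓝 0) := by
    have h1 : Tendsto (fun n => ENNReal.ofReal (dn n)) atTop (𝓝 0) := by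
      have := (ENNReal.continuous_ofReal.tendsto 0).comp dn_tendsto
      rw [ENNReal.ofReal_zero] at this
      exact this
    have h2 := ENNReal.Tendsto.mul_const h1 (Or.inr hCfin)
    have h3 := ENNReal.Tendsto.const_mul (a := (4⁻¹ : ℝ≥0∞)) h2 (Or.inr (by simp))
    simpa using h3
  refine tendsto_of_tendsto_of_tendsto_of_le_of_le tendsto_const_nhds hlim
    (fun _ => zero_le) (fun n => ?_)
  exact mul_le_mul' le_rfl (h.error_le T (dn_pos n).le (dn_le_one n))

/-- **The entropy inequality with dissipation** for mild solutions. -/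
theorem entropy_ineq (h : MildSolOn F F0 R TT) {T : ℝ} (hT : 0 ≤ T) (hTT : T ≤ TT) :
    relEntropy (F T) + (∫⁻ s in Set.Icc 0 T, dissipation (F s)) ≤ relEntropy F0 := by
  rcases hT.eq_or_lt with rfl | hT
  · have e : relEntropy (F 0) = relEntropy F0 := by
      unfold relEntropy
      simp_rw [h.init]
    rw [e]
    simp
  · have h1 := relEntropy_le_liminf (h.measurable_F T)
    have h2 := dissipation_liminf h.meas h.nonneg dn_pos dn_tendsto T
    refine (add_le_add h1 h2).trans ((liminf_add_ge _ _).trans ?_)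
    have h3 : ∀ n, HH (dn n) (F T) + 4⁻¹ * (∫⁻ s in Set.Ioo 0 T, ∫⁻ x in cell,
        tri (kEN (dn n) (F s x))) = 4⁻¹ * (∫⁻ s in Set.Ioo 0 T, ∫⁻ x in cell,
        tri (kN (dn n) (F s x))) + HH (dn n) F0 := fun n =>
      h.balance hT (dn_pos n) (dn_le_one n)
    simp_rw [h3]
    have h4 := (h.error_tendsto T).add h.HH_datum_tendsto
    rw [zero_add] at h4
    exact h4.liminf_eq.le



end MildSolOn

end Crest.Agent.R68
end

-- ▼ part R68/EOnL1
section

/-!
R68 / EOnL1: L¹ distance to the Maxwellian for local mild solutions (helper485).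
-/

set_option autoImplicit false
open MeasureTheory Filter Topology
open scoped ENNReal
open Crest.AnalysisR.VecCalc3 Crest.AnalysisR.PDE.Boltzmann

namespace Crest.Agent.R68

theorem volume_cell_eq_one : (volume : Measure R3) cell = 1 := by
  have h := EuclideanSpace.volume_preserving_symm_measurableEquiv_toLp (Fin 3)
  have hpre : cell = (MeasurableEquiv.toLp 2 (Fin 3 → ℝ)).symm ⁻¹'
      (Set.pi Set.univ fun _ : Fin 3 => Set.Ico (0 : ℝ) 1) := by
    ext x
    simp [cell]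
  rw [hpre, h.measure_preimage
    (MeasurableSet.univ_pi fun _ => measurableSet_Ico).nullMeasurableSet, volume_pi_Ico_one]
where
  volume_pi_Ico_one : (volume : Measure (Fin 3 → ℝ))
      (Set.pi Set.univ fun _ : Fin 3 => Set.Ico (0 : ℝ) 1) = 1 := by
    rw [Real.volume_pi_Ico]
    simp

theorem lintegral_maxwellian_muC :
    ∫⁻ q, ENNReal.ofReal (maxwellian q.2) ∂muC = 1 := by
  have hm : Measurable (fun q : R3 × R3 => ENNReal.ofReal (maxwellian q.2)) :=
    (W.measurable_maxwellian.comp measurable_snd).ennreal_ofReal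
  rw [lintegral_muC' hm]
  simp only [W.lintegral_maxwellian]
  rw [setLIntegral_const, one_mul, volume_cell_eq_one]

namespace MildSolOn

variable {F : ℝ → R3 → R3 → ℝ} {F0 : R3 → R3 → ℝ} {R TT : ℝ}

/-- conservation of mass -/
theorem mass_eq (h : MildSolOn F F0 R TT) {t : ℝ} (ht : 0 ≤ t) (htT : t ≤ TT) :
    ∫⁻ q, ENNReal.ofReal (F t q.1 q.2) ∂muC = ∫⁻ q, ENNReal.ofReal (F0 q.1 q.2) ∂muC := by
  obtain ⟨hm, hb, hinv⟩ := MildSol.abs_inv_bounds (ψ := fun _ => 1) (Or.inl rfl)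
  obtain ⟨hi, he⟩ := h.total_conserved ht htT hm hb hinv
  have hi0 : Integrable (fun q : R3 × R3 => (1 : ℝ) * F0 q.1 q.2) muC := by
    have := h.integrable_F0 (g := fun _ => (1 : ℝ)) measurable_const (C := 1) (k := 2)
      (Filter.Eventually.of_forall fun q => by rw [one_mul]; exact hb q.2)
    refine this.congr (Filter.Eventually.of_forall fun q => ?_)
    simp only [mul_comm]
  simp only [one_mul] at hi he hi0
  rw [← ofReal_integral_eq_lintegral_ofReal hi, ← ofReal_integral_eq_lintegral_ofReal hi0, he]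
  · exact Filter.Eventually.of_forall fun q => h.F0_nonneg _ _
  · exact Filter.Eventually.of_forall fun q => h.nonneg _ _ _ ht

/-- relative entropy does not increase -/
theorem relEntropy_le (h : MildSolOn F F0 R TT) {t : ℝ} (ht : 0 ≤ t) (htT : t ≤ TT) :
    relEntropy (F t) ≤ relEntropy F0 :=
  le_trans le_self_add (h.entropy_ineq ht htT)

/-- **L¹ distance to the Maxwellian** for all times up to TT -/
theorem l1_le (h : MildSolOn F F0 R TT) {t : ℝ} (ht : 0 ≤ t) (htT : t ≤ TT) {ε A : ℝ}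
    (hε : 0 < ε) (hA : 1 ≤ A) (hH : relEntropy F0 ≤ ENNReal.ofReal (ε ^ 2))
    (hm : ∫⁻ q, ENNReal.ofReal (F0 q.1 q.2) ∂muC ≤ ENNReal.ofReal A) :
    ∫⁻ q, ‖F t q.1 q.2 - maxwellian q.2‖ₑ ∂muC ≤ ENNReal.ofReal ((1 + A) * ε) := by
  refine W.l1_le_of_relEntropy_le (h.measurable_F t) (fun x v => h.nonneg t x v ht) hε
    (by linarith) ((h.relEntropy_le ht htT).trans hH) ?_ ?_
  · change ∫⁻ q, ENNReal.ofReal (F t q.1 q.2) ∂muC ≤ _
    rw [h.mass_eq ht htT]
    exact hm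
  · change ∫⁻ q, ENNReal.ofReal (maxwellian q.2) ∂muC ≤ _
    rw [lintegral_maxwellian_muC, ← ENNReal.ofReal_one]
    exact ENNReal.ofReal_le_ofReal hA

end MildSolOn

end Crest.Agent.R68
end

-- ▼ part R68/ZOn

/-!
R68 / ZOn: local-in-time mild solutions in the rotated planar frame (helper485; port of
helper858's ZRot3/ZMain), entropy and L¹ bounds for `t ≤ TT`.
-/

set_option autoImplicit false
open MeasureTheory Set
open scoped ENNReal
open Crest.AnalysisR.VecCalc3 Crest.AnalysisR.PDE.Boltzmann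

noncomputable section

namespace Crest.Agent.R68

/-- mild solution on `[0,TT]` in the planar frame with the integrability of Part E -/
structure MildGOn (G : ℝ → P2 → R3 → ℝ) (G0 : P2 → R3 → ℝ) (R TT : ℝ) : Prop where
  datum : DatumG G0 R
  meas : Measurable (fun p : ℝ × P2 × R3 => G p.1 p.2.1 p.2.2)
  nonneg : ∀ t x v, 0 ≤ t → 0 ≤ G t x v
  per : ∀ t v, PerG (fun x => G t x v)
  init : ∀ x v, G 0 x v = G0 x v
  mild : ∀ t, 0 ≤ t → t ≤ TT → ∀ᵐ q : P2 × R3,
    G t (q.1 + t • bar q.2) q.2 = G0 q.1 q.2 +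
      ∫ s in (0)..t, ((gainG G s (q.1 + s • bar q.2) q.2).toReal -
        (lossG G s (q.1 + s • bar q.2) q.2).toReal)
  int : ∀ (k : ℕ), (∫⁻ p in Ioo 0 TT ×ˢ (cellG ×ˢ (Set.univ : Set R3)),
      ENNReal.ofReal ((1 + ‖p.2.2‖ ^ 2) ^ (k / 2 : ℝ) + Real.log (1 + G p.1 p.2.1 p.2.2)) *
        (gainG G p.1 p.2.1 p.2.2 + lossG G p.1 p.2.1 p.2.2)) < ⊤

theorem mildG_of_on {G : ℝ → P2 → R3 → ℝ} {G0 : P2 → R3 → ℝ} {R : ℝ}
    (h : ∀ TT, MildGOn G G0 R TT) : MildG G G0 R :=
  ⟨(h 0).datum, (h 0).meas, (h 0).nonneg, (h 0).per, (h 0).init,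
    fun t ht => (h t).mild t ht le_rfl, fun T k => (h T).int k⟩

open Crest.Agent.R68E (gain loss) in
theorem mildSolOn_of_mildGOn {G : ℝ → P2 → R3 → ℝ} {G0 : P2 → R3 → ℝ} {R TT : ℝ}
    (h : MildGOn G G0 R TT) :
    MildSolOn (pull G) (fun x v => G0 (prx x) (rotv v)) R TT := by
  rw [pull_eq]
  have h2 : (fun x v => G0 (prx x) (rotv v)) = Z.toF0 G0 := by
    funext x v
    unfold Z.toF0
    rw [prx_eq, rotv_eq]
  rw [h2]
  have hmeasF : Measurable fun p : ℝ × (R3 × R3) => (p.1, (Z.posZ p.2.1, Z.Rot p.2.2)) :=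
    measurable_fst.prodMk ((Z.measurable_posZ.comp (measurable_fst.comp measurable_snd)).prodMk
      (Z.mp_Rot.measurable.comp (measurable_snd.comp measurable_snd)))
  refine MildSolOn.mk' ?_ (h.meas.comp hmeasF) (fun t x v ht => h.nonneg t _ _ ht)
    (fun t v => Z.per_toF (g := G t) (h.per t) v) (fun x v => h.init _ _) ?_ ?_
  · refine ⟨?_, ?_, ?_, ?_, ?_⟩
    · exact h.datum.meas.comp ((Z.measurable_posZ.comp measurable_fst).prodMk
        (Z.mp_Rot.measurable.comp measurable_snd))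
    · intro x v
      exact h.datum.nonneg _ _
    · exact Z.per_toF (g := G0) h.datum.per
    · intro x v hv
      exact h.datum.supp _ _ (by rw [Z.norm_Rot]; exact hv)
    · have hm : Measurable fun q : P2 × R3 =>
          ENNReal.ofReal (G0 q.1 q.2 * (1 + ‖q.2‖ ^ 2 + |Real.log (G0 q.1 q.2)|)) := by
        refine Measurable.ennreal_ofReal (h.datum.meas.mul ?_)
        exact (measurable_const.add (by fun_prop)).add
          (continuous_abs.measurable.comp (Real.measurable_log.comp h.datum.meas))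
      have h' := h.datum.fin
      rw [← Z.mp_phZ.lintegral_comp hm] at h'
      refine lt_of_le_of_lt (le_of_eq ?_) h'
      refine lintegral_congr fun q => ?_
      simp only [Z.toF0, Z.phZ, Z.norm_Rot]
  · intro t ht htT
    have hq0 := Z.qmp_phZ.ae (h.mild t ht htT)
    filter_upwards [hq0] with q hq
    have e1 : Z.toF G t (q.1 + t • q.2) q.2 =
        G t ((Z.phZ q).1 + t • bar (Z.phZ q).2) (Z.phZ q).2 := by
      unfold Z.toF Z.phZ
      rw [Z.posZ_add_smul]
    rw [e1, hq]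
    congr 1
    refine intervalIntegral.integral_congr fun s hs => ?_
    rw [uIcc_of_le ht] at hs
    have h0 : ∀ v, 0 ≤ G s ((Z.phZ q).1 + s • bar (Z.phZ q).2) v := fun v => h.nonneg s _ v hs.1
    simp only [Qr, shift]
    rw [Z.gain_toF, Z.loss_toF, Z.posZ_add_smul, gainG_eq h0, lossG_eq h0]
    rfl
  · intro k
    have hm : Measurable fun p : ℝ × (P2 × R3) =>
        ENNReal.ofReal ((1 + ‖p.2.2‖ ^ 2) ^ (k / 2 : ℝ) + Real.log (1 + G p.1 p.2.1 p.2.2)) *
        (gain (G p.1 p.2.1) p.2.2 + loss (G p.1 p.2.1) p.2.2) := by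
      have h0 : Measurable fun z : (ℝ × P2) × R3 => (z.1.1, (z.1.2, z.2)) := by fun_prop
      have hg : Measurable (Function.uncurry fun (y : ℝ × P2) (v : R3) => G y.1 y.2 v) := by
        have h00 := h.meas.comp h0
        exact h00
      have h1 := (R68E.measurable_gain hg).add (R68E.measurable_loss hg)
      have h3 : Measurable fun p : ℝ × (P2 × R3) => ((p.1, p.2.1), p.2.2) := by fun_prop
      have h4 := h1.comp h3
      refine Measurable.mul (Measurable.ennreal_ofReal (Measurable.add ?_ ?_)) h4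
      · fun_prop
      · exact Real.measurable_log.comp (measurable_const.add h.meas)
    have h5 := (Z.mp_stZ (Ioo 0 TT)).lintegral_comp hm
    refine lt_of_le_of_lt (le_of_eq ?_) (h.int k)
    have h6 : ∫⁻ p in Ioo 0 TT ×ˢ (cellG ×ˢ (univ : Set R3)),
        ENNReal.ofReal ((1 + ‖p.2.2‖ ^ 2) ^ (k / 2 : ℝ) + Real.log (1 + G p.1 p.2.1 p.2.2)) *
        (gain (G p.1 p.2.1) p.2.2 + loss (G p.1 p.2.1) p.2.2) =
        ∫⁻ p in Ioo 0 TT ×ˢ (cellG ×ˢ (univ : Set R3)),
        ENNReal.ofReal ((1 + ‖p.2.2‖ ^ 2) ^ (k / 2 : ℝ) + Real.log (1 + G p.1 p.2.1 p.2.2)) *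
        (gainG G p.1 p.2.1 p.2.2 + lossG G p.1 p.2.1 p.2.2) := by
      refine setLIntegral_congr_fun
        (measurableSet_Ioo.prod (Z.measurableSet_cellG.prod MeasurableSet.univ)) ?_
      intro p hp
      have h0 : ∀ v, 0 ≤ G p.1 p.2.1 v := fun v => h.nonneg p.1 _ v hp.1.1.le
      simp only [gainG_eq h0, lossG_eq h0]
    rw [← h6]
    refine Eq.trans ?_ h5
    refine lintegral_congr fun p => ?_
    simp only [Z.gain_toF, Z.loss_toF, Z.toF, Z.stZ, Z.phZ, Z.norm_Rot]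

/-- transfer of phase integrals between the two frames -/
theorem lintegral_pull {H : P2 × R3 → ℝ≥0∞} (hH : Measurable H) :
    ∫⁻ q in cell ×ˢ (univ : Set R3), H (prx q.1, rotv q.2) ∂(volume : Measure (R3 × R3)) =
      ∫⁻ q in cellG ×ˢ (univ : Set R3), H q ∂(volume : Measure (P2 × R3)) := by
  rw [← Z.mp_phZ.lintegral_comp hH]
  refine lintegral_congr fun q => ?_
  unfold Z.phZ
  rw [prx_eq, rotv_eq]

theorem norm_rotv (v : R3) : ‖rotv v‖ = ‖v‖ := by rw [rotv_eq, Z.norm_Rot]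

theorem maxwellian_rotv (v : R3) : maxwellian (rotv v) = maxwellian v := by
  unfold maxwellian; rw [norm_rotv]

/-- relative entropy in the planar frame -/
def relEntG (g : P2 → R3 → ℝ) : ℝ≥0∞ :=
  ∫⁻ q in cellG ×ˢ (univ : Set R3), ENNReal.ofReal (g q.1 q.2 *
    Real.log (g q.1 q.2 / maxwellian q.2) - g q.1 q.2 + maxwellian q.2)
    ∂(volume : Measure (P2 × R3))

theorem relEntropy_pull {g : P2 → R3 → ℝ} (hg : Measurable fun q : P2 × R3 => g q.1 q.2) :
    relEntropy (fun x v => g (prx x) (rotv v)) = relEntG g := by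
  unfold relEntropy relEntG
  have hM : Measurable fun q : P2 × R3 => maxwellian q.2 :=
    W.measurable_maxwellian.comp measurable_snd
  have hm : Measurable fun q : P2 × R3 => ENNReal.ofReal (g q.1 q.2 *
      Real.log (g q.1 q.2 / maxwellian q.2) - g q.1 q.2 + maxwellian q.2) :=
    (((hg.mul (Real.measurable_log.comp (hg.div hM))).sub hg).add hM).ennreal_ofReal
  rw [← lintegral_pull hm]
  simp only [maxwellian_rotv]

namespace MildGOn

variable {G : ℝ → P2 → R3 → ℝ} {G0 : P2 → R3 → ℝ} {R TT : ℝ}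

theorem measurable_slice (h : MildGOn G G0 R TT) (t : ℝ) :
    Measurable fun q : P2 × R3 => G t q.1 q.2 :=
  h.meas.comp (measurable_const.prodMk measurable_id)




/-- **L¹ distance to the Maxwellian**, for all `t ≤ TT`. -/
theorem l1_le (h : MildGOn G G0 R TT) {t : ℝ} (ht : 0 ≤ t) (htT : t ≤ TT) {ε A : ℝ}
    (hε : 0 < ε) (hA : 1 ≤ A) (hH : relEntG G0 ≤ ENNReal.ofReal (ε ^ 2))
    (hm : ∫⁻ q in cellG ×ˢ (univ : Set R3), ENNReal.ofReal (G0 q.1 q.2) ≤ ENNReal.ofReal A) :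
    ∫⁻ q in cellG ×ˢ (univ : Set R3), ‖G t q.1 q.2 - maxwellian q.2‖ₑ ≤
      ENNReal.ofReal ((1 + A) * ε) := by
  have hH' : relEntropy (fun x v => G0 (prx x) (rotv v)) ≤ ENNReal.ofReal (ε ^ 2) := by
    rw [relEntropy_pull h.datum.meas]; exact hH
  have hm' : ∫⁻ q, ENNReal.ofReal (G0 (prx q.1) (rotv q.2)) ∂muC ≤ ENNReal.ofReal A := by
    have e2 := lintegral_pull (H := fun q => ENNReal.ofReal (G0 q.1 q.2))
      h.datum.meas.ennreal_ofReal
    rw [← e2] at hm
    exact hm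
  have h1 := (mildSolOn_of_mildGOn h).l1_le ht htT hε hA hH' hm'
  have e1 := lintegral_pull (H := fun q => ‖G t q.1 q.2 - maxwellian q.2‖ₑ)
    ((h.measurable_slice t).sub (W.measurable_maxwellian.comp measurable_snd)).enorm
  rw [← e1]
  refine le_trans (le_of_eq ?_) h1
  refine lintegral_congr fun q => ?_
  simp only [maxwellian_rotv, pull]

end MildGOn

end Crest.Agent.R68
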